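import Vale.Agent.P204.Defs

/-!
Basic objects for the tamed to compatible theorem: two-forms in coordinates as matrices,
invariant and anti-invariant parts, the wedge pairing, and positive invariant currents on open
subsets of coordinate space given by a measure and a field.
-/

namespace Vale.Agent.P204.Tame

open scoped ContDiff Matrix
open MeasureTheory

/-- Matrices of coefficients. -/
abbrev M : Type := Matrix (Fin 4) (Fin 4) ℝ

/-- The value of a two-form on a pair of vectors. -/
noncomputable def val (u : M) (a b : E) : ℝ := a ⬝ᵥ (u *ᵥ b)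

/-- The invariant part of a two-form. -/
noncomputable def pinv (J u : M) : M := (1 / 2 : ℝ) • (u + Jᵀ * u * J)

/-- The anti-invariant part of a two-form. -/
noncomputable def panti (J u : M) : M := (1 / 2 : ℝ) • (u - Jᵀ * u * J)

/-- A semipositive invariant two-form. -/
structure Psd (J u : M) : Prop where
  skew : uᵀ = -u
  inv : Jᵀ * u * J = u
  nonneg : ∀ v, 0 ≤ val u v (J *ᵥ v)

/-- The symmetric product giving the coefficient of the wedge of two two-forms. -/
def pfq (a b : M) : ℝ :=
  a 0 1 * b 2 3 - a 0 2 * b 1 3 + a 0 3 * b 1 2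
    + b 0 1 * a 2 3 - b 0 2 * a 1 3 + b 0 3 * a 1 2

/-- The inverse metric adapted to `J`. -/
def hmat (J : M) : M := 1 + J * Jᵀ

/-- The bivector dual to the Hermitian form. -/
def kmat (J : M) : M := J * hmat J

/-- The Hermitian metric. -/
noncomputable def gmat (J : M) : M := (hmat J)⁻¹

/-- The Hermitian form. -/
noncomputable def wmat (J : M) : M := Jᵀ * gmat J

/-- The trace of a two-form against the Hermitian form; nonnegative on semipositive forms. -/
noncomputable def trc (J u : M) : ℝ := -∑ i, ∑ j, kmat J i j * u i j

/-- Exterior derivative of a one-form. -/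
noncomputable def dOne (S : E → E) (x : E) : M :=
  fun i j => pd i (fun y => S y j) x - pd j (fun y => S y i) x

/-- The one-form `-J^* df`. -/
noncomputable def dc (J : E → M) (f : E → ℝ) (x : E) : E :=
  -((J x)ᵀ *ᵥ fun i => pd i f x)

/-- The two-form `d (-J^* df)`. -/
noncomputable def ddc (J : E → M) (f : E → ℝ) (x : E) : M := dOne (dc J f) x

/-- Test functions on an open set. -/
structure IsTest (V : Set E) (φ : E → ℝ) : Prop where
  smooth : ContDiff ℝ ∞ φ
  compact : HasCompactSupport φ
  supp : tsupport φ ⊆ V

/-- An almost complex structure on an open set. -/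
structure IsACS (V : Set E) (J : E → M) : Prop where
  isOpen : IsOpen V
  smooth : ∀ i j, ContDiffOn ℝ ∞ (fun x => J x i j) V
  sq : ∀ x ∈ V, J x * J x = -1

/-- A positive invariant closed current on an open set: a measure and a field of semipositive
forms of unit trace. -/
structure IsPosCurrent (V : Set E) (J : E → M) (μ : Measure E) (Θ : E → M) : Prop where
  finite : ∀ K ⊆ V, IsCompact K → μ K < ⊤
  meas : ∀ i j, Measurable fun x => Θ x i j
  psd : ∀ᵐ x ∂μ.restrict V, Psd (J x) (Θ x)
  unit : ∀ᵐ x ∂μ.restrict V, trc (J x) (Θ x) = 1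
  closed : ∀ φ, IsTest V φ → ∀ i j k,
    ∫ x, Θ x j k * pd i φ x + Θ x k i * pd j φ x + Θ x i j * pd k φ x ∂μ = 0

end Vale.Agent.P204.Tame
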