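import Vale.Agent.P204.Tame.Core

/-!
Radial test potentials for the density bound: the value of `ddc` of a radial function on the pairs
`v, J v` and the pointwise estimates.
-/

open scoped ContDiff Matrix
open Filter Topology Metric Set

namespace Vale.Agent.P204.Tame

theorem pd_dc {J : E → M} {f : E → ℝ} {x : E}
    (hJ : ∀ i j, DifferentiableAt ℝ (fun y => J y i j) x)
    (hf : ∀ k, DifferentiableAt ℝ (pd k f) x) (i j : Fin 4) :
    pd i (fun y => dc J f y j) x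
      = -∑ k, (pd i (fun y => J y k j) x * pd k f x + J x k j * pd i (pd k f) x) := by
  have h : HasFDerivAt (fun y => dc J f y j)
      (-∑ k : Fin 4, (J x k j • fderiv ℝ (pd k f) x
        + pd k f x • fderiv ℝ (fun y => J y k j) x)) x := by
    have hs : (fun y => dc J f y j) = fun y => -∑ k : Fin 4, J y k j * pd k f y := by
      funext y
      simp [dc, Matrix.mulVec, dotProduct]
    rw [hs]
    exact (HasFDerivAt.fun_sum fun k _ => (hJ k j).hasFDerivAt.mul (hf k).hasFDerivAt).neg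
  show fderiv ℝ (fun y => dc J f y j) x (e i) = _
  rw [h.fderiv]
  simp only [neg_apply, sum_apply, add_apply, smul_apply, smul_eq_mul, pd]
  congr 1
  exact Finset.sum_congr rfl fun k _ => by ring

theorem val_ddc {J : E → M} {f : E → ℝ} {x : E}
    (hJ : ∀ i j, DifferentiableAt ℝ (fun y => J y i j) x)
    (hf : ∀ k, DifferentiableAt ℝ (pd k f) x) (hx : J x * J x = -1) (v : E) :
    val (ddc J f x) v (J x *ᵥ v) = (∑ i, ∑ k, pd i (pd k f) x * v i * v k)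
      + (∑ i, ∑ k, pd i (pd k f) x * (J x *ᵥ v) i * (J x *ᵥ v) k)
      + ∑ i, ∑ j, ∑ k, pd k f x * pd i (fun y => J y k j) x
          * ((J x *ᵥ v) i * v j - v i * (J x *ᵥ v) j) := by
  set w := J x *ᵥ v with hw
  have hJw : ∀ k, ∑ j, J x k j * w j = -v k := fun k => by
    have : J x *ᵥ w = -v := by
      rw [hw, Matrix.mulVec_mulVec, hx, Matrix.neg_mulVec, Matrix.one_mulVec]
    simpa [Matrix.mulVec, dotProduct] using congrFun this k
  have hJv : ∀ k, ∑ i, J x k i * v i = w k := fun k => by simp [hw, Matrix.mulVec, dotProduct]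
  have hval : val (ddc J f x) v w
      = (∑ i, ∑ j, v i * w j * pd i (fun y => dc J f y j) x)
        - ∑ i, ∑ j, v i * w j * pd j (fun y => dc J f y i) x := by
    simp only [val, ddc, dOne, dotProduct, Matrix.mulVec, Finset.mul_sum]
    rw [← Finset.sum_sub_distrib]
    refine Finset.sum_congr rfl fun i _ => ?_
    rw [← Finset.sum_sub_distrib]
    exact Finset.sum_congr rfl fun j _ => by ring
  rw [hval]
  simp only [pd_dc hJ hf]
  have h1 : ∀ i k, pd i (pd k f) x * v i * v k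
      = -∑ j, v i * w j * (J x k j * pd i (pd k f) x) := fun i k => by
    rw [show v k = -∑ j, J x k j * w j by rw [hJw]; ring]
    rw [mul_neg, Finset.mul_sum]
    congr 1
    exact Finset.sum_congr rfl fun j _ => by ring
  have h2 : ∀ i k, pd i (pd k f) x * w i * w k
      = ∑ j, v j * w i * (J x k j * pd i (pd k f) x) := fun i k => by
    rw [← hJv k, Finset.mul_sum]
    exact Finset.sum_congr rfl fun j _ => by ring
  simp only [h1, h2, Finset.sum_add_distrib, mul_add, mul_neg, Finset.sum_neg_distrib,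
    mul_sub, Finset.sum_sub_distrib, neg_add, Fin.sum_univ_four]
  ring

/-- The quadratic function of a symmetric matrix centred at `p`, shifted by `c`. -/
noncomputable def rho (g : M) (p : E) (c : ℝ) (y : E) : ℝ := (y - p) ⬝ᵥ (g *ᵥ (y - p)) + c

theorem rho_contDiff (g : M) (p : E) (c : ℝ) {n : WithTop ℕ∞} : ContDiff ℝ n (rho g p c) := by
  have h : rho g p c = fun y : E => (∑ i, ∑ j, g i j * (y i - p i) * (y j - p j)) + c := by
    funext y
    simp only [rho, dotProduct, Matrix.mulVec, Finset.mul_sum, Pi.sub_apply]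
    congr 1
    exact Finset.sum_congr rfl fun i _ => Finset.sum_congr rfl fun j _ => by ring
  rw [h]
  fun_prop

theorem pd_rho {g : M} (hg : gᵀ = g) (p : E) (c : ℝ) (k : Fin 4) (y : E) :
    pd k (rho g p c) y = 2 * (g *ᵥ (y - p)) k := by
  have h : HasFDerivAt (rho g p c)
      (∑ i : Fin 4, ∑ j : Fin 4, ((g i j * (y i - p i)) • (ContinuousLinearMap.proj (R := ℝ) j : E →L[ℝ] ℝ)
        + (g i j * (y j - p j)) • (ContinuousLinearMap.proj (R := ℝ) i : E →L[ℝ] ℝ))) y := by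
    have h0 : rho g p c = fun y : E => (∑ i, ∑ j, g i j * (y i - p i) * (y j - p j)) + c := by
      funext y
      simp only [rho, dotProduct, Matrix.mulVec, Finset.mul_sum, Pi.sub_apply]
      congr 1
      exact Finset.sum_congr rfl fun i _ => Finset.sum_congr rfl fun j _ => by ring
    rw [h0]
    refine HasFDerivAt.add_const c (HasFDerivAt.fun_sum fun i _ => HasFDerivAt.fun_sum fun j _ => ?_)
    have hi : HasFDerivAt (fun y : E => y i - p i)
        (ContinuousLinearMap.proj (R := ℝ) i : E →L[ℝ] ℝ) y := (hasFDerivAt_apply i y).sub_const _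
    have hj : HasFDerivAt (fun y : E => y j - p j)
        (ContinuousLinearMap.proj (R := ℝ) j : E →L[ℝ] ℝ) y := (hasFDerivAt_apply j y).sub_const _
    refine ((hi.const_mul (g i j)).mul hj).congr_fderiv ?_
    rw [smul_smul, mul_comm (y j - p j)]
  have hs : ∀ i j, g j i = g i j := fun i j => congrFun (congrFun hg i) j
  show fderiv ℝ (rho g p c) y (e k) = _
  rw [h.fderiv]
  fin_cases k <;>
    simp [e, Matrix.mulVec, dotProduct, Fin.sum_univ_four, hs 0 1, hs 0 2, hs 0 3, hs 1 2, hs 1 3,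
      hs 2 3] <;> ring

theorem pd_comp {ph : ℝ → ℝ} {r : E → ℝ} {y : E} (h : DifferentiableAt ℝ ph (r y))
    (hr : DifferentiableAt ℝ r y) (k : Fin 4) :
    pd k (fun z => ph (r z)) y = deriv ph (r y) * pd k r y := by
  have := (h.hasDerivAt.comp_hasFDerivAt y hr.hasFDerivAt).fderiv
  show fderiv ℝ (ph ∘ r) y (e k) = _
  rw [this]
  simp [pd]

theorem pd_pd_comp {ph : ℝ → ℝ} {g : M} (hg : gᵀ = g) (p : E) {c : ℝ}
    (h : ContDiffOn ℝ 2 ph (Set.Ioi 0)) (hpos : ∀ z, 0 < rho g p c z) (y : E) (i k : Fin 4) :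
    pd i (pd k fun z => ph (rho g p c z)) y
      = deriv (deriv ph) (rho g p c y) * (2 * (g *ᵥ (y - p)) i) * (2 * (g *ᵥ (y - p)) k)
        + deriv ph (rho g p c y) * (2 * g i k) := by
  have hd : ∀ z, DifferentiableAt ℝ (rho g p c) z := fun z =>
    ((rho_contDiff g p c (n := 1)).differentiable one_ne_zero) z
  have e1 : pd k (fun z => ph (rho g p c z))
      = fun z => deriv ph (rho g p c z) * (2 * (g *ᵥ (z - p)) k) := by
    funext z
    rw [pd_comp ((h.differentiableOn (by norm_num)).differentiableAt (Ioi_mem_nhds (hpos z))) (hd z),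
      pd_rho hg]
  have hph : DifferentiableAt ℝ (deriv ph) (rho g p c y) :=
    (((contDiffOn_succ_iff_deriv_of_isOpen (n := 1) isOpen_Ioi).1 (by norm_num; exact h)).2.2.differentiableOn
      one_ne_zero).differentiableAt (Ioi_mem_nhds (hpos y))
  have hlin : HasFDerivAt (fun z : E => 2 * (g *ᵥ (z - p)) k)
      ((2:ℝ) • ∑ j, g k j • (ContinuousLinearMap.proj (R := ℝ) j : E →L[ℝ] ℝ)) y := by
    have h0 : (fun z : E => 2 * (g *ᵥ (z - p)) k) = fun z : E => 2 * ∑ j, g k j * (z j - p j) := by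
      funext z; simp [Matrix.mulVec, dotProduct]
    rw [h0]
    exact (HasFDerivAt.fun_sum fun j _ => ((hasFDerivAt_apply j y).sub_const _).const_mul _).const_mul 2
  have hcomp := hph.hasDerivAt.comp_hasFDerivAt y (hd y).hasFDerivAt
  have hA := (hcomp.mul hlin).fderiv
  rw [e1]
  show fderiv ℝ ((deriv ph ∘ rho g p c) * fun z => 2 * (g *ᵥ (z - p)) k) y (e i) = _
  rw [hA]
  have hs : g k i = g i k := congrFun (congrFun hg i) k
  have hr := pd_rho hg p c i y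
  unfold pd e at hr
  simp [hr, e, Pi.single_apply, hs]
  ring

theorem dot_sym {g : M} (hg : gᵀ = g) (a b : E) : a ⬝ᵥ (g *ᵥ b) = b ⬝ᵥ (g *ᵥ a) := by
  rw [Matrix.dotProduct_mulVec, ← Matrix.mulVec_transpose, hg, dotProduct_comm]

theorem dot_quad_add {g : M} (hg : gᵀ = g) (a b : E) (s t : ℝ) :
    (s • a + t • b) ⬝ᵥ (g *ᵥ (s • a + t • b))
      = s ^ 2 * (a ⬝ᵥ (g *ᵥ a)) + 2 * s * t * (a ⬝ᵥ (g *ᵥ b)) + t ^ 2 * (b ⬝ᵥ (g *ᵥ b)) := by
  simp only [Matrix.mulVec_add, Matrix.mulVec_smul, dotProduct_add, add_dotProduct, smul_dotProduct,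
    dotProduct_smul, smul_eq_mul, dot_sym hg b a]
  ring

theorem pair_sq_le {g J0 : M} (hg : gᵀ = g) (hpos : ∀ a, a ≠ 0 → 0 < a ⬝ᵥ (g *ᵥ a))
    (hJ : J0ᵀ * g * J0 = g) (h0 : J0 * J0 = -1) (y v : E) :
    (y ⬝ᵥ (g *ᵥ v)) ^ 2 + (y ⬝ᵥ (g *ᵥ (J0 *ᵥ v))) ^ 2
      ≤ (y ⬝ᵥ (g *ᵥ y)) * (v ⬝ᵥ (g *ᵥ v)) := by
  rcases eq_or_ne v 0 with rfl | hv
  · simp
  set w := J0 *ᵥ v with hw
  have hinv : ∀ a b : E, (J0 *ᵥ a) ⬝ᵥ (g *ᵥ (J0 *ᵥ b)) = a ⬝ᵥ (g *ᵥ b) := fun a b => by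
    conv_rhs => rw [← hJ]
    rw [← Matrix.mulVec_mulVec, ← Matrix.mulVec_mulVec, Matrix.dotProduct_mulVec a J0ᵀ,
      Matrix.vecMul_transpose]
  have hww : w ⬝ᵥ (g *ᵥ w) = v ⬝ᵥ (g *ᵥ v) := hinv v v
  have hJw : J0 *ᵥ w = -v := by
    rw [hw, Matrix.mulVec_mulVec, h0, Matrix.neg_mulVec, Matrix.one_mulVec]
  have hvw : v ⬝ᵥ (g *ᵥ w) = 0 := by
    have := hinv v w
    rw [← hw, hJw, Matrix.mulVec_neg, dotProduct_neg, dot_sym hg w v] at this
    linarith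
  set q := v ⬝ᵥ (g *ᵥ v) with hq
  set a := y ⬝ᵥ (g *ᵥ v)
  set b := y ⬝ᵥ (g *ᵥ w)
  have h : 0 ≤ (q • y + (1:ℝ) • ((-a) • v + (-b) • w))
      ⬝ᵥ (g *ᵥ (q • y + (1:ℝ) • ((-a) • v + (-b) • w))) := by
    rcases eq_or_ne (q • y + (1:ℝ) • ((-a) • v + (-b) • w)) 0 with h | h
    · rw [h]; simp
    · exact (hpos _ h).le
  have hyc : y ⬝ᵥ (g *ᵥ ((-a) • v + (-b) • w)) = -a * a + -b * b := by
    simp [Matrix.mulVec_add, a, b]
    rw [Matrix.mulVec_neg, Matrix.mulVec_neg, Matrix.mulVec_smul, Matrix.mulVec_smul, dotProduct_neg,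
      dotProduct_neg, dotProduct_smul, dotProduct_smul]
    simp
  rw [dot_quad_add hg, dot_quad_add hg, hyc, hvw, hww, ← hq] at h
  have hqpos : 0 < q := hpos v hv
  nlinarith

theorem inner_ineq {C A s r Q S q : ℝ} (hC : 0 < C) (hA : A = 8 * C) (hs : 0 < s)
    (hs' : s * (8 * C) ≤ 1) (hq : 0 ≤ q) (hQ : (2 - C * s) * q ≤ Q)
    (hS : S ≤ ((s ^ 2 - r ^ 2) + C * s ^ 3) * q) :
    4 * r ^ 2 / (s ^ 2) ^ 2 * q ≤ 2 * (1 / s ^ 2 + A / (2 * s)) * Q
      + 4 * (-(1 / (s ^ 2) ^ 2) - A / (4 * s ^ 3)) * S := by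
  subst hA
  have h1 : 2 * (1 / s ^ 2 + 8 * C / (2 * s)) * ((2 - C * s) * q)
      ≤ 2 * (1 / s ^ 2 + 8 * C / (2 * s)) * Q := mul_le_mul_of_nonneg_left hQ (by positivity)
  have h2 : (4 / (s ^ 2) ^ 2 + 8 * C / s ^ 3) * S
      ≤ (4 / (s ^ 2) ^ 2 + 8 * C / s ^ 3) * (((s ^ 2 - r ^ 2) + C * s ^ 3) * q) :=
    mul_le_mul_of_nonneg_left hS (by positivity)
  have h3 : 0 ≤ 8 * C * r ^ 2 / s ^ 3 * q + 2 * C / s * (1 - s * (8 * C)) * q :=
    add_nonneg (by positivity) (mul_nonneg (mul_nonneg (by positivity) (by linarith)) hq)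
  have e1 : 4 * r ^ 2 / (s ^ 2) ^ 2 * q
      + (8 * C * r ^ 2 / s ^ 3 * q + 2 * C / s * (1 - s * (8 * C)) * q)
      = 2 * (1 / s ^ 2 + 8 * C / (2 * s)) * ((2 - C * s) * q)
        - (4 / (s ^ 2) ^ 2 + 8 * C / s ^ 3) * (((s ^ 2 - r ^ 2) + C * s ^ 3) * q) := by
    field_simp
    ring
  have e2 : 4 * (-(1 / (s ^ 2) ^ 2) - 8 * C / (4 * s ^ 3)) * S
      = -((4 / (s ^ 2) ^ 2 + 8 * C / s ^ 3) * S) := by ring
  rw [e2]
  linarith

/-- The radial profile inside the cutoff. -/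
noncomputable def prof (A t : ℝ) : ℝ := Real.log t + A * Real.sqrt t

theorem deriv_prof (A : ℝ) {t : ℝ} (ht : 0 < t) :
    deriv (prof A) t = 1 / t + A / (2 * Real.sqrt t) := by
  have h : HasDerivAt (prof A) (t⁻¹ + A * (1 / (2 * Real.sqrt t))) t :=
    (Real.hasDerivAt_log ht.ne').add ((Real.hasDerivAt_sqrt ht.ne').const_mul A)
  rw [h.deriv]
  ring

theorem deriv2_prof (A : ℝ) {t : ℝ} (ht : 0 < t) :
    deriv (deriv (prof A)) t = -(1 / t ^ 2) - A / (4 * Real.sqrt t ^ 3) := by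
  have he : deriv (prof A) =ᶠ[𝓝 t] fun u => u⁻¹ + A / 2 * (Real.sqrt u)⁻¹ := by
    filter_upwards [Ioi_mem_nhds ht] with u hu
    rw [deriv_prof A hu]
    ring
  have hs : 0 < Real.sqrt t := Real.sqrt_pos.2 ht
  have h : HasDerivAt (fun u => u⁻¹ + A / 2 * (Real.sqrt u)⁻¹)
      (-(t ^ 2)⁻¹ + A / 2 * (-(1 / (2 * Real.sqrt t)) / Real.sqrt t ^ 2)) t :=
    (hasDerivAt_inv ht.ne').add (((Real.hasDerivAt_sqrt ht.ne').inv hs.ne').const_mul _)
  rw [he.deriv_eq, h.deriv]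
  field_simp
  ring

theorem val_ddc_rad {J : E → M} {g : M} {p x : E} {c : ℝ} {ph : ℝ → ℝ}
    (hJ : ∀ i j, DifferentiableAt ℝ (fun y => J y i j) x) (hg : gᵀ = g)
    (h : ContDiffOn ℝ 2 ph (Set.Ioi 0)) (hpos : ∀ z, 0 < rho g p c z)
    (hx : J x * J x = -1) (v : E) :
    val (ddc J (fun z => ph (rho g p c z)) x) v (J x *ᵥ v)
      = 2 * deriv ph (rho g p c x) * (v ⬝ᵥ (g *ᵥ v) + (J x *ᵥ v) ⬝ᵥ (g *ᵥ (J x *ᵥ v))
          + ∑ i, ∑ j, ∑ k, (g *ᵥ (x - p)) k * pd i (fun y => J y k j) x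
              * ((J x *ᵥ v) i * v j - v i * (J x *ᵥ v) j))
        + 4 * deriv (deriv ph) (rho g p c x) * (((x - p) ⬝ᵥ (g *ᵥ v)) ^ 2
          + ((x - p) ⬝ᵥ (g *ᵥ (J x *ᵥ v))) ^ 2) := by
  have hd : ∀ z, DifferentiableAt ℝ (rho g p c) z := fun z =>
    ((rho_contDiff g p c (n := 1)).differentiable one_ne_zero) z
  have e1 : ∀ k, pd k (fun z => ph (rho g p c z))
      = fun z => deriv ph (rho g p c z) * (2 * (g *ᵥ (z - p)) k) := fun k => by
    funext z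
    rw [pd_comp ((h.differentiableOn (by norm_num)).differentiableAt (Ioi_mem_nhds (hpos z))) (hd z),
      pd_rho hg]
  have hf : ∀ k, DifferentiableAt ℝ (pd k fun z => ph (rho g p c z)) x := fun k => by
    rw [e1 k]
    have h2 := (((contDiffOn_succ_iff_deriv_of_isOpen (n := 1) isOpen_Ioi).1
      (by norm_num; exact h)).2.2.differentiableOn one_ne_zero).differentiableAt
        (Ioi_mem_nhds (hpos x))
    refine (h2.comp x (hd x)).mul ?_
    simp only [Matrix.mulVec, dotProduct, Pi.sub_apply]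
    fun_prop
  rw [val_ddc hJ hf hx v]
  have hLL : ∀ a : E, (∑ i, ∑ k, pd i (pd k fun z => ph (rho g p c z)) x * a i * a k)
      = 4 * deriv (deriv ph) (rho g p c x) * ((x - p) ⬝ᵥ (g *ᵥ a)) ^ 2
        + 2 * deriv ph (rho g p c x) * (a ⬝ᵥ (g *ᵥ a)) := fun a => by
    rw [dot_sym hg (x - p) a]
    simp only [pd_pd_comp hg p h hpos, dotProduct, sq, Finset.sum_mul, Finset.mul_sum,
      ← Finset.sum_add_distrib]
    refine Finset.sum_congr rfl fun i _ => ?_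
    simp only [Matrix.mulVec, dotProduct, Fin.sum_univ_four]
    ring
  rw [hLL v, hLL (J x *ᵥ v)]
  have hE : (∑ i, ∑ j, ∑ k, pd k (fun z => ph (rho g p c z)) x * pd i (fun y => J y k j) x
      * ((J x *ᵥ v) i * v j - v i * (J x *ᵥ v) j))
      = 2 * deriv ph (rho g p c x) * ∑ i, ∑ j, ∑ k, (g *ᵥ (x - p)) k * pd i (fun y => J y k j) x
          * ((J x *ᵥ v) i * v j - v i * (J x *ᵥ v) j) := by
    simp only [e1, Finset.mul_sum]
    exact Finset.sum_congr rfl fun i _ => Finset.sum_congr rfl fun j _ =>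
      Finset.sum_congr rfl fun k _ => by ring
  rw [hE]
  ring

/-- Pointwise bounds on the coefficients at `x` and on the metric at the centre `p`. -/
structure Bd (J : E → M) (g : M) (p x : E) (B : ℝ) : Prop where
  one_le : 1 ≤ B
  sym : gᵀ = g
  gle : ∀ i j, |g i j| ≤ B
  low : ∀ a, ‖a‖ ^ 2 ≤ B * (a ⬝ᵥ (g *ᵥ a))
  inv : (J p)ᵀ * g * J p = g
  sqp : J p * J p = -1
  sq : J x * J x = -1
  jp : ∀ i j, |J p i j| ≤ B
  jx : ∀ i j, |J x i j| ≤ B
  lip : ∀ i j, |J x i j - J p i j| ≤ B * ‖x - p‖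
  dif : ∀ i j, DifferentiableAt ℝ (fun y => J y i j) x
  der : ∀ i j k, |pd i (fun y => J y j k) x| ≤ B

theorem abs_mulVec_le {u : M} {b : ℝ} (h : ∀ i j, |u i j| ≤ b) (a : E) (i : Fin 4) :
    |(u *ᵥ a) i| ≤ 4 * b * ‖a‖ := by
  have hb : 0 ≤ b := (abs_nonneg _).trans (h 0 0)
  simp only [Matrix.mulVec, dotProduct]
  refine (Finset.abs_sum_le_sum_abs _ _).trans ?_
  refine (Finset.sum_le_card_nsmul _ _ (b * ‖a‖) fun j _ => ?_).trans (le_of_eq ?_)
  · rw [abs_mul]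
    exact mul_le_mul (h i j) (norm_le_pi_norm a j) (abs_nonneg _) hb
  · simp; ring

theorem norm_mulVec_le' {u : M} {b : ℝ} (h : ∀ i j, |u i j| ≤ b) (a : E) :
    ‖u *ᵥ a‖ ≤ 4 * b * ‖a‖ := by
  have hb : 0 ≤ b := (abs_nonneg _).trans (h 0 0)
  exact (pi_norm_le_iff_of_nonneg (by positivity)).2 fun i => abs_mulVec_le h a i

theorem abs_dot_le {u : M} {b : ℝ} (h : ∀ i j, |u i j| ≤ b) (a a' : E) :
    |a ⬝ᵥ (u *ᵥ a')| ≤ 16 * b * ‖a‖ * ‖a'‖ := by
  simp only [dotProduct]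
  refine (Finset.abs_sum_le_sum_abs _ _).trans ?_
  refine (Finset.sum_le_card_nsmul _ _ (‖a‖ * (4 * b * ‖a'‖)) fun j _ => ?_).trans (le_of_eq ?_)
  · rw [abs_mul]
    exact mul_le_mul (norm_le_pi_norm a j) (abs_mulVec_le h a' j) (abs_nonneg _) (norm_nonneg _)
  · simp; ring

theorem Bd.qbounds {J : E → M} {g : M} {p x : E} {B : ℝ} (h : Bd J g p x B) (hy : ‖x - p‖ ≤ 1)
    {s r : ℝ} (hs : 0 ≤ s) (hsq : s ^ 2 = rho g p (r ^ 2) x) (v : E) :
    (2 - 12288 * B ^ 8 * s) * (v ⬝ᵥ (g *ᵥ v))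
        ≤ v ⬝ᵥ (g *ᵥ v) + (J x *ᵥ v) ⬝ᵥ (g *ᵥ (J x *ᵥ v))
          + ∑ i, ∑ j, ∑ k, (g *ᵥ (x - p)) k * pd i (fun y => J y k j) x
              * ((J x *ᵥ v) i * v j - v i * (J x *ᵥ v) j) ∧
      ((x - p) ⬝ᵥ (g *ᵥ v)) ^ 2 + ((x - p) ⬝ᵥ (g *ᵥ (J x *ᵥ v))) ^ 2
        ≤ ((s ^ 2 - r ^ 2) + 12288 * B ^ 8 * s ^ 3) * (v ⬝ᵥ (g *ᵥ v)) := by
  have hB := h.one_le
  set q := v ⬝ᵥ (g *ᵥ v) with hq
  set y := x - p with hydef
  set w := J x *ᵥ v with hwdef
  set w0 := J p *ᵥ v with hw0def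
  set d := w - w0 with hddef
  set n := ‖v‖ with hn
  have hpos : ∀ a : E, 0 ≤ a ⬝ᵥ (g *ᵥ a) := fun a => by
    nlinarith [h.low a, norm_nonneg a]
  have hpos' : ∀ a : E, a ≠ 0 → 0 < a ⬝ᵥ (g *ᵥ a) := fun a ha => by
    nlinarith [h.low a, pow_pos (norm_pos_iff.2 ha) 2]
  have hyy : y ⬝ᵥ (g *ᵥ y) = s ^ 2 - r ^ 2 := by rw [hsq, rho]; ring
  have hys : ‖y‖ ≤ B * s := by
    refine le_of_pow_le_pow_left₀ two_ne_zero (by positivity) ?_
    have h1 := h.low y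
    rw [hyy] at h1
    nlinarith [mul_nonneg (by linarith : (0:ℝ) ≤ B) (sq_nonneg r),
      mul_nonneg (mul_nonneg (by linarith : (0:ℝ) ≤ B) (by linarith : (0:ℝ) ≤ B - 1)) (sq_nonneg s)]
  have hd : ‖d‖ ≤ 4 * B * ‖y‖ * n := by
    rw [hddef, hwdef, hw0def, ← Matrix.sub_mulVec]
    refine (norm_mulVec_le' (u := J x - J p) (fun i j => h.lip i j) v).trans (le_of_eq ?_)
    rw [hydef, hn]; ring
  have hw0n : ‖w0‖ ≤ 4 * B * n := norm_mulVec_le' h.jp v
  have hwn : ‖w‖ ≤ 4 * B * n := norm_mulVec_le' h.jx v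
  have hinv : w0 ⬝ᵥ (g *ᵥ w0) = q := by
    rw [hq]
    conv_rhs => rw [← h.inv]
    rw [← Matrix.mulVec_mulVec, ← Matrix.mulVec_mulVec, Matrix.dotProduct_mulVec v (J p)ᵀ,
      Matrix.vecMul_transpose]
  have hdot : ∀ a b : E, |a ⬝ᵥ (g *ᵥ b)| ≤ 16 * B * ‖a‖ * ‖b‖ := abs_dot_le h.gle
  have hwsplit : w = w0 + d := by rw [hddef]; abel
  have hn2 : n ^ 2 ≤ B * q := h.low v
  have hB0 : (0:ℝ) ≤ B := by linarith
  have hy0 := norm_nonneg y
  have hn0 : 0 ≤ n := norm_nonneg v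
  constructor
  · have hqw : q - 512 * B ^ 3 * ‖y‖ * n ^ 2 ≤ w ⬝ᵥ (g *ᵥ w) := by
      rw [hwsplit, Matrix.mulVec_add, dotProduct_add, add_dotProduct, add_dotProduct, hinv,
        dot_sym h.sym d w0]
      have h1 : |w0 ⬝ᵥ (g *ᵥ d)| ≤ 256 * B ^ 3 * ‖y‖ * n ^ 2 := by
        refine (hdot w0 d).trans ?_
        calc 16 * B * ‖w0‖ * ‖d‖ ≤ 16 * B * (4 * B * n) * (4 * B * ‖y‖ * n) := by gcongr
          _ = _ := by ring
      linarith [(abs_le.1 h1).1, hpos d]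
    have hE : |∑ i, ∑ j, ∑ k, (g *ᵥ y) k * pd i (fun y => J y k j) x * (w i * v j - v i * w j)|
        ≤ 2048 * B ^ 3 * ‖y‖ * n ^ 2 := by
      have hb : ∀ i j k, |(g *ᵥ y) k * pd i (fun y => J y k j) x * (w i * v j - v i * w j)|
          ≤ 32 * B ^ 3 * ‖y‖ * n ^ 2 := fun i j k => by
        rw [abs_mul, abs_mul]
        have h1 : |w i * v j - v i * w j| ≤ 8 * B * n ^ 2 := by
          refine (abs_sub _ _).trans ?_
          rw [abs_mul, abs_mul]
          have a1 : |w i| ≤ 4 * B * n := (norm_le_pi_norm w i).trans hwn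
          have a2 : |w j| ≤ 4 * B * n := (norm_le_pi_norm w j).trans hwn
          have b1 : |v i| ≤ n := norm_le_pi_norm v i
          have b2 : |v j| ≤ n := norm_le_pi_norm v j
          calc |w i| * |v j| + |v i| * |w j| ≤ 4 * B * n * n + n * (4 * B * n) := by gcongr
            _ = _ := by ring
        calc |(g *ᵥ y) k| * |pd i (fun y => J y k j) x| * |w i * v j - v i * w j|
            ≤ 4 * B * ‖y‖ * B * (8 * B * n ^ 2) := by
              gcongr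
              · exact abs_mulVec_le h.gle y k
              · exact h.der i k j
          _ = _ := by ring
      refine (Finset.abs_sum_le_sum_abs _ _).trans ?_
      refine (Finset.sum_le_card_nsmul _ _ _ fun i _ => ((Finset.abs_sum_le_sum_abs _ _).trans
        (Finset.sum_le_card_nsmul _ _ _ fun j _ => (Finset.abs_sum_le_sum_abs _ _).trans
          (Finset.sum_le_card_nsmul _ _ _ fun k _ => hb i j k)))).trans (le_of_eq ?_)
      simp; ring
    have hk : 2560 * B ^ 3 * ‖y‖ * n ^ 2 ≤ 12288 * B ^ 8 * s * q :=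
      calc 2560 * B ^ 3 * ‖y‖ * n ^ 2 ≤ 2560 * B ^ 3 * (B * s) * (B * q) := by gcongr
        _ = 2560 * B ^ 5 * (s * q) := by ring
        _ ≤ 12288 * B ^ 8 * (s * q) := mul_le_mul_of_nonneg_right
            (mul_le_mul (by norm_num) (pow_le_pow_right₀ hB (by norm_num)) (by positivity)
              (by norm_num)) (mul_nonneg hs (hpos v))
        _ = _ := by ring
    linarith [(abs_le.1 hE).1]
  · have hp := pair_sq_le h.sym hpos' h.inv h.sqp y v
    rw [hyy, ← hw0def, ← hq] at hp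
    have h1 : |y ⬝ᵥ (g *ᵥ w0)| ≤ 64 * B ^ 2 * ‖y‖ * n := by
      refine (hdot y w0).trans ?_
      calc 16 * B * ‖y‖ * ‖w0‖ ≤ 16 * B * ‖y‖ * (4 * B * n) := by gcongr
        _ = _ := by ring
    have h2 : |y ⬝ᵥ (g *ᵥ d)| ≤ 64 * B ^ 2 * ‖y‖ ^ 2 * n := by
      refine (hdot y d).trans ?_
      calc 16 * B * ‖y‖ * ‖d‖ ≤ 16 * B * ‖y‖ * (4 * B * ‖y‖ * n) := by gcongr
        _ = _ := by ring
    have h3 : (y ⬝ᵥ (g *ᵥ w)) ^ 2
        ≤ (y ⬝ᵥ (g *ᵥ w0)) ^ 2 + 12288 * B ^ 4 * ‖y‖ ^ 3 * n ^ 2 := by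
      rw [hwsplit, Matrix.mulVec_add, dotProduct_add]
      have h12 : |y ⬝ᵥ (g *ᵥ w0)| * |y ⬝ᵥ (g *ᵥ d)|
          ≤ 64 * B ^ 2 * ‖y‖ * n * (64 * B ^ 2 * ‖y‖ ^ 2 * n) :=
        mul_le_mul h1 h2 (abs_nonneg _) (by positivity)
      have h22 : (y ⬝ᵥ (g *ᵥ d)) ^ 2 ≤ (64 * B ^ 2 * ‖y‖ ^ 2 * n) ^ 2 := by
        rw [← sq_abs]
        exact pow_le_pow_left₀ (abs_nonneg _) h2 2
      have h4 : ‖y‖ ^ 4 ≤ ‖y‖ ^ 3 := pow_le_pow_of_le_one hy0 hy (by norm_num)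
      have h5 : 4096 * B ^ 4 * n ^ 2 * ‖y‖ ^ 4 ≤ 4096 * B ^ 4 * n ^ 2 * ‖y‖ ^ 3 :=
        mul_le_mul_of_nonneg_left h4 (by positivity)
      rw [← abs_mul] at h12
      nlinarith [le_abs_self ((y ⬝ᵥ (g *ᵥ w0)) * (y ⬝ᵥ (g *ᵥ d)))]
    have hk : 12288 * B ^ 4 * ‖y‖ ^ 3 * n ^ 2 ≤ 12288 * B ^ 8 * s ^ 3 * q :=
      calc 12288 * B ^ 4 * ‖y‖ ^ 3 * n ^ 2 ≤ 12288 * B ^ 4 * (B * s) ^ 3 * (B * q) := by gcongr
        _ = _ := by ring
    linarith

theorem abs_outer {J : E → M} {g : M} {p x : E} {B : ℝ} (h : Bd J g p x B) (hy : ‖x - p‖ ≤ 1)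
    (v : E) (d1 d2 : ℝ) {D : ℝ} (h1 : |d1| ≤ D) (h2 : |d2| ≤ D) :
    |2 * d1 * (v ⬝ᵥ (g *ᵥ v) + (J x *ᵥ v) ⬝ᵥ (g *ᵥ (J x *ᵥ v))
        + ∑ i, ∑ j, ∑ k, (g *ᵥ (x - p)) k * pd i (fun y => J y k j) x
            * ((J x *ᵥ v) i * v j - v i * (J x *ᵥ v) j))
      + 4 * d2 * (((x - p) ⬝ᵥ (g *ᵥ v)) ^ 2 + ((x - p) ⬝ᵥ (g *ᵥ (J x *ᵥ v))) ^ 2)|
      ≤ 22208 * D * B ^ 4 * ‖v‖ ^ 2 := by
  have hB := h.one_le
  have hB0 : (0:ℝ) ≤ B := by linarith
  have hD0 : 0 ≤ D := (abs_nonneg _).trans h1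
  set y := x - p
  set w := J x *ᵥ v
  have hwn : ‖w‖ ≤ 4 * B * ‖v‖ := norm_mulVec_le' h.jx v
  have hdot : ∀ a b : E, |a ⬝ᵥ (g *ᵥ b)| ≤ 16 * B * ‖a‖ * ‖b‖ := abs_dot_le h.gle
  have hy0 := norm_nonneg y
  have hn0 := norm_nonneg v
  have a1 : |v ⬝ᵥ (g *ᵥ v)| ≤ 16 * B ^ 3 * ‖v‖ ^ 2 := by
    refine (hdot v v).trans ?_
    calc 16 * B * ‖v‖ * ‖v‖ = 16 * B * ‖v‖ ^ 2 := by ring
      _ ≤ _ := by gcongr; exact le_self_pow₀ hB (by norm_num)
  have a2 : |w ⬝ᵥ (g *ᵥ w)| ≤ 256 * B ^ 3 * ‖v‖ ^ 2 := by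
    refine (hdot w w).trans ?_
    calc 16 * B * ‖w‖ * ‖w‖ ≤ 16 * B * (4 * B * ‖v‖) * (4 * B * ‖v‖) := by gcongr
      _ = _ := by ring
  have a3 : |∑ i, ∑ j, ∑ k, (g *ᵥ y) k * pd i (fun y => J y k j) x * (w i * v j - v i * w j)|
      ≤ 2048 * B ^ 3 * ‖v‖ ^ 2 := by
    have hb : ∀ i j k, |(g *ᵥ y) k * pd i (fun y => J y k j) x * (w i * v j - v i * w j)|
        ≤ 32 * B ^ 3 * ‖v‖ ^ 2 := fun i j k => by
      rw [abs_mul, abs_mul]
      have h1 : |w i * v j - v i * w j| ≤ 8 * B * ‖v‖ ^ 2 := by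
        refine (abs_sub _ _).trans ?_
        rw [abs_mul, abs_mul]
        have a1 : |w i| ≤ 4 * B * ‖v‖ := (norm_le_pi_norm w i).trans hwn
        have a2 : |w j| ≤ 4 * B * ‖v‖ := (norm_le_pi_norm w j).trans hwn
        have b1 : |v i| ≤ ‖v‖ := norm_le_pi_norm v i
        have b2 : |v j| ≤ ‖v‖ := norm_le_pi_norm v j
        calc |w i| * |v j| + |v i| * |w j| ≤ 4 * B * ‖v‖ * ‖v‖ + ‖v‖ * (4 * B * ‖v‖) := by gcongr
          _ = _ := by ring
      calc |(g *ᵥ y) k| * |pd i (fun y => J y k j) x| * |w i * v j - v i * w j|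
          ≤ 4 * B * 1 * B * (8 * B * ‖v‖ ^ 2) := by
            gcongr
            · exact (abs_mulVec_le h.gle y k).trans
                (mul_le_mul_of_nonneg_left hy (by positivity))
            · exact h.der i k j
        _ = _ := by ring
    refine (Finset.abs_sum_le_sum_abs _ _).trans ?_
    refine (Finset.sum_le_card_nsmul _ _ _ fun i _ => ((Finset.abs_sum_le_sum_abs _ _).trans
      (Finset.sum_le_card_nsmul _ _ _ fun j _ => (Finset.abs_sum_le_sum_abs _ _).trans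
        (Finset.sum_le_card_nsmul _ _ _ fun k _ => hb i j k)))).trans (le_of_eq ?_)
    simp; ring
  have b1 : |y ⬝ᵥ (g *ᵥ v)| ≤ 16 * B ^ 2 * ‖v‖ := by
    refine (hdot y v).trans ?_
    calc 16 * B * ‖y‖ * ‖v‖ ≤ 16 * B * 1 * ‖v‖ := by gcongr
      _ ≤ _ := by rw [mul_one]; gcongr; exact le_self_pow₀ hB (by norm_num)
  have b2 : |y ⬝ᵥ (g *ᵥ w)| ≤ 64 * B ^ 2 * ‖v‖ := by
    refine (hdot y w).trans ?_
    calc 16 * B * ‖y‖ * ‖w‖ ≤ 16 * B * 1 * (4 * B * ‖v‖) := by gcongr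
      _ = _ := by ring
  refine (abs_add_le _ _).trans ?_
  rw [abs_mul, abs_mul (4 * d2), abs_mul, abs_mul (4:ℝ),
    abs_of_nonneg (by norm_num : (0:ℝ) ≤ 2), abs_of_nonneg (by norm_num : (0:ℝ) ≤ 4),
    abs_of_nonneg (by positivity : (0:ℝ) ≤ (y ⬝ᵥ (g *ᵥ v)) ^ 2 + (y ⬝ᵥ (g *ᵥ w)) ^ 2),
    ← sq_abs (y ⬝ᵥ (g *ᵥ v)), ← sq_abs (y ⬝ᵥ (g *ᵥ w))]
  calc 2 * |d1| * |_| + 4 * |d2| * (|y ⬝ᵥ (g *ᵥ v)| ^ 2 + |y ⬝ᵥ (g *ᵥ w)| ^ 2)
      ≤ 2 * D * (2320 * B ^ 3 * ‖v‖ ^ 2)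
        + 4 * D * ((16 * B ^ 2 * ‖v‖) ^ 2 + (64 * B ^ 2 * ‖v‖) ^ 2) := by
        gcongr
        exact ((abs_add_three _ _ _).trans (by linarith))
    _ ≤ _ := by
        have : B ^ 3 ≤ B ^ 4 := pow_le_pow_right₀ hB (by norm_num)
        nlinarith [mul_le_mul_of_nonneg_left this (mul_nonneg hD0 (sq_nonneg ‖v‖)),
          mul_nonneg (mul_nonneg hD0 (sq_nonneg ‖v‖)) (pow_nonneg hB0 4)]

theorem posDef_hmat (J : M) : (hmat J).PosDef := by
  refine Matrix.PosDef.of_dotProduct_mulVec_pos ?_ fun x hx => ?_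
  · simp [Matrix.IsHermitian, hmat, Matrix.conjTranspose_eq_transpose_of_trivial]
  · simp only [star_trivial, hmat, Matrix.add_mulVec, Matrix.one_mulVec, dotProduct_add,
      ← Matrix.mulVec_mulVec]
    rw [Matrix.dotProduct_mulVec x J, ← Matrix.mulVec_transpose]
    have h1 : 0 ≤ (Jᵀ *ᵥ x) ⬝ᵥ (Jᵀ *ᵥ x) :=
      Finset.sum_nonneg fun i _ => mul_self_nonneg _
    have h2 : 0 < x ⬝ᵥ x := by
      refine lt_of_le_of_ne (Finset.sum_nonneg fun i _ => mul_self_nonneg _) fun h => hx ?_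
      exact dotProduct_self_eq_zero.1 h.symm
    linarith

theorem posDef_gmat (J : M) : (gmat J).PosDef := (posDef_hmat J).inv

theorem transpose_gmat (J : M) : (gmat J)ᵀ = gmat J := by
  simp [gmat, Matrix.transpose_nonsing_inv, hmat]

theorem gmat_congr {J : M} (h : J * J = -1) : Jᵀ * gmat J * J = gmat J := by
  have hH : J * hmat J * Jᵀ = hmat J := by
    unfold hmat
    rw [Matrix.mul_add, Matrix.add_mul, Matrix.mul_one, ← Matrix.mul_assoc J J, h,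
      Matrix.neg_mul, Matrix.one_mul, Matrix.neg_mul, ← Matrix.transpose_mul, h]
    simp [add_comm]
  have hJi : J⁻¹ = -J := Matrix.inv_eq_right_inv (by rw [Matrix.mul_neg, h, neg_neg])
  have hJti : (Jᵀ)⁻¹ = -Jᵀ := by rw [← Matrix.transpose_nonsing_inv, hJi, Matrix.transpose_neg]
  unfold gmat
  conv_rhs => rw [← hH, Matrix.mul_inv_rev, Matrix.mul_inv_rev, hJi, hJti]
  simp [Matrix.mul_assoc]

theorem continuous_gmat : Continuous gmat := by
  unfold gmat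
  refine continuous_iff_continuousAt.2 fun J => ?_
  have hc : ContinuousAt hmat J := by unfold hmat; fun_prop
  exact (continuousAt_matrix_inv _ (NormedRing.inverse_continuousAt
    (IsUnit.unit (Ne.isUnit (posDef_hmat J).det_pos.ne')))).comp hc

theorem IsACS.continuousOn {V : Set E} {J : E → M} (hJ : IsACS V J) : ContinuousOn J V :=
  continuousOn_pi.2 fun i => continuousOn_pi.2 fun j => (hJ.smooth i j).continuousOn

theorem exists_pos_bound {K : Set E} (hK : IsCompact K) {f : E → ℝ} (hf : ContinuousOn f K) :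
    ∃ B : ℝ, ∀ x ∈ K, |f x| ≤ B := by
  obtain ⟨B, hB⟩ := hK.bddAbove_image hf.abs
  exact ⟨B, fun x hx => hB ⟨x, hx, rfl⟩⟩

theorem exists_bd {V : Set E} {J : E → M} (hJ : IsACS V J) {K : Set E} (hKV : K ⊆ V)
    (hK : IsCompact K) :
    ∃ R > 0, ∃ B : ℝ, 1 ≤ B ∧ ∀ p ∈ K, closedBall p R ⊆ V ∧
      ∀ x ∈ closedBall p R, Bd J (gmat (J p)) p x B := by
  obtain ⟨R, hR, hRV⟩ := hK.exists_cthickening_subset_open hJ.isOpen hKV
  set K' := cthickening R K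
  have hK' : IsCompact K' := hK.cthickening
  have hball : ∀ p ∈ K, closedBall p R ⊆ K' := fun p hp =>
    closedBall_subset_cthickening hp R
  have hKK' : K ⊆ K' := self_subset_cthickening K
  obtain ⟨B1, hB1⟩ := exists_pos_bound hK' (f := fun x => ∑ i, ∑ j, |J x i j|)
    (continuousOn_finsetSum _ fun i _ => continuousOn_finsetSum _ fun j _ =>
      ((hJ.smooth i j).continuousOn.mono hRV).abs)
  obtain ⟨B2, hB2⟩ := exists_pos_bound hK'
    (f := fun x => ∑ i, ∑ j, ‖fderiv ℝ (fun y => J y i j) x‖)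
    (continuousOn_finsetSum _ fun i _ => continuousOn_finsetSum _ fun j _ =>
      (((hJ.smooth i j).continuousOn_fderiv_of_isOpen hJ.isOpen (by simp)).mono hRV).norm)
  have hG : ContinuousOn (fun x => gmat (J x)) K :=
    continuous_gmat.comp_continuousOn (hJ.continuousOn.mono hKV)
  obtain ⟨B3, hB3⟩ := exists_pos_bound hK (f := fun x => ∑ i, ∑ j, |gmat (J x) i j|)
    (continuousOn_finsetSum _ fun i _ => continuousOn_finsetSum _ fun j _ =>
      ((continuous_apply_apply i j).comp_continuousOn hG).abs)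
  obtain ⟨B4, hB4⟩ : ∃ B4 : ℝ, ∀ p ∈ K, ∀ a : E, ‖a‖ ^ 2 ≤ B4 * (a ⬝ᵥ (gmat (J p) *ᵥ a)) := by
    have hpos : ∀ (p a : E), a ≠ 0 → 0 < a ⬝ᵥ (gmat (J p) *ᵥ a) := fun p a ha => by
      simpa using (posDef_gmat (J p)).dotProduct_mulVec_pos ha
    have hc : ContinuousOn (fun z : E × E => (z.2 ⬝ᵥ (gmat (J z.1) *ᵥ z.2))⁻¹)
        (K ×ˢ sphere (0 : E) 1) := by
      refine ContinuousOn.inv₀ ?_ fun z hz => (hpos z.1 z.2 ?_).ne'
      · have hG' : ContinuousOn (fun z : E × E => gmat (J z.1)) (K ×ˢ sphere (0 : E) 1) :=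
          hG.comp continuousOn_fst fun z hz => hz.1
        simp only [dotProduct, Matrix.mulVec]
        exact continuousOn_finsetSum _ fun i _ => (by fun_prop : ContinuousOn _ _).mul
          (continuousOn_finsetSum _ fun j _ =>
            ((continuous_apply_apply i j).comp_continuousOn hG').mul (by fun_prop))
      · intro h
        simp [h] at hz
    obtain ⟨B, hB⟩ := (hK.prod (isCompact_sphere 0 1)).bddAbove_image hc
    refine ⟨B, fun p hp a => ?_⟩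
    rcases eq_or_ne a 0 with rfl | ha
    · simp
    have hn : 0 < ‖a‖ := norm_pos_iff.2 ha
    have hb : (((‖a‖⁻¹ • a) ⬝ᵥ (gmat (J p) *ᵥ (‖a‖⁻¹ • a))))⁻¹ ≤ B :=
      hB ⟨(p, ‖a‖⁻¹ • a), ⟨hp, by simp [norm_smul, hn.ne']⟩, rfl⟩
    rw [Matrix.mulVec_smul, dotProduct_smul, smul_dotProduct, smul_eq_mul, smul_eq_mul] at hb
    have hq := hpos p a ha
    calc ‖a‖ ^ 2 = (‖a‖⁻¹ * (‖a‖⁻¹ * (a ⬝ᵥ (gmat (J p) *ᵥ a))))⁻¹
          * (a ⬝ᵥ (gmat (J p) *ᵥ a)) := by field_simp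
      _ ≤ B * (a ⬝ᵥ (gmat (J p) *ᵥ a)) := mul_le_mul_of_nonneg_right hb hq.le
  set B := max 1 (max (max |B1| |B2|) (max |B3| |B4|)) with hBdef
  have hB1' : |B1| ≤ B := by simp [hBdef]
  have hB2' : |B2| ≤ B := by simp [hBdef]
  have hB3' : |B3| ≤ B := by simp [hBdef]
  have hB4' : |B4| ≤ B := by simp [hBdef]
  have hJe : ∀ x ∈ K', ∀ i j, |J x i j| ≤ B := fun x hx i j => by
    refine le_trans ?_ ((le_abs_self _).trans hB1')
    refine le_trans ?_ ((le_abs_self _).trans (hB1 x hx))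
    exact (Finset.single_le_sum (f := fun j => |J x i j|) (fun j _ => abs_nonneg _)
      (Finset.mem_univ j)).trans (Finset.single_le_sum (f := fun i => ∑ j, |J x i j|)
      (fun i _ => Finset.sum_nonneg fun j _ => abs_nonneg _) (Finset.mem_univ i))
  have hde : ∀ x ∈ K', ∀ i j, ‖fderiv ℝ (fun y => J y i j) x‖ ≤ B := fun x hx i j => by
    refine le_trans ?_ ((le_abs_self _).trans hB2')
    refine le_trans ?_ ((le_abs_self _).trans (hB2 x hx))
    exact (Finset.single_le_sum (f := fun j => ‖fderiv ℝ (fun y => J y i j) x‖)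
      (fun j _ => norm_nonneg _)
      (Finset.mem_univ j)).trans (Finset.single_le_sum
      (f := fun i => ∑ j, ‖fderiv ℝ (fun y => J y i j) x‖)
      (fun i _ => Finset.sum_nonneg fun j _ => norm_nonneg _) (Finset.mem_univ i))
  have hdiff : ∀ x ∈ K', ∀ i j, DifferentiableAt ℝ (fun y => J y i j) x := fun x hx i j =>
    ((hJ.smooth i j).differentiableOn (by simp)).differentiableAt (hJ.isOpen.mem_nhds (hRV hx))
  refine ⟨R, hR, B, le_max_left _ _, fun p hp => ⟨(hball p hp).trans hRV, fun x hx =>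
    { one_le := le_max_left _ _
      sym := transpose_gmat _
      gle := fun i j => ?_
      low := fun a => ?_
      inv := gmat_congr (hJ.sq p (hKV hp))
      sqp := hJ.sq p (hKV hp)
      sq := hJ.sq x (hRV (hball p hp hx))
      jp := hJe p (hKK' hp)
      jx := hJe x (hball p hp hx)
      lip := fun i j => ?_
      dif := hdiff x (hball p hp hx)
      der := fun i j k => ?_ }⟩⟩
  · refine le_trans ?_ ((le_abs_self _).trans hB3')
    refine le_trans ?_ ((le_abs_self _).trans (hB3 p hp))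
    exact (Finset.single_le_sum (f := fun j => |gmat (J p) i j|) (fun j _ => abs_nonneg _)
      (Finset.mem_univ j)).trans (Finset.single_le_sum (f := fun i => ∑ j, |gmat (J p) i j|)
      (fun i _ => Finset.sum_nonneg fun j _ => abs_nonneg _) (Finset.mem_univ i))
  · refine (hB4 p hp a).trans (mul_le_mul_of_nonneg_right ((le_abs_self _).trans hB4') ?_)
    exact (posDef_gmat (J p)).posSemidef.dotProduct_mulVec_nonneg a
  · have := (convex_closedBall p R).norm_image_sub_le_of_norm_fderiv_le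
      (f := fun y => J y i j) (fun z hz => hdiff z (hball p hp hz) i j)
      (fun z hz => hde z (hball p hp hz) i j) (mem_closedBall_self hR.le) hx
    simpa using this
  · refine ((fderiv ℝ (fun y => J y j k) x).le_opNorm _).trans ?_
    refine (mul_le_of_le_one_right (norm_nonneg _) ?_).trans (hde x (hball p hp hx) j k)
    exact (pi_norm_le_iff_of_nonneg zero_le_one).2 fun l => by
      by_cases h : l = i <;> simp [e, h]

end Vale.Agent.P204.Tame
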