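import Vale.Agent.P204.Tame.DensityCalc

/-!
The cut off logarithmic test potentials and their lower bounds, uniform in the centre.
-/

open scoped ContDiff Matrix
open Filter Topology Metric Set

namespace Vale.Agent.P204.Tame

/-- The cutoff potential profile. -/
noncomputable def cutProf (A τ t : ℝ) : ℝ := Real.smoothTransition (3 - t / τ) * prof A t

theorem cutProf_contDiffOn (A τ : ℝ) : ContDiffOn ℝ ∞ (cutProf A τ) (Ioi 0) := by
  refine ContDiffOn.mul ?_ (ContDiffOn.add ?_ ?_)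
  · exact (Real.smoothTransition.contDiff.comp (by fun_prop)).contDiffOn
  · exact Real.contDiffOn_log.mono fun t ht => ne_of_gt (mem_Ioi.1 ht)
  · exact fun t ht => (((Real.contDiffAt_sqrt (ne_of_gt (mem_Ioi.1 ht)))).const_smul A).contDiffWithinAt

theorem cutProf_eq {A τ t : ℝ} (hτ : 0 < τ) (ht : t < 2 * τ) : cutProf A τ =ᶠ[𝓝 t] prof A := by
  filter_upwards [Iio_mem_nhds ht] with u hu
  rw [cutProf, Real.smoothTransition.one_of_one_le, one_mul]
  rw [le_sub_iff_add_le, ← le_sub_iff_add_le', div_le_iff₀ hτ]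
  linarith [mem_Iio.1 hu]

theorem cutProf_zero {A τ t : ℝ} (hτ : 0 < τ) (ht : 3 * τ ≤ t) : cutProf A τ t = 0 := by
  rw [cutProf, Real.smoothTransition.zero_of_nonpos, zero_mul]
  rw [sub_nonpos, le_div_iff₀ hτ]
  linarith

theorem cutProf_eq_zero {A τ t : ℝ} (hτ : 0 < τ) (ht : 3 * τ < t) :
    cutProf A τ =ᶠ[𝓝 t] fun _ => 0 := by
  filter_upwards [Ioi_mem_nhds ht] with u hu
  exact cutProf_zero hτ (le_of_lt hu)

/-- The potential centred at `p`. -/
noncomputable def pot (J : E → M) (A τ B : ℝ) (p : E) (r : ℝ) (x : E) : ℝ :=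
  cutProf A τ (rho (gmat (J p)) p (r ^ 2 / (4 * B)) x)

theorem gmat_dot_nonneg (J : M) (a : E) : 0 ≤ a ⬝ᵥ (gmat J *ᵥ a) := by
  simpa using (posDef_gmat J).posSemidef.dotProduct_mulVec_nonneg a

theorem rho_pos {J : E → M} {p : E} {σ : ℝ} (hσ : 0 < σ) (z : E) :
    0 < rho (gmat (J p)) p σ z := add_pos_of_nonneg_of_pos (gmat_dot_nonneg _ _) hσ

theorem pot_spec {V : Set E} {J : E → M} (hJ : IsACS V J) {K : Set E} (hKV : K ⊆ V)
    (hK : IsCompact K) :
    ∃ R > 0, ∃ B : ℝ, 1 ≤ B ∧ ∃ A τ : ℝ, 0 < τ ∧ ∃ c > 0, c ≤ 1 ∧ ∃ C : ℝ, 0 ≤ C ∧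
      ∀ p ∈ K, closedBall p R ⊆ V ∧ (∀ x ∈ closedBall p R, Bd J (gmat (J p)) p x B) ∧
      ∀ r ∈ Ioc (0 : ℝ) R,
        IsTest V (pot J A τ B p r) ∧ tsupport (pot J A τ B p r) ⊆ closedBall p R ∧
        (∀ x ∈ closedBall p (c * R), ∀ v,
          c * r ^ 2 / (‖x - p‖ ^ 2 + r ^ 2) ^ 2 * (v ⬝ᵥ v)
            ≤ val (ddc J (pot J A τ B p r) x) v (J x *ᵥ v)) ∧
        ∀ x ∈ V, ∀ v, -C * (v ⬝ᵥ v) ≤ val (ddc J (pot J A τ B p r) x) v (J x *ᵥ v) := by
  obtain ⟨R0, hR0, B, hB, hbd⟩ := exists_bd hJ hKV hK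
  have hB0 : 0 < B := by linarith
  set Cc := 12288 * B ^ 8 with hCc
  have hCc0 : 0 < Cc := by positivity
  set R := min (min R0 1) (1 / (8 * Cc)) with hRdef
  have hR : 0 < R := lt_min (lt_min hR0 one_pos) (by positivity)
  have hR0' : R ≤ R0 := (min_le_left _ _).trans (min_le_left _ _)
  have hR1 : R ≤ 1 := (min_le_left _ _).trans (min_le_right _ _)
  have hR8 : R * (8 * Cc) ≤ 1 := by
    calc R * (8 * Cc) ≤ 1 / (8 * Cc) * (8 * Cc) :=
          mul_le_mul_of_nonneg_right (min_le_right _ _) (by positivity)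
      _ = 1 := by field_simp
  set A := 8 * Cc with hA
  set τ := R ^ 2 / (4 * B) with hτdef
  have hτ : 0 < τ := by positivity
  have hcd := (cutProf_contDiffOn A τ)
  have hd1 : ContDiffOn ℝ ∞ (deriv (cutProf A τ)) (Ioi 0) :=
    ((contDiffOn_infty_iff_deriv_of_isOpen isOpen_Ioi).1 hcd).2
  have hd2 : ContDiffOn ℝ ∞ (deriv (deriv (cutProf A τ))) (Ioi 0) :=
    ((contDiffOn_infty_iff_deriv_of_isOpen isOpen_Ioi).1 hd1).2
  have hIcc : Icc (2 * τ) (3 * τ) ⊆ Ioi (0:ℝ) := fun t ht =>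
    mem_Ioi.2 (lt_of_lt_of_le (by positivity) ht.1)
  obtain ⟨D1, hD1⟩ := isCompact_Icc.bddAbove_image (hd1.continuousOn.mono hIcc).abs
  obtain ⟨D2, hD2⟩ := isCompact_Icc.bddAbove_image (hd2.continuousOn.mono hIcc).abs
  set D := max |D1| |D2| with hD
  refine ⟨R, hR, B, hB, A, τ, hτ, 1 / (1024 * B ^ 4), by positivity, ?_, 22208 * D * B ^ 4,
    by positivity, fun p hp => ?_⟩
  · rw [div_le_one (by positivity)]
    nlinarith [one_le_pow₀ hB (n := 4)]
  obtain ⟨hV0, hbd⟩ := hbd p hp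
  have hV : closedBall p R ⊆ V := (closedBall_subset_closedBall hR0').trans hV0
  refine ⟨hV, fun x hx => hbd x (closedBall_subset_closedBall hR0' hx), fun r hr => ?_⟩
  set g := gmat (J p) with hg
  set σ := r ^ 2 / (4 * B) with hσdef
  have hσ : 0 < σ := by have := hr.1; positivity
  have hστ : σ ≤ τ := div_le_div_of_nonneg_right (pow_le_pow_left₀ hr.1.le hr.2 2) (by positivity)
  have hlow := (hbd p (mem_closedBall_self hR0.le)).low
  have hpos : ∀ z, 0 < rho g p σ z := rho_pos hσ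
  have hnear : ∀ x, rho g p σ x ≤ 3 * τ → x ∈ closedBall p R := fun x hx => by
    rw [mem_closedBall, dist_eq_norm]
    refine le_of_pow_le_pow_left₀ two_ne_zero hR.le ?_
    have h1 := hlow (x - p)
    have h2 : (x - p) ⬝ᵥ (g *ᵥ (x - p)) ≤ 3 * τ := by rw [rho] at hx; linarith
    calc ‖x - p‖ ^ 2 ≤ B * (3 * τ) := h1.trans (mul_le_mul_of_nonneg_left h2 hB0.le)
      _ ≤ R ^ 2 := by rw [hτdef]; field_simp; nlinarith [sq_nonneg R]
  have hsupp : tsupport (pot J A τ B p r) ⊆ closedBall p R := by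
    refine closure_minimal (fun x hx => ?_) isClosed_closedBall
    by_contra h
    exact hx (cutProf_zero hτ (le_of_not_ge fun h' => h (hnear x h')))
  have hinner : ∀ x ∈ closedBall p R, rho g p σ x < 2 * τ → ∀ v,
      4 * σ / rho g p σ x ^ 2 * (v ⬝ᵥ (g *ᵥ v))
        ≤ val (ddc J (pot J A τ B p r) x) v (J x *ᵥ v) := by
    intro x hx ht v
    have hb := hbd x (closedBall_subset_closedBall hR0' hx)
    set t := rho g p σ x with htdef
    have ht0 : 0 < t := hpos x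
    set s := Real.sqrt t with hsdef
    have hs : 0 < s := Real.sqrt_pos.2 ht0
    have hsq : s ^ 2 = t := Real.sq_sqrt ht0.le
    have hsR : s ≤ R := by
      refine le_of_pow_le_pow_left₀ two_ne_zero hR.le ?_
      rw [hsq]
      refine ht.le.trans ?_
      rw [hτdef]; field_simp; nlinarith [sq_nonneg R]
    have hy : ‖x - p‖ ≤ 1 := by
      rw [← dist_eq_norm]; exact (mem_closedBall.1 hx).trans hR1
    have hσ' : (Real.sqrt σ) ^ 2 = σ := Real.sq_sqrt hσ.le
    obtain ⟨hQ, hS⟩ := hb.qbounds hy hs.le (r := Real.sqrt σ) (by rw [hσ', hsq]) v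
    have hq : 0 ≤ v ⬝ᵥ (g *ᵥ v) := gmat_dot_nonneg _ _
    have key := inner_ineq (A := A) hCc0 rfl hs
      ((mul_le_mul_of_nonneg_right hsR (by positivity)).trans hR8) hq hQ hS
    have hval := val_ddc_rad hb.dif hb.sym (hcd.of_le (by norm_cast)) hpos hb.sq v
    have he1 : deriv (cutProf A τ) t = 1 / s ^ 2 + A / (2 * s) := by
      rw [(cutProf_eq hτ ht).deriv_eq, deriv_prof A ht0, hsq]
    have he2 : deriv (deriv (cutProf A τ)) t = -(1 / (s ^ 2) ^ 2) - A / (4 * s ^ 3) := by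
      rw [(cutProf_eq hτ ht).deriv.deriv_eq, deriv2_prof A ht0, hsq]
    rw [← htdef, he1, he2] at hval
    rw [hσ'] at key
    show _ ≤ val (ddc J (fun z => cutProf A τ (rho g p σ z)) x) v (J x *ᵥ v)
    rw [hval, ← hsq]
    exact key
  have htest : IsTest V (pot J A τ B p r) := by
    refine ⟨?_, ?_, hsupp.trans hV⟩
    · exact (hcd.comp_contDiff (rho_contDiff g p σ) fun z => hpos z)
    · exact (isCompact_closedBall p R).of_isClosed_subset (isClosed_tsupport _) hsupp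
  have hvv : ∀ v : E, ‖v‖ ^ 2 ≤ v ⬝ᵥ v ∧ v ⬝ᵥ v ≤ 4 * ‖v‖ ^ 2 := fun v => by
    refine ⟨?_, ?_⟩
    · have : ‖v‖ ≤ Real.sqrt (v ⬝ᵥ v) := (pi_norm_le_iff_of_nonneg (Real.sqrt_nonneg _)).2 fun i => by
        refine Real.le_sqrt_of_sq_le ?_
        rw [Real.norm_eq_abs, sq_abs, sq, dotProduct]
        exact Finset.single_le_sum (f := fun j => v j * v j) (fun j _ => mul_self_nonneg _)
          (Finset.mem_univ i)
      calc ‖v‖ ^ 2 ≤ Real.sqrt (v ⬝ᵥ v) ^ 2 := pow_le_pow_left₀ (norm_nonneg v) this 2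
        _ = v ⬝ᵥ v := Real.sq_sqrt (Finset.sum_nonneg fun j _ => mul_self_nonneg _)
    · refine (Finset.sum_le_card_nsmul _ _ (‖v‖ ^ 2) fun i _ => ?_).trans (le_of_eq (by simp))
      rw [← sq, ← sq_abs]
      exact pow_le_pow_left₀ (abs_nonneg _) (norm_le_pi_norm v i) 2
  refine ⟨htest, hsupp, fun x hx v => ?_, fun x hxV v => ?_⟩
  · have hxR : x ∈ closedBall p R := by
      refine closedBall_subset_closedBall ?_ hx
      refine mul_le_of_le_one_left hR.le ?_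
      rw [div_le_one (by positivity)]
      nlinarith [one_le_pow₀ hB (n := 4)]
    have hb := hbd x (closedBall_subset_closedBall hR0' hxR)
    have hy : ‖x - p‖ ≤ R / (12 * B) := by
      rw [← dist_eq_norm]
      refine (mem_closedBall.1 hx).trans ?_
      rw [one_div, inv_mul_eq_div]
      refine div_le_div_of_nonneg_left hR.le (by positivity) ?_
      nlinarith [le_self_pow₀ hB (n := 4) (by norm_num)]
    have hq16 : (x - p) ⬝ᵥ (g *ᵥ (x - p)) ≤ 16 * B * ‖x - p‖ ^ 2 := by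
      refine (le_abs_self _).trans ((abs_dot_le hb.gle _ _).trans (le_of_eq ?_))
      ring
    have ht : rho g p σ x < 2 * τ := by
      have h1 : 16 * B * ‖x - p‖ ^ 2 ≤ 16 * B * (R / (12 * B)) ^ 2 :=
        mul_le_mul_of_nonneg_left (pow_le_pow_left₀ (norm_nonneg _) hy 2) (by positivity)
      have h2 : 16 * B * (R / (12 * B)) ^ 2 < τ := by
        rw [hτdef]; field_simp; nlinarith [pow_pos hR 2]
      rw [rho]; linarith
    refine le_trans ?_ (hinner x hxR ht v)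
    have htle : rho g p σ x ≤ 16 * B * (‖x - p‖ ^ 2 + r ^ 2) := by
      rw [rho, mul_add]
      refine add_le_add hq16 (div_le_self (sq_nonneg r) ?_ |>.trans ?_)
      · linarith
      · exact le_mul_of_one_le_left (sq_nonneg r) (by linarith)
    have hqv : v ⬝ᵥ v ≤ 4 * B * (v ⬝ᵥ (g *ᵥ v)) := by
      nlinarith [(hvv v).2, hlow v]
    have hn : 0 < ‖x - p‖ ^ 2 + r ^ 2 := by nlinarith [sq_nonneg ‖x - p‖, hr.1]
    calc 1 / (1024 * B ^ 4) * r ^ 2 / (‖x - p‖ ^ 2 + r ^ 2) ^ 2 * (v ⬝ᵥ v)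
        ≤ 1 / (1024 * B ^ 4) * r ^ 2 / (‖x - p‖ ^ 2 + r ^ 2) ^ 2
            * (4 * B * (v ⬝ᵥ (g *ᵥ v))) := mul_le_mul_of_nonneg_left hqv (by positivity)
      _ = 4 * σ / (16 * B * (‖x - p‖ ^ 2 + r ^ 2)) ^ 2 * (v ⬝ᵥ (g *ᵥ v)) := by
          rw [hσdef]; field_simp; ring
      _ ≤ 4 * σ / rho g p σ x ^ 2 * (v ⬝ᵥ (g *ᵥ v)) := by
          refine mul_le_mul_of_nonneg_right ?_ (gmat_dot_nonneg _ _)
          exact div_le_div_of_nonneg_left (by positivity) (pow_pos (hpos x) 2)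
            (pow_le_pow_left₀ (hpos x).le htle 2)
  · have hD0 : 0 ≤ D := (abs_nonneg _).trans (le_max_left _ _)
    have hv0 : 0 ≤ v ⬝ᵥ v := Finset.sum_nonneg fun j _ => mul_self_nonneg _
    have hvalf := fun (hdif : ∀ i j, DifferentiableAt ℝ (fun y => J y i j) x) =>
      val_ddc_rad hdif (transpose_gmat (J p)) (hcd.of_le (by norm_cast)) hpos (hJ.sq x hxV) v
    have hdif : ∀ i j, DifferentiableAt ℝ (fun y => J y i j) x := fun i j =>
      ((hJ.smooth i j).differentiableOn (by simp)).differentiableAt (hJ.isOpen.mem_nhds hxV)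
    rcases lt_or_ge (rho g p σ x) (2 * τ) with ht | ht
    · have h1 := hinner x (hnear x (by linarith)) ht v
      have h2 : 0 ≤ 4 * σ / rho g p σ x ^ 2 * (v ⬝ᵥ (g *ᵥ v)) :=
        mul_nonneg (by positivity) (gmat_dot_nonneg _ _)
      nlinarith [mul_nonneg (mul_nonneg hD0 (pow_nonneg hB0.le 4)) hv0]
    rcases lt_or_ge (3 * τ) (rho g p σ x) with ht3 | ht3
    · have hz := hvalf hdif
      rw [(cutProf_eq_zero hτ ht3).deriv_eq, (cutProf_eq_zero hτ ht3).deriv.deriv_eq] at hz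
      simp only [deriv_const', mul_zero, zero_mul, add_zero] at hz
      show _ ≤ val (ddc J (fun z => cutProf A τ (rho g p σ z)) x) v (J x *ᵥ v)
      rw [hz]
      nlinarith [mul_nonneg (mul_nonneg hD0 (pow_nonneg hB0.le 4)) hv0]
    have hxR := hnear x ht3
    have hb := hbd x (closedBall_subset_closedBall hR0' hxR)
    have hy : ‖x - p‖ ≤ 1 := by rw [← dist_eq_norm]; exact (mem_closedBall.1 hxR).trans hR1
    show _ ≤ val (ddc J (fun z => cutProf A τ (rho g p σ z)) x) v (J x *ᵥ v)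
    rw [hvalf hdif]
    exact (neg_le_of_abs_le ((abs_outer hb hy v _ _
      ((hD1 ⟨_, ⟨ht, ht3⟩, rfl⟩).trans ((le_abs_self _).trans (le_max_left _ _)))
      ((hD2 ⟨_, ⟨ht, ht3⟩, rfl⟩).trans ((le_abs_self _).trans (le_max_right _ _)))).trans
        (mul_le_mul_of_nonneg_left (hvv v).1 (by positivity)))).trans' (le_of_eq (by ring))

end Vale.Agent.P204.Tame
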