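import Vale.Agent.P204.Tame.Interfaces
import Vale.Agent.P204.Tame.DensityPot

/-!
A closed positive current has quadratic mass bound (given the pointwise linear algebra and the
orthogonality to exact forms).
-/

open scoped ContDiff Matrix ENNReal
open Filter Topology Metric Set MeasureTheory

namespace Vale.Agent.P204.Tame

theorem IsTest.contDiffOn_mul {V : Set E} (hV : IsOpen V) {φ : E → ℝ} (hφ : IsTest V φ)
    {a g : E → ℝ} (ha : ContDiffOn ℝ ∞ a V) (hg : ∀ x ∈ V, g x = a x * φ x)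
    (hg0 : ∀ x ∉ tsupport φ, g x = 0) : ContDiff ℝ ∞ g := by
  refine contDiff_iff_contDiffAt.2 fun x => ?_
  by_cases hx : x ∈ V
  · refine (((ha.contDiffAt (hV.mem_nhds hx)).mul hφ.smooth.contDiffAt)).congr_of_eventuallyEq ?_
    filter_upwards [hV.mem_nhds hx] with y hy using hg y hy
  · have : x ∉ tsupport φ := fun h => hx (hφ.supp h)
    refine (contDiffAt_const (c := (0:ℝ))).congr_of_eventuallyEq ?_
    filter_upwards [(isClosed_tsupport φ).isOpen_compl.mem_nhds this] with y hy using hg0 y hy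

theorem contDiff_pd_test {V : Set E} {φ : E → ℝ} (hφ : IsTest V φ) (k : Fin 4) :
    IsTest V (pd k φ) := by
  have hs : tsupport (pd k φ) ⊆ tsupport φ := tsupport_fderiv_apply_subset ℝ (e k)
  exact ⟨hφ.smooth.fderiv_right le_rfl |>.clm_apply contDiff_const,
    hφ.compact.of_isClosed_subset (isClosed_tsupport _) hs, hs.trans hφ.supp⟩

theorem IsTest.dc {V : Set E} {J : E → M} (hJ : IsACS V J) {f : E → ℝ} (hf : IsTest V f)
    (j : Fin 4) : IsTest V (fun x => Tame.dc J f x j) := by
  have he : ∀ x, Tame.dc J f x j = -∑ k, J x k j * pd k f x := fun x => by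
    simp [Tame.dc, Matrix.mulVec, dotProduct]
  have h0 : ∀ x ∉ tsupport f, ∀ k, pd k f x = 0 := fun x hx k => by
    have : f =ᶠ[𝓝 x] fun _ => (0:ℝ) := notMem_tsupport_iff_eventuallyEq.1 hx
    simp [pd, this.fderiv_eq]
  have hs : tsupport (fun x => Tame.dc J f x j) ⊆ tsupport f := by
    refine closure_minimal (fun x hx => ?_) (isClosed_tsupport _)
    by_contra hn
    exact hx (by simp [he, h0 x hn])
  refine ⟨?_, hf.compact.of_isClosed_subset (isClosed_tsupport _) hs, hs.trans hf.supp⟩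
  have : (fun x => Tame.dc J f x j) = fun x => -∑ k, J x k j * pd k f x := funext he
  rw [this]
  refine (ContDiff.sum fun k _ => ?_).neg
  refine (contDiff_pd_test hf k).contDiffOn_mul hJ.isOpen (hJ.smooth k j) (fun x _ => rfl)
    fun x hx => ?_
  rw [image_eq_zero_of_notMem_tsupport hx, mul_zero]

theorem ddc_eq_zero {J : E → M} {f : E → ℝ} {x : E} (hx : x ∉ tsupport f) : ddc J f x = 0 := by
  have h : ∀ j, (fun y => Tame.dc J f y j) =ᶠ[𝓝 x] fun _ => (0:ℝ) := fun j => by
    filter_upwards [(isClosed_tsupport f).isOpen_compl.mem_nhds hx] with y hy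
    have : f =ᶠ[𝓝 y] fun _ => (0:ℝ) := notMem_tsupport_iff_eventuallyEq.1 hy
    simp [Tame.dc, Matrix.mulVec, dotProduct, pd, this.fderiv_eq]
  ext i j
  simp [ddc, dOne, pd, (h j).fderiv_eq, (h i).fderiv_eq]

theorem dOne_skew (S : E → E) (x : E) : (dOne S x)ᵀ = -dOne S x := by
  ext i j
  simp [dOne]

theorem val_wmat (J : M) (hJ : J * J = -1) (v : E) :
    val (wmat J) v (J *ᵥ v) = v ⬝ᵥ (gmat J *ᵥ v) := by
  conv_rhs => rw [← gmat_congr hJ]
  simp [val, wmat, Matrix.mulVec_mulVec]

theorem val_swap {u : M} (h : uᵀ = -u) (a b : E) : val u a b = -val u b a := by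
  rw [val, Matrix.dotProduct_mulVec, ← Matrix.mulVec_transpose, h, Matrix.neg_mulVec,
    dotProduct_comm, dotProduct_neg]
  rfl

theorem val_pinv {J u : M} (hJ : J * J = -1) (hu : uᵀ = -u) (v : E) :
    val (pinv J u) v (J *ᵥ v) = val u v (J *ᵥ v) := by
  have h1 : val (Jᵀ * u * J) v (J *ᵥ v) = val u v (J *ᵥ v) := by
    rw [val, ← Matrix.mulVec_mulVec, ← Matrix.mulVec_mulVec, Matrix.dotProduct_mulVec v Jᵀ,
      Matrix.vecMul_transpose, Matrix.mulVec_mulVec v J J, hJ, Matrix.neg_mulVec,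
      Matrix.one_mulVec]
    show val u (J *ᵥ v) (-v) = _
    rw [val_swap hu v, val, Matrix.mulVec_neg, dotProduct_neg]
    rfl
  have h2 : val (pinv J u) v (J *ᵥ v)
      = (1 / 2) * (val u v (J *ᵥ v) + val (Jᵀ * u * J) v (J *ᵥ v)) := by
    simp only [val, pinv, Matrix.smul_mulVec, Matrix.add_mulVec, dotProduct_smul, dotProduct_add,
      smul_eq_mul]
  rw [h2, h1]; ring

theorem abs_pfq_le (a b : M) :
    |pfq a b| ≤ 6 * ((∑ i, ∑ j, |a i j|) * ∑ i, ∑ j, |b i j|) := by
  have h : ∀ (u : M) i j, |u i j| ≤ ∑ i, ∑ j, |u i j| := fun u i j =>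
    (Finset.single_le_sum (f := fun j => |u i j|) (fun j _ => abs_nonneg _)
      (Finset.mem_univ j)).trans (Finset.single_le_sum (f := fun i => ∑ j, |u i j|)
      (fun i _ => Finset.sum_nonneg fun j _ => abs_nonneg _) (Finset.mem_univ i))
  set A := ∑ i, ∑ j, |a i j|
  set B := ∑ i, ∑ j, |b i j|
  have hp : ∀ i j k l, |a i j * b k l| ≤ A * B := fun i j k l => by
    rw [abs_mul]
    exact mul_le_mul (h a i j) (h b k l) (abs_nonneg _) ((abs_nonneg _).trans (h a i j))
  have hq : ∀ i j k l, |b k l * a i j| ≤ A * B := fun i j k l => by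
    rw [mul_comm]; exact hp i j k l
  rw [abs_le]
  constructor <;> unfold pfq <;>
    linarith [abs_le.1 (hp 0 1 2 3), abs_le.1 (hp 0 2 1 3), abs_le.1 (hp 0 3 1 2),
      abs_le.1 (hq 2 3 0 1), abs_le.1 (hq 1 3 0 2), abs_le.1 (hq 1 2 0 3)]

theorem abs_sgnJ_le (J : M) : |sgnJ J| ≤ 1 := by
  unfold sgnJ
  rcases Real.sign_apply_eq (pfq (wmat J) (wmat J)) with h | h | h <;> rw [h] <;> norm_num

theorem wd_lower (hL : LinearFacts) {J θ u : M} (hJ : J * J = -1) (hθ : Psd J θ)
    (hu : uᵀ = -u) {m : ℝ} (hm : ∀ v, m * (v ⬝ᵥ (gmat J *ᵥ v)) ≤ val u v (J *ᵥ v)) :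
    m * wd J θ (wmat J) ≤ wd J θ u := by
  obtain ⟨hanti, hpos, hw, -⟩ := hL
  obtain ⟨hwp, -⟩ := hw J hJ
  have hJu : ∀ a : M, Jᵀ * (Jᵀ * a * J) * J = a := fun a => by
    have hJt : Jᵀ * Jᵀ = -1 := by rw [← Matrix.transpose_mul, hJ]; simp
    calc Jᵀ * (Jᵀ * a * J) * J = (Jᵀ * Jᵀ) * a * (J * J) := by noncomm_ring
      _ = a := by rw [hJt, hJ]; simp
  have hJus : (Jᵀ * u * J)ᵀ = -(Jᵀ * u * J) := by
    simp [Matrix.transpose_mul, hu, Matrix.mul_assoc]
  have hps : (pinv J u)ᵀ = -pinv J u := by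
    simp [pinv, hu, hJus, Matrix.transpose_smul, Matrix.transpose_add, add_comm]
  have has : (panti J u)ᵀ = -panti J u := by
    simp [panti, hu, hJus, Matrix.transpose_smul, Matrix.transpose_sub, ← smul_neg]
    module
  have hpi : Jᵀ * pinv J u * J = pinv J u := by
    simp [pinv, Matrix.mul_add, Matrix.add_mul, hJu, add_comm]
  have hai : Jᵀ * panti J u * J = -panti J u := by
    simp [panti, Matrix.mul_sub, Matrix.sub_mul, hJu, ← smul_neg]
  have hb : Psd J (pinv J u - m • wmat J) := by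
    refine ⟨?_, ?_, fun v => ?_⟩
    · rw [Matrix.transpose_sub, Matrix.transpose_smul, hps, hwp.skew]; module
    · rw [Matrix.mul_sub, Matrix.sub_mul, hpi, Matrix.mul_smul, Matrix.smul_mul, hwp.inv]
    · have : val (pinv J u - m • wmat J) v (J *ᵥ v)
          = val (pinv J u) v (J *ᵥ v) - m * val (wmat J) v (J *ᵥ v) := by
        simp only [val, Matrix.sub_mulVec, Matrix.smul_mulVec, dotProduct_sub, dotProduct_smul,
          smul_eq_mul]
      rw [this, val_pinv hJ hu, val_wmat J hJ]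
      linarith [hm v]
  have h1 := hpos J θ _ hJ hθ hb
  have h2 : pfq θ (panti J u) = 0 := hanti J θ _ hJ hθ.skew has hθ.inv hai
  have h3 : wd J θ u = wd J θ (pinv J u - m • wmat J) + wd J θ (panti J u)
      + m * wd J θ (wmat J) := by
    simp only [wd, pinv, panti, pfq, Matrix.sub_apply, Matrix.smul_apply, Matrix.add_apply,
      smul_eq_mul]
    ring
  rw [h3, show wd J θ (panti J u) = 0 by rw [wd, h2, mul_zero]]
  unfold wd
  unfold wd at h1
  linarith

theorem vv_bounds (v : E) : ‖v‖ ^ 2 ≤ v ⬝ᵥ v ∧ v ⬝ᵥ v ≤ 4 * ‖v‖ ^ 2 := by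
  refine ⟨?_, ?_⟩
  · rcases eq_or_ne v 0 with rfl | hv
    · simp
    obtain ⟨i, -, hi⟩ := Finset.exists_max_image Finset.univ (fun i => |v i|) Finset.univ_nonempty
    have h : ‖v‖ ≤ |v i| := (pi_norm_le_iff_of_nonneg (abs_nonneg _)).2 fun j => hi j (Finset.mem_univ j)
    calc ‖v‖ ^ 2 ≤ |v i| ^ 2 := pow_le_pow_left₀ (norm_nonneg v) h 2
      _ = v i * v i := by rw [sq_abs, sq]
      _ ≤ v ⬝ᵥ v := Finset.single_le_sum (f := fun j => v j * v j)
          (fun j _ => mul_self_nonneg _) (Finset.mem_univ i)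
  · refine (Finset.sum_le_card_nsmul _ _ (‖v‖ ^ 2) fun i _ => ?_).trans (le_of_eq (by simp))
    rw [← sq, ← sq_abs]
    exact pow_le_pow_left₀ (abs_nonneg _) (norm_le_pi_norm v i) 2

theorem exists_ball_bound {V : Set E} {J : E → M} {μ : Measure E} {Θ : E → M} (hL : LinearFacts)
    (hP : PairingExact) (hJ : IsACS V J) (hμ : IsPosCurrent V J μ Θ) {K : Set E} (hKV : K ⊆ V)
    (hK : IsCompact K) :
    ∃ A : ℝ, ∃ r₀ > 0, ∀ p ∈ K, ∀ r ∈ Ioc (0 : ℝ) r₀,
      μ (closedBall p r) ≤ ENNReal.ofReal (A * r ^ 2) := by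
  obtain ⟨R, hR, B₀, hB₀, A₀, τ, hτ, c, hc, hc1, C, hC, hpot⟩ := pot_spec hJ hKV hK
  set K' := cthickening R K
  have hK' : IsCompact K' := hK.cthickening
  have hK'V : K' ⊆ V := by
    show cthickening R K ⊆ V
    rw [hK.cthickening_eq_biUnion_closedBall hR.le]
    exact iUnion₂_subset fun p hp => (hpot p hp).1
  obtain ⟨R', hR', B, hB, hbd⟩ := exists_bd hJ hK'V hK'
  have hB0 : 0 < B := by linarith
  obtain ⟨cS, hcS, hS⟩ := hL.2.2.2 (J '' K') (hK'.image_of_continuousOn (hJ.continuousOn.mono hK'V))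
    (by rintro _ ⟨x, hx, rfl⟩; exact hJ.sq x (hK'V hx))
  have hJc : ContinuousOn J K' := hJ.continuousOn.mono hK'V
  have hwc : ContinuousOn (fun x => wmat (J x)) K' := by
    have : Continuous (wmat : M → M) := continuous_id.matrix_transpose.matrix_mul continuous_gmat
    exact this.comp_continuousOn hJc
  obtain ⟨Bw, hBw⟩ := exists_pos_bound hK' (f := fun x => ∑ i, ∑ j, |wmat (J x) i j|)
    (continuousOn_finsetSum _ fun i _ => continuousOn_finsetSum _ fun j _ =>
      ((continuous_apply_apply i j).comp_continuousOn hwc).abs)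
  have hkc : ContinuousOn (fun x => kmat (J x)) K' := by
    have : Continuous (kmat : M → M) := by unfold kmat hmat; fun_prop
    exact this.comp_continuousOn hJc
  obtain ⟨Bk, hBk⟩ := exists_pos_bound hK' (f := fun x => ∑ i, ∑ j, |kmat (J x) i j|)
    (continuousOn_finsetSum _ fun i _ => continuousOn_finsetSum _ fun j _ =>
      ((continuous_apply_apply i j).comp_continuousOn hkc).abs)
  set a0 := cS / (|Bk| + 1)
  have ha0 : 0 < a0 := by positivity
  set W := 6 * (1 / cS * |Bw|) with hW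
  have hW0 : 0 ≤ W := by positivity
  -- pointwise facts, almost everywhere on `K'`
  have hpt : ∀ᵐ x ∂μ.restrict K', Psd (J x) (Θ x) ∧ (∑ i, ∑ j, |Θ x i j|) ≤ 1 / cS ∧
      a0 ≤ wd (J x) (Θ x) (wmat (J x)) ∧ wd (J x) (Θ x) (wmat (J x)) ≤ W := by
    filter_upwards [ae_restrict_of_ae_restrict_of_subset hK'V hμ.psd,
      ae_restrict_of_ae_restrict_of_subset hK'V hμ.unit,
      ae_restrict_mem hK'.measurableSet] with x hp hu hx
    obtain ⟨-, hS2, -⟩ := hS (J x) ⟨x, hx, rfl⟩
    obtain ⟨h1, h2⟩ := hS2 (Θ x) hp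
    rw [hu] at h2
    have hsum : (∑ i, ∑ j, |Θ x i j|) ≤ 1 / cS := by rw [le_div_iff₀ hcS]; linarith
    have hS0 : 0 ≤ ∑ i, ∑ j, |Θ x i j| :=
      Finset.sum_nonneg fun i _ => Finset.sum_nonneg fun j _ => abs_nonneg _
    refine ⟨hp, hsum, ?_, ?_⟩
    · have htr : trc (J x) (Θ x) ≤ (|Bk| + 1) * ∑ i, ∑ j, |Θ x i j| := by
        unfold trc
        refine (neg_le_abs _).trans ((Finset.abs_sum_le_sum_abs _ _).trans ?_)
        rw [Finset.mul_sum]
        refine Finset.sum_le_sum fun i _ => (Finset.abs_sum_le_sum_abs _ _).trans ?_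
        rw [Finset.mul_sum]
        refine Finset.sum_le_sum fun j _ => ?_
        rw [abs_mul]
        refine mul_le_mul_of_nonneg_right ?_ (abs_nonneg _)
        refine le_trans ?_ ((le_abs_self _).trans (hBk x hx) |>.trans
          ((le_abs_self Bk).trans (le_add_of_nonneg_right zero_le_one)))
        exact (Finset.single_le_sum (f := fun j => |kmat (J x) i j|) (fun j _ => abs_nonneg _)
          (Finset.mem_univ j)).trans (Finset.single_le_sum
          (f := fun i => ∑ j, |kmat (J x) i j|)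
          (fun i _ => Finset.sum_nonneg fun j _ => abs_nonneg _) (Finset.mem_univ i))
      rw [hu] at htr
      refine le_trans ?_ h1
      rw [div_le_iff₀ (by positivity)]
      calc cS = cS * 1 := (mul_one _).symm
        _ ≤ cS * ((|Bk| + 1) * ∑ i, ∑ j, |Θ x i j|) := mul_le_mul_of_nonneg_left htr hcS.le
        _ = _ := by ring
    · refine (le_abs_self _).trans ?_
      rw [wd, abs_mul]
      refine (mul_le_of_le_one_left (abs_nonneg _) (abs_sgnJ_le _)).trans ?_
      refine (abs_pfq_le _ _).trans (mul_le_mul_of_nonneg_left ?_ (by norm_num))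
      exact mul_le_mul hsum ((le_abs_self _).trans ((hBw x hx).trans (le_abs_self _)))
        (Finset.sum_nonneg fun i _ => Finset.sum_nonneg fun j _ => abs_nonneg _) (by positivity)
  set ρ₀ := c * R with hρ₀
  set α := c / (256 * B) * a0 with hα
  have hα0 : 0 < α := by positivity
  set β := C * (4 * B) * W with hβ
  have hfin : μ K' < ⊤ := hμ.finite K' hK'V hK'
  refine ⟨β * μ.real K' / α, ρ₀, by positivity, fun p hp r hr => ?_⟩
  obtain ⟨hV, -, hf⟩ := hpot p hp
  have hrR : r ∈ Ioc (0 : ℝ) R := ⟨hr.1, hr.2.trans (mul_le_of_le_one_left hR.le hc1)⟩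
  obtain ⟨htest, hsupp, hin, hglob⟩ := hf r hrR
  set f := pot J A₀ τ B₀ p r
  have hsub : closedBall p R ⊆ K' := closedBall_subset_cthickening hp R
  have hsub' : closedBall p r ⊆ K' := (closedBall_subset_closedBall hrR.2).trans hsub
  set G := fun x => wd (J x) (Θ x) (ddc J f x) with hG
  have hzero : ∀ x ∉ K', G x = 0 := fun x hx => by
    simp [hG, ddc_eq_zero (J := J) (fun h => hx (hsub (hsupp h))), wd, pfq]
  have hint0 : ∫ x in K', G x ∂μ = 0 := by
    rw [setIntegral_eq_integral_of_forall_compl_eq_zero hzero]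
    exact hP V J μ Θ hJ hμ _ fun i => htest.dc hJ i
  -- integrability
  have hu : ∀ i j, Continuous fun x => ddc J f x i j := fun i j => by
    show Continuous fun x => pd i (fun y => Tame.dc J f y j) x - pd j (fun y => Tame.dc J f y i) x
    exact (contDiff_pd_test (htest.dc hJ j) i).smooth.continuous.sub
      (contDiff_pd_test (htest.dc hJ i) j).smooth.continuous
  obtain ⟨Bu, hBu⟩ := exists_pos_bound hK' (f := fun x => ∑ i, ∑ j, |ddc J f x i j|)
    (continuous_finsetSum _ fun i _ => continuous_finsetSum _ fun j _ => (hu i j).abs).continuousOn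
  have hmeasS : AEStronglyMeasurable (fun x => sgnJ (J x)) (μ.restrict K') := by
    have hsign : Measurable Real.sign := by
      unfold Real.sign
      exact Measurable.ite measurableSet_Iio measurable_const
        (Measurable.ite measurableSet_Ioi measurable_const measurable_const)
    have hc' : ContinuousOn (fun x => pfq (wmat (J x)) (wmat (J x))) K' := by
      unfold pfq
      have hh : ∀ i j, ContinuousOn (fun x => wmat (J x) i j) K' := fun i j =>
        (continuous_apply_apply i j).comp_continuousOn hwc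
      fun_prop
    exact (hsign.comp_aemeasurable
      (hc'.aestronglyMeasurable hK'.measurableSet).aemeasurable).aestronglyMeasurable
  have hGint : IntegrableOn G K' μ := by
    have : IsFiniteMeasure (μ.restrict K') := ⟨by simpa using hfin⟩
    refine Integrable.of_bound (hmeasS.mul ?_) (6 * (1 / cS * |Bu|)) ?_
    · unfold pfq
      have h1 := fun i j => (hμ.meas i j).aestronglyMeasurable (μ := μ.restrict K')
      have h2 := fun i j => (hu i j).aestronglyMeasurable (μ := μ.restrict K')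
      exact ((((((h1 0 1).mul (h2 2 3)).sub ((h1 0 2).mul (h2 1 3))).add
        ((h1 0 3).mul (h2 1 2))).add ((h2 0 1).mul (h1 2 3))).sub ((h2 0 2).mul (h1 1 3))).add
        ((h2 0 3).mul (h1 1 2))
    · filter_upwards [hpt, ae_restrict_mem hK'.measurableSet] with x hx hxK
      rw [hG, Real.norm_eq_abs]
      simp only [wd, abs_mul]
      refine (mul_le_of_le_one_left (abs_nonneg _) (abs_sgnJ_le _)).trans ?_
      refine (abs_pfq_le _ _).trans (mul_le_mul_of_nonneg_left ?_ (by norm_num))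
      exact mul_le_mul hx.2.1 ((le_abs_self _).trans ((hBu x hxK).trans (le_abs_self _)))
        (Finset.sum_nonneg fun i _ => Finset.sum_nonneg fun j _ => abs_nonneg _) (by positivity)
  have hlb : ∀ᵐ x ∂μ.restrict K',
      (closedBall p r).indicator (fun _ => α / r ^ 2) x - β ≤ G x := by
    filter_upwards [hpt, ae_restrict_mem hK'.measurableSet] with x hx hxK
    obtain ⟨hpsd, -, hw1, hw2⟩ := hx
    have hsq := hJ.sq x (hK'V hxK)
    have hb := (hbd x hxK).2 x (mem_closedBall_self hR'.le)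
    have hskew : (ddc J f x)ᵀ = -ddc J f x := dOne_skew _ _
    have hq : ∀ v, 0 ≤ v ⬝ᵥ (gmat (J x) *ᵥ v) := gmat_dot_nonneg _
    by_cases hxr : x ∈ closedBall p r
    · rw [indicator_of_mem hxr]
      have hxc : x ∈ closedBall p (c * R) := closedBall_subset_closedBall hr.2 hxr
      have hm : ∀ v, c / (256 * B * r ^ 2) * (v ⬝ᵥ (gmat (J x) *ᵥ v))
          ≤ val (ddc J f x) v (J x *ᵥ v) := fun v => by
        refine le_trans ?_ (hin x hxc v)
        have hy : ‖x - p‖ ≤ r := by rw [← dist_eq_norm]; exact mem_closedBall.1 hxr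
        have hqv : v ⬝ᵥ (gmat (J x) *ᵥ v) ≤ 64 * B * (v ⬝ᵥ v) := by
          have h1 := (le_abs_self _).trans (abs_dot_le hb.gle v v)
          have h2 := mul_le_mul_of_nonneg_left (vv_bounds v).1 hB0.le
          have h3 := mul_nonneg hB0.le ((sq_nonneg ‖v‖).trans (vv_bounds v).1)
          nlinarith
        have hr4 : (‖x - p‖ ^ 2 + r ^ 2) ^ 2 ≤ 4 * r ^ 4 := by
          calc (‖x - p‖ ^ 2 + r ^ 2) ^ 2 ≤ (r ^ 2 + r ^ 2) ^ 2 := by gcongr
            _ = _ := by ring
        have hr0 := hr.1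
        calc c / (256 * B * r ^ 2) * (v ⬝ᵥ (gmat (J x) *ᵥ v))
            ≤ c / (256 * B * r ^ 2) * (64 * B * (v ⬝ᵥ v)) :=
              mul_le_mul_of_nonneg_left hqv (by positivity)
          _ = c * r ^ 2 / (4 * r ^ 4) * (v ⬝ᵥ v) := by field_simp; ring
          _ ≤ c * r ^ 2 / (‖x - p‖ ^ 2 + r ^ 2) ^ 2 * (v ⬝ᵥ v) := by
              refine mul_le_mul_of_nonneg_right ?_ ((sq_nonneg ‖v‖).trans (vv_bounds v).1)
              exact div_le_div_of_nonneg_left (by positivity) (by positivity) hr4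
      have := wd_lower hL hsq hpsd hskew hm
      have h2 : α / r ^ 2 ≤ c / (256 * B * r ^ 2) * wd (J x) (Θ x) (wmat (J x)) := by
        rw [hα]
        calc c / (256 * B) * a0 / r ^ 2 = c / (256 * B * r ^ 2) * a0 := by ring
          _ ≤ _ := mul_le_mul_of_nonneg_left hw1 (by positivity)
      have : 0 ≤ β := by positivity
      simp only [hG]
      linarith
    · rw [indicator_of_notMem hxr]
      have hm : ∀ v, -(C * (4 * B)) * (v ⬝ᵥ (gmat (J x) *ᵥ v))
          ≤ val (ddc J f x) v (J x *ᵥ v) := fun v => by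
        refine le_trans ?_ (hglob x (hK'V hxK) v)
        have h1 : v ⬝ᵥ v ≤ 4 * B * (v ⬝ᵥ (gmat (J x) *ᵥ v)) := by
          nlinarith [(vv_bounds v).2, hb.low v]
        nlinarith [mul_le_mul_of_nonneg_left h1 hC]
      have := wd_lower hL hsq hpsd hskew hm
      have h2 : C * (4 * B) * wd (J x) (Θ x) (wmat (J x)) ≤ β :=
        mul_le_mul_of_nonneg_left hw2 (by positivity)
      simp only [hG]
      linarith
  have hia : IntegrableOn (fun x => (closedBall p r).indicator (fun _ => α / r ^ 2) x) K' μ :=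
    (integrableOn_const hfin.ne).indicator measurableSet_closedBall
  have hib : IntegrableOn (fun _ : E => β) K' μ := integrableOn_const hfin.ne
  have hi1 : IntegrableOn (fun x => (closedBall p r).indicator (fun _ => α / r ^ 2) x - β) K' μ :=
    hia.sub hib
  have hmono := integral_mono_ae hi1 hGint hlb
  rw [hint0, integral_sub hia hib, setIntegral_indicator measurableSet_closedBall,
    inter_eq_right.2 hsub', setIntegral_const, setIntegral_const, smul_eq_mul, smul_eq_mul] at hmono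
  have hfin' : μ (closedBall p r) < ⊤ := lt_of_le_of_lt (measure_mono hsub') hfin
  rw [← ENNReal.ofReal_toReal hfin'.ne]
  refine ENNReal.ofReal_le_ofReal ?_
  have hr2 : 0 < r ^ 2 := pow_pos hr.1 2
  have key : μ.real (closedBall p r) * α ≤ β * μ.real K' * r ^ 2 := by
    have h := mul_le_mul_of_nonneg_right hmono hr2.le
    rw [zero_mul, sub_mul, mul_assoc, div_mul_cancel₀ _ hr2.ne'] at h
    nlinarith
  show μ.real (closedBall p r) ≤ _
  rw [div_mul_eq_mul_div, le_div_iff₀ hα0]
  exact key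

/-- Module Density: a closed positive current has quadratic mass bound. -/
theorem densityBound (hL : LinearFacts) (hP : PairingExact) : DensityBound :=
  fun _ _ _ _ hJ hμ _ hKV hK => exists_ball_bound hL hP hJ hμ hKV hK

end Vale.Agent.P204.Tame
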