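import Vale.Agent.P204.Tame.DensityMass

/-!
The anti-invariant part of the test potentials: `L²` bounds for it and for its second derivatives,
and the full statement about test potentials.
-/

open scoped ContDiff Matrix
open Filter Topology Metric Set MeasureTheory

namespace Vale.Agent.P204.Tame

/-- The antisymmetrised derivative of a row of the complex structure. -/
noncomputable def dJmat (J : E → M) (k : Fin 4) (x : E) : M :=
  Matrix.of fun i j => -(pd i (fun y => J y k j) x - pd j (fun y => J y k i) x)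

/-- The anti-invariant form attached to the derivative of the complex structure. -/
noncomputable def dJanti (J : E → M) (k : Fin 4) (x : E) : M := panti (J x) (dJmat J k x)

theorem dJanti_smooth {V : Set E} {J : E → M} (hJ : IsACS V J) (k i j : Fin 4) :
    ContDiffOn ℝ ∞ (fun x => dJanti J k x i j) V := by
  have hd : ∀ a b c, ContDiffOn ℝ ∞ (fun x => pd a (fun y => J y b c) x) V := fun a b c =>
    ((hJ.smooth b c).fderiv_of_isOpen hJ.isOpen le_rfl).clm_apply contDiffOn_const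
  have hs := hJ.smooth
  simp only [dJanti, dJmat, Matrix.of_apply, panti, Matrix.smul_apply, Matrix.sub_apply, Matrix.mul_apply,
    Matrix.transpose_apply, smul_eq_mul]
  fun_prop

theorem panti_ddc {J : E → M} {f : E → ℝ} {x : E}
    (hJ : ∀ i j, DifferentiableAt ℝ (fun y => J y i j) x)
    (hf : ∀ k, DifferentiableAt ℝ (pd k f) x)
    (hsym : ∀ i k, pd i (pd k f) x = pd k (pd i f) x) (hx : J x * J x = -1) :
    panti (J x) (ddc J f x) = ∑ k, pd k f x • dJanti J k x := by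
  set H : M := Matrix.of fun i k => pd i (pd k f) x with hH
  set P : Fin 4 → M := fun k => dJmat J k x with hP
  have hHt : Hᵀ = H := by ext i k; exact hsym k i
  have hd : ddc J f x = (∑ k, pd k f x • P k) + (-(H * J x) + (J x)ᵀ * Hᵀ) := by
    ext i j
    simp only [ddc, dOne, pd_dc hJ hf, hP, hH, dJmat, Matrix.of_apply, Matrix.add_apply,
      Matrix.smul_apply, Matrix.neg_apply, Matrix.mul_apply, Matrix.transpose_apply, smul_eq_mul,
      Finset.sum_add_distrib, Fin.sum_univ_four]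
    ring
  have hz : panti (J x) (-(H * J x) + (J x)ᵀ * Hᵀ) = 0 := by
    rw [hHt]
    have hJt : (J x)ᵀ * (J x)ᵀ = -1 := by rw [← Matrix.transpose_mul, hx]; simp
    have : (J x)ᵀ * (-(H * J x) + (J x)ᵀ * H) * J x = -(H * J x) + (J x)ᵀ * H := by
      calc (J x)ᵀ * (-(H * J x) + (J x)ᵀ * H) * J x
          = -((J x)ᵀ * H * (J x * J x)) + ((J x)ᵀ * (J x)ᵀ) * H * J x := by noncomm_ring
        _ = _ := by rw [hx, hJt]; noncomm_ring
    simp [panti, this]
  have hadd : ∀ a b : M, panti (J x) (a + b) = panti (J x) a + panti (J x) b := fun a b => by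
    simp only [panti, Matrix.mul_add, Matrix.add_mul]; module
  have hsum : panti (J x) (∑ k, pd k f x • P k) = ∑ k, pd k f x • dJanti J k x := by
    simp only [Fin.sum_univ_four, hadd]
    have hsm : ∀ (c : ℝ) (a : M), panti (J x) (c • a) = c • panti (J x) a := fun c a => by
      simp only [panti, Matrix.mul_smul, Matrix.smul_mul]; module
    simp only [hsm]
    rfl
  rw [hd, hadd, hz, add_zero, hsum]

/-- The coefficient of the derivative of the profile in the anti-invariant part. -/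
noncomputable def coef (J : E → M) (p : E) (i j : Fin 4) (x : E) : ℝ :=
  ∑ k, 2 * (gmat (J p) *ᵥ (x - p)) k * dJanti J k x i j

theorem norm_iteratedFDeriv_two_le {F : E → ℝ} (hF : ContDiff ℝ ∞ F) (x : E) :
    ‖iteratedFDeriv ℝ 2 F x‖ ≤ ∑ a, ∑ b, |pd a (pd b F) x| := by
  have hd : DifferentiableAt ℝ (fderiv ℝ F) x :=
    ((hF.fderiv_right (m := ∞) le_rfl).differentiable (by simp)) x
  have hpd : ∀ a b, pd a (pd b F) x = fderiv ℝ (fderiv ℝ F) x (e a) (e b) := fun a b => by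
    show fderiv ℝ (fun y => fderiv ℝ F y (e b)) x (e a) = _
    rw [fderiv_clm_apply hd (differentiableAt_const _)]
    simp
  refine ContinuousMultilinearMap.opNorm_le_bound
    (Finset.sum_nonneg fun a _ => Finset.sum_nonneg fun b _ => abs_nonneg _) fun m => ?_
  rw [iteratedFDeriv_two_apply, Real.norm_eq_abs]
  set L := fderiv ℝ (fderiv ℝ F) x
  have hexp : ∀ v : E, v = ∑ a, v a • e a := fun v => by
    ext i; simp [e, Finset.sum_apply, Pi.single_apply]
  conv_lhs => rw [hexp (m 0), hexp (m 1)]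
  simp only [map_sum, map_smul, sum_apply, smul_apply, smul_eq_mul]
  rw [Finset.sum_mul, Fin.prod_univ_two]
  refine (Finset.abs_sum_le_sum_abs _ _).trans ?_
  simp only [Finset.mul_sum, Finset.sum_mul]
  conv_rhs => rw [Finset.sum_comm]
  refine Finset.sum_le_sum fun a _ => (Finset.abs_sum_le_sum_abs _ _).trans ?_
  refine Finset.sum_le_sum fun b _ => ?_
  rw [hpd, abs_mul, abs_mul]
  have h0 := norm_le_pi_norm (m 0) b
  have h1 := norm_le_pi_norm (m 1) a
  rw [Real.norm_eq_abs] at h0 h1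
  nlinarith [mul_le_mul h0 h1 (abs_nonneg _) (norm_nonneg _), abs_nonneg (L (e b) (e a))]

theorem pd_add_at {F G : E → ℝ} {x : E} (hF : DifferentiableAt ℝ F x) (hG : DifferentiableAt ℝ G x)
    (a : Fin 4) : pd a (fun y => F y + G y) x = pd a F x + pd a G x := by
  show fderiv ℝ (F + G) x (e a) = _
  rw [fderiv_add hF hG]
  rfl

theorem pd_mul_at {F G : E → ℝ} {x : E} (hF : DifferentiableAt ℝ F x) (hG : DifferentiableAt ℝ G x)
    (a : Fin 4) : pd a (fun y => F y * G y) x = pd a F x * G x + F x * pd a G x := by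
  show fderiv ℝ (F * G) x (e a) = _
  rw [fderiv_mul hF hG]
  simp [pd]
  ring

/-- Second derivatives of a radial function times a function. -/
theorem pd_pd_rad_mul {g : M} (hg : gᵀ = g) (p : E) {σ : ℝ} (hpos : ∀ z, 0 < rho g p σ z)
    {ph : ℝ → ℝ} (hph : ContDiffOn ℝ 2 ph (Ioi 0)) {V : Set E} (hV : IsOpen V) {a : E → ℝ}
    (ha : ContDiffOn ℝ ∞ a V) {x : E} (hx : x ∈ V) (i k : Fin 4) :
    pd i (pd k fun z => ph (rho g p σ z) * a z) x
      = (deriv (deriv ph) (rho g p σ x) * (2 * (g *ᵥ (x - p)) i) * (2 * (g *ᵥ (x - p)) k)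
          + deriv ph (rho g p σ x) * (2 * g i k)) * a x
        + deriv ph (rho g p σ x) * (2 * (g *ᵥ (x - p)) k) * pd i a x
        + deriv ph (rho g p σ x) * (2 * (g *ᵥ (x - p)) i) * pd k a x
        + ph (rho g p σ x) * pd i (pd k a) x := by
  have hf : ContDiff ℝ 2 fun z => ph (rho g p σ z) :=
    hph.comp_contDiff (rho_contDiff g p σ) hpos
  have hdf : ∀ z, DifferentiableAt ℝ (fun z => ph (rho g p σ z)) z :=
    fun z => (hf.differentiable (by norm_num)) z
  have hda : ∀ z ∈ V, DifferentiableAt ℝ a z := fun z hz =>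
    (ha.differentiableOn (by simp)).differentiableAt (hV.mem_nhds hz)
  have hdka : DifferentiableAt ℝ (pd k a) x :=
    (((ha.fderiv_of_isOpen hV (m := ∞) le_rfl).clm_apply contDiffOn_const).differentiableOn
      (by simp)).differentiableAt (hV.mem_nhds hx)
  have hdkf : DifferentiableAt ℝ (pd k fun z => ph (rho g p σ z)) x :=
    (((hf.fderiv_right (m := 1) (by norm_num)).clm_apply contDiff_const).differentiable
      one_ne_zero) x
  have he : pd k (fun z => ph (rho g p σ z) * a z) =ᶠ[𝓝 x]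
      fun z => pd k (fun z => ph (rho g p σ z)) z * a z + ph (rho g p σ z) * pd k a z := by
    filter_upwards [hV.mem_nhds hx] with z hz using pd_mul_at (hdf z) (hda z hz) k
  have hr : ∀ m, pd m (fun z => ph (rho g p σ z)) x
      = deriv ph (rho g p σ x) * (2 * (g *ᵥ (x - p)) m) := fun m => by
    rw [pd_comp ((hph.differentiableOn (by norm_num)).differentiableAt (Ioi_mem_nhds (hpos x)))
      (((rho_contDiff g p σ (n := 1)).differentiable one_ne_zero) x), pd_rho hg]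
  show fderiv ℝ (pd k fun z => ph (rho g p σ z) * a z) x (e i) = _
  rw [he.fderiv_eq]
  show pd i (fun z => pd k (fun z => ph (rho g p σ z)) z * a z + ph (rho g p σ z) * pd k a z) x = _
  rw [pd_add_at (F := fun z => pd k (fun z => ph (rho g p σ z)) z * a z)
      (G := fun z => ph (rho g p σ z) * pd k a z) (hdkf.mul (hda x hx)) ((hdf x).mul hdka),
    pd_mul_at hdkf (hda x hx), pd_mul_at (hdf x) hdka, pd_pd_comp hg p hph hpos, hr, hr]
  ring

/-- The derivative of the profile and its first two derivatives are controlled by powers. -/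
theorem cutProf_bounds (A : ℝ) {τ : ℝ} (hτ : 0 < τ) :
    ∃ N : ℝ, 0 ≤ N ∧ ∀ t > 0, |deriv (cutProf A τ) t| ≤ N / t ∧
      |deriv (deriv (cutProf A τ)) t| ≤ N / t ^ 2 ∧
      |deriv (deriv (deriv (cutProf A τ))) t| ≤ N / t ^ 3 := by
  have hcd := cutProf_contDiffOn A τ
  have hd1 : ContDiffOn ℝ ∞ (deriv (cutProf A τ)) (Ioi 0) :=
    ((contDiffOn_infty_iff_deriv_of_isOpen isOpen_Ioi).1 hcd).2
  have hd2 : ContDiffOn ℝ ∞ (deriv (deriv (cutProf A τ))) (Ioi 0) :=
    ((contDiffOn_infty_iff_deriv_of_isOpen isOpen_Ioi).1 hd1).2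
  have hd3 : ContDiffOn ℝ ∞ (deriv (deriv (deriv (cutProf A τ)))) (Ioi 0) :=
    ((contDiffOn_infty_iff_deriv_of_isOpen isOpen_Ioi).1 hd2).2
  have hI : Icc (2 * τ) (3 * τ) ⊆ Ioi (0:ℝ) := fun t ht =>
    mem_Ioi.2 (lt_of_lt_of_le (by positivity) ht.1)
  obtain ⟨D, hD⟩ := isCompact_Icc.bddAbove_image
    ((((hd1.continuousOn.mono hI).abs.mul continuousOn_id).add
      ((hd2.continuousOn.mono hI).abs.mul (continuousOn_id.pow 2))).add
      ((hd3.continuousOn.mono hI).abs.mul (continuousOn_id.pow 3)))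
  set S := |A| * Real.sqrt (2 * τ) with hS
  refine ⟨max (2 + S) |D|, le_trans (abs_nonneg D) (le_max_right _ _), fun t ht => ?_⟩
  rw [le_div_iff₀ ht, le_div_iff₀ (pow_pos ht 2), le_div_iff₀ (pow_pos ht 3)]
  rcases lt_or_ge t (2 * τ) with hlt | hge
  · have hs : 0 < Real.sqrt t := Real.sqrt_pos.2 ht
    set s := Real.sqrt t with hsdef
    have hsq : s ^ 2 = t := Real.sq_sqrt ht.le
    have hsS : |A| * s ≤ S := mul_le_mul_of_nonneg_left (Real.sqrt_le_sqrt hlt.le) (abs_nonneg A)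
    have h1 : deriv (cutProf A τ) t * t = 1 + A * s / 2 := by
      rw [(cutProf_eq hτ hlt).deriv_eq, deriv_prof A ht, ← hsdef, ← hsq]; field_simp
    have h2 : deriv (deriv (cutProf A τ)) t * t ^ 2 = -1 - A * s / 4 := by
      rw [(cutProf_eq hτ hlt).deriv.deriv_eq, deriv2_prof A ht, ← hsdef, ← hsq]; field_simp
    have he : deriv (deriv (cutProf A τ)) =ᶠ[𝓝 t]
        fun u => -(u ^ 2)⁻¹ - A / 4 * (Real.sqrt u ^ 3)⁻¹ := by
      filter_upwards [Ioo_mem_nhds ht hlt] with u hu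
      rw [(cutProf_eq hτ hu.2).deriv.deriv_eq, deriv2_prof A hu.1]
      ring
    have hder : HasDerivAt (fun u => -(u ^ 2)⁻¹ - A / 4 * (Real.sqrt u ^ 3)⁻¹)
        (-(-((2:ℕ) * t ^ (2 - 1)) / (t ^ 2) ^ 2)
          - A / 4 * (-((3:ℕ) * s ^ (3 - 1) * (1 / (2 * s))) / (s ^ 3) ^ 2)) t :=
      ((hasDerivAt_pow 2 t).inv (pow_ne_zero 2 ht.ne')).neg.sub
        ((((Real.hasDerivAt_sqrt ht.ne').pow 3).inv (pow_ne_zero 3 hs.ne')).const_mul _)
    have h3 : deriv (deriv (deriv (cutProf A τ))) t * t ^ 3 = 2 + 3 * (A * s) / 8 := by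
      rw [he.deriv_eq, hder.deriv, ← hsq]
      norm_num
      field_simp
      ring
    have hb : |A * s| ≤ S := by rw [abs_mul, abs_of_pos hs]; exact hsS
    have hS0 : 0 ≤ S := by positivity
    have hm := le_max_left (2 + S) |D|
    refine ⟨?_, ?_, ?_⟩
    · rw [← abs_of_pos ht, ← abs_mul, abs_of_pos ht, h1]
      exact (abs_le.2 ⟨by linarith [(abs_le.1 hb).1], by linarith [(abs_le.1 hb).2]⟩ :
        |1 + A * s / 2| ≤ 2 + S).trans hm
    · rw [← abs_of_pos (pow_pos ht 2), ← abs_mul, h2]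
      exact (abs_le.2 ⟨by linarith [(abs_le.1 hb).2], by linarith [(abs_le.1 hb).1]⟩ :
        |-1 - A * s / 4| ≤ 2 + S).trans hm
    · rw [← abs_of_pos (pow_pos ht 3), ← abs_mul, h3]
      exact (abs_le.2 ⟨by linarith [(abs_le.1 hb).1], by linarith [(abs_le.1 hb).2]⟩ :
        |2 + 3 * (A * s) / 8| ≤ 2 + S).trans hm
  rcases le_or_gt t (3 * τ) with hle | hgt
  · have h := hD ⟨t, ⟨hge, hle⟩, rfl⟩
    simp only [id_eq, Pi.add_apply, Pi.mul_apply, Pi.pow_apply] at h
    have hm : D ≤ max (2 + S) |D| := (le_abs_self D).trans (le_max_right _ _)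
    have := mul_nonneg (abs_nonneg (deriv (cutProf A τ) t)) ht.le
    have := mul_nonneg (abs_nonneg (deriv (deriv (cutProf A τ)) t)) (pow_pos ht 2).le
    have := mul_nonneg (abs_nonneg (deriv (deriv (deriv (cutProf A τ))) t)) (pow_pos ht 3).le
    exact ⟨by linarith, by linarith, by linarith⟩
  · have h := cutProf_eq_zero (A := A) hτ hgt
    have h0 : 0 ≤ max (2 + S) |D| := le_trans (abs_nonneg D) (le_max_right _ _)
    rw [h.deriv_eq, h.deriv.deriv_eq, h.deriv.deriv.deriv_eq]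
    simp [h0]

theorem integrable_kernel (p : E) {r : ℝ} (hr : 0 < r) :
    Integrable fun x : E => 1 / (‖x - p‖ ^ 2 + r ^ 2) ^ 3 := by
  have h1 : Integrable fun x : E => ((1 : ℝ) + ‖x‖ ^ 2) ^ (-(6:ℝ) / 2) :=
    integrable_rpow_neg_one_add_norm_sq (by rw [Module.finrank_fin_fun]; norm_num)
  have h2 := ((h1.comp_smul (inv_ne_zero hr.ne')).const_mul (r ^ 6)⁻¹).comp_sub_right p
  refine h2.congr (Eventually.of_forall fun x => ?_)
  have hb : 0 < 1 + ‖r⁻¹ • (x - p)‖ ^ 2 := by positivity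
  simp only
  rw [show (-(6:ℝ) / 2) = -((3:ℕ):ℝ) by norm_num, Real.rpow_neg hb.le, Real.rpow_natCast]
  rw [norm_smul, norm_inv, Real.norm_eq_abs, abs_of_pos hr]
  field_simp
  ring

theorem integral_kernel (p : E) {r : ℝ} (hr : 0 < r) :
    ∫ x, 1 / (‖x - p‖ ^ 2 + r ^ 2) ^ 3 = (∫ x : E, 1 / (‖x‖ ^ 2 + 1) ^ 3) / r ^ 2 := by
  rw [integral_sub_right_eq_self (fun x : E => 1 / (‖x‖ ^ 2 + r ^ 2) ^ 3) p]
  have h := Measure.integral_comp_smul (volume : Measure E)
    (fun x : E => 1 / (‖x‖ ^ 2 + r ^ 2) ^ 3) r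
  rw [Module.finrank_fin_fun, abs_of_pos (by positivity), smul_eq_mul] at h
  have he : (fun x : E => 1 / (‖r • x‖ ^ 2 + r ^ 2) ^ 3)
      = fun x : E => (r ^ 6)⁻¹ * (1 / (‖x‖ ^ 2 + 1) ^ 3) := by
    funext x
    rw [norm_smul, Real.norm_eq_abs, abs_of_pos hr]
    field_simp
  rw [he, integral_const_mul] at h
  field_simp at h ⊢
  exact h.symm

/-- The anti-invariant part of the test potential, one component. -/
noncomputable def potAnti (J : E → M) (A τ B : ℝ) (p : E) (r : ℝ) (i j : Fin 4) (x : E) : ℝ :=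
  panti (J x) (ddc J (pot J A τ B p r) x) i j

theorem potAnti_spec {V : Set E} {J : E → M} (hJ : IsACS V J) {A τ B : ℝ} (hB : 1 ≤ B) {p : E}
    {r : ℝ} (hr : 0 < r) (htest : IsTest V (pot J A τ B p r)) (i j : Fin 4) :
    ContDiff ℝ ∞ (potAnti J A τ B p r i j) ∧ ∀ x ∈ V, potAnti J A τ B p r i j x
      = deriv (cutProf A τ) (rho (gmat (J p)) p (r ^ 2 / (4 * B)) x) * coef J p i j x := by
  set g := gmat (J p)
  set σ := r ^ 2 / (4 * B)
  have hσ : 0 < σ := by positivity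
  have hpos : ∀ z, 0 < rho g p σ z := rho_pos hσ
  have hcd : ContDiffOn ℝ 2 (cutProf A τ) (Ioi 0) :=
    (cutProf_contDiffOn A τ).of_le (by norm_cast)
  have hpd : ∀ k z, pd k (pot J A τ B p r) z
      = deriv (cutProf A τ) (rho g p σ z) * (2 * (g *ᵥ (z - p)) k) := fun k z => by
    show pd k (fun z => cutProf A τ (rho g p σ z)) z = _
    rw [pd_comp ((hcd.differentiableOn (by norm_num)).differentiableAt (Ioi_mem_nhds (hpos z)))
      (((rho_contDiff g p σ (n := 1)).differentiable one_ne_zero) z), pd_rho (transpose_gmat _)]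
  have hsym : ∀ a b z, pd a (pd b (pot J A τ B p r)) z = pd b (pd a (pot J A τ B p r)) z := by
    intro a b z
    show pd a (pd b fun z => cutProf A τ (rho g p σ z)) z
      = pd b (pd a fun z => cutProf A τ (rho g p σ z)) z
    rw [pd_pd_comp (transpose_gmat _) p hcd hpos, pd_pd_comp (transpose_gmat _) p hcd hpos,
      show gmat (J p) b a = gmat (J p) a b from congrFun (congrFun (transpose_gmat (J p)) a) b]
    ring
  have heq : ∀ x ∈ V, potAnti J A τ B p r i j x
      = deriv (cutProf A τ) (rho g p σ x) * coef J p i j x := fun x hx => by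
    unfold potAnti
    rw [panti_ddc (fun a b => ((hJ.smooth a b).differentiableOn (by simp)).differentiableAt
        (hJ.isOpen.mem_nhds hx))
      (fun k => ((contDiff_pd_test htest k).smooth.differentiable (by simp)) x)
      (fun a b => hsym a b x) (hJ.sq x hx), coef, Matrix.sum_apply, Finset.mul_sum]
    exact Finset.sum_congr rfl fun k _ => by rw [Matrix.smul_apply, smul_eq_mul, hpd]; ring
  refine ⟨?_, heq⟩
  refine contDiff_iff_contDiffAt.2 fun x => ?_
  by_cases hx : x ∈ V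
  · have hd1 : ContDiffOn ℝ ∞ (deriv (cutProf A τ)) (Ioi 0) :=
      ((contDiffOn_infty_iff_deriv_of_isOpen isOpen_Ioi).1 (cutProf_contDiffOn A τ)).2
    have hc : ContDiffAt ℝ ∞ (coef J p i j) x := by
      refine ContDiffAt.sum fun k _ => ContDiffAt.mul ?_
        ((dJanti_smooth hJ k i j).contDiffAt (hJ.isOpen.mem_nhds hx))
      simp only [Matrix.mulVec, dotProduct, Pi.sub_apply]
      fun_prop
    refine (((hd1.comp_contDiff (rho_contDiff g p σ) hpos).contDiffAt).mul hc).congr_of_eventuallyEq ?_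
    filter_upwards [hJ.isOpen.mem_nhds hx] with y hy using heq y hy
  · have : x ∉ tsupport (pot J A τ B p r) := fun h => hx (htest.supp h)
    refine (contDiffAt_const (c := (0:ℝ))).congr_of_eventuallyEq ?_
    filter_upwards [(isClosed_tsupport _).isOpen_compl.mem_nhds this] with y hy
    simp [potAnti, ddc_eq_zero (J := J) hy, panti]

theorem coef_smooth {V : Set E} {J : E → M} (hJ : IsACS V J) (p : E) (i j : Fin 4) :
    ContDiffOn ℝ ∞ (coef J p i j) V := by
  refine ContDiffOn.sum fun k _ => ContDiffOn.mul ?_ (dJanti_smooth hJ k i j)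
  simp only [Matrix.mulVec, dotProduct, Pi.sub_apply]
  fun_prop

theorem coef_bounds {V : Set E} {J : E → M} (hJ : IsACS V J) {K : Set E} (hKV : K ⊆ V)
    (hK : IsCompact K) :
    ∃ Q : ℝ, 0 ≤ Q ∧ ∀ (p x : E), x ∈ K → ∀ (B : ℝ), (∀ a b, |gmat (J p) a b| ≤ B) →
      ∀ i j, |coef J p i j x| ≤ Q * B * ‖x - p‖ ∧
        ∀ a b, |pd a (coef J p i j) x| ≤ Q * B * (1 + ‖x - p‖) ∧
          |pd a (pd b (coef J p i j)) x| ≤ Q * B * (1 + ‖x - p‖) := by
  have hd1 : ∀ k i j a, ContDiffOn ℝ ∞ (pd a fun x => dJanti J k x i j) V := fun k i j a =>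
    ((dJanti_smooth hJ k i j).fderiv_of_isOpen hJ.isOpen le_rfl).clm_apply contDiffOn_const
  have hd2 : ∀ k i j a b, ContDiffOn ℝ ∞ (pd a (pd b fun x => dJanti J k x i j)) V :=
    fun k i j a b => ((hd1 k i j b).fderiv_of_isOpen hJ.isOpen le_rfl).clm_apply contDiffOn_const
  obtain ⟨Q0, hQ0⟩ := exists_pos_bound hK (f := fun x => ∑ k, ∑ i, ∑ j,
      (|dJanti J k x i j| + ∑ a, (|pd a (fun x => dJanti J k x i j) x|
        + ∑ b, |pd a (pd b fun x => dJanti J k x i j) x|)))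
    (continuousOn_finsetSum _ fun k _ => continuousOn_finsetSum _ fun i _ =>
      continuousOn_finsetSum _ fun j _ =>
        ((dJanti_smooth hJ k i j).continuousOn.mono hKV).abs.add
          (continuousOn_finsetSum _ fun a _ => ((hd1 k i j a).continuousOn.mono hKV).abs.add
            (continuousOn_finsetSum _ fun b _ => ((hd2 k i j a b).continuousOn.mono hKV).abs)))
  refine ⟨64 * |Q0|, by positivity, fun p x hx B hgB i j => ?_⟩
  have hall : ∀ k, |dJanti J k x i j| ≤ |Q0| ∧ ∀ a, |pd a (fun x => dJanti J k x i j) x| ≤ |Q0| ∧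
      ∀ b, |pd a (pd b fun x => dJanti J k x i j) x| ≤ |Q0| := fun k => by
    set T := fun k i j => |dJanti J k x i j| + ∑ a, (|pd a (fun x => dJanti J k x i j) x|
        + ∑ b, |pd a (pd b fun x => dJanti J k x i j) x|)
    have hT : ∀ k i j, 0 ≤ T k i j := fun k i j => by positivity
    have h : T k i j ≤ |Q0| :=
      ((Finset.single_le_sum (fun j _ => hT k i j) (Finset.mem_univ j)).trans
        ((Finset.single_le_sum (f := fun i => ∑ j, T k i j)
          (fun i _ => Finset.sum_nonneg fun j _ => hT k i j) (Finset.mem_univ i)).trans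
        (Finset.single_le_sum (f := fun k => ∑ i, ∑ j, T k i j)
          (fun k _ => Finset.sum_nonneg fun i _ => Finset.sum_nonneg fun j _ => hT k i j)
          (Finset.mem_univ k)))).trans ((le_abs_self _).trans ((hQ0 x hx).trans (le_abs_self _)))
    have hs : ∀ a, 0 ≤ |pd a (fun x => dJanti J k x i j) x|
        + ∑ b, |pd a (pd b fun x => dJanti J k x i j) x| := fun a => by positivity
    refine ⟨(le_add_of_nonneg_right (Finset.sum_nonneg fun a _ => hs a)).trans h, fun a => ?_⟩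
    have ha := (Finset.single_le_sum (fun a _ => hs a) (Finset.mem_univ a)).trans
      ((le_add_of_nonneg_left (abs_nonneg (dJanti J k x i j))).trans h)
    refine ⟨(le_add_of_nonneg_right (Finset.sum_nonneg fun b _ => abs_nonneg _)).trans ha,
      fun b => ?_⟩
    exact (Finset.single_le_sum (f := fun b => |pd a (pd b fun x => dJanti J k x i j) x|)
      (fun b _ => abs_nonneg _) (Finset.mem_univ b)).trans
      ((le_add_of_nonneg_left (abs_nonneg _)).trans ha)
  have hB0 : 0 ≤ B := (abs_nonneg _).trans (hgB 0 0)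
  set g := gmat (J p)
  have hL : ∀ k, |2 * (g *ᵥ (x - p)) k| ≤ 8 * B * ‖x - p‖ := fun k => by
    rw [abs_mul, abs_two]
    linarith [abs_mulVec_le hgB (x - p) k]
  have hpL : ∀ k a z, pd a (fun z : E => 2 * (g *ᵥ (z - p)) k) z = 2 * g k a := fun k a z => by
    have h : HasFDerivAt (fun z : E => 2 * (g *ᵥ (z - p)) k)
        ((2:ℝ) • ∑ l, g k l • (ContinuousLinearMap.proj (R := ℝ) l : E →L[ℝ] ℝ)) z := by
      have h0 : (fun z : E => 2 * (g *ᵥ (z - p)) k) = fun z : E => 2 * ∑ l, g k l * (z l - p l) := by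
        funext z; simp [Matrix.mulVec, dotProduct]
      rw [h0]
      exact (HasFDerivAt.fun_sum fun l _ =>
        ((hasFDerivAt_apply l z).sub_const _).const_mul _).const_mul 2
    show fderiv ℝ (fun z : E => 2 * (g *ᵥ (z - p)) k) z (e a) = _
    rw [h.fderiv]
    simp [e, Pi.single_apply]
  have hdL : ∀ k z, DifferentiableAt ℝ (fun z : E => 2 * (g *ᵥ (z - p)) k) z := fun k z => by
    simp only [Matrix.mulVec, dotProduct, Pi.sub_apply]
    fun_prop
  have hdP : ∀ k z, z ∈ V → DifferentiableAt ℝ (fun x => dJanti J k x i j) z := fun k z hz =>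
    ((dJanti_smooth hJ k i j).differentiableOn (by simp)).differentiableAt (hJ.isOpen.mem_nhds hz)
  have hdP1 : ∀ k b, DifferentiableAt ℝ (pd b fun x => dJanti J k x i j) x := fun k b =>
    ((hd1 k i j b).differentiableOn (by simp)).differentiableAt (hJ.isOpen.mem_nhds (hKV hx))
  have hsumpd : ∀ (F : Fin 4 → E → ℝ) z a, (∀ k, DifferentiableAt ℝ (F k) z) →
      pd a (fun y => ∑ k, F k y) z = ∑ k, pd a (F k) z := fun F z a hF => by
    show fderiv ℝ (fun y => ∑ k, F k y) z (e a) = _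
    rw [fderiv_fun_sum fun k _ => hF k]
    simp [pd]
  have hp1 : ∀ a z, z ∈ V → pd a (coef J p i j) z = ∑ k, (2 * g k a * dJanti J k z i j
      + 2 * (g *ᵥ (z - p)) k * pd a (fun x => dJanti J k x i j) z) := fun a z hz => by
    show pd a (fun y => ∑ k, 2 * (g *ᵥ (y - p)) k * dJanti J k y i j) z = _
    rw [hsumpd (fun k y => 2 * (g *ᵥ (y - p)) k * dJanti J k y i j) z a
      fun k => (hdL k z).mul (hdP k z hz)]
    exact Finset.sum_congr rfl fun k _ => by rw [pd_mul_at (hdL k z) (hdP k z hz), hpL]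
  have h4 : ∀ (F : Fin 4 → ℝ) (b : ℝ), (∀ k, |F k| ≤ b) → |∑ k, F k| ≤ 4 * b := fun F b h => by
    refine (Finset.abs_sum_le_sum_abs _ _).trans
      ((Finset.sum_le_card_nsmul _ _ b fun k _ => h k).trans (le_of_eq ?_))
    simp
  have hn := norm_nonneg (x - p)
  have hQ0' := abs_nonneg Q0
  refine ⟨?_, fun a b => ⟨?_, ?_⟩⟩
  · refine (h4 _ (8 * B * ‖x - p‖ * |Q0|) fun k => ?_).trans ?_
    · rw [abs_mul]
      exact mul_le_mul (hL k) (hall k).1 (abs_nonneg _) (by positivity)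
    · nlinarith [mul_nonneg (mul_nonneg hB0 hn) hQ0']
  · rw [hp1 a x (hKV hx)]
    refine (h4 _ (2 * B * |Q0| + 8 * B * ‖x - p‖ * |Q0|) fun k => ?_).trans ?_
    · refine (abs_add_le _ _).trans (add_le_add ?_ ?_)
      · rw [abs_mul, abs_mul, abs_two]
        exact mul_le_mul (mul_le_mul_of_nonneg_left (hgB k a) zero_le_two) (hall k).1
          (abs_nonneg _) (by positivity)
      · rw [abs_mul]
        exact mul_le_mul (hL k) ((hall k).2 a).1 (abs_nonneg _) (by positivity)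
    · nlinarith [mul_nonneg (mul_nonneg hB0 hn) hQ0', mul_nonneg hB0 hQ0']
  · have he : pd b (coef J p i j) =ᶠ[𝓝 x] fun z => ∑ k, (2 * g k b * dJanti J k z i j
        + 2 * (g *ᵥ (z - p)) k * pd b (fun x => dJanti J k x i j) z) := by
      filter_upwards [hJ.isOpen.mem_nhds (hKV hx)] with z hz using hp1 b z hz
    show |fderiv ℝ (pd b (coef J p i j)) x (e a)| ≤ _
    rw [he.fderiv_eq]
    show |pd a (fun z => ∑ k, (2 * g k b * dJanti J k z i j
        + 2 * (g *ᵥ (z - p)) k * pd b (fun x => dJanti J k x i j) z)) x| ≤ _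
    rw [hsumpd (fun k z => 2 * g k b * dJanti J k z i j
        + 2 * (g *ᵥ (z - p)) k * pd b (fun x => dJanti J k x i j) z) x a
      fun k => ((hdP k x (hKV hx)).const_mul _).add ((hdL k x).mul (hdP1 k b))]
    refine (h4 _ (4 * B * |Q0| + 8 * B * ‖x - p‖ * |Q0|) fun k => ?_).trans ?_
    · rw [pd_add_at (F := fun z => 2 * g k b * dJanti J k z i j)
          (G := fun z => 2 * (g *ᵥ (z - p)) k * pd b (fun x => dJanti J k x i j) z)
          ((hdP k x (hKV hx)).const_mul _) ((hdL k x).mul (hdP1 k b)),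
        pd_mul_at (hdL k x) (hdP1 k b), hpL]
      have h0 : pd a (fun z => 2 * g k b * dJanti J k z i j) x
          = 2 * g k b * pd a (fun z => dJanti J k z i j) x := by
        show fderiv ℝ (fun z => 2 * g k b * dJanti J k z i j) x (e a) = _
        rw [fderiv_const_mul (hdP k x (hKV hx))]
        simp [pd]
      rw [h0]
      refine (abs_add_three _ _ _).trans ?_ |>.trans' (le_of_eq (by rw [add_assoc]))
      have e1 : |2 * g k b * pd a (fun z => dJanti J k z i j) x| ≤ 2 * B * |Q0| := by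
        rw [abs_mul, abs_mul, abs_two]
        exact mul_le_mul (mul_le_mul_of_nonneg_left (hgB k b) zero_le_two) ((hall k).2 a).1
          (abs_nonneg _) (by positivity)
      have e2 : |2 * g k a * pd b (fun z => dJanti J k z i j) x| ≤ 2 * B * |Q0| := by
        rw [abs_mul, abs_mul, abs_two]
        exact mul_le_mul (mul_le_mul_of_nonneg_left (hgB k a) zero_le_two) ((hall k).2 b).1
          (abs_nonneg _) (by positivity)
      have e3 : |2 * (g *ᵥ (x - p)) k * pd a (pd b fun z => dJanti J k z i j) x|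
          ≤ 8 * B * ‖x - p‖ * |Q0| := by
        rw [abs_mul]
        exact mul_le_mul (hL k) (((hall k).2 a).2 b) (abs_nonneg _) (by positivity)
      linarith
    · nlinarith [mul_nonneg (mul_nonneg hB0 hn) hQ0', mul_nonneg hB0 hQ0']

theorem d2_arith {s T N Q Bg La Lb g a aa ab a2 P0 P1 P2 : ℝ} (hs : 0 < s) (hsT : s ≤ T)
    (hP0 : |P0| ≤ N / s ^ 2) (hP1 : |P1| ≤ N / s ^ 4) (hP2 : |P2| ≤ N / s ^ 6)
    (hLa : |La| ≤ Bg * s) (hLb : |Lb| ≤ Bg * s) (hg : |g| ≤ Bg) (ha : |a| ≤ Q * s)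
    (haa : |aa| ≤ Q) (hab : |ab| ≤ Q) (ha2 : |a2| ≤ Q) :
    |(P2 * La * Lb + P1 * g) * a + P1 * Lb * aa + P1 * La * ab + P0 * a2|
      ≤ N * Q * (Bg ^ 2 + 3 * Bg + T) / s ^ 3 := by
  have hBg : 0 ≤ Bg := (abs_nonneg _).trans hg
  have hQ : 0 ≤ Q := (abs_nonneg _).trans haa
  have hN : 0 ≤ N := by
    have h := (abs_nonneg _).trans hP0
    rcases le_total 0 N with h' | h'
    · exact h'
    · exact ((le_div_iff₀ (pow_pos hs 2)).1 h).trans' (by simp)
  calc |(P2 * La * Lb + P1 * g) * a + P1 * Lb * aa + P1 * La * ab + P0 * a2|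
      ≤ (|P2| * |La| * |Lb| + |P1| * |g|) * |a| + |P1| * |Lb| * |aa| + |P1| * |La| * |ab|
          + |P0| * |a2| := by
        refine (abs_add_le _ _).trans (add_le_add ((abs_add_three _ _ _).trans ?_) (abs_mul _ _).le)
        simp only [abs_mul]
        gcongr
        refine (abs_add_le _ _).trans ?_
        simp only [abs_mul]
        exact le_rfl
    _ ≤ (N / s ^ 6 * (Bg * s) * (Bg * s) + N / s ^ 4 * Bg) * (Q * s)
          + N / s ^ 4 * (Bg * s) * Q + N / s ^ 4 * (Bg * s) * Q + N / s ^ 2 * Q := by gcongr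
    _ = N * Q * (Bg ^ 2 + 3 * Bg) / s ^ 3 + N * Q * s / s ^ 3 := by field_simp; ring
    _ ≤ N * Q * (Bg ^ 2 + 3 * Bg) / s ^ 3 + N * Q * T / s ^ 3 := by gcongr
    _ = _ := by ring

/-- The data of one point in the support of a test potential. -/
structure PtBd (J : E → M) (p x : E) (B r N Q T : ℝ) (i j : Fin 4) : Prop where
  one_le : 1 ≤ B
  r_pos : 0 < r
  gle : ∀ a b, |gmat (J p) a b| ≤ B
  low : ‖x - p‖ ≤ B * Real.sqrt (rho (gmat (J p)) p (r ^ 2 / (4 * B)) x)
  big : Real.sqrt (rho (gmat (J p)) p (r ^ 2 / (4 * B)) x) ≤ T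
  nonneg : 0 ≤ N ∧ 0 ≤ Q
  val0 : |coef J p i j x| ≤ Q * Real.sqrt (rho (gmat (J p)) p (r ^ 2 / (4 * B)) x)
  der : ∀ a b, |pd a (coef J p i j) x| ≤ Q ∧ |pd a (pd b (coef J p i j)) x| ≤ Q
  key : 1 / rho (gmat (J p)) p (r ^ 2 / (4 * B)) x ^ 3
    ≤ (4 * B) ^ 3 * (1 / (‖x - p‖ ^ 2 + r ^ 2) ^ 3)

theorem PtBd.pos {J : E → M} {p x : E} {B r N Q T : ℝ} {i j : Fin 4}
    (h : PtBd J p x B r N Q T i j) : ∀ z, 0 < rho (gmat (J p)) p (r ^ 2 / (4 * B)) z :=
  rho_pos (by have := h.one_le; have := h.r_pos; positivity)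

theorem PtBd.zero_order {V : Set E} {J : E → M} (hJ : IsACS V J) {A τ : ℝ} {p x : E}
    {B r N Q T : ℝ} {i j : Fin 4} (h : PtBd J p x B r N Q T i j)
    (htest : IsTest V (pot J A τ B p r)) (hx : x ∈ V)
    (hprof : ∀ t > 0, |deriv (cutProf A τ) t| ≤ N / t) :
    potAnti J A τ B p r i j x ^ 2
      ≤ T ^ 4 * (N * Q) ^ 2 * ((4 * B) ^ 3 * (1 / (‖x - p‖ ^ 2 + r ^ 2) ^ 3)) := by
  rw [(potAnti_spec hJ h.one_le h.r_pos htest i j).2 x hx]
  set t := rho (gmat (J p)) p (r ^ 2 / (4 * B)) x with htdef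
  have ht : 0 < t := h.pos x
  have hs : 0 < Real.sqrt t := Real.sqrt_pos.2 ht
  have hval := h.val0
  have hbig := h.big
  have hkey := h.key
  rw [← htdef] at hval hbig hkey
  set s := Real.sqrt t
  have hsq : s ^ 2 = t := Real.sq_sqrt ht.le
  have hN := h.nonneg
  calc (deriv (cutProf A τ) t * coef J p i j x) ^ 2 ≤ (N / t * (Q * s)) ^ 2 := by
        rw [← sq_abs, abs_mul]
        exact pow_le_pow_left₀ (mul_nonneg (abs_nonneg _) (abs_nonneg _))
          (mul_le_mul (hprof t ht) hval (abs_nonneg _) (div_nonneg hN.1 ht.le)) 2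
    _ = (N * Q) ^ 2 * (s ^ 4 * (1 / t ^ 3)) := by rw [← hsq]; field_simp
    _ ≤ (N * Q) ^ 2 * (T ^ 4 * (1 / t ^ 3)) := by gcongr
    _ = T ^ 4 * (N * Q) ^ 2 * (1 / t ^ 3) := by ring
    _ ≤ _ := mul_le_mul_of_nonneg_left hkey (by positivity)

theorem PtBd.second_order {V : Set E} {J : E → M} (hJ : IsACS V J) {A τ : ℝ} {p x : E}
    {B r N Q T : ℝ} {i j : Fin 4} (h : PtBd J p x B r N Q T i j)
    (htest : IsTest V (pot J A τ B p r)) (hx : x ∈ V)
    (hprof : ∀ t > 0, |deriv (cutProf A τ) t| ≤ N / t ∧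
      |deriv (deriv (cutProf A τ)) t| ≤ N / t ^ 2 ∧
      |deriv (deriv (deriv (cutProf A τ))) t| ≤ N / t ^ 3) :
    ‖iteratedFDeriv ℝ 2 (potAnti J A τ B p r i j) x‖ ^ 2
      ≤ (16 * (N * Q * ((8 * B ^ 2) ^ 2 + 3 * (8 * B ^ 2) + T))) ^ 2
        * ((4 * B) ^ 3 * (1 / (‖x - p‖ ^ 2 + r ^ 2) ^ 3)) := by
  obtain ⟨hsm, heq⟩ := potAnti_spec hJ h.one_le h.r_pos htest i j
  set g := gmat (J p) with hg
  set σ := r ^ 2 / (4 * B) with hσ
  set t := rho g p σ x with htdef
  have ht : 0 < t := h.pos x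
  set s := Real.sqrt t with hsdef
  have hs : 0 < s := Real.sqrt_pos.2 ht
  have hsq : s ^ 2 = t := Real.sq_sqrt ht.le
  obtain ⟨h1, h2, h3⟩ := hprof t ht
  have hd1 : ContDiffOn ℝ 2 (deriv (cutProf A τ)) (Ioi 0) :=
    (((contDiffOn_infty_iff_deriv_of_isOpen isOpen_Ioi).1 (cutProf_contDiffOn A τ)).2).of_le
      (by norm_cast)
  have hB := h.one_le
  have hLn : ∀ k, |2 * (g *ᵥ (x - p)) k| ≤ 8 * B ^ 2 * s := fun k => by
    rw [abs_mul, abs_two]
    have := abs_mulVec_le h.gle (x - p) k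
    have := mul_le_mul_of_nonneg_left h.low (by linarith : (0:ℝ) ≤ B)
    nlinarith
  have hg2 : ∀ a b, |2 * g a b| ≤ 8 * B ^ 2 := fun a b => by
    rw [abs_mul, abs_two]
    nlinarith [h.gle a b, le_self_pow₀ hB two_ne_zero]
  have hpw : ∀ a b, |pd a (pd b (potAnti J A τ B p r i j)) x|
      ≤ N * Q * ((8 * B ^ 2) ^ 2 + 3 * (8 * B ^ 2) + T) / s ^ 3 := by
    intro a b
    have he : pd b (potAnti J A τ B p r i j) =ᶠ[𝓝 x]
        pd b (fun z => deriv (cutProf A τ) (rho g p σ z) * coef J p i j z) := by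
      filter_upwards [hJ.isOpen.mem_nhds hx] with z hz
      have : potAnti J A τ B p r i j =ᶠ[𝓝 z]
          fun z => deriv (cutProf A τ) (rho g p σ z) * coef J p i j z := by
        filter_upwards [hJ.isOpen.mem_nhds hz] with w hw using heq w hw
      simp [pd, this.fderiv_eq]
    show |fderiv ℝ (pd b (potAnti J A τ B p r i j)) x (e a)| ≤ _
    rw [he.fderiv_eq]
    show |pd a (pd b fun z => deriv (cutProf A τ) (rho g p σ z) * coef J p i j z) x| ≤ _
    rw [pd_pd_rad_mul (transpose_gmat _) p h.pos hd1 hJ.isOpen (coef_smooth hJ p i j) hx, ← htdef]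
    exact d2_arith hs h.big (hsq.symm ▸ h1) (by rw [show s ^ 4 = t ^ 2 by rw [← hsq]; ring]; exact h2)
      (by rw [show s ^ 6 = t ^ 3 by rw [← hsq]; ring]; exact h3)
      (hLn a) (hLn b) (hg2 a b) h.val0 (h.der a b).1 (h.der b a).1 (h.der a b).2
  have hD : ‖iteratedFDeriv ℝ 2 (potAnti J A τ B p r i j) x‖
      ≤ 16 * (N * Q * ((8 * B ^ 2) ^ 2 + 3 * (8 * B ^ 2) + T)) / s ^ 3 := by
    refine (norm_iteratedFDeriv_two_le hsm x).trans ?_
    refine (Finset.sum_le_card_nsmul _ _ _ fun a _ =>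
      Finset.sum_le_card_nsmul _ _ _ fun b _ => hpw a b).trans (le_of_eq ?_)
    simp; ring
  refine (pow_le_pow_left₀ (norm_nonneg _) hD 2).trans ?_
  rw [div_pow, ← pow_mul, show s ^ (3 * 2) = t ^ 3 by rw [← hsq]; ring, ← mul_one_div]
  exact mul_le_mul_of_nonneg_left h.key (sq_nonneg _)

theorem PtBd.difference {V : Set E} {J : E → M} (hJ : IsACS V J) {A τ : ℝ} {p x : E}
    {B r N Q T : ℝ} {i j : Fin 4} (h : PtBd J p x B r N Q T i j)
    (htest : IsTest V (pot J A τ B p r)) (htest2 : IsTest V (pot J A τ B p (2 * r))) (hx : x ∈ V)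
    (hprof : ∀ t > 0, |deriv (deriv (cutProf A τ)) t| ≤ N / t ^ 2) :
    (potAnti J A τ B p r i j x - potAnti J A τ B p (2 * r) i j x) ^ 2
      ≤ (3 * N * Q / (4 * B)) ^ 2 * r ^ 4 * ((4 * B) ^ 3 * (1 / (‖x - p‖ ^ 2 + r ^ 2) ^ 3)) := by
  have hr := h.r_pos
  rw [(potAnti_spec hJ h.one_le hr htest i j).2 x hx,
    (potAnti_spec hJ h.one_le (by linarith) htest2 i j).2 x hx]
  set σ := r ^ 2 / (4 * B) with hσdef
  set t := rho (gmat (J p)) p σ x with htdef
  have ht : 0 < t := h.pos x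
  have hσ : 0 ≤ σ := by have := h.one_le; positivity
  set s := Real.sqrt t with hsdef
  have hsq : s ^ 2 = t := Real.sq_sqrt ht.le
  have hrho : rho (gmat (J p)) p ((2 * r) ^ 2 / (4 * B)) x = t + 3 * σ := by
    rw [htdef, hσdef, rho, rho]; ring
  rw [hrho, ← sub_mul]
  have hd2 : ContDiffOn ℝ ∞ (deriv (cutProf A τ)) (Ioi 0) :=
    ((contDiffOn_infty_iff_deriv_of_isOpen isOpen_Ioi).1 (cutProf_contDiffOn A τ)).2
  have hm : |deriv (cutProf A τ) t - deriv (cutProf A τ) (t + 3 * σ)| ≤ N / t ^ 2 * (3 * σ) := by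
    have := (convex_Icc t (t + 3 * σ)).norm_image_sub_le_of_norm_deriv_le
      (f := deriv (cutProf A τ))
      (fun u hu => (hd2.differentiableOn (by simp)).differentiableAt
        (Ioi_mem_nhds (lt_of_lt_of_le ht hu.1)))
      (C := N / t ^ 2) (fun u hu => ?_) (left_mem_Icc.2 (by linarith))
      (right_mem_Icc.2 (by linarith))
    · rw [abs_sub_comm]
      simpa [abs_of_nonneg hσ] using this
    · rw [Real.norm_eq_abs]
      exact (hprof u (lt_of_lt_of_le ht hu.1)).trans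
        (div_le_div_of_nonneg_left h.nonneg.1 (pow_pos ht 2) (pow_le_pow_left₀ ht.le hu.1 2))
  calc ((deriv (cutProf A τ) t - deriv (cutProf A τ) (t + 3 * σ)) * coef J p i j x) ^ 2
      ≤ (N / t ^ 2 * (3 * σ) * (Q * s)) ^ 2 := by
        rw [← sq_abs, abs_mul]
        exact pow_le_pow_left₀ (mul_nonneg (abs_nonneg _) (abs_nonneg _))
          (mul_le_mul hm h.val0 (abs_nonneg _) (by have := h.nonneg.1; positivity)) 2
    _ = (3 * N * Q / (4 * B)) ^ 2 * r ^ 4 * (1 / t ^ 3) := by rw [hσdef, ← hsq]; field_simp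
    _ ≤ _ := mul_le_mul_of_nonneg_left h.key (by positivity)

theorem exists_ptBd {V : Set E} {J : E → M} (hJ : IsACS V J) {K : Set E}
    (hK : IsCompact K) {R B : ℝ} (hR : 0 < R) (hB : 1 ≤ B) {N : ℝ} (hN : 0 ≤ N)
    (hbd : ∀ p ∈ K, closedBall p R ⊆ V ∧ ∀ x ∈ closedBall p R, Bd J (gmat (J p)) p x B) :
    ∃ Q : ℝ, 0 ≤ Q ∧ ∀ p ∈ K, ∀ r ∈ Ioc (0:ℝ) R, ∀ x ∈ closedBall p R, ∀ i j,
      PtBd J p x B r N Q (5 * B * R) i j := by
  set K' := cthickening R K
  have hK'V : K' ⊆ V := by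
    show cthickening R K ⊆ V
    rw [hK.cthickening_eq_biUnion_closedBall hR.le]
    exact iUnion₂_subset fun p hp => (hbd p hp).1
  obtain ⟨Q, hQ, hcoef⟩ := coef_bounds hJ hK'V hK.cthickening
  have hB0 : 0 < B := by linarith
  refine ⟨Q * B * (B + 1 + R), by positivity, fun p hp r hr x hx i j => ?_⟩
  have hb := (hbd p hp).2 x hx
  set g := gmat (J p)
  set σ := r ^ 2 / (4 * B) with hσdef
  have hσ : 0 < σ := by have := hr.1; positivity
  set t := rho g p σ x with htdef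
  have ht : 0 < t := rho_pos hσ x
  set s := Real.sqrt t with hsdef
  have hsq : s ^ 2 = t := Real.sq_sqrt ht.le
  set n := ‖x - p‖ with hn
  have hnR : n ≤ R := by rw [hn, ← dist_eq_norm]; exact mem_closedBall.1 hx
  have hn00 : 0 ≤ n := norm_nonneg _
  have h1 := hb.low (x - p)
  have h2 : (x - p) ⬝ᵥ (g *ᵥ (x - p)) = t - σ := by rw [htdef, rho]; ring
  rw [h2] at h1
  have hn0 : 0 < n ^ 2 + r ^ 2 := by have := hr.1; positivity
  have hlow : n ^ 2 + r ^ 2 ≤ 4 * B * t := by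
    have h3 : 4 * B * σ = r ^ 2 := by rw [hσdef]; field_simp
    nlinarith [sq_nonneg n]
  have hns : n ≤ B * s := by
    refine le_of_pow_le_pow_left₀ two_ne_zero (by positivity) ?_
    rw [mul_pow, hsq]
    nlinarith [mul_nonneg (mul_nonneg hB0.le (by linarith : (0:ℝ) ≤ B - 1)) ht.le,
      mul_nonneg hB0.le hσ.le]
  have hsT : s ≤ 5 * B * R := by
    refine le_of_pow_le_pow_left₀ two_ne_zero (by positivity) ?_
    rw [hsq]
    have h4 := (le_abs_self _).trans (abs_dot_le hb.gle (x - p) (x - p))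
    rw [h2, ← hn] at h4
    have h5 : σ ≤ R ^ 2 := (div_le_self (sq_nonneg r) (by linarith)).trans
      (pow_le_pow_left₀ hr.1.le hr.2 2)
    have h6 : 16 * B * n * n ≤ 16 * B * R * R := by gcongr
    nlinarith [mul_le_mul_of_nonneg_right (le_self_pow₀ hB (two_ne_zero)) (sq_nonneg R),
      mul_le_mul_of_nonneg_right (one_le_pow₀ hB (n := 2)) (sq_nonneg R), sq_nonneg R]
  obtain ⟨hc0, hc12⟩ := hcoef p x (closedBall_subset_cthickening hp R hx) B hb.gle i j
  refine ⟨hB, hr.1, hb.gle, hns, hsT, ⟨hN, by positivity⟩, ?_, fun a b => ?_, ?_⟩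
  · refine hc0.trans ?_
    calc Q * B * n ≤ Q * B * (B * s) := by gcongr
      _ ≤ Q * B * (B + 1 + R) * s := by
        rw [← mul_assoc]
        gcongr
        linarith
  · have : Q * B * (1 + n) ≤ Q * B * (B + 1 + R) := by gcongr; linarith
    exact ⟨(hc12 a b).1.trans this, (hc12 a b).2.trans this⟩
  · rw [mul_one_div, div_le_div_iff₀ (by positivity) (by positivity), one_mul, ← mul_pow]
    exact pow_le_pow_left₀ hn0.le hlow 3

theorem potAnti_bounds {V : Set E} {J : E → M} (hJ : IsACS V J) {K : Set E}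
    (hK : IsCompact K) {R B A τ : ℝ} (hR : 0 < R) (hB : 1 ≤ B) (hτ : 0 < τ)
    (hbd : ∀ p ∈ K, closedBall p R ⊆ V ∧ ∀ x ∈ closedBall p R, Bd J (gmat (J p)) p x B)
    (htest : ∀ p ∈ K, ∀ r ∈ Ioc (0:ℝ) R,
      IsTest V (pot J A τ B p r) ∧ tsupport (pot J A τ B p r) ⊆ closedBall p R) :
    ∃ C : ℝ, 0 ≤ C ∧ ∀ p ∈ K, ∀ r ∈ Ioc (0:ℝ) R, ∀ i j, ∀ x,
      potAnti J A τ B p r i j x ^ 2 ≤ C * (1 / (‖x - p‖ ^ 2 + r ^ 2) ^ 3) ∧
      ‖iteratedFDeriv ℝ 2 (potAnti J A τ B p r i j) x‖ ^ 2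
        ≤ C * (1 / (‖x - p‖ ^ 2 + r ^ 2) ^ 3) ∧
      (2 * r ≤ R → (potAnti J A τ B p r i j x - potAnti J A τ B p (2 * r) i j x) ^ 2
        ≤ C * r ^ 4 * (1 / (‖x - p‖ ^ 2 + r ^ 2) ^ 3)) := by
  obtain ⟨N, hN, hprof⟩ := cutProf_bounds A hτ
  obtain ⟨Q, hQ, hpt⟩ := exists_ptBd hJ hK hR hB hN hbd
  set T := 5 * B * R
  set C0 := T ^ 4 * (N * Q) ^ 2
  set C2 := (16 * (N * Q * ((8 * B ^ 2) ^ 2 + 3 * (8 * B ^ 2) + T))) ^ 2
  set C1 := (3 * N * Q / (4 * B)) ^ 2
  have hC0 : 0 ≤ C0 := by positivity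
  have hC2 : 0 ≤ C2 := sq_nonneg _
  have hC1 : 0 ≤ C1 := sq_nonneg _
  refine ⟨(C0 + C2 + C1) * (4 * B) ^ 3, by positivity, fun p hp r hr i j x => ?_⟩
  have hk : 0 ≤ (4 * B) ^ 3 * (1 / (‖x - p‖ ^ 2 + r ^ 2) ^ 3) := by positivity
  by_cases hx : x ∈ closedBall p R
  swap
  · have hz : ∀ r ∈ Ioc (0:ℝ) R, potAnti J A τ B p r i j =ᶠ[𝓝 x] fun _ => 0 := fun r hr => by
      filter_upwards [isClosed_closedBall.isOpen_compl.mem_nhds hx] with y hy
      simp [potAnti, ddc_eq_zero (J := J) fun h => hy ((htest p hp r hr).2 h), panti]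
    refine ⟨?_, ?_, fun h2 => ?_⟩
    · rw [(hz r hr).eq_of_nhds]; simp only [ne_eq, OfNat.ofNat_ne_zero, not_false_eq_true, zero_pow]
      positivity
    · rw [((hz r hr).iteratedFDeriv ℝ 2).eq_of_nhds, iteratedFDeriv_fun_zero]
      simp only [Pi.zero_apply, norm_zero, ne_eq, OfNat.ofNat_ne_zero, not_false_eq_true, zero_pow]
      positivity
    · rw [(hz r hr).eq_of_nhds, (hz (2 * r) ⟨by linarith [hr.1], h2⟩).eq_of_nhds]
      simp only [sub_zero, ne_eq, OfNat.ofNat_ne_zero, not_false_eq_true, zero_pow]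
      positivity
  have h := hpt p hp r hr x hx i j
  have hxV : x ∈ V := (hbd p hp).1 hx
  have ht := (htest p hp r hr).1
  refine ⟨(h.zero_order hJ ht hxV fun t ht => (hprof t ht).1).trans ?_,
    (h.second_order hJ ht hxV hprof).trans ?_, fun h2 => ?_⟩
  · rw [mul_assoc (C0 + C2 + C1)]
    exact mul_le_mul_of_nonneg_right (by linarith) hk
  · rw [mul_assoc (C0 + C2 + C1)]
    exact mul_le_mul_of_nonneg_right (by linarith) hk
  · refine (h.difference hJ ht (htest p hp (2 * r) ⟨by linarith [hr.1], h2⟩).1 hxV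
      fun t ht => (hprof t ht).2.1).trans ?_
    calc C1 * r ^ 4 * ((4 * B) ^ 3 * (1 / (‖x - p‖ ^ 2 + r ^ 2) ^ 3))
        ≤ (C0 + C2 + C1) * r ^ 4 * ((4 * B) ^ 3 * (1 / (‖x - p‖ ^ 2 + r ^ 2) ^ 3)) :=
          mul_le_mul_of_nonneg_right (mul_le_mul_of_nonneg_right (by linarith) (by positivity)) hk
      _ = _ := by ring

theorem testPotentials : TestPotentials := by
  intro V J hJ K hKV hK
  obtain ⟨R, hR, B, hB, A, τ, hτ, c, hc, hc1, C₀, hC₀, hpot⟩ := pot_spec hJ hKV hK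
  obtain ⟨C₁, hC₁, hb⟩ := potAnti_bounds hJ hK hR hB hτ
    (fun p hp => ⟨(hpot p hp).1, (hpot p hp).2.1⟩)
    (fun p hp r hr => ⟨((hpot p hp).2.2 r hr).1, ((hpot p hp).2.2 r hr).2.1⟩)
  set I := ∫ x : E, 1 / (‖x‖ ^ 2 + 1) ^ 3
  have hI : 0 ≤ I := integral_nonneg fun x => by positivity
  have hint : ∀ (p : E) (r : ℝ), 0 < r → ∀ (F : E → ℝ) (D : ℝ),
      (∀ x, F x ≤ D * (1 / (‖x - p‖ ^ 2 + r ^ 2) ^ 3)) → (∀ x, 0 ≤ F x) →
      ∫ x, F x ≤ D * (I / r ^ 2) := fun p r hr F D h h0 => by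
    refine (integral_mono_of_nonneg (Eventually.of_forall h0)
      ((integrable_kernel p hr).const_mul D) (Eventually.of_forall h)).trans (le_of_eq ?_)
    rw [integral_const_mul, integral_kernel p hr]
  refine ⟨R, hR, c, hc, C₀ + 8 * C₁ * I + 4 * C₁ * I / R ^ 2, fun p hp => ?_⟩
  obtain ⟨hV, -, hf⟩ := hpot p hp
  have hCC : C₀ ≤ C₀ + 8 * C₁ * I + 4 * C₁ * I / R ^ 2 := by
    have : 0 ≤ 4 * C₁ * I / R ^ 2 := by positivity
    have : 0 ≤ 8 * C₁ * I := by positivity
    linarith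
  have hvv : ∀ v : E, 0 ≤ v ⬝ᵥ v := fun v => Finset.sum_nonneg fun j _ => mul_self_nonneg _
  refine ⟨hV, pot J A τ B p, ?_, ?_, ?_⟩
  · intro r hr
    obtain ⟨ht, hs, hin, hgl⟩ := hf r hr
    refine ⟨ht, hs, fun i j => (potAnti_spec hJ hB hr.1 ht i j).1, fun x hx v => ?_, fun x hx v => ?_⟩
    · refine le_trans ?_ (hin x hx v)
      nlinarith [mul_nonneg (hC₀.trans hCC) (hvv v)]
    · refine le_trans ?_ (hgl x hx v)
      nlinarith [mul_le_mul_of_nonneg_right hCC (hvv v)]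
  · intro r hr i j
    have hr0 := hr.1
    have hrR : r ∈ Ioc (0:ℝ) R := ⟨hr.1, hr.2.trans (by linarith)⟩
    have h2r : 2 * r ∈ Ioc (0:ℝ) R := ⟨by linarith, by linarith [hr.2]⟩
    constructor
    · refine (hint p r hr.1 _ (C₁ * r ^ 4) (fun x => ((hb p hp r hrR i j x).2.2 h2r.2))
        (fun x => sq_nonneg _)).trans ?_
      calc C₁ * r ^ 4 * (I / r ^ 2) = C₁ * I * r ^ 2 := by field_simp
        _ ≤ _ := by
          refine mul_le_mul_of_nonneg_right ?_ (sq_nonneg r)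
          have : 0 ≤ 4 * C₁ * I / R ^ 2 := by positivity
          nlinarith [mul_nonneg hC₁ hI]
    · have hs1 := (potAnti_spec hJ hB hr.1 (hf r hrR).1 i j).1
      have hs2 := (potAnti_spec hJ hB h2r.1 (hf (2 * r) h2r).1 i j).1
      refine (hint p r hr.1 _ (4 * C₁) (fun x => ?_) (fun x => sq_nonneg _)).trans ?_
      · show ‖iteratedFDeriv ℝ 2 (potAnti J A τ B p r i j - potAnti J A τ B p (2 * r) i j) x‖ ^ 2 ≤ _
        rw [iteratedFDeriv_sub_apply (hs1.of_le (by norm_cast)).contDiffAt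
          (hs2.of_le (by norm_cast)).contDiffAt]
        have a1 := (hb p hp r hrR i j x).2.1
        have a2 := (hb p hp (2 * r) h2r i j x).2.1
        have a3 : 1 / (‖x - p‖ ^ 2 + (2 * r) ^ 2) ^ 3 ≤ 1 / (‖x - p‖ ^ 2 + r ^ 2) ^ 3 := by
          refine div_le_div_of_nonneg_left zero_le_one (by positivity) ?_
          gcongr
          linarith
        calc ‖_ - _‖ ^ 2 ≤ (‖iteratedFDeriv ℝ 2 (potAnti J A τ B p r i j) x‖
              + ‖iteratedFDeriv ℝ 2 (potAnti J A τ B p (2 * r) i j) x‖) ^ 2 :=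
              pow_le_pow_left₀ (norm_nonneg _) (norm_sub_le _ _) 2
          _ ≤ 2 * ‖iteratedFDeriv ℝ 2 (potAnti J A τ B p r i j) x‖ ^ 2
              + 2 * ‖iteratedFDeriv ℝ 2 (potAnti J A τ B p (2 * r) i j) x‖ ^ 2 := by
              nlinarith [sq_nonneg (‖iteratedFDeriv ℝ 2 (potAnti J A τ B p r i j) x‖
                - ‖iteratedFDeriv ℝ 2 (potAnti J A τ B p (2 * r) i j) x‖)]
          _ ≤ _ := by
              have := mul_le_mul_of_nonneg_left a3 hC₁
              linarith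
      · calc 4 * C₁ * (I / r ^ 2) = 4 * C₁ * I / r ^ 2 := by ring
          _ ≤ _ := by
            refine div_le_div_of_nonneg_right ?_ (sq_nonneg r)
            have : 0 ≤ 4 * C₁ * I / R ^ 2 := by positivity
            nlinarith [mul_nonneg hC₁ hI]
  · intro r hr i j
    have hrR : r ∈ Ioc (0:ℝ) R := ⟨lt_of_lt_of_le (by linarith) hr.1, hr.2⟩
    have hbig : C₁ * (I / r ^ 2) ≤ C₀ + 8 * C₁ * I + 4 * C₁ * I / R ^ 2 := by
      have : C₁ * (I / r ^ 2) ≤ C₁ * (I / (R / 2) ^ 2) := by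
        refine mul_le_mul_of_nonneg_left ?_ hC₁
        exact div_le_div_of_nonneg_left hI (by positivity) (pow_le_pow_left₀ (by linarith) hr.1 2)
      have e : C₁ * (I / (R / 2) ^ 2) = 4 * C₁ * I / R ^ 2 := by field_simp; ring
      nlinarith [mul_nonneg hC₁ hI]
    exact ⟨(hint p r hrR.1 _ C₁ (fun x => (hb p hp r hrR i j x).1) (fun x => sq_nonneg _)).trans hbig,
      (hint p r hrR.1 _ C₁ (fun x => (hb p hp r hrR i j x).2.1) (fun x => sq_nonneg _)).trans hbig⟩

end Vale.Agent.P204.Tame
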