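import Vale.Agent.P204.Tame.EllipticIface

/-!
Calculus tools of the elliptic module: cutoffs, extension by zero, derivatives of products, and
integration by parts for compactly supported functions.
-/

namespace Vale.Agent.P204.Tame

open scoped ContDiff Manifold Topology
open MeasureTheory Set Filter

theorem exists_cutoff {K V : Set E} (hV : IsOpen V) (hK : IsCompact K) (hKV : K ⊆ V) :
    ∃ η : E → ℝ, IsTest V η ∧ (∀ x, 0 ≤ η x ∧ η x ≤ 1) ∧
      ∃ U : Set E, IsOpen U ∧ K ⊆ U ∧ U ⊆ V ∧ ∀ x ∈ U, η x = 1 := by
  obtain ⟨L₁, hL₁, hKL₁, hL₁V⟩ := exists_compact_between hK hV hKV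
  obtain ⟨L₂, hL₂, hL₁L₂, hL₂V⟩ := exists_compact_between hL₁ hV hL₁V
  obtain ⟨f, hf0, hf1, hfI⟩ := exists_contMDiffMap_zero_one_of_isClosed (I := 𝓘(ℝ, E)) (n := (⊤ : ℕ∞))
    (isOpen_interior (s := L₂)).isClosed_compl hL₁.isClosed
    (Set.disjoint_left.2 fun x hx hx' => hx (hL₁L₂ hx'))
  have hsub : tsupport f ⊆ L₂ := by
    refine closure_minimal (fun x hx => ?_) hL₂.isClosed
    by_contra h
    exact hx (hf0 fun h' => h (interior_subset h'))
  refine ⟨f, ⟨f.contMDiff.contDiff, hL₂.of_isClosed_subset (isClosed_tsupport _) hsub,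
    hsub.trans hL₂V⟩, fun x => hfI x, interior L₁, isOpen_interior, hKL₁,
    interior_subset.trans hL₁V, fun x hx => hf1 (interior_subset hx)⟩

/-- A function smooth on an open set containing its support is smooth. -/
theorem contDiff_of_tsupport {V : Set E} (hV : IsOpen V) {n : WithTop ℕ∞} {f : E → ℝ}
    (hf : ContDiffOn ℝ n f V) (hs : tsupport f ⊆ V) : ContDiff ℝ n f := by
  refine contDiff_iff_contDiffAt.2 fun x => ?_
  by_cases hx : x ∈ tsupport f
  · exact hf.contDiffAt (hV.mem_nhds (hs hx))
  · exact contDiffAt_const.congr_of_eventuallyEq (notMem_tsupport_iff_eventuallyEq.1 hx)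

/-- The product of a test function and a function smooth on the open set. -/
theorem IsTest.mul_smooth {V : Set E} (hV : IsOpen V) {η f : E → ℝ} (hη : IsTest V η)
    (hf : ContDiffOn ℝ ∞ f V) : IsTest V fun x => η x * f x := by
  have hs : tsupport (fun x => η x * f x) ⊆ tsupport η := tsupport_mul_subset_left
  exact ⟨contDiff_of_tsupport hV (hη.smooth.contDiffOn.mul hf) (hs.trans hη.supp),
    hη.compact.of_isClosed_subset (isClosed_tsupport _) hs, hs.trans hη.supp⟩

theorem pd_mul {f g : E → ℝ} {x : E} (a : Fin 4) (hf : DifferentiableAt ℝ f x)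
    (hg : DifferentiableAt ℝ g x) :
    pd a (fun y => f y * g y) x = pd a f x * g x + f x * pd a g x := by
  unfold pd
  rw [fderiv_fun_mul hf hg]
  simp only [add_apply, smul_eq_mul, FunLike.coe_smul, Pi.smul_apply]
  ring

theorem pd_add {f g : E → ℝ} {x : E} (a : Fin 4) (hf : DifferentiableAt ℝ f x)
    (hg : DifferentiableAt ℝ g x) :
    pd a (fun y => f y + g y) x = pd a f x + pd a g x := by
  unfold pd
  rw [fderiv_fun_add hf hg, add_apply]

theorem pd_sum {ι : Type*} {s : Finset ι} {f : ι → E → ℝ} {x : E} (a : Fin 4)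
    (hf : ∀ i ∈ s, DifferentiableAt ℝ (f i) x) :
    pd a (fun y => ∑ i ∈ s, f i y) x = ∑ i ∈ s, pd a (f i) x := by
  unfold pd
  rw [fderiv_fun_sum hf, sum_apply]

theorem pd_congr {f g : E → ℝ} {x : E} (a : Fin 4) (h : f =ᶠ[𝓝 x] g) : pd a f x = pd a g x := by
  unfold pd
  rw [h.fderiv_eq]

theorem contDiff_pd {f : E → ℝ} (hf : ContDiff ℝ ∞ f) (a : Fin 4) : ContDiff ℝ ∞ (pd a f) := by
  unfold pd
  exact (hf.fderiv_right (by simp)).clm_apply contDiff_const

theorem hasCompactSupport_pd {f : E → ℝ} (hf : HasCompactSupport f) (a : Fin 4) :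
    HasCompactSupport (pd a f) :=
  hf.fderiv_apply ℝ (e a)

theorem pd_comm {f : E → ℝ} (hf : ContDiff ℝ ∞ f) (a b : Fin 4) (x : E) :
    pd a (pd b f) x = pd b (pd a f) x := by
  have hd : ∀ v, pd a (fun y => fderiv ℝ f y v) x = fderiv ℝ (fderiv ℝ f) x (e a) v := fun v => by
    unfold pd
    rw [fderiv_clm_apply ((hf.fderiv_right (m := ∞) (by simp)).differentiable (by simp) x)
      (differentiableAt_const v)]
    simp
  have hd' : ∀ v, pd b (fun y => fderiv ℝ f y v) x = fderiv ℝ (fderiv ℝ f) x (e b) v := fun v => by
    unfold pd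
    rw [fderiv_clm_apply ((hf.fderiv_right (m := ∞) (by simp)).differentiable (by simp) x)
      (differentiableAt_const v)]
    simp
  show pd a (fun y => fderiv ℝ f y (e b)) x = pd b (fun y => fderiv ℝ f y (e a)) x
  rw [hd, hd']
  exact (hf.contDiffAt (x := x)).isSymmSndFDerivAt (by simp; exact WithTop.coe_le_coe.2 le_top) _ _

theorem integral_pd_compact {f : E → ℝ} (hf : ContDiff ℝ ∞ f) (hs : HasCompactSupport f)
    (a : Fin 4) : ∫ x, pd a f x = 0 := by
  have hc := (contDiff_pd hf a).continuous
  have h := integral_mul_fderiv_eq_neg_fderiv_mul_of_integrable (μ := (volume : Measure E))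
    (f := fun _ => (1 : ℝ)) (g := f) (v := e a) (by simp) ?_ ?_ (fun _ _ => by fun_prop)
    (fun x _ => hf.differentiable (by simp) x)
  · simpa [pd] using h
  · simp only [one_mul]
    exact hc.integrable_of_hasCompactSupport (hasCompactSupport_pd hs a)
  · simpa using hf.continuous.integrable_of_hasCompactSupport hs

/-- Exchanging the two derivatives under an integral costs only terms of lower order. -/
theorem integral_swap_pd {c f g : E → ℝ} (hc : ContDiff ℝ ∞ c) (hf : ContDiff ℝ ∞ f)
    (hg : ContDiff ℝ ∞ g) (hs : HasCompactSupport f) (a b : Fin 4) :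
    ∫ x, c x * (pd a f x * pd b g x - pd b f x * pd a g x)
      = ∫ x, f x * (pd b c x * pd a g x - pd a c x * pd b g x) := by
  have hint : ∀ (p q : Fin 4),
      (∫ x, (c x * (pd p f x * pd q g x) + f x * (pd p c x * pd q g x + c x * pd p (pd q g) x)))
        = 0 := fun p q => by
    have h1 : ContDiff ℝ ∞ fun x => f x * (c x * pd q g x) := hf.mul (hc.mul (contDiff_pd hg q))
    have h := integral_pd_compact h1 hs.mul_right p
    rw [← h]
    congr 1
    funext x
    have df := hf.differentiable (by simp) x
    have dc := hc.differentiable (by simp) x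
    have dg := (contDiff_pd hg q).differentiable (by simp) x
    rw [pd_mul (f := f) p df (dc.fun_mul dg), pd_mul (f := c) p dc dg]
    ring
  have hi : ∀ (p q : Fin 4), Integrable fun x =>
      c x * (pd p f x * pd q g x) + f x * (pd p c x * pd q g x + c x * pd p (pd q g) x) :=
    fun p q => by
      refine Continuous.integrable_of_hasCompactSupport ?_ ?_
      · have := (contDiff_pd hf p).continuous
        have := (contDiff_pd hg q).continuous
        have := (contDiff_pd hc p).continuous
        have := (contDiff_pd (contDiff_pd hg q) p).continuous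
        have := hc.continuous
        have := hf.continuous
        fun_prop
      · exact (((hasCompactSupport_pd hs p).mul_right).mul_left).add hs.mul_right
  have key := integral_sub (hi a b) (hi b a)
  rw [hint a b, hint b a, sub_zero] at key
  have hL : Integrable fun x => f x * (pd b c x * pd a g x - pd a c x * pd b g x) := by
    refine Continuous.integrable_of_hasCompactSupport ?_ hs.mul_right
    have := (contDiff_pd hc a).continuous
    have := (contDiff_pd hc b).continuous
    have := (contDiff_pd hg a).continuous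
    have := (contDiff_pd hg b).continuous
    have := hf.continuous
    fun_prop
  have hR : Integrable fun x => c x * (pd a f x * pd b g x - pd b f x * pd a g x) := by
    refine Continuous.integrable_of_hasCompactSupport ?_ ?_
    · have := (contDiff_pd hf a).continuous
      have := (contDiff_pd hf b).continuous
      have := (contDiff_pd hg a).continuous
      have := (contDiff_pd hg b).continuous
      have := hc.continuous
      fun_prop
    · exact (((hasCompactSupport_pd hs a).mul_right).sub
        ((hasCompactSupport_pd hs b).mul_right)).mul_left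
  rw [← sub_eq_zero, ← integral_sub hR hL, ← key]
  congr 1
  funext x
  rw [pd_comm hg b a x]
  ring

end Vale.Agent.P204.Tame
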