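import Vale.Agent.P204.Tame.Linear

/-!
A closed current is orthogonal to exact forms.
-/

open scoped ContDiff Matrix
open Filter Topology Metric Set MeasureTheory

namespace Vale.Agent.P204.Tame

/-- The expression whose integral vanishes by closedness. -/
noncomputable def closedTerm (θ : M) (φ : E → ℝ) (i j k : Fin 4) (x : E) : ℝ :=
  θ j k * pd i φ x + θ k i * pd j φ x + θ i j * pd k φ x

theorem pfq_dOne_eq {θ : M} (hθ : θᵀ = -θ) (T : E → E) (x : E) :
    pfq θ (dOne T x) = -closedTerm θ (fun y => T y 0) 1 2 3 x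
      + closedTerm θ (fun y => T y 1) 0 2 3 x - closedTerm θ (fun y => T y 2) 0 1 3 x
      + closedTerm θ (fun y => T y 3) 0 1 2 x := by
  simp only [pfq, dOne, closedTerm, skew_apply hθ 1 3, skew_apply hθ 0 2, skew_apply hθ 0 3]
  ring

theorem pd_congr_at {f g : E → ℝ} {x : E} (h : f =ᶠ[𝓝 x] g) (i : Fin 4) : pd i f x = pd i g x := by
  simp [pd, h.fderiv_eq]

theorem pairingExact : PairingExact := by
  intro V J μ Θ hJ hμ S hS
  set T : E → E := fun x j => sgnJ (J x) * S x j with hT
  set K : Set E := ⋃ j, tsupport fun x => S x j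
  have hK : IsCompact K := isCompact_iUnion fun j => (hS j).compact
  have hKV : K ⊆ V := iUnion_subset fun j => (hS j).supp
  have hout : ∀ x ∉ K, ∀ j, (fun y => S y j) =ᶠ[𝓝 x] fun _ => (0:ℝ) := fun x hx j =>
    notMem_tsupport_iff_eventuallyEq.1 fun h => hx (mem_iUnion.2 ⟨j, h⟩)
  have hsc : ContinuousOn (fun x => sgnJ (J x)) V :=
    (continuousOn_sgnJ (S := {J : M | J * J = -1}) fun _ h => h).comp hJ.continuousOn hJ.sq
  have hconst : ∀ x ∈ V, ∀ᶠ y in 𝓝 x, sgnJ (J y) = sgnJ (J x) := fun x hx => by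
    have hpm : ∀ y ∈ V, sgnJ (J y) = -1 ∨ sgnJ (J y) = 1 := fun y hy => by
      rcases lt_or_gt_of_ne (pfq_wmat_ne (hJ.sq y hy)) with h | h
      · exact Or.inl (Real.sign_of_neg h)
      · exact Or.inr (Real.sign_of_pos h)
    have := (hsc.continuousAt (hJ.isOpen.mem_nhds hx)).eventually
      (Metric.ball_mem_nhds (sgnJ (J x)) one_pos)
    filter_upwards [this, hJ.isOpen.mem_nhds hx] with y hy hyV
    rw [Real.dist_eq, abs_lt] at hy
    rcases hpm y hyV with h | h <;> rcases hpm x hx with h' | h' <;>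
      linarith [hy.1, hy.2]
  have hTtest : ∀ j, IsTest V fun x => T x j := fun j => by
    have hsub : tsupport (fun x => T x j) ⊆ tsupport fun x => S x j :=
      closure_mono fun x hx h => hx (by simp [hT, h])
    refine ⟨?_, (hS j).compact.of_isClosed_subset (isClosed_tsupport _) hsub,
      hsub.trans (hS j).supp⟩
    refine (hS j).contDiffOn_mul hJ.isOpen (a := fun x => sgnJ (J x)) ?_ (fun x _ => rfl)
      fun x hx => by simp [hT, image_eq_zero_of_notMem_tsupport hx]
    exact fun x hx => ((contDiffAt_const (c := sgnJ (J x))).congr_of_eventuallyEq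
      (hconst x hx)).contDiffWithinAt
  have hTd : ∀ x ∈ V, dOne T x = sgnJ (J x) • dOne S x := fun x hx => by
    have h : ∀ a b, pd a (fun y => T y b) x = sgnJ (J x) * pd a (fun y => S y b) x := fun a b => by
      have he : (fun y => T y b) =ᶠ[𝓝 x] fun y => sgnJ (J x) * S y b := by
        filter_upwards [hconst x hx] with y hy
        simp [hT, hy]
      rw [pd_congr_at he]
      show fderiv ℝ (fun y => sgnJ (J x) * S y b) x (e a) = _
      rw [fderiv_const_mul (((hS b).smooth.differentiable (by simp)) x)]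
      simp [pd]
    ext a b
    simp [dOne, h, mul_sub]
  have hTout : ∀ x ∉ K, ∀ a b, pd a (fun y => T y b) x = 0 := fun x hx a b => by
    have he : (fun y => T y b) =ᶠ[𝓝 x] fun _ => (0:ℝ) := by
      filter_upwards [hout x hx b] with y hy
      simp [hT, hy]
    rw [pd_congr_at he]
    simp [pd]
  have hSout : ∀ x ∉ K, dOne S x = 0 := fun x hx => by
    ext a b
    simp [dOne, pd, (hout x hx a).fderiv_eq, (hout x hx b).fderiv_eq]
  obtain ⟨c, hc, hS'⟩ := linearFacts.2.2.2 (J '' K) (hK.image_of_continuousOn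
    (hJ.continuousOn.mono hKV)) (by rintro _ ⟨x, hx, rfl⟩; exact hJ.sq x (hKV hx))
  have hbd : ∀ᵐ x ∂μ.restrict K, Psd (J x) (Θ x) ∧ ∀ i j, |Θ x i j| ≤ 1 / c := by
    filter_upwards [ae_restrict_of_ae_restrict_of_subset hKV hμ.psd,
      ae_restrict_of_ae_restrict_of_subset hKV hμ.unit, ae_restrict_mem hK.measurableSet]
      with x hp hu hx
    refine ⟨hp, fun i j => (abs_le_nrm1 (Θ x) i j).trans ?_⟩
    have := ((hS' (J x) ⟨x, hx, rfl⟩).2.1 (Θ x) hp).2
    rw [hu] at this
    rw [le_div_iff₀ hc, nrm1]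
    linarith
  have hfin : IsFiniteMeasure (μ.restrict K) := ⟨by simpa using hμ.finite K hKV hK⟩
  have hint : ∀ m i j k, Integrable (fun x => closedTerm (Θ x) (fun y => T y m) i j k x)
      (μ.restrict K) := fun m i j k => by
    have h1 : ∀ a b l, Integrable (fun x => Θ x a b * pd l (fun y => T y m) x) (μ.restrict K) := by
      intro a b l
      have hc' := (contDiff_pd_test (hTtest m) l).smooth.continuous
      obtain ⟨D, hD⟩ := exists_pos_bound hK hc'.continuousOn
      refine Integrable.of_bound ((hμ.meas a b).aestronglyMeasurable.mul hc'.aestronglyMeasurable)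
        (1 / c * D) ?_
      filter_upwards [hbd, ae_restrict_mem hK.measurableSet] with x hx hxK
      rw [Real.norm_eq_abs, abs_mul]
      exact mul_le_mul (hx.2 a b) (hD x hxK) (abs_nonneg _) (by positivity)
    exact ((h1 j k i).add (h1 k i j)).add (h1 i j k)
  have hzero : ∀ m i j k, ∫ x in K, closedTerm (Θ x) (fun y => T y m) i j k x ∂μ = 0 := by
    intro m i j k
    rw [setIntegral_eq_integral_of_forall_compl_eq_zero fun x hx => by
      simp [closedTerm, hTout x hx]]
    exact hμ.closed _ (hTtest m) i j k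
  rw [← setIntegral_eq_integral_of_forall_compl_eq_zero (s := K) fun x hx => by
    simp [hSout x hx, wd, pfq]]
  have hae : ∀ᵐ x ∂μ.restrict K, wd (J x) (Θ x) (dOne S x)
      = -closedTerm (Θ x) (fun y => T y 0) 1 2 3 x
        + closedTerm (Θ x) (fun y => T y 1) 0 2 3 x - closedTerm (Θ x) (fun y => T y 2) 0 1 3 x
        + closedTerm (Θ x) (fun y => T y 3) 0 1 2 x := by
    filter_upwards [hbd, ae_restrict_mem hK.measurableSet] with x hx hxK
    rw [← pfq_dOne_eq hx.1.skew, hTd x (hKV hxK)]
    simp only [wd, pfq, Matrix.smul_apply, smul_eq_mul]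
    ring
  rw [integral_congr_ae hae, integral_add, integral_sub, integral_add, integral_neg,
    hzero, hzero, hzero, hzero]
  · simp
  · exact (hint 0 1 2 3).neg
  · exact hint 1 0 2 3
  · exact (hint 0 1 2 3).neg.add (hint 1 0 2 3)
  · exact hint 2 0 1 3
  · exact ((hint 0 1 2 3).neg.add (hint 1 0 2 3)).sub (hint 2 0 1 3)
  · exact hint 3 0 1 2

/-- Module Density: a closed positive current has quadratic mass bound. -/
theorem densityBound_holds : DensityBound := densityBound linearFacts pairingExact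

end Vale.Agent.P204.Tame
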