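import Vale.Agent.P204.Tame.ElMir.Energy
import Vale.Agent.P204.Tame.EllipticTools
import Vale.Agent.P204.Tame.LinearExact

/-!
Removing the poles from a closed positive current leaves a closed current.
-/

namespace Vale.Agent.P204.Tame

open scoped ContDiff Matrix ENNReal Topology
open MeasureTheory Metric Set Filter Real ElMir

/-- Near a point the pole set is the set of poles of the measure cut off at a compact set. -/
theorem mem_poleSet_iff_poles {V L : Set E} {μ : Measure E} {x : E} (hLV : L ⊆ V)
    (hfin : μ L ≠ ⊤) (hx : L ∈ 𝓝 x) :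
    x ∈ poleSet V μ ↔ potential (μ.restrict L) x = ⊤ := by
  obtain ⟨r, hr, hball⟩ := nhds_basis_closedBall.mem_iff.1 hx
  constructor
  · rintro ⟨-, h⟩
    refine top_le_iff.1 ((h r hr).symm.le.trans ?_)
    exact lintegral_mono' (Measure.restrict_mono hball le_rfl) le_rfl
  · refine fun htop => ⟨hLV (mem_of_mem_nhds hx), fun δ hδ => ?_⟩
    have hfar : potential (μ.restrict (L \ ball x δ)) x ≠ ⊤ :=
      potential_restrict_diff_ne_top μ isOpen_ball (mem_ball_self hδ) hfin
    have hle : potential (μ.restrict L) x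
        ≤ potential (μ.restrict (closedBall x δ)) x + potential (μ.restrict (L \ ball x δ)) x := by
      have h1 : potential (μ.restrict L) x
          ≤ potential (μ.restrict (closedBall x δ ∪ L \ ball x δ)) x :=
        lintegral_mono' (Measure.restrict_mono (fun y hy => by
          by_cases h : y ∈ ball x δ
          · exact Or.inl (ball_subset_closedBall h)
          · exact Or.inr ⟨hy, h⟩) le_rfl) le_rfl
      refine h1.trans ?_
      exact lintegral_union_le _ _ _
    rw [htop] at hle
    by_contra h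
    exact (ENNReal.add_lt_top.2 ⟨lt_top_iff_ne_top.2 h, lt_top_iff_ne_top.2 hfar⟩).ne
      (top_le_iff.1 hle)

theorem measurableSet_poleSet_null {V : Set E} {μ : Measure E} (hV : IsOpen V)
    (hfin : ∀ K ⊆ V, IsCompact K → μ K < ⊤) :
    MeasurableSet (poleSet V μ) ∧ volume (poleSet V μ) = 0 := by
  have hex : ∀ x : V, ∃ δ > (0 : ℝ), closedBall (x : E) δ ⊆ V := fun x =>
    nhds_basis_closedBall.mem_iff.1 (hV.mem_nhds x.2)
  choose δ hδ hball using hex
  obtain ⟨s, hs, hsu⟩ := TopologicalSpace.isOpen_iUnion_countable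
    (fun x : V => ball (x : E) (δ x)) fun x => isOpen_ball
  have hcover : V = ⋃ x ∈ s, ball ((x : V) : E) (δ x) := by
    rw [hsu]
    refine subset_antisymm (fun (y : E) (hy : y ∈ V) => ?_) ?_
    · exact mem_iUnion.2 ⟨(⟨y, hy⟩ : V), mem_ball_self (hδ _)⟩
    exact iUnion_subset fun x => ball_subset_closedBall.trans (hball x)
  have hloc : ∀ x : V, poleSet V μ ∩ ball (x : E) (δ x)
      = poles (μ.restrict (closedBall (x : E) (δ x))) ∩ ball (x : E) (δ x) := fun x => by
    ext y
    refine and_congr_left fun hy => ?_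
    exact mem_poleSet_iff_poles (hball x)
      (hfin _ (hball x) (isCompact_closedBall _ _)).ne
      (mem_of_superset (isOpen_ball.mem_nhds hy) ball_subset_closedBall)
  have hfinite : ∀ x : V, IsFiniteMeasure (μ.restrict (closedBall (x : E) (δ x))) := fun x =>
    isFiniteMeasure_restrict.2 (hfin _ (hball x) (isCompact_closedBall _ _)).ne
  have heq : poleSet V μ = ⋃ x ∈ s, poleSet V μ ∩ ball ((x : V) : E) (δ x) := by
    rw [← inter_iUnion₂, ← hcover, inter_eq_left.2 fun y hy => hy.1]
  refine ⟨?_, ?_⟩ <;> rw [heq]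
  · refine MeasurableSet.biUnion hs fun x _ => ?_
    have := hfinite x
    rw [hloc]
    exact (measurableSet_poles _).inter measurableSet_ball
  · refine (measure_biUnion_null_iff hs).2 fun x _ => ?_
    have := hfinite x
    rw [hloc]
    exact measure_mono_null inter_subset_left (volume_poles_eq_zero _)

/-- The local data of the cutoff argument around the support of a test function. -/
theorem exists_loc {V : Set E} {J : E → M} {μ : Measure E} {Θ : E → M} (hJ : IsACS V J)
    (hμ : IsPosCurrent V J μ Θ) {S : Set E} (hS : IsCompact S) (hSV : S ⊆ V) :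
    ∃ (J' : E → M) (L W : Set E) (B K : ℝ) (ζ : E → ℝ) (T A : ℝ),
      Loc J' (μ.restrict L) Θ L W B K ζ T A ∧ L ⊆ V ∧ IsCompact L ∧ (∀ x ∈ S, L ∈ 𝓝 x) ∧
      S ⊆ W ∧ ∀ x ∈ S, ζ x = 1 := by
  obtain ⟨δ, hδ, hδV⟩ := hS.exists_cthickening_subset_open hJ.isOpen hSV
  set L := cthickening δ S
  set W := thickening δ S
  have hWo : IsOpen W := isOpen_thickening
  have hWL : W ⊆ L := thickening_subset_cthickening δ S
  have hLc : IsCompact L := hS.cthickening
  obtain ⟨η, hη, -, U, -, hLU, -, hη1⟩ := exists_cutoff hJ.isOpen hLc hδV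
  set J' : E → M := fun x => η x • J x
  have hJ'L : ∀ x ∈ L, J' x = J x := fun x hx => by simp [J', hη1 x (hLU hx)]
  have hJ's : ∀ i j, IsTest V fun x => J' x i j := fun i j =>
    hη.mul_smooth hJ.isOpen (hJ.smooth i j)
  obtain ⟨K, hK⟩ := exists_coeff (J := J') (fun i j => (hJ's i j).smooth) fun i j => (hJ's i j).compact
  have hK0 : 0 ≤ K := (hK.bJ 0 0).nonneg
  obtain ⟨ζ, hζ, hζ01, U', -, hSU', -, hζ1⟩ :=
    exists_cutoff (isOpen_thickening (δ := δ / 4) (E := S)) hS (self_subset_thickening (by positivity) S)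
  have hζW : tsupport ζ ⊆ W := hζ.supp.trans (thickening_mono (by linarith) S)
  obtain ⟨A, r₀, hr₀, hA⟩ := densityBound_holds V J μ Θ hJ hμ L hδV hLc
  have hpos : 0 < min (δ / 2) r₀ / (1 + 4 * K) := by positivity
  set T := log (min (δ / 2) r₀ / (1 + 4 * K)) with hT
  have hTR : ∀ t ≤ T, (1 + 4 * K) * exp t ≤ min (δ / 2) r₀ := fun t ht => by
    refine (mul_le_mul_of_nonneg_left (exp_le_exp.2 ht) (by positivity)).trans ?_
    rw [hT, exp_log hpos, mul_div_cancel₀ _ (by positivity)]
  obtain ⟨c, hc, hfacts⟩ := linearFacts.2.2.2 (J '' L)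
    (hLc.image_of_continuousOn (hJ.continuousOn.mono hδV))
    (by rintro _ ⟨x, hx, rfl⟩; exact hJ.sq x (hδV hx))
  have hfin : IsFiniteMeasure (μ.restrict L) := isFiniteMeasure_restrict.2 (hμ.finite L hδV hLc).ne
  have hint : ∀ f : E → ℝ, (∀ x ∉ L, f x = 0) → ∫ x, f x ∂μ.restrict L = ∫ x, f x ∂μ :=
    fun f hf => setIntegral_eq_integral_of_forall_compl_eq_zero hf
  have hmem : ∀ᵐ x ∂μ.restrict L, x ∈ L ∧ Psd (J x) (Θ x) ∧ trc (J x) (Θ x) = 1 := by
    filter_upwards [ae_restrict_mem hLc.measurableSet,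
      ae_restrict_of_ae_restrict_of_subset hδV hμ.psd,
      ae_restrict_of_ae_restrict_of_subset hδV hμ.unit] with x h1 h2 h3 using ⟨h1, h2, h3⟩
  refine ⟨J', L, W, 1 / c, K, ζ, T, max A 0 * (1 + 4 * K) ^ 2, ⟨⟨fun i j => (hJ's i j).smooth, hfin,
    hLc, ?_, hμ.meas, ?_, ?_, ?_⟩, hK, ?_, ⟨hζ.smooth, hζ.compact, hζW⟩, hζ01, ?_, ?_, ?_⟩,
    hδV, hLc, fun x hx => mem_of_superset (hWo.mem_nhds (self_subset_thickening hδ S hx)) hWL,
    self_subset_thickening hδ S, fun x hx => hζ1 x (hSU' hx)⟩
  · rw [Measure.restrict_apply hLc.measurableSet.compl, compl_inter_self, measure_empty]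
  · filter_upwards [hmem] with x hxm
    intro i j
    obtain ⟨hx, hp, hu⟩ := hxm
    obtain ⟨-, h2, -⟩ := hfacts (J x) ⟨x, hx, rfl⟩
    have h := (h2 (Θ x) hp).2
    rw [hu] at h
    rw [le_div_iff₀ hc, mul_comm]
    refine le_trans (mul_le_mul_of_nonneg_left ?_ hc.le) h
    exact (Finset.single_le_sum (f := fun j => |Θ x i j|) (fun j _ => abs_nonneg _)
      (Finset.mem_univ j)).trans (Finset.single_le_sum (f := fun i => ∑ j, |Θ x i j|)
      (fun i _ => Finset.sum_nonneg fun j _ => abs_nonneg _) (Finset.mem_univ i))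
  · filter_upwards [hmem] with x hxm using skew_entry hxm.2.1.skew
  · intro φ hφ i j k
    rw [hint]
    · exact hμ.closed φ ⟨hφ.smooth, hφ.compact, hφ.supp.trans (hWL.trans hδV)⟩ i j k
    · intro x hx
      have h0 : ∀ l, pd l φ x = 0 := fun l => by
        have : φ =ᶠ[𝓝 x] fun _ => (0 : ℝ) :=
          notMem_tsupport_iff_eventuallyEq.1 fun h => hx (hWL (hφ.supp h))
        simp [pd, this.fderiv_eq]
      simp [h0]
  · filter_upwards [hmem] with x hxm
    intro _
    obtain ⟨hx, hp, hu⟩ := hxm
    rw [hJ'L x hx]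
    exact ⟨hJ.sq x (hδV hx), hp, hu⟩
  · intro x hx t ht v z hz
    obtain ⟨p, hp, hdist⟩ := mem_thickening_iff.1 (hζ.supp hx)
    refine mem_thickening_iff.2 ⟨p, hp, ?_⟩
    have h1 : dist z x ≤ δ / 2 := by
      rw [dist_eq_norm]
      exact (hK.norm_sub_le hz).trans ((hTR t ht).trans (min_le_left _ _))
    linarith [dist_triangle z x p]
  · intro Sv hSv
    rw [hint]
    · have hSv' : ∀ i, IsTest V fun x => Sv x i := fun i =>
        ⟨(hSv i).smooth, (hSv i).compact, (hSv i).supp.trans (hWL.trans hδV)⟩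
      rw [← pairingExact V J μ Θ hJ hμ Sv hSv']
      refine integral_congr_ae (Eventually.of_forall fun x => ?_)
      by_cases hx : x ∈ L
      · simp only [hJ'L x hx]
      · have h0 : dOne Sv x = 0 := by
          ext a b
          have h : ∀ l, (fun y => Sv y l) =ᶠ[𝓝 x] fun _ => (0 : ℝ) := fun l =>
            notMem_tsupport_iff_eventuallyEq.1 fun h => hx (hWL ((hSv l).supp h))
          simp [dOne, pd, (h b).fderiv_eq, (h a).fderiv_eq]
        simp [h0, wd, pfq]
    · intro x hx
      have h0 : dOne Sv x = 0 := by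
        ext a b
        have h : ∀ l, (fun y => Sv y l) =ᶠ[𝓝 x] fun _ => (0 : ℝ) := fun l =>
          notMem_tsupport_iff_eventuallyEq.1 fun h => hx (hWL ((hSv l).supp h))
        simp [dOne, pd, (h b).fderiv_eq, (h a).fderiv_eq]
      simp [h0, wd, pfq]
  · intro x hx t ht
    have hrt : 0 < (1 + 4 * K) * exp t := by positivity
    calc (μ.restrict L).real (closedBall x ((1 + 4 * K) * exp t))
        ≤ (ENNReal.ofReal (max A 0 * ((1 + 4 * K) * exp t) ^ 2)).toReal := by
          refine ENNReal.toReal_mono ENNReal.ofReal_ne_top ?_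
          refine ((Measure.restrict_apply_le _ _).trans (hA x (hWL (hζW hx)) _
            ⟨hrt, (hTR t ht).trans (min_le_right _ _)⟩)).trans (ENNReal.ofReal_le_ofReal ?_)
          exact mul_le_mul_of_nonneg_right (le_max_left _ _) (_root_.sq_nonneg _)
      _ = max A 0 * (1 + 4 * K) ^ 2 * exp (2 * t) := by
          rw [ENNReal.toReal_ofReal (by positivity), two_mul, exp_add]
          ring

/-- Removing the poles leaves a closed current. -/
theorem elMir : ElMir := by
  intro V J μ Θ hJ hμ
  obtain ⟨hmeasP, hnull⟩ := measurableSet_poleSet_null hJ.isOpen hμ.finite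
  refine ⟨hmeasP, hnull, ⟨fun K hK hKc => (Measure.restrict_apply_le _ _).trans_lt (hμ.finite K hK hKc),
    hμ.meas, ae_mono (Measure.restrict_mono le_rfl Measure.restrict_le_self) hμ.psd,
    ae_mono (Measure.restrict_mono le_rfl Measure.restrict_le_self) hμ.unit, fun φ hφ i j k => ?_⟩⟩
  obtain ⟨J', L, W, B, K, ζ, T, A, D, hLV, hLc, hnhd, hSW, hζ1⟩ :=
    exists_loc hJ hμ hφ.compact hφ.supp
  have S := D.setup
  have := S.finite
  set μ' := μ.restrict L with hμ'
  set h : E → ℝ := fun x => Θ x j k * pd i φ x + Θ x k i * pd j φ x + Θ x i j * pd k φ x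
  have hh0 : ∀ x ∉ tsupport φ, h x = 0 := fun x hx => by
    have h0 : ∀ l, pd l φ x = 0 := fun l => by
      simp [pd, (notMem_tsupport_iff_eventuallyEq.1 hx).fderiv_eq]
    simp [h, h0]
  have hhi : Integrable h μ' := by
    have hi : ∀ p q l, Integrable (fun x => Θ x p q * pd l φ x) μ' := fun p q l =>
      integrable_of_continuous (g := fun x => Θ x p q) S.compact S.carried
        (S.meas p q).aestronglyMeasurable (S.bound.mono fun x h => h p q)
        (contDiff_pd hφ.smooth l).continuous
    exact ((hi j k i).add (hi k i j)).add (hi i j k)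
  obtain ⟨C, hC⟩ := D.cutoff_bound linearFacts
    ⟨hφ.smooth, hφ.compact, hSW⟩ (fun x hx => hζ1 x (subset_tsupport φ hx)) i j k
  set F : ℕ → E → ℝ := fun n x => fpot J' μ' T n x with hF
  have hFmono : ∀ x, Monotone fun n => F n x := fun x a b hab => by
    have := S.upot_mono (sub_le_sub_left (Nat.cast_le.2 hab) T) T x
    simp only [hF, fpot]
    linarith
  set ℓ : E → ℝ := fun x => ⨆ n, F n x
  set G : ℕ → E → ℝ := fun m =>
    (poles μ')ᶜ.indicator fun x => ElMir.prof (log (ℓ x) / (m + 1) - 1) with hG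
  have hlim : ∀ m : ℕ, ∀ x,
      Tendsto (fun n => ElMir.prof (log (F n x) / (m + 1) - 1)) atTop (𝓝 (G m x)) := by
    intro m x
    by_cases hx : potential μ' x = ⊤
    · rw [show G m x = 0 from indicator_of_notMem (show x ∉ (poles μ')ᶜ from fun h' => h' hx) _]
      have hunb : Tendsto (fun n => F n x) atTop atTop := by
        refine tendsto_atTop_atTop_of_monotone (hFmono x) fun b => ?_
        by_contra hcon
        push Not at hcon
        refine (S.upot_bounded_iff D.coeff T x).1 ⟨2 * b, fun n => ?_⟩ hx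
        have := hcon n
        simp only [hF, fpot] at this
        linarith
      have harg : Tendsto (fun n => log (F n x) / (m + 1) - 1) atTop atTop :=
        tendsto_atTop_add_const_right _ (-1)
          ((tendsto_log_atTop.comp hunb).atTop_div_const (by positivity))
      refine tendsto_const_nhds.congr' ?_
      filter_upwards [harg.eventually_ge_atTop 1] with n hn using (prof_zero hn).symm
    · rw [show G m x = ElMir.prof (log (ℓ x) / (m + 1) - 1) from
        indicator_of_mem (show x ∈ (poles μ')ᶜ from hx) _]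
      obtain ⟨b, hb⟩ := (S.upot_bounded_iff D.coeff T x).2 hx
      have hbdd : BddAbove (range fun n => F n x) := ⟨2 + b / 2, by
        rintro _ ⟨n, rfl⟩
        have := hb n
        simp only [hF, fpot]
        linarith⟩
      have hl : Tendsto (fun n => F n x) atTop (𝓝 (ℓ x)) :=
        tendsto_atTop_ciSup (hFmono x) hbdd
      have hl2 : (2 : ℝ) ≤ ℓ x := ge_of_tendsto' hl fun n => D.two_le_fpot n x
      exact (contDiff_prof.continuous.tendsto _).comp
        ((((Real.continuousAt_log (by linarith)).tendsto.comp hl).div_const _).sub_const 1)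
  have hprof : ∀ r, ‖ElMir.prof r‖ ≤ 1 := fun r => by
    rw [Real.norm_eq_abs, abs_of_nonneg (prof_nonneg r)]; exact prof_le_one r
  have hGm : ∀ m, Measurable (G m) := fun m =>
    measurable_of_tendsto_metrizable (fun n => ((contDiff_prof.continuous).measurable.comp
      (((measurable_log.comp (D.contDiff_fpot n).continuous.measurable).div_const _).sub_const 1)))
      (tendsto_pi_nhds.2 fun x => hlim m x)
  have hstep : ∀ m : ℕ, |∫ x, G m x * h x ∂μ'| ≤ C / (m + 1) := fun m => by
    have ht : Tendsto (fun n => ∫ x, ElMir.prof (log (F n x) / (m + 1) - 1) * h x ∂μ') atTop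
        (𝓝 (∫ x, G m x * h x ∂μ')) := by
      refine tendsto_integral_of_dominated_convergence (fun x => |h x|) (fun n => ?_) hhi.abs
        (fun n => Eventually.of_forall fun x => ?_)
        (Eventually.of_forall fun x => (hlim m x).mul_const _)
      · exact ((contDiff_prof.continuous).measurable.comp
          (((measurable_log.comp (D.contDiff_fpot n).continuous.measurable).div_const _).sub_const
            1)).aestronglyMeasurable.mul hhi.1
      · rw [norm_mul, Real.norm_eq_abs (h x)]
        exact mul_le_of_le_one_left (abs_nonneg _) (hprof _)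
    exact le_of_tendsto' ht.abs fun n => hC m n
  have hG1 : ∀ x, Tendsto (fun m => G m x) atTop (𝓝 ((poles μ')ᶜ.indicator (fun _ => (1 : ℝ)) x)) := by
    intro x
    by_cases hx : x ∈ (poles μ')ᶜ
    · simp only [hG, indicator_of_mem hx]
      have h1 : Tendsto (fun m : ℕ => log (ℓ x) / ((m : ℝ) + 1) - 1) atTop (𝓝 (-1)) := by
        have h2 : Tendsto (fun m : ℕ => log (ℓ x) / ((m : ℝ) + 1)) atTop (𝓝 0) :=
          tendsto_const_nhds.div_atTop (tendsto_atTop_add_const_right _ 1 tendsto_natCast_atTop_atTop)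
        simpa using h2.sub_const 1
      have h3 : ElMir.prof (-1) = 1 := Real.smoothTransition.one_of_one_le (by norm_num)
      simpa [Function.comp_def, h3] using (contDiff_prof.continuous.tendsto _).comp h1
    · simp only [hG, indicator_of_notMem hx]
      exact tendsto_const_nhds
  have hzero : ∫ x, (poles μ')ᶜ.indicator (fun _ => (1 : ℝ)) x * h x ∂μ' = 0 := by
    have ht : Tendsto (fun m => ∫ x, G m x * h x ∂μ') atTop
        (𝓝 (∫ x, (poles μ')ᶜ.indicator (fun _ => (1 : ℝ)) x * h x ∂μ')) := by
      refine tendsto_integral_of_dominated_convergence (fun x => |h x|)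
        (fun m => (hGm m).aestronglyMeasurable.mul hhi.1) hhi.abs
        (fun m => Eventually.of_forall fun x => ?_)
        (Eventually.of_forall fun x => (hG1 x).mul_const _)
      rw [norm_mul, Real.norm_eq_abs (h x)]
      refine mul_le_of_le_one_left (abs_nonneg _) ?_
      exact (norm_indicator_le_norm_self _ _).trans (hprof _)
    have h0 : Tendsto (fun m => ∫ x, G m x * h x ∂μ') atTop (𝓝 0) := by
      refine squeeze_zero_norm (a := fun m : ℕ => C / ((m : ℝ) + 1)) hstep ?_
      exact tendsto_const_nhds.div_atTop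
        (tendsto_atTop_add_const_right _ 1 tendsto_natCast_atTop_atTop)
    exact tendsto_nhds_unique ht h0
  rw [← hzero]
  show ∫ x, h x ∂μ.restrict (poleSet V μ)ᶜ = _
  rw [← integral_indicator hmeasP.compl, hμ', setIntegral_eq_integral_of_forall_compl_eq_zero
    fun x hx => by rw [hh0 x fun h' => hx (mem_of_mem_nhds (hnhd x h')), mul_zero]]
  refine integral_congr_ae (Eventually.of_forall fun x => ?_)
  by_cases hx : x ∈ tsupport φ
  · have hiff := mem_poleSet_iff_poles (μ := μ) hLV (hμ.finite L hLV hLc).ne (hnhd x hx)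
    show (poleSet V μ)ᶜ.indicator h x
      = (poles (μ.restrict L))ᶜ.indicator (fun _ => (1 : ℝ)) x * h x
    by_cases hp : x ∈ poleSet V μ
    · have hp' : x ∈ poles μ' := hiff.1 hp
      rw [indicator_of_notMem (show x ∉ (poleSet V μ)ᶜ from fun h' => h' hp),
        indicator_of_notMem (show x ∉ (poles (μ.restrict L))ᶜ from fun h' => h' hp'), zero_mul]
    · have hp' : x ∉ poles μ' := fun h' => hp (hiff.2 h')
      rw [indicator_of_mem (show x ∈ (poleSet V μ)ᶜ from hp),
        indicator_of_mem (show x ∈ (poles (μ.restrict L))ᶜ from hp'), one_mul]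
  · simp [indicator, hh0 x hx]

end Vale.Agent.P204.Tame
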