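import Mathlib

/-!
Measure lemmas for the tamed to compatible theorem: the potential with kernel `dist ^ (-2)`, its
layer formula, vanishing of the two-dimensional density off the poles, and a Vitali argument
showing that measures of quadratic growth do not charge the set of positive density.
-/

namespace Vale.Agent.P204.Tame

open MeasureTheory Metric Set Filter
open scoped ENNReal Topology

variable {X : Type*} [MetricSpace X] [MeasurableSpace X]

set_option linter.unusedSectionVars false

/-- The kernel `dist x y ^ (-2)`, infinite on the diagonal. -/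
noncomputable def pole (x y : X) : ℝ≥0∞ := (edist x y ^ 2)⁻¹

/-- The potential of a measure with kernel `pole`. -/
noncomputable def potential (μ : Measure X) (x : X) : ℝ≥0∞ := ∫⁻ y, pole x y ∂μ

/-- The points of infinite potential. -/
def poles (μ : Measure X) : Set X := {x | potential μ x = ⊤}

/-- The points where the upper two-dimensional density of a measure is positive. -/
def densSet (μ : Measure X) : Set X :=
  {x | ¬ Tendsto (fun r => μ (closedBall x r) / ENNReal.ofReal (r ^ 2)) (𝓝[>] 0) (𝓝 0)}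

lemma pole_comm (x y : X) : pole x y = pole y x := by rw [pole, pole, edist_comm]

@[simp] lemma pole_self (x : X) : pole x x = ⊤ := by simp [pole]

lemma pole_eq {x y : X} (h : x ≠ y) : pole x y = ENNReal.ofReal ((dist x y ^ 2)⁻¹) := by
  rw [pole, edist_dist, ← ENNReal.ofReal_pow dist_nonneg,
    ENNReal.ofReal_inv_of_pos (pow_pos (dist_pos.2 h) 2)]

variable [BorelSpace X] [SecondCountableTopology X]

lemma measurable_pole : Measurable (fun p : X × X => pole p.1 p.2) := by
  unfold pole
  fun_prop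

lemma measurable_potential (μ : Measure X) [SFinite μ] : Measurable (potential μ) :=
  measurable_pole.lintegral_prod_right'

lemma measurableSet_poles (μ : Measure X) [SFinite μ] : MeasurableSet (poles μ) :=
  measurableSet_eq_fun (measurable_potential μ) measurable_const

lemma measurable_measure_closedBall (μ : Measure X) [SFinite μ] (r : ℝ) :
    Measurable fun x => μ (closedBall x r) := by
  have h : MeasurableSet {p : X × X | dist p.2 p.1 ≤ r} :=
    measurableSet_le (by fun_prop) measurable_const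
  exact measurable_measure_prodMk_left h

/-- A ball carries at most `r ^ 2` times the potential. -/
lemma measure_closedBall_le (μ : Measure X) (x : X) {r : ℝ} (hr : 0 < r) :
    μ (closedBall x r) ≤ ENNReal.ofReal (r ^ 2) * ∫⁻ y in closedBall x r, pole x y ∂μ := by
  have h : ∀ y ∈ closedBall x r, ENNReal.ofReal ((r ^ 2)⁻¹) ≤ pole x y := by
    intro y hy
    rcases eq_or_ne x y with rfl | hne
    · simp
    rw [pole_eq hne]
    have hd : dist x y ≤ r := by rw [dist_comm]; exact hy
    exact ENNReal.ofReal_le_ofReal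
      (inv_anti₀ (pow_pos (dist_pos.2 hne) 2) (pow_le_pow_left₀ dist_nonneg hd 2))
  calc μ (closedBall x r)
      = ENNReal.ofReal (r ^ 2) * ∫⁻ _ in closedBall x r, ENNReal.ofReal ((r ^ 2)⁻¹) ∂μ := by
        rw [setLIntegral_const, ← mul_assoc, ← ENNReal.ofReal_mul (by positivity),
          mul_inv_cancel₀ (by positivity), ENNReal.ofReal_one, one_mul]
    _ ≤ _ := mul_le_mul_right (setLIntegral_mono' measurableSet_closedBall h) _

lemma measure_div_le_potential (μ : Measure X) (x : X) {r : ℝ} (hr : 0 < r) :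
    μ (closedBall x r) / ENNReal.ofReal (r ^ 2) ≤ potential μ x :=
  ENNReal.div_le_of_le_mul ((measure_closedBall_le μ x hr).trans
    (by rw [mul_comm]; exact mul_le_mul_left (setLIntegral_le_lintegral _ _) _))

/-- Off the poles the density is zero. -/
theorem tendsto_density_zero {μ : Measure X} {x : X} (h : potential μ x ≠ ⊤) :
    Tendsto (fun r => μ (closedBall x r) / ENNReal.ofReal (r ^ 2)) (𝓝[>] 0) (𝓝 0) := by
  have hsmall : Tendsto (fun r : ℝ => μ (closedBall x r)) (𝓝[>] 0) (𝓝 0) := by
    have hc : Tendsto (fun r : ℝ => ENNReal.ofReal (r ^ 2) * potential μ x) (𝓝[>] 0) (𝓝 0) := by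
      have h1 : Tendsto (fun r : ℝ => ENNReal.ofReal (r ^ 2)) (𝓝[>] 0) (𝓝 0) := by
        have := ((ENNReal.continuous_ofReal.comp (continuous_pow 2)).tendsto (0 : ℝ))
        simpa [Function.comp_def] using this.mono_left nhdsWithin_le_nhds
      simpa using ENNReal.Tendsto.mul_const h1 (Or.inr h)
    refine tendsto_of_tendsto_of_tendsto_of_le_of_le' tendsto_const_nhds hc
      (Eventually.of_forall fun _ => zero_le) ?_
    filter_upwards [self_mem_nhdsWithin] with r hr
    exact (measure_closedBall_le μ x hr).trans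
      (mul_le_mul_right (setLIntegral_le_lintegral _ _) _)
  refine tendsto_of_tendsto_of_tendsto_of_le_of_le' tendsto_const_nhds
    (tendsto_setLIntegral_zero (f := pole x) (s := fun r : ℝ => closedBall x r) h hsmall)
    (Eventually.of_forall fun _ => zero_le) ?_
  filter_upwards [self_mem_nhdsWithin] with r hr
  exact ENNReal.div_le_of_le_mul ((measure_closedBall_le μ x hr).trans_eq (mul_comm _ _))

lemma potential_restrict_le (μ : Measure X) (s : Set X) (x : X) :
    potential (μ.restrict s) x ≤ potential μ x :=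
  setLIntegral_le_lintegral _ _

/-- With the poles removed, the density vanishes off the poles. -/
lemma densSet_restrict_subset (μ : Measure X) :
    densSet (μ.restrict (poles μ)ᶜ) ⊆ poles μ := fun x hx => by
  by_contra h
  exact hx (tendsto_density_zero (ne_top_of_le_ne_top h (potential_restrict_le μ _ x)))

/-- With the poles removed, the density vanishes almost everywhere. -/
lemma restrict_densSet_eq_zero (μ : Measure X) [SFinite μ] :
    μ.restrict (poles μ)ᶜ (densSet (μ.restrict (poles μ)ᶜ)) = 0 := by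
  refine measure_mono_null (densSet_restrict_subset μ) ?_
  rw [Measure.restrict_apply (measurableSet_poles μ), inter_compl_self, measure_empty]

/-- The density set is local. -/
lemma mem_densSet_restrict_iff (μ : Measure X) {U : Set X} {x : X} (hU : IsOpen U) (hx : x ∈ U) :
    x ∈ densSet (μ.restrict U) ↔ x ∈ densSet μ := by
  obtain ⟨δ, hδ, hball⟩ := nhds_basis_closedBall.mem_iff.1 (hU.mem_nhds hx)
  simp only [densSet, mem_ofPred_eq]
  refine not_congr (tendsto_congr' ?_)
  filter_upwards [Ioc_mem_nhdsGT hδ] with r hr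
  rw [Measure.restrict_apply measurableSet_closedBall,
    inter_eq_self_of_subset_left ((closedBall_subset_closedBall hr.2).trans hball)]

/-- The part of the potential from outside a neighbourhood is finite. -/
lemma potential_restrict_diff_ne_top (μ : Measure X) {U W : Set X} {x : X} (hU : IsOpen U)
    (hx : x ∈ U) (hW : μ W ≠ ⊤) : potential (μ.restrict (W \ U)) x ≠ ⊤ := by
  obtain ⟨δ, hδ, hball⟩ := nhds_basis_closedBall.mem_iff.1 (hU.mem_nhds hx)
  refine ne_top_of_le_ne_top
    (ENNReal.mul_ne_top (ENNReal.ofReal_ne_top (r := (δ ^ 2)⁻¹)) hW) ?_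
  calc potential (μ.restrict (W \ U)) x
      ≤ ∫⁻ y in W \ ball x δ, pole x y ∂μ :=
        lintegral_mono_set (sdiff_subset_sdiff_right (ball_subset_closedBall.trans hball))
    _ ≤ ∫⁻ _ in W \ ball x δ, ENNReal.ofReal ((δ ^ 2)⁻¹) ∂μ :=
        setLIntegral_mono measurable_const fun y hy => by
          have hd : δ ≤ dist x y := by
            rw [dist_comm]; exact not_lt.1 hy.2
          rw [pole_eq (dist_pos.1 (hδ.trans_le hd))]
          exact ENNReal.ofReal_le_ofReal
            (inv_anti₀ (pow_pos hδ 2) (pow_le_pow_left₀ hδ.le hd 2))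
    _ ≤ _ := by
        rw [setLIntegral_const]
        exact mul_le_mul_right (measure_mono sdiff_subset) _

/-- Vitali: a measure of quadratic growth does not charge the positive density set of a finite
measure, as soon as that measure does not charge it. -/
theorem null_densSet {μ ν : Measure X} [IsLocallyFiniteMeasure μ] {s : Set X} (hs : s ⊆ densSet μ)
    (hμ : μ s = 0) {A r₀ : ℝ} (hA : 0 ≤ A) (hr₀ : 0 < r₀)
    (hν : ∀ x ∈ s, ∀ r, 0 < r → r ≤ r₀ → ν (closedBall x r) ≤ ENNReal.ofReal (A * r ^ 2)) :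
    ν s = 0 := by
  have hcover : s ⊆ ⋃ n : ℕ,
      {x ∈ s | ∃ᶠ r in 𝓝[>] 0, ENNReal.ofReal (r ^ 2 / (n + 1)) ≤ μ (closedBall x r)} := by
    intro x hx
    have h := hs hx
    rw [densSet, mem_ofPred_eq, ENNReal.tendsto_nhds_zero] at h
    push Not at h
    obtain ⟨ε, hε, hfreq⟩ := h
    obtain ⟨q, hq0, hqε⟩ := ENNReal.lt_iff_exists_real_btwn.1 hε
    obtain ⟨hq1, hq2⟩ := hqε
    have hqpos : 0 < q := ENNReal.ofReal_pos.1 hq1
    obtain ⟨n, hn⟩ := exists_nat_one_div_lt hqpos
    refine mem_iUnion.2 ⟨n, hx, (hfreq.and_eventually self_mem_nhdsWithin).mono ?_⟩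
    rintro r ⟨hr, hr0⟩
    have hr0 : (0 : ℝ) < r := hr0
    have h1 : ENNReal.ofReal q ≤ μ (closedBall x r) / ENNReal.ofReal (r ^ 2) :=
      (hq2.trans hr).le
    rw [ENNReal.le_div_iff_mul_le (Or.inl (by simp [hr0.ne']))
      (Or.inl ENNReal.ofReal_ne_top), ← ENNReal.ofReal_mul hqpos.le] at h1
    refine le_trans (ENNReal.ofReal_le_ofReal ?_) h1
    rw [div_eq_mul_one_div, mul_comm]
    exact mul_le_mul_of_nonneg_right hn.le (by positivity)
  refine measure_mono_null hcover (measure_iUnion_null fun n => ?_)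
  set sn := {x ∈ s | ∃ᶠ r in 𝓝[>] 0, ENNReal.ofReal (r ^ 2 / (n + 1)) ≤ μ (closedBall x r)}
  set C : ℝ≥0∞ := ENNReal.ofReal (25 * A * (n + 1))
  refine le_antisymm (le_of_forall_gt_imp_ge_of_dense fun ε hε => ?_) zero_le
  obtain ⟨U, hsU, hU, hUε⟩ := sn.exists_isOpen_lt_of_lt (μ := μ) (ε / (C + 1)) (by
    rw [measure_mono_null (fun x hx => hx.1) hμ]
    exact ENNReal.div_pos hε.ne' (by simp [C]))
  set t : Set (X × ℝ) := {p | p.1 ∈ sn ∧ 0 < p.2 ∧ p.2 ≤ r₀ / 5 ∧ closedBall p.1 p.2 ⊆ U ∧
    ENNReal.ofReal (p.2 ^ 2 / (n + 1)) ≤ μ (closedBall p.1 p.2)}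
  obtain ⟨u, hut, hdisj, hsub⟩ := Vitali.exists_disjoint_subfamily_covering_enlargement_closedBall
    t Prod.fst Prod.snd (r₀ / 5) (fun p hp => hp.2.2.1) 5 (by norm_num)
  have hu : u.Countable := hdisj.countable_of_nonempty_interior fun p hp =>
    ⟨p.1, ball_subset_interior_closedBall (mem_ball_self (hut hp).2.1)⟩
  have hsn : sn ⊆ ⋃ p ∈ u, closedBall p.1 (5 * p.2) := by
    intro x hx
    obtain ⟨δ, hδ, hball⟩ := nhds_basis_closedBall.mem_iff.1 (hU.mem_nhds (hsU hx))
    have hev : ∀ᶠ r in 𝓝[>] (0 : ℝ), r ≤ δ ∧ r ≤ r₀ / 5 ∧ 0 < r := by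
      filter_upwards [Ioc_mem_nhdsGT (show (0 : ℝ) < min δ (r₀ / 5) by positivity)] with r hr
      exact ⟨hr.2.trans (min_le_left _ _), hr.2.trans (min_le_right _ _), hr.1⟩
    obtain ⟨r, hμr, hrδ, hrr₀, hr⟩ := (hx.2.and_eventually hev).exists
    obtain ⟨p, hp, hxp⟩ := hsub (x, r) ⟨hx, hr, hrr₀, (closedBall_subset_closedBall hrδ).trans hball,
      hμr⟩
    exact mem_iUnion₂.2 ⟨p, hp, hxp (mem_closedBall_self hr.le)⟩
  calc ν sn ≤ ν (⋃ p ∈ u, closedBall p.1 (5 * p.2)) := measure_mono hsn
    _ ≤ ∑' p : u, ν (closedBall p.1.1 (5 * p.1.2)) := measure_biUnion_le ν hu _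
    _ ≤ ∑' p : u, C * μ (closedBall p.1.1 p.1.2) := by
        refine ENNReal.tsum_le_tsum fun p => ?_
        obtain ⟨hps, hp0, hpr, -, hpμ⟩ := hut p.2
        refine (hν _ hps.1 _ (by positivity) (by linarith)).trans ?_
        refine le_trans (le_of_eq ?_) (mul_le_mul_right hpμ C)
        rw [← ENNReal.ofReal_mul (by positivity)]
        congr 1
        field_simp
        ring
    _ = C * μ (⋃ p ∈ u, closedBall p.1 p.2) := by
        rw [ENNReal.tsum_mul_left, measure_biUnion hu hdisj fun _ _ => measurableSet_closedBall]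
    _ ≤ C * μ U := mul_le_mul_right (measure_mono (iUnion₂_subset fun p hp => (hut hp).2.2.2.1)) C
    _ ≤ (C + 1) * (ε / (C + 1)) := mul_le_mul' le_self_add hUε.le
    _ ≤ ε := ENNReal.mul_div_le

/-- A measure of quadratic growth does not see the density of a measure without poles. -/
theorem null_densSet_restrict {μ ν : Measure X} [IsLocallyFiniteMeasure μ] {A r₀ : ℝ} (hA : 0 ≤ A)
    (hr₀ : 0 < r₀)
    (hν : ∀ x r, 0 < r → r ≤ r₀ → ν (closedBall x r) ≤ ENNReal.ofReal (A * r ^ 2)) :
    ν (densSet (μ.restrict (poles μ)ᶜ)) = 0 :=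
  null_densSet Subset.rfl (restrict_densSet_eq_zero μ) hA hr₀ fun x _ => hν x

/-- Bounded densities tending to zero almost everywhere tend to zero in mean. -/
theorem tendsto_lintegral_density {μ ν : Measure X} [SFinite μ] [IsFiniteMeasure ν] {A r₀ : ℝ}
    (hr₀ : 0 < r₀)
    (hμ : ∀ᵐ x ∂ν, ∀ r, 0 < r → r ≤ r₀ → μ (closedBall x r) ≤ ENNReal.ofReal (A * r ^ 2))
    (hν : ν (densSet μ) = 0) :
    Tendsto (fun r => ∫⁻ x, μ (closedBall x r) / ENNReal.ofReal (r ^ 2) ∂ν) (𝓝[>] 0) (𝓝 0) := by
  have h := tendsto_lintegral_filter_of_dominated_convergence (μ := ν) (l := 𝓝[>] (0 : ℝ))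
    (F := fun r x => μ (closedBall x r) / ENNReal.ofReal (r ^ 2)) (f := fun _ => 0)
    (fun _ => ENNReal.ofReal A) (Eventually.of_forall fun r =>
      (measurable_measure_closedBall μ r).div_const _) ?_
    (by simp [ENNReal.mul_eq_top]) ?_
  · simpa using h
  · filter_upwards [Ioc_mem_nhdsGT hr₀] with r hr
    filter_upwards [hμ] with x hx
    refine ENNReal.div_le_of_le_mul ((hx r hr.1 hr.2).trans_eq ?_)
    rw [← ENNReal.ofReal_mul' (sq_nonneg r)]
  · filter_upwards [measure_eq_zero_iff_ae_notMem.1 hν] with x hx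
    simpa [densSet] using hx

/-- Poles are null for finite measures of growth `r ^ 4`. -/
theorem measure_poles_eq_zero {μ m : Measure X} [IsFiniteMeasure μ] [IsFiniteMeasure m] {C : ℝ}
    (hC : 0 ≤ C) (hm : ∀ y r, 0 ≤ r → r ≤ 1 → m (closedBall y r) ≤ ENNReal.ofReal (C * r ^ 4)) :
    m (poles μ) = 0 := by
  set K : ℝ≥0∞ := m univ + ∑' k : ℕ, ENNReal.ofReal (4 * C * (1 / 4) ^ k)
  have hpole : ∀ y, ∫⁻ x, pole x y ∂m ≤ K := by
    intro y
    have hle : ∀ x, pole x y ≤ 1 + ∑' k : ℕ,
        (closedBall y ((1 / 2) ^ k)).indicator (fun _ => ENNReal.ofReal (4 * 4 ^ k)) x := by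
      intro x
      rcases eq_or_ne x y with rfl | hne
      · refine le_trans le_top (le_of_eq ?_)
        rw [eq_comm, ENNReal.add_eq_top]
        refine Or.inr ?_
        simp_rw [indicator_of_mem (mem_closedBall_self (by positivity : (0:ℝ) ≤ (1 / 2) ^ _))]
        rw [← top_le_iff, ← ENNReal.tsum_const_eq_top_of_ne_zero (α := ℕ) (c := 1) one_ne_zero]
        exact ENNReal.tsum_le_tsum fun k => by
            rw [← ENNReal.ofReal_one]
            exact ENNReal.ofReal_le_ofReal (by nlinarith [one_le_pow₀ (show (1:ℝ) ≤ 4 by norm_num) (n := k)])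
      have hd : 0 < dist x y := dist_pos.2 hne
      rw [pole_eq hne]
      rcases le_or_gt 1 (dist x y) with h1 | h1
      · refine le_trans ?_ le_self_add
        rw [← ENNReal.ofReal_one]
        exact ENNReal.ofReal_le_ofReal (inv_le_one_of_one_le₀ (one_le_pow₀ h1))
      · obtain ⟨k, hk1, hk2⟩ := exists_nat_pow_near_of_lt_one hd h1.le
          (show (0:ℝ) < 1 / 2 by norm_num) (show (1 / 2 : ℝ) < 1 by norm_num)
        refine le_trans ?_ (le_add_left (ENNReal.le_tsum k))
        rw [indicator_of_mem (show x ∈ closedBall y ((1 / 2) ^ k) from hk2)]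
        refine ENNReal.ofReal_le_ofReal (inv_le_of_inv_le₀ (by positivity) ?_)
        refine le_trans (le_of_eq ?_) (pow_le_pow_left₀ (by positivity) hk1.le 2)
        rw [← pow_mul, mul_comm (k + 1) 2, pow_mul, show ((1 / 2 : ℝ) ^ 2) = (4 : ℝ)⁻¹ by norm_num,
          inv_pow, pow_succ, mul_comm]
    refine (lintegral_mono hle).trans ?_
    rw [lintegral_add_left measurable_const, lintegral_one, lintegral_tsum fun k =>
      (measurable_const.indicator measurableSet_closedBall).aemeasurable]
    refine add_le_add le_rfl (ENNReal.tsum_le_tsum fun k => ?_)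
    rw [lintegral_indicator_const measurableSet_closedBall]
    refine (mul_le_mul_right (hm y _ (by positivity) (pow_le_one₀ (by norm_num) (by norm_num))) _).trans
      (le_of_eq ?_)
    rw [← ENNReal.ofReal_mul (by positivity)]
    congr 1
    rw [← pow_mul, mul_comm k 4, pow_mul, show (1 / 4 : ℝ) = 4 * (1 / 2) ^ 4 by norm_num, mul_pow]
    ring
  have hK : K ≠ ⊤ := by
    refine ENNReal.add_ne_top.2 ⟨measure_ne_top _ _, ?_⟩
    rw [← ENNReal.ofReal_tsum_of_nonneg (fun k => by positivity)
      ((summable_geometric_of_lt_one (by norm_num) (by norm_num)).mul_left _)]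
    exact ENNReal.ofReal_ne_top
  have hint : ∫⁻ x, potential μ x ∂m ≠ ⊤ := by
    refine ne_top_of_le_ne_top (ENNReal.mul_ne_top hK (measure_ne_top μ univ)) ?_
    unfold potential
    rw [lintegral_lintegral_swap measurable_pole.aemeasurable]
    exact (lintegral_mono hpole).trans_eq (lintegral_const _)
  have h := ae_lt_top (measurable_potential μ) hint
  rw [ae_iff] at h
  exact measure_mono_null (fun x hx => by simp [poles] at hx; simp [hx]) h

/-- The layer formula for the truncated potential. -/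
theorem lintegral_ball_layer (μ : Measure X) [SFinite μ] (x : X) {a b : ℝ} (ha : 0 < a) (hb : 0 < b) :
    ∫⁻ s in Ioo a b, ENNReal.ofReal ((s ^ 3)⁻¹) * μ (ball x s) =
      ∫⁻ y, ENNReal.ofReal ((((max a (dist x y)) ^ 2)⁻¹ - (b ^ 2)⁻¹) / 2) ∂μ := by
  set S : Set (ℝ × X) := {p | dist p.2 x < p.1}
  have hS : MeasurableSet S := measurableSet_lt (by fun_prop) measurable_fst
  have hg : Measurable fun s : ℝ => ENNReal.ofReal ((s ^ 3)⁻¹) := by fun_prop
  have h1 : ∀ s, ENNReal.ofReal ((s ^ 3)⁻¹) * μ (ball x s) =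
      ∫⁻ y, S.indicator (fun p => ENNReal.ofReal ((p.1 ^ 3)⁻¹)) (s, y) ∂μ := by
    intro s
    rw [show (fun y => S.indicator (fun p => ENNReal.ofReal ((p.1 ^ 3)⁻¹)) (s, y)) =
      (ball x s).indicator (fun _ => ENNReal.ofReal ((s ^ 3)⁻¹)) from rfl,
      lintegral_indicator_const measurableSet_ball]
  simp_rw [h1]
  have hm : Measurable (Function.uncurry fun (s : ℝ) (y : X) =>
      S.indicator (fun p => ENNReal.ofReal ((p.1 ^ 3)⁻¹)) (s, y)) :=
    (hg.comp measurable_fst).indicator hS
  rw [lintegral_lintegral_swap hm.aemeasurable]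
  refine lintegral_congr fun y => ?_
  have hd : 0 ≤ dist x y := dist_nonneg
  set c := max a (dist x y)
  have hc : 0 < c := lt_max_of_lt_left ha
  have e : (fun s => S.indicator (fun p => ENNReal.ofReal ((p.1 ^ 3)⁻¹)) (s, y)) =
      (Ioi (dist x y)).indicator fun s => ENNReal.ofReal ((s ^ 3)⁻¹) := by
    ext s
    simp [S, indicator, dist_comm y x]
  rw [e, setLIntegral_indicator measurableSet_Ioi]
  have e2 : Ioi (dist x y) ∩ Ioo a b = Ioo c b := by
    ext s; simp [c]; tauto
  rw [e2]
  rcases le_or_gt b c with hbc | hbc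
  · rw [Ioo_eq_empty (not_lt.2 hbc), setLIntegral_empty, eq_comm, ENNReal.ofReal_eq_zero]
    have := inv_anti₀ (pow_pos hb 2) (pow_le_pow_left₀ hb.le hbc 2)
    linarith
  · have hne : ∀ s ∈ uIcc c b, s ≠ 0 := fun s hs => by
      rw [uIcc_of_le hbc.le] at hs
      exact (hc.trans_le hs.1).ne'
    have hcont : ContinuousOn (fun s : ℝ => (s ^ 3)⁻¹) (uIcc c b) :=
      (continuousOn_id.pow 3).inv₀ fun s hs => pow_ne_zero 3 (hne s hs)
    have hi : IntegrableOn (fun s : ℝ => (s ^ 3)⁻¹) (Ioo c b) := by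
      rw [uIcc_of_le hbc.le] at hcont
      exact hcont.integrableOn_Icc.mono_set Ioo_subset_Icc_self
    rw [← ofReal_integral_eq_lintegral_ofReal hi]
    · congr 1
      rw [← integral_Ioc_eq_integral_Ioo, ← intervalIntegral.integral_of_le hbc.le,
        intervalIntegral.integral_eq_sub_of_hasDerivAt (f := fun s => -(s ^ 2)⁻¹ / 2)
          (fun s hs => ?_) hcont.intervalIntegrable]
      · ring
      · have h := (((hasDerivAt_pow 2 s).fun_inv (pow_ne_zero 2 (hne s hs))).fun_neg).div_const 2
        refine h.congr_deriv ?_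
        have := hne s hs
        field_simp
        ring
    · exact (ae_restrict_iff' measurableSet_Ioo).2 (Eventually.of_forall fun s hs =>
        inv_nonneg.2 (pow_nonneg (hc.trans hs.1).le 3))

/-- Poles of a finite measure on four-dimensional coordinate space are Lebesgue null. -/
theorem volume_poles_eq_zero (μ : Measure (Fin 4 → ℝ)) [IsFiniteMeasure μ] :
    volume (poles μ) = 0 := by
  have hmeas : MeasurableSet (poles μ) := measurableSet_poles μ
  have h : ∀ n : ℕ, volume (poles μ ∩ closedBall 0 n) = 0 := fun n => by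
    have : IsFiniteMeasure (volume.restrict (closedBall (0 : Fin 4 → ℝ) n)) :=
      isFiniteMeasure_restrict.2 measure_closedBall_lt_top.ne
    rw [← Measure.restrict_apply hmeas]
    refine measure_poles_eq_zero (C := 16) (by norm_num) fun y r hr _ => ?_
    refine (Measure.restrict_apply_le _ _).trans (le_of_eq ?_)
    rw [Real.volume_pi_closedBall y hr, Fintype.card_fin]
    ring_nf
  refine measure_mono_null (fun x hx => mem_iUnion.2 ?_) (measure_iUnion_null h)
  obtain ⟨n, hn⟩ := exists_nat_ge (dist x 0)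
  exact ⟨n, hx, hn⟩

end Vale.Agent.P204.Tame
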