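import Mathlib

/-!
P204: splitting along the kernel of a semipositive form, and solving its equation on the
orthogonal, when minimising sequences converge and bounded sequences have Cauchy subsequences.
No completeness of the space is assumed.
-/

namespace Vale.Agent.P204.Tame

open Filter Topology

variable {V : Type*} [AddCommGroup V] [Module ℝ V]

/-- A symmetric form with nonnegative square. -/
structure SemiForm (B : V →ₗ[ℝ] V →ₗ[ℝ] ℝ) : Prop where
  symm : ∀ x y, B x y = B y x
  nonneg : ∀ x, 0 ≤ B x x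

namespace SemiForm

variable {B : V →ₗ[ℝ] V →ₗ[ℝ] ℝ} (h : SemiForm B)

include h

lemma expand (x y : V) (t : ℝ) :
    B (x + t • y) (x + t • y) = B x x + 2 * t * B x y + t ^ 2 * B y y := by
  simp only [map_add, LinearMap.add_apply, map_smul, LinearMap.smul_apply, smul_eq_mul, h.symm y x]
  ring

lemma sub_self (x y : V) : B (x - y) (x - y) = B x x - 2 * B x y + B y y := by
  have := h.expand x y (-1)
  rw [neg_one_smul, ← sub_eq_add_neg] at this
  rw [this]
  ring

lemma smul_self (x : V) (t : ℝ) : B (t • x) (t • x) = t ^ 2 * B x x := by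
  simp only [map_smul, LinearMap.smul_apply, smul_eq_mul]
  ring

lemma sub_rev (x y : V) : B (x - y) (x - y) = B (y - x) (y - x) := by
  rw [h.sub_self, h.sub_self, h.symm x y]
  ring

lemma sq_le (x y : V) : B x y ^ 2 ≤ B x x * B y y := by
  have hq : ∀ t : ℝ, 0 ≤ B y y * (t * t) + 2 * B x y * t + B x x := fun t => by
    have := h.nonneg (x + t • y)
    rw [h.expand] at this
    linarith
  have := discrim_le_zero hq
  rw [discrim] at this
  linarith

lemma eq_zero_of_self {x : V} (hx : B x x = 0) (y : V) : B x y = 0 := by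
  have := h.sq_le x y
  rw [hx, zero_mul] at this
  exact pow_eq_zero_iff two_ne_zero |>.1 (le_antisymm this (sq_nonneg _))

lemma abs_le (x y : V) : |B x y| ≤ Real.sqrt (B x x * B y y) :=
  Real.abs_le_sqrt (h.sq_le x y)

lemma tendsto_pair {v : ℕ → V} {u : V}
    (hv : Tendsto (fun n => B (v n - u) (v n - u)) atTop (𝓝 0)) (y : V) :
    Tendsto (fun n => B (v n) y) atTop (𝓝 (B u y)) := by
  rw [tendsto_iff_norm_sub_tendsto_zero]
  refine squeeze_zero (fun n => norm_nonneg _) (fun n => ?_)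
    (g := fun n => Real.sqrt (B (v n - u) (v n - u) * B y y))
    (by simpa using (hv.mul_const (B y y)).sqrt)
  have := h.abs_le (v n - u) y
  rw [Real.norm_eq_abs]
  calc |B (v n) y - B u y| = |B (v n - u) y| := by rw [map_sub, LinearMap.sub_apply]
    _ ≤ _ := this

lemma tendsto_self {v : ℕ → V} {u : V}
    (hv : Tendsto (fun n => B (v n - u) (v n - u)) atTop (𝓝 0)) :
    Tendsto (fun n => B (v n) (v n)) atTop (𝓝 (B u u)) := by
  have e : ∀ n, B (v n) (v n) = B (v n - u) (v n - u) + 2 * B (v n) u - B u u := fun n => by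
    rw [h.sub_self]; ring
  simp only [e]
  convert (hv.add ((h.tendsto_pair hv u).const_mul 2)).sub_const (B u u) using 2
  ring

end SemiForm

/-- Splitting and solving with a bound. -/
theorem exists_split {B P : V →ₗ[ℝ] V →ₗ[ℝ] ℝ} (hB : SemiForm B) (hP : SemiForm P)
    (hlim : ∀ (f : V) (v : ℕ → V),
      (∀ δ > 0, ∃ N, ∀ n ≥ N, ∀ m ≥ N, B (v n - v m) (v n - v m) + P (v n - v m) (v n - v m) < δ) →
      (∀ k, Tendsto (fun n => B (v n) k) atTop (𝓝 (P f k))) →
      ∃ u, Tendsto (fun n => B (v n - u) (v n - u)) atTop (𝓝 0) ∧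
        Tendsto (fun n => P (v n - u) (v n - u)) atTop (𝓝 0))
    (hcpt : ∀ v : ℕ → V, (∀ n, B (v n) (v n) + P (v n) (v n) ≤ 2) →
      ∃ φ : ℕ → ℕ, StrictMono φ ∧
        ∀ δ > 0, ∃ N, ∀ n ≥ N, ∀ m ≥ N, P (v (φ n) - v (φ m)) (v (φ n) - v (φ m)) < δ) :
    ∃ C : ℝ, ∀ e, ∃ χ u, B χ χ = 0 ∧ (∀ k, B u k = P (e - χ) k) ∧
      P χ χ + B u u + P u u ≤ C * P e e := by
  -- projection onto the kernel
  have hproj : ∀ e, ∃ χ, B χ χ = 0 ∧ ∀ k, B k k = 0 → P (e - χ) k = 0 := by
    intro e
    set S : Set ℝ := (fun k => P (e - k) (e - k)) '' {k | B k k = 0}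
    have hne : S.Nonempty := ⟨_, 0, by simp, rfl⟩
    have hbd : BddBelow S := ⟨0, by rintro _ ⟨k, -, rfl⟩; exact hP.nonneg _⟩
    set d := sInf S
    have hd : ∀ k, B k k = 0 → d ≤ P (e - k) (e - k) := fun k hk => csInf_le hbd ⟨k, hk, rfl⟩
    have hex : ∀ n : ℕ, ∃ k, B k k = 0 ∧ P (e - k) (e - k) < d + 1 / (n + 1) := fun n => by
      obtain ⟨_, ⟨k, hk, rfl⟩, hlt⟩ := exists_lt_of_csInf_lt hne
        (show sInf S < d + 1 / ((n : ℝ) + 1) by
          have : (0 : ℝ) < 1 / ((n : ℝ) + 1) := by positivity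
          linarith)
      exact ⟨k, hk, hlt⟩
    choose k hk0 hk using hex
    have hkB : ∀ n y, B (k n) y = 0 := fun n y => hB.eq_zero_of_self (hk0 n) y
    have hdiff : ∀ n m, B (k n - k m) (k n - k m) = 0 := fun n m => by
      simp [map_sub, hkB]
    obtain ⟨χ, hχB, hχP⟩ := hlim 0 k (fun δ hδ => by
      obtain ⟨N, hN⟩ := exists_nat_gt (4 / δ)
      refine ⟨N, fun n hn m hm => ?_⟩
      rw [hdiff, zero_add]
      have hmid : B ((1 / 2 : ℝ) • (k n + k m)) ((1 / 2 : ℝ) • (k n + k m)) = 0 := by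
        simp [map_add, hkB]
      have h1 := hd _ hmid
      have h2 : P (k n - k m) (k n - k m) = 2 * P (e - k n) (e - k n) + 2 * P (e - k m) (e - k m)
          - 4 * P (e - (1 / 2 : ℝ) • (k n + k m)) (e - (1 / 2 : ℝ) • (k n + k m)) := by
        simp only [map_sub, LinearMap.sub_apply, map_add, LinearMap.add_apply, map_smul,
          LinearMap.smul_apply, smul_eq_mul, hP.symm (k n) e, hP.symm (k m) e,
          hP.symm (k m) (k n)]
        ring
      have hb : ∀ i ≥ N, 1 / ((i : ℝ) + 1) < δ / 4 := fun i hi => by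
        have : (N : ℝ) ≤ i := by exact_mod_cast hi
        rw [div_lt_iff₀ (by positivity)]
        rw [div_lt_iff₀ hδ] at hN
        nlinarith
      have := hk n
      have := hk m
      have := hb n hn
      have := hb m hm
      linarith) (fun y => by simp [hkB])
    have hχ0 : B χ χ = 0 := by
      have h0 : ∀ n, B (k n) (k n) = 0 := hk0
      refine tendsto_nhds_unique (hB.tendsto_self hχB) ?_
      simp [h0]
    refine ⟨χ, hχ0, fun y hy => ?_⟩
    have he : Tendsto (fun n => P (e - k n) (e - k n)) atTop (𝓝 (P (e - χ) (e - χ))) := by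
      refine hP.tendsto_self (u := e - χ) (hχP.congr fun n => ?_)
      rw [hP.sub_rev, sub_sub_sub_cancel_left]
    have hmin : P (e - χ) (e - χ) = d := by
      refine le_antisymm ?_ (hd χ hχ0)
      have h1 : Tendsto (fun n : ℕ => d + 1 / ((n : ℝ) + 1)) atTop (𝓝 d) := by
        simpa using tendsto_one_div_add_atTop_nhds_zero_nat.const_add d
      exact le_of_tendsto_of_tendsto' he h1 fun n => (hk n).le
    have hq : ∀ t : ℝ, 0 ≤ P y y * (t * t) + 2 * P (e - χ) y * t + 0 := fun t => by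
      have hk' : B (χ + (-t) • y) (χ + (-t) • y) = 0 := by
        rw [hB.expand, hχ0, hy, hB.eq_zero_of_self hχ0 y]; ring
      have h1 := hd _ hk'
      rw [show e - (χ + (-t) • y) = (e - χ) + t • y by rw [neg_smul]; abel, hP.expand, hmin] at h1
      linarith
    have := discrim_le_zero hq
    rw [discrim] at this
    nlinarith [sq_nonneg (P (e - χ) y)]
  -- the kernel is the only obstruction
  obtain ⟨C₁, hC₁, hpoin⟩ : ∃ C : ℝ, 0 ≤ C ∧
      ∀ v, (∀ k, B k k = 0 → P v k = 0) → P v v ≤ C * B v v := by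
    by_contra! hcon
    choose v hv hlt using fun n : ℕ => hcon ((n : ℝ) + 1) (by positivity)
    have hpos : ∀ n, 0 < P (v n) (v n) := fun n =>
      lt_of_le_of_lt (mul_nonneg (by positivity) (hB.nonneg _)) (hlt n)
    set w : ℕ → V := fun n => (Real.sqrt (P (v n) (v n)))⁻¹ • v n
    have hwP : ∀ n, P (w n) (w n) = 1 := fun n => by
      rw [hP.smul_self, inv_pow, Real.sq_sqrt (hpos n).le, inv_mul_cancel₀ (hpos n).ne']
    have hwB : ∀ n : ℕ, B (w n) (w n) ≤ 1 / ((n : ℝ) + 1) := fun n => by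
      rw [hB.smul_self, inv_pow, Real.sq_sqrt (hpos n).le, inv_mul_le_iff₀ (hpos n),
        mul_one_div, le_div_iff₀ (by positivity)]
      linarith [hlt n]
    obtain ⟨φ, hφ, hc⟩ := hcpt w fun n => by
      have : 1 / ((n : ℝ) + 1) ≤ 1 := by
        rw [div_le_one (by positivity)]
        linarith [(Nat.cast_nonneg n : (0 : ℝ) ≤ n)]
      linarith [hwB n, hwP n]
    have hB0 : Tendsto (fun n => B (w (φ n)) (w (φ n))) atTop (𝓝 0) := by
      have : Tendsto (fun n => B (w n) (w n)) atTop (𝓝 0) :=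
        squeeze_zero (fun n => hB.nonneg _) hwB tendsto_one_div_add_atTop_nhds_zero_nat
      exact this.comp hφ.tendsto_atTop
    obtain ⟨u, huB, huP⟩ := hlim 0 (fun n => w (φ n)) (fun δ hδ => by
      obtain ⟨N₁, hN₁⟩ := hc (δ / 2) (by linarith)
      obtain ⟨N₂, hN₂⟩ := Metric.tendsto_atTop.1 hB0 (δ / 8) (by linarith)
      refine ⟨max N₁ N₂, fun n hn m hm => ?_⟩
      have a1 := hN₁ n (le_of_max_le_left hn) m (le_of_max_le_left hm)
      have a2 := hN₂ n (le_of_max_le_right hn)
      have a3 := hN₂ m (le_of_max_le_right hm)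
      simp only [Real.dist_eq, sub_zero, abs_of_nonneg (hB.nonneg _)] at a2 a3
      have a4 := hB.nonneg (w (φ n) + (1 : ℝ) • w (φ m))
      rw [hB.expand] at a4
      rw [hB.sub_self]
      linarith) (fun k => by
        simp only [map_zero, LinearMap.zero_apply]
        rw [tendsto_zero_iff_norm_tendsto_zero]
        refine squeeze_zero (fun n => norm_nonneg _) (fun n => hB.abs_le _ k) ?_
        simpa using (hB0.mul_const (B k k)).sqrt)
    have hu0 : B u u = 0 := tendsto_nhds_unique (hB.tendsto_self huB) hB0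
    have hu1 : P u u = 1 := tendsto_nhds_unique (hP.tendsto_self huP) (by simp [hwP])
    have hu2 : P u u = 0 := tendsto_nhds_unique (hP.tendsto_pair huP u) (by
      simp [w, hv _ u hu0])
    linarith
  refine ⟨8 * (C₁ + 1) ^ 2 + 8, fun e => ?_⟩
  obtain ⟨χ, hχ0, hχ⟩ := hproj e
  set f := e - χ
  have hPe : P e e = P f f + P χ χ := by
    have h1 : e = f + (1 : ℝ) • χ := by simp [f]
    rw [h1, hP.expand, hχ χ hχ0]
    ring
  -- minimise the energy on the orthogonal of the kernel
  set F : V → ℝ := fun v => B v v - 2 * P f v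
  set T : Set ℝ := F '' {v | ∀ k, B k k = 0 → P v k = 0}
  have hne : T.Nonempty := ⟨_, 0, by simp, rfl⟩
  have hbd : BddBelow T := by
    refine ⟨-(C₁ * P f f), ?_⟩
    rintro _ ⟨v, hv, rfl⟩
    have h1 : P f v ^ 2 ≤ (C₁ * P f f) * B v v :=
      (hP.sq_le f v).trans (by nlinarith [hP.nonneg f, hpoin v hv])
    have h0 : 0 ≤ C₁ * P f f := mul_nonneg hC₁ (hP.nonneg _)
    simp only [F]
    nlinarith [sq_nonneg (B v v - C₁ * P f f), hB.nonneg v]
  set m := sInf T
  have hm : ∀ v, (∀ k, B k k = 0 → P v k = 0) → m ≤ F v := fun v hv => csInf_le hbd ⟨v, hv, rfl⟩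
  have hex : ∀ n : ℕ, ∃ v, (∀ k, B k k = 0 → P v k = 0) ∧ F v < m + 1 / (n + 1) := fun n => by
    obtain ⟨_, ⟨v, hv, rfl⟩, hlt⟩ := exists_lt_of_csInf_lt hne
      (show sInf T < m + 1 / ((n : ℝ) + 1) by
        have : (0 : ℝ) < 1 / ((n : ℝ) + 1) := by positivity
        linarith)
    exact ⟨v, hv, hlt⟩
  choose v hv hF using hex
  have hvar : ∀ (n : ℕ) h, (∀ k, B k k = 0 → P h k = 0) →
      (B (v n) h - P f h) ^ 2 ≤ (1 / ((n : ℝ) + 1)) * B h h := by
    intro n h hh
    have hq : ∀ t : ℝ, 0 ≤ B h h * (t * t) + 2 * (B (v n) h - P f h) * t + 1 / ((n : ℝ) + 1) := by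
      intro t
      have h1 := hm (v n + t • h) fun k hk => by simp [hv n k hk, hh k hk]
      simp only [F] at h1
      rw [hB.expand, (P f).map_add, (P f).map_smul, smul_eq_mul] at h1
      have h2 := hF n
      simp only [F] at h2
      linarith
    have := discrim_le_zero hq
    rw [discrim] at this
    linarith
  have hweak : ∀ h, Tendsto (fun n => B (v n) h) atTop (𝓝 (P f h)) := by
    intro h
    obtain ⟨k, hk, hk'⟩ := hproj h
    have e1 : ∀ n, B (v n) h = B (v n) (h - k) := fun n => by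
      rw [map_sub, hB.symm (v n) k, hB.eq_zero_of_self hk]; ring
    have e2 : P f h = P f (h - k) := by rw [(P f).map_sub, hχ k hk, sub_zero]
    simp only [e1, e2]
    rw [tendsto_iff_norm_sub_tendsto_zero]
    refine squeeze_zero (fun n => norm_nonneg _) (fun n => Real.abs_le_sqrt (hvar n _ hk')) ?_
    simpa using ((tendsto_one_div_add_atTop_nhds_zero_nat).mul_const (B (h - k) (h - k))).sqrt
  obtain ⟨u, huB, huP⟩ := hlim f v (fun δ hδ => by
    obtain ⟨N, hN⟩ := exists_nat_gt (8 * (C₁ + 1) / δ)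
    refine ⟨N, fun n hn l hl => ?_⟩
    have h1 := hm ((1 / 2 : ℝ) • (v n + v l)) fun k hk => by simp [hv n k hk, hv l k hk]
    have h2 : B (v n - v l) (v n - v l) = 2 * F (v n) + 2 * F (v l)
        - 4 * F ((1 / 2 : ℝ) • (v n + v l)) := by
      simp only [F, map_sub, LinearMap.sub_apply, map_add, LinearMap.add_apply, map_smul,
        LinearMap.smul_apply, smul_eq_mul, hB.symm (v l) (v n)]
      ring
    have hp := hpoin (v n - v l) fun k hk => by simp [hv n k hk, hv l k hk]
    have hb : ∀ i ≥ N, (C₁ + 1) * (1 / ((i : ℝ) + 1)) < δ / 8 := fun i hi => by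
      have : (N : ℝ) ≤ i := by exact_mod_cast hi
      rw [mul_one_div, div_lt_iff₀ (by positivity)]
      rw [div_lt_iff₀ hδ] at hN
      nlinarith
    have hBle : B (v n - v l) (v n - v l) ≤
        2 * (1 / ((n : ℝ) + 1)) + 2 * (1 / ((l : ℝ) + 1)) := by
      have := hF n
      have := hF l
      linarith
    have := hb n hn
    have := hb l hl
    have := mul_le_mul_of_nonneg_left hBle (show (0 : ℝ) ≤ C₁ + 1 by linarith)
    nlinarith [hB.nonneg (v n - v l)]) hweak
  have heq : ∀ k, B u k = P f k := fun k => tendsto_nhds_unique (hB.tendsto_pair huB k) (hweak k)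
  have hu : ∀ k, B k k = 0 → P u k = 0 := fun k hk =>
    tendsto_nhds_unique (hP.tendsto_pair huP k) (by simp [hv _ k hk])
  refine ⟨χ, u, hχ0, heq, ?_⟩
  have hp := hpoin u hu
  have hBu : B u u ≤ C₁ * P f f := by
    have h1 : B u u ^ 2 ≤ C₁ * P f f * B u u := by
      calc B u u ^ 2 = P f u ^ 2 := by rw [heq u]
        _ ≤ P f f * P u u := hP.sq_le f u
        _ ≤ P f f * (C₁ * B u u) := mul_le_mul_of_nonneg_left hp (hP.nonneg _)
        _ = _ := by ring
    rcases (hB.nonneg u).eq_or_lt with h0 | h0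
    · rw [← h0]; exact mul_nonneg hC₁ (hP.nonneg _)
    · nlinarith
  have hf0 := hP.nonneg f
  have hc0 := hP.nonneg χ
  rw [hPe]
  nlinarith [mul_le_mul_of_nonneg_left hBu hC₁, hB.nonneg u, mul_nonneg hC₁ hf0, mul_nonneg hC₁ hc0]

end Vale.Agent.P204.Tame
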