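import Vale.Agent.P204.Tame.EllipticOp

/-!
Coercivity of the cut off operator on trigonometric polynomials.
-/

namespace Vale.Agent.P204.Tame

open scoped ContDiff Matrix Topology ComplexConjugate
open MeasureTheory Set Filter

/-- The principal coefficient sequences. -/
noncomputable def aseq (J G : E → M) (η : E → ℝ) (p q : I3) : K → ℂ :=
  cper fun x => η x * acoef J G p q x

/-- The projection coefficient sequences. -/
noncomputable def pseq (J : E → M) (η : E → ℝ) (α β : I2) : K → ℂ :=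
  cper fun x => η x * pco (J x) α β

theorem exists_posdef_bound {V L : Set E} {G : E → M} (hG : IsPosDefOn V G) (hL : IsCompact L)
    (hLV : L ⊆ V) : ∃ c > 0, ∃ Γ : ℝ, ∀ x ∈ L,
      (∀ a : E, c * (a ⬝ᵥ a) ≤ a ⬝ᵥ (G x *ᵥ a)) ∧ ∑ i, ∑ j, G x i j ^ 2 ≤ Γ := by
  have hGc : ∀ i j, ContinuousOn (fun x => G x i j) L := fun i j =>
    ((hG.smooth i j).continuousOn).mono hLV
  obtain ⟨Γ, hΓ⟩ := hL.exists_bound_of_continuousOn (f := fun x => ∑ i, ∑ j, G x i j ^ 2)
    (continuousOn_finsetSum _ fun i _ => continuousOn_finsetSum _ fun j _ => (hGc i j).pow 2)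
  set S : Set E := {a | a ⬝ᵥ a = 1}
  have hS : IsCompact S := by
    refine Metric.isCompact_of_isClosed_isBounded (isClosed_eq (by fun_prop) continuous_const)
      ((Metric.isBounded_closedBall (x := (0 : E)) (r := 1)).subset fun a ha => ?_)
    rw [mem_closedBall_zero_iff, pi_norm_le_iff_of_nonneg zero_le_one]
    intro i
    have h : a i * a i ≤ a ⬝ᵥ a := Finset.single_le_sum (f := fun j => a j * a j)
      (fun j _ => mul_self_nonneg _) (Finset.mem_univ i)
    rw [ha.out] at h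
    rw [Real.norm_eq_abs, abs_le]
    constructor <;> nlinarith
  have hf : ContinuousOn (fun z : E × E => z.2 ⬝ᵥ (G z.1 *ᵥ z.2)) (L ×ˢ S) := by
    simp only [dotProduct, Matrix.mulVec]
    refine continuousOn_finsetSum _ fun i _ => ?_
    refine ((continuous_apply i).comp continuous_snd).continuousOn.mul
      (continuousOn_finsetSum _ fun j _ => ?_)
    exact ((hGc i j).comp continuous_fst.continuousOn fun z hz => hz.1).mul
      ((continuous_apply j).comp continuous_snd).continuousOn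
  obtain ⟨c, hc, hcb⟩ : ∃ c > 0, ∀ z ∈ L ×ˢ S, c ≤ z.2 ⬝ᵥ (G z.1 *ᵥ z.2) := by
    rcases (L ×ˢ S).eq_empty_or_nonempty with h | h
    · exact ⟨1, one_pos, by simp [h]⟩
    obtain ⟨z, hz, hmin⟩ := (hL.prod hS).exists_isMinOn h hf
    refine ⟨_, hG.pos z.1 (hLV hz.1) z.2 ?_, fun w hw => hmin hw⟩
    intro h0
    have := hz.2.out
    simp [h0] at this
  refine ⟨c, hc, Γ, fun x hx => ⟨fun a => ?_, (le_abs_self _).trans (hΓ x hx)⟩⟩
  rcases eq_or_ne a 0 with rfl | ha
  · simp
  have h0 : 0 < a ⬝ᵥ a := by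
    refine (Finset.sum_nonneg fun i _ => mul_self_nonneg (a i)).lt_of_ne' fun h => ha ?_
    exact dotProduct_self_eq_zero.1 h
  set r := Real.sqrt (a ⬝ᵥ a)
  have hr2 : r * r = a ⬝ᵥ a := Real.mul_self_sqrt h0.le
  have hr : 0 < r := Real.sqrt_pos.2 h0
  have hS' : (r⁻¹ • a) ∈ S := by
    show (r⁻¹ • a) ⬝ᵥ (r⁻¹ • a) = 1
    rw [smul_dotProduct, dotProduct_smul, smul_eq_mul, smul_eq_mul, ← hr2]
    field_simp
  have h := hcb (x, r⁻¹ • a) ⟨hx, hS'⟩
  simp only [Matrix.mulVec_smul, smul_dotProduct, dotProduct_smul, smul_eq_mul] at h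
  have h' := mul_le_mul_of_nonneg_right h h0.le
  rw [← hr2] at h' ⊢
  rw [show r⁻¹ * (r⁻¹ * (a ⬝ᵥ G x *ᵥ a)) * (r * r) = a ⬝ᵥ G x *ᵥ a by field_simp] at h'
  exact h'

/-- The pointwise inequality behind coercivity. -/
theorem posdef_split {A : M} {c Γ : ℝ} (hc : 0 < c) (hΓ : ∑ i, ∑ j, A i j ^ 2 ≤ Γ)
    (hA : ∀ a : E, c * (a ⬝ᵥ a) ≤ a ⬝ᵥ (A *ᵥ a)) (hs : Aᵀ = A) (a b ρ : E) :
    c / 2 * (a ⬝ᵥ a) ≤ (A *ᵥ (a + b)) ⬝ᵥ (a - ρ)
      + (2 * Γ / c + 2 * Γ + 2) * (b ⬝ᵥ b + ρ ⬝ᵥ ρ) := by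
  have hsq : ∀ u v : E, (u ⬝ᵥ (A *ᵥ v)) ^ 2 ≤ (u ⬝ᵥ u) * (Γ * (v ⬝ᵥ v)) := fun u v => by
    have hsm : ∀ z : E, ∑ i, z i ^ 2 = z ⬝ᵥ z := fun z => by simp only [dotProduct, sq]
    refine (Finset.sum_mul_sq_le_sq_mul_sq Finset.univ u (A *ᵥ v)).trans ?_
    rw [hsm, hsm]
    refine mul_le_mul_of_nonneg_left ?_ (Finset.sum_nonneg fun i _ => mul_self_nonneg _)
    refine le_trans ?_ (mul_le_mul_of_nonneg_right hΓ (Finset.sum_nonneg fun i _ => mul_self_nonneg _))
    rw [Finset.sum_mul]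
    refine Finset.sum_le_sum fun i _ => ?_
    show (∑ j, A i j * v j) * (∑ j, A i j * v j) ≤ _
    rw [← sq]
    refine (Finset.sum_mul_sq_le_sq_mul_sq Finset.univ (A i) v).trans (le_of_eq ?_)
    simp only [hsm]
  have hΓ0 : 0 ≤ Γ := (Finset.sum_nonneg fun _ _ => Finset.sum_nonneg fun _ _ => sq_nonneg _).trans hΓ
  have hnn : ∀ u : E, 0 ≤ u ⬝ᵥ u := fun u => Finset.sum_nonneg fun i _ => mul_self_nonneg _
  have hbd : ∀ (u v : E) (ε : ℝ), 0 < ε →
      |u ⬝ᵥ (A *ᵥ v)| ≤ ε * (u ⬝ᵥ u) + Γ / (4 * ε) * (v ⬝ᵥ v) := fun u v ε hε => by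
    refine abs_le_of_sq_le_sq ((hsq u v).trans ?_)
      (add_nonneg (mul_nonneg hε.le (hnn u)) (mul_nonneg (by positivity) (hnn v)))
    have h4 : 4 * (ε * (u ⬝ᵥ u)) * (Γ / (4 * ε) * (v ⬝ᵥ v)) = (u ⬝ᵥ u) * (Γ * (v ⬝ᵥ v)) := by
      field_simp
    nlinarith [sq_nonneg (ε * (u ⬝ᵥ u) - Γ / (4 * ε) * (v ⬝ᵥ v))]
  have hsym : ∀ u v : E, (A *ᵥ u) ⬝ᵥ v = v ⬝ᵥ (A *ᵥ u) := fun u v => dotProduct_comm _ _
  have htr : ∀ u v : E, u ⬝ᵥ (A *ᵥ v) = v ⬝ᵥ (A *ᵥ u) := fun u v => by
    rw [Matrix.dotProduct_mulVec, ← Matrix.mulVec_transpose, hs, dotProduct_comm]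
  have h1 := abs_le.1 (hbd a b (c / 8) (by linarith))
  have h2 := abs_le.1 (hbd a ρ (c / 8) (by linarith))
  have h3 := abs_le.1 (hbd ρ b 1 one_pos)
  have hexp : (A *ᵥ (a + b)) ⬝ᵥ (a - ρ) = a ⬝ᵥ (A *ᵥ a) - a ⬝ᵥ (A *ᵥ ρ) + a ⬝ᵥ (A *ᵥ b)
      - ρ ⬝ᵥ (A *ᵥ b) := by
    rw [Matrix.mulVec_add, add_dotProduct, dotProduct_sub, dotProduct_sub, hsym, hsym, hsym, hsym,
      htr ρ a]
    ring
  have e : Γ / (4 * (c / 8)) = 2 * Γ / c := by field_simp; ring
  rw [e] at h1 h2
  have := hA a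
  rw [hexp]
  have g1 : 0 ≤ 2 * Γ / c := by positivity
  nlinarith [hnn a, hnn b, hnn ρ, mul_nonneg g1 (hnn b), mul_nonneg g1 (hnn ρ),
    mul_nonneg hΓ0 (hnn b), mul_nonneg hΓ0 (hnn ρ), mul_nonneg hc.le (hnn a)]

theorem sum_hsq_one_real {f : E → ℝ} (hf : ContDiff ℝ ∞ f) (hp : Per f) :
    hsq 1 (coeff f) ≤ (∫ x in cube, f x ^ 2) + ∑ a, ∫ x in cube, pd a f x ^ 2 ∧
      (∫ x in cube, f x ^ 2) + ∑ a, ∫ x in cube, pd a f x ^ 2
        ≤ (1 + 4 * (2 * Real.pi) ^ 2) * hsq 1 (coeff f) := by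
  have hm := memH_coeff hf hp 1
  have h0 : ∀ {g : E → ℝ}, ContDiff ℝ ∞ g → hsq 0 (coeff g) = ∫ x in cube, g x ^ 2 := fun hg => by
    rw [← (hasSum_sq_coeff hg.continuous.measurable (memLp_of_continuous hg.continuous 2)).tsum_eq]
    simp [hsq]
  have hd : ∀ a, dseq a (coeff f) = coeff (pd a f) := fun a => funext fun k =>
    (coeff_pd (hf.of_le (by simp)) hp a k).symm
  refine ⟨(hsq_succ_le hm).trans (le_of_eq ?_), ?_⟩
  · simp only [hd, h0 hf, h0 (contDiff_pd hf _)]
  · have h2 : ∀ a, ∫ x in cube, pd a f x ^ 2 ≤ (2 * Real.pi) ^ 2 * hsq 1 (coeff f) := fun a => by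
      rw [← h0 (contDiff_pd hf a), ← hd]
      exact (memH_dseq (s := 0) hm a).2
    have h1 : ∫ x in cube, f x ^ 2 ≤ hsq 1 (coeff f) := (h0 hf).symm.trans_le (hsq_mono hm zero_le_one)
    have := Finset.sum_le_sum fun a (_ : a ∈ (Finset.univ : Finset (Fin 4))) => h2 a
    simp only [Finset.sum_const, Finset.card_univ, Fintype.card_fin, nsmul_eq_mul] at this
    push_cast at this
    linarith

variable {J G : E → M} {V : Set E} {η : E → ℝ}

theorem isBox_eta_acoef (hJ : IsACS V J) (hG : IsPosDefOn V G) (hη : IsTest (V ∩ box) η)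
    (p q : I3) : IsBox fun x => η x * acoef J G p q x :=
  (hη.mul_smooth (hJ.isOpen.inter isOpen_box)
    ((contDiffOn_acoef hJ hG p q).mono inter_subset_left)).mono inter_subset_right

theorem isBox_eta_pco (hJ : IsACS V J) (hη : IsTest (V ∩ box) η) (α β : I2) :
    IsBox fun x => η x * pco (J x) α β :=
  (isTest_zpco hJ hη α β).mono inter_subset_right

/-- The derivative tensor of a family of components. -/
noncomputable def gradC (f : I2 → E → ℝ) (x : E) (a : Fin 4) : M :=
  Matrix.of fun i j => pd a (f (i, j)) x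

/-- The quadratic density of the principal part. -/
noncomputable def quadD (J G : E → M) (η : E → ℝ) (f : I2 → E → ℝ) (x : E) : ℝ :=
  ∑ q : I3, (∑ p : I3, η x * acoef J G p q x * pd p.1 (f p.2) x) * pd q.1 (f q.2) x

/-- The derivatives of the coefficients of the projection applied to the components. -/
noncomputable def rhoV (J : E → M) (η : E → ℝ) (f : I2 → E → ℝ) (x : E) : E :=
  dvec fun a => Matrix.of fun i j =>
    ∑ β : I2, pd a (fun y => η y * pco (J y) (i, j) β) x * f β x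

theorem dTwo_testForm_sub (hJ : IsACS V J) (hη : IsTest (V ∩ box) η) {f : I2 → E → ℝ}
    (hf : ∀ α, ContDiff ℝ ∞ (f α)) (x : E) (l : Fin 4) :
    (dTwo (testForm J η f) x - rhoV J η f x) l
      = η x * ∑ q : I3, (∑ γ : I2, lco l (q.1, γ) * pco (J x) γ q.2) * pd q.1 (f q.2) x := by
  simp only [Pi.sub_apply, rhoV, dTwo_eq_dvec, dvec_apply, Matrix.of_apply, Prod.mk.eta,
    gradT_testForm hJ hη hf, ← Finset.sum_sub_distrib, ← mul_sub, add_sub_cancel_left,
    Finset.mul_sum, Finset.sum_mul]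
  rw [Fintype.sum_prod_type, Fintype.sum_prod_type]
  refine Finset.sum_congr rfl fun b _ => ?_
  rw [Finset.sum_comm]
  exact Finset.sum_congr rfl fun β _ => Finset.sum_congr rfl fun γ _ => by ring

theorem flux_density_eq (f : I2 → E → ℝ) (x : E) (q : I3) :
    ∑ p : I3, η x * acoef J G p q x * pd p.1 (f p.2) x
      = η x * ∑ l, (G x *ᵥ dvec (gradC f x)) l *
          ∑ γ : I2, lco l (q.1, γ) * pco (J x) γ q.2 := by
  simp only [mulVec_dvec, acoef, gradC, Matrix.of_apply, Prod.mk.eta, mul_assoc, ← Finset.mul_sum]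
  congr 1
  simp only [Finset.sum_mul]
  rw [Finset.sum_comm]
  refine Finset.sum_congr rfl fun l _ => Finset.sum_congr rfl fun p _ => ?_
  simp only [← Finset.sum_mul]
  ring

theorem quadD_eq (hJ : IsACS V J) (hη : IsTest (V ∩ box) η) {f : I2 → E → ℝ}
    (hf : ∀ α, ContDiff ℝ ∞ (f α)) (x : E) :
    quadD J G η f x
      = (G x *ᵥ dvec (gradC f x)) ⬝ᵥ (dTwo (testForm J η f) x - rhoV J η f x) := by
  simp only [quadD, flux_density_eq, dotProduct, dTwo_testForm_sub hJ hη hf]
  simp only [mul_assoc, ← Finset.mul_sum, mul_left_comm _ (η x)]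
  congr 1
  simp only [Finset.sum_mul, Finset.mul_sum (s := (Finset.univ : Finset I3)), mul_assoc]
  exact Finset.sum_comm

/-- The size of the components. -/
noncomputable def sizeC (f : I2 → E → ℝ) (x : E) : ℝ := ∑ α, f α x ^ 2

/-- The size of the gradient of the defect. -/
noncomputable def defectC (J : E → M) (η : E → ℝ) (f : I2 → E → ℝ) (x : E) : ℝ :=
  ∑ p : I3, (pd p.1 (f p.2) x - pd p.1 (fun y => testForm J η f y p.2.1 p.2.2) x) ^ 2

theorem tsupport_testForm (J : E → M) (η : E → ℝ) (f : I2 → E → ℝ) (i j : Fin 4) :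
    tsupport (fun x => testForm J η f x i j) ⊆ tsupport η := by
  refine closure_minimal (fun x hx => subset_tsupport η ?_) (isClosed_tsupport η)
  intro h
  exact hx (by simp [testForm, h])

theorem dvec_sq_le (D : Fin 4 → M) :
    dvec D ⬝ᵥ dvec D ≤ (∑ l, ∑ p : I3, lco l p ^ 2) * ∑ p : I3, D p.1 p.2.1 p.2.2 ^ 2 := by
  rw [Finset.sum_mul]
  refine Finset.sum_le_sum fun l _ => ?_
  rw [← sq, dvec_apply]
  exact Finset.sum_mul_sq_le_sq_mul_sq _ _ _

theorem dTwo_eq_zero_of_notMem (f : I2 → E → ℝ) {x : E} (hx : x ∉ tsupport η) :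
    dTwo (testForm J η f) x = 0 := by
  have hz : ∀ a, gradT (testForm J η f) x a = 0 :=
    gradT_eq_zero fun i j h => hx (tsupport_testForm J η f i j h)
  funext l
  simp [dTwo_eq_dvec, dvec_apply, hz]

theorem coercive_pointwise (hJ : IsACS V J) (hG : IsPosDefOn V G) (hη : IsTest (V ∩ box) η) :
    ∃ c > 0, ∃ C ≥ 0, ∀ f : I2 → E → ℝ, (∀ α, ContDiff ℝ ∞ (f α)) → ∀ x,
      c * (dTwo (testForm J η f) x ⬝ᵥ dTwo (testForm J η f) x)
        ≤ quadD J G η f x + C * (defectC J η f x + sizeC f x) := by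
  have hLV : tsupport η ⊆ V := fun x hx => (hη.supp hx).1
  obtain ⟨c, hc, Γ, hcΓ⟩ := exists_posdef_bound hG hη.compact hLV
  obtain ⟨Bp, hBp⟩ := hη.compact.exists_bound_of_continuousOn
    (f := fun x => fun t : Fin 4 × I2 × I2 => pd t.1 (fun y => η y * pco (J y) t.2.1 t.2.2) x)
    (continuousOn_pi.2 fun t =>
      (contDiff_pd (isTest_zpco hJ hη t.2.1 t.2.2).smooth t.1).continuous.continuousOn)
  set Λ : ℝ := ∑ l, ∑ p : I3, lco l p ^ 2
  set KA : ℝ := |2 * Γ / c + 2 * Γ + 2|
  set N : ℝ := (Fintype.card I3 : ℝ) * ((Fintype.card I2 : ℝ) * Bp ^ 2) + 1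
  have hΛ0 : 0 ≤ Λ := Finset.sum_nonneg fun _ _ => Finset.sum_nonneg fun _ _ => sq_nonneg _
  refine ⟨c / 2, by linarith, KA * (Λ * N), by positivity, fun f hf x => ?_⟩
  have hs0 : 0 ≤ sizeC f x := Finset.sum_nonneg fun _ _ => sq_nonneg _
  have hd0 : 0 ≤ defectC J η f x := Finset.sum_nonneg fun _ _ => sq_nonneg _
  have hKN : 0 ≤ KA * (Λ * N) * (defectC J η f x + sizeC f x) := by positivity
  by_cases hx : x ∈ tsupport η
  · obtain ⟨hxc, hxΓ⟩ := hcΓ x hx
    set W := dTwo (testForm J η f) x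
    set ρ := rhoV J η f x
    set b := dvec (gradC f x) - W with hb
    have key := posdef_split hc hxΓ hxc (hG.symm x (hLV hx)) W b ρ
    rw [show W + b = dvec (gradC f x) by rw [hb]; abel, ← quadD_eq hJ hη hf x] at key
    refine key.trans (add_le_add le_rfl ?_)
    have hbb : b ⬝ᵥ b ≤ Λ * defectC J η f x := by
      have he : b = dvec fun a => gradC f x a - gradT (testForm J η f) x a := by
        funext l
        simp only [hb, W, Pi.sub_apply, dTwo_eq_dvec, dvec_apply, Matrix.sub_apply, mul_sub,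
          Finset.sum_sub_distrib]
      rw [he]
      exact dvec_sq_le _
    have hρρ : ρ ⬝ᵥ ρ ≤ Λ * ((Fintype.card I3 : ℝ) * ((Fintype.card I2 : ℝ) * Bp ^ 2) * sizeC f x) := by
      refine (dvec_sq_le _).trans (mul_le_mul_of_nonneg_left ?_ hΛ0)
      refine (Finset.sum_le_sum (g := fun _ => (Fintype.card I2 : ℝ) * Bp ^ 2 * sizeC f x)
        fun p _ => ?_).trans (le_of_eq (by
          rw [Finset.sum_const, nsmul_eq_mul, Finset.card_univ]; ring))
      simp only [Matrix.of_apply, Prod.mk.eta]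
      refine (Finset.sum_mul_sq_le_sq_mul_sq _ _ _).trans (mul_le_mul_of_nonneg_right ?_ hs0)
      refine (Finset.sum_le_sum (g := fun _ => Bp ^ 2) fun β _ => ?_).trans (le_of_eq (by
        rw [Finset.sum_const, nsmul_eq_mul, Finset.card_univ]))
      have := (norm_le_pi_norm (fun t : Fin 4 × I2 × I2 =>
        pd t.1 (fun y => η y * pco (J y) t.2.1 t.2.2) x) (p.1, p.2, β)).trans (hBp x hx)
      rw [Real.norm_eq_abs] at this
      rw [← sq_abs]
      exact pow_le_pow_left₀ (abs_nonneg _) this 2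
    have hN1 : 0 ≤ (Fintype.card I3 : ℝ) * ((Fintype.card I2 : ℝ) * Bp ^ 2) := by positivity
    have h1 : b ⬝ᵥ b + ρ ⬝ᵥ ρ ≤ Λ * N * (defectC J η f x + sizeC f x) := by
      refine (add_le_add hbb hρρ).trans ?_
      nlinarith [mul_nonneg hΛ0 hd0, mul_nonneg hΛ0 hs0, mul_nonneg (mul_nonneg hΛ0 hN1) hd0]
    have h0 : 0 ≤ b ⬝ᵥ b + ρ ⬝ᵥ ρ :=
      add_nonneg (Finset.sum_nonneg fun _ _ => mul_self_nonneg _)
        (Finset.sum_nonneg fun _ _ => mul_self_nonneg _)
    rw [mul_assoc]
    exact mul_le_mul (le_abs_self _) h1 h0 (abs_nonneg _)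
  · rw [dTwo_eq_zero_of_notMem f hx]
    have h0 : η x = 0 := image_eq_zero_of_notMem_tsupport hx
    have hq : quadD J G η f x = 0 := by simp [quadD, h0]
    rw [hq]
    simpa using hKN

theorem sq_testForm_le (hJ : IsACS V J) (hη : IsTest (V ∩ box) η) :
    ∃ C ≥ 0, ∀ f : I2 → E → ℝ, ∀ x, ∑ i, ∑ j, testForm J η f x i j ^ 2 ≤ C * sizeC f x := by
  obtain ⟨Bq, hBq⟩ := hη.compact.exists_bound_of_continuousOn
    (f := fun x => fun t : I2 × I2 => η x * pco (J x) t.1 t.2)
    (continuousOn_pi.2 fun t => (isTest_zpco hJ hη t.1 t.2).smooth.continuous.continuousOn)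
  refine ⟨(Fintype.card I2 : ℝ) * ((Fintype.card I2 : ℝ) * Bq ^ 2), by positivity, fun f x => ?_⟩
  have hs0 : 0 ≤ sizeC f x := Finset.sum_nonneg fun _ _ => sq_nonneg _
  by_cases hx : x ∈ tsupport η
  · rw [← Fintype.sum_prod_type']
    refine (Finset.sum_le_sum (g := fun _ => (Fintype.card I2 : ℝ) * Bq ^ 2 * sizeC f x)
      fun α _ => ?_).trans (le_of_eq (by
        rw [Finset.sum_const, nsmul_eq_mul, Finset.card_univ]; ring))
    rw [testForm_apply]
    refine (Finset.sum_mul_sq_le_sq_mul_sq _ _ _).trans (mul_le_mul_of_nonneg_right ?_ hs0)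
    refine (Finset.sum_le_sum (g := fun _ => Bq ^ 2) fun β _ => ?_).trans (le_of_eq (by
      rw [Finset.sum_const, nsmul_eq_mul, Finset.card_univ]))
    have := (norm_le_pi_norm (fun t : I2 × I2 => η x * pco (J x) t.1 t.2) (α, β)).trans (hBq x hx)
    rw [Real.norm_eq_abs] at this
    rw [← sq_abs]
    exact pow_le_pow_left₀ (abs_nonneg _) this 2
  · have hw : ∀ i j, testForm J η f x i j = 0 := fun i j =>
      image_eq_zero_of_notMem_tsupport (f := fun y => testForm J η f y i j)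
        fun h => hx (tsupport_testForm J η f i j h)
    simp only [hw]
    simp only [ne_eq, OfNat.ofNat_ne_zero, not_false_eq_true, zero_pow, Finset.sum_const_zero]
    positivity

theorem continuous_dTwo_sq {W : E → M} (hW : ∀ i j, ContDiff ℝ ∞ fun x => W x i j) :
    Continuous fun x => dTwo W x ⬝ᵥ dTwo W x := by
  have h : ∀ l, Continuous fun x => dTwo W x l := fun l => by
    simp only [dTwo_eq_dvec, dvec_apply]
    exact continuous_finsetSum _ fun p _ =>
      continuous_const.mul (contDiff_pd (hW _ _) _).continuous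
  exact continuous_finsetSum _ fun l _ => (h l).mul (h l)

theorem integral_eq_cube_testForm (hη : IsTest (V ∩ box) η) (f : I2 → E → ℝ) :
    ∫ x, (dTwo (testForm J η f) x ⬝ᵥ dTwo (testForm J η f) x
        + ∑ i, ∑ j, testForm J η f x i j ^ 2)
      = ∫ x in cube, (dTwo (testForm J η f) x ⬝ᵥ dTwo (testForm J η f) x
        + ∑ i, ∑ j, testForm J η f x i j ^ 2) := by
  refine (integral_cube_eq fun x hx => ?_).symm
  by_contra hxc
  refine hx ?_
  have hxL : x ∉ tsupport η := fun h => hxc (box_subset_cube (hη.supp h).2)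
  have hw : ∀ i j, testForm J η f x i j = 0 := fun i j =>
    image_eq_zero_of_notMem_tsupport (f := fun y => testForm J η f y i j)
      fun h => hxL (tsupport_testForm J η f i j h)
  show dTwo (testForm J η f) x ⬝ᵥ dTwo (testForm J η f) x
        + ∑ i, ∑ j, testForm J η f x i j ^ 2 = 0
  rw [dTwo_eq_zero_of_notMem f hxL]
  simp [hw]

theorem integrable_sq_compact {f : E → ℝ} (hc : Continuous f) (hs : HasCompactSupport f) :
    Integrable fun x => f x ^ 2 :=
  (Continuous.integrable_of_hasCompactSupport (f := fun x => f x * f x) (hc.mul hc)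
    (hs.mul_right (f' := f))).congr (Eventually.of_forall fun x => (sq (f x)).symm)

/-- The gradient of the projected components. -/
theorem grad_testForm_le (hJ : IsACS V J) (hη : IsTest (V ∩ box) η) :
    ∃ C ≥ 0, ∀ f : I2 → E → ℝ, (∀ α, ContDiff ℝ ∞ (f α)) →
      ∫ x in cube, ∑ t : T3, pd t.1 (fun y => testForm J η f y t.2.1 t.2.2) x ^ 2
        ≤ C * ((∫ x in cube, dTwo (testForm J η f) x ⬝ᵥ dTwo (testForm J η f) x)
          + ∫ x in cube, sizeC f x) := by
  have hLV : tsupport η ⊆ V := fun x hx => (hη.supp hx).1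
  obtain ⟨CG, hCG⟩ := garding_compact hJ hLV hη.compact
  obtain ⟨C2, hC2, hsw⟩ := sq_testForm_le hJ hη
  refine ⟨|CG| * (1 + C2), by positivity, fun f hf => ?_⟩
  obtain ⟨hWanti, hWtest⟩ := isAntiOn_testForm hJ hη hf
  have hWd : ∀ i j, ContDiff ℝ ∞ fun x => testForm J η f x i j := fun i j => (hWtest i j).smooth
  have hgW := hCG _ hWd (tsupport_testForm J η f) hWanti.skew hWanti.anti
  have hi : ∀ t : T3, Integrable fun x => pd t.1 (fun y => testForm J η f y t.2.1 t.2.2) x ^ 2 :=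
    fun t => integrable_sq_compact
      (f := pd t.1 (fun y => testForm J η f y t.2.1 t.2.2))
      (contDiff_pd (hWd t.2.1 t.2.2) t.1).continuous
      (hasCompactSupport_pd (hWtest t.2.1 t.2.2).compact t.1)
  refine (setIntegral_le_integral (integrable_finsetSum _ fun t _ => hi t)
    (Eventually.of_forall fun x => Finset.sum_nonneg fun _ _ => sq_nonneg _)).trans ?_
  rw [integral_finsetSum _ fun t _ => hi t]
  refine hgW.trans ?_
  have hsc : Continuous (sizeC f) :=
    continuous_finsetSum _ fun α _ => (hf α).continuous.pow 2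
  have hwc : Continuous fun x => ∑ i, ∑ j, testForm J η f x i j ^ 2 :=
    continuous_finsetSum _ fun i _ => continuous_finsetSum _ fun j _ => (hWd i j).continuous.pow 2
  rw [integral_eq_cube_testForm hη f,
    integral_add (integrableOn_cube (continuous_dTwo_sq hWd)) (integrableOn_cube hwc)]
  set D := ∫ x in cube, dTwo (testForm J η f) x ⬝ᵥ dTwo (testForm J η f) x
  set S := ∫ x in cube, ∑ i, ∑ j, testForm J η f x i j ^ 2
  have hD0 : 0 ≤ D := integral_nonneg fun x => Finset.sum_nonneg fun _ _ => mul_self_nonneg _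
  have hS0 : 0 ≤ S := integral_nonneg fun x => Finset.sum_nonneg fun _ _ =>
    Finset.sum_nonneg fun _ _ => sq_nonneg _
  set s := ∫ x in cube, sizeC f x
  have hs0 : 0 ≤ s := integral_nonneg fun x => Finset.sum_nonneg fun _ _ => sq_nonneg _
  have hS : S ≤ C2 * s := by
    rw [← integral_const_mul]
    exact setIntegral_mono_on (integrableOn_cube hwc) (integrableOn_cube (hsc.const_mul C2))
      measurableSet_cube fun x _ => hsw f x
  rw [mul_assoc]
  refine mul_le_mul (le_abs_self _) ?_ (add_nonneg hD0 hS0) (abs_nonneg _)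
  nlinarith [mul_nonneg hC2 hD0]

/-- The estimate on functions. -/
theorem coercive_functions (hJ : IsACS V J) (hG : IsPosDefOn V G) (hη : IsTest (V ∩ box) η) :
    ∃ C ≥ 0, ∀ f : I2 → E → ℝ, (∀ α, ContDiff ℝ ∞ (f α)) →
      ∫ x in cube, ∑ p : I3, pd p.1 (f p.2) x ^ 2
        ≤ C * (|∫ x in cube, quadD J G η f x| + (∫ x in cube, sizeC f x)
          + ∫ x in cube, defectC J η f x) := by
  obtain ⟨c, hc, C1, hC1, hpt⟩ := coercive_pointwise hJ hG hη
  obtain ⟨C3, hC3, hgrad⟩ := grad_testForm_le hJ hη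
  refine ⟨2 * (C3 * ((1 + C1) / c + 1)) + 2, by positivity, fun f hf => ?_⟩
  have hWd : ∀ i j, ContDiff ℝ ∞ fun x => testForm J η f x i j := fun i j =>
    ((isAntiOn_testForm hJ hη hf).2 i j).smooth
  have hsc : Continuous (sizeC f) :=
    continuous_finsetSum _ fun α _ => (hf α).continuous.pow 2
  have hdc : Continuous (defectC J η f) := continuous_finsetSum _ fun p _ =>
    ((contDiff_pd (hf _) _).continuous.sub (contDiff_pd (hWd _ _) _).continuous).pow 2
  have hqc : Continuous (quadD J G η f) := continuous_finsetSum _ fun q _ =>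
    (continuous_finsetSum _ fun p _ => (isBox_eta_acoef hJ hG hη p q).smooth.continuous.mul
      (contDiff_pd (hf _) _).continuous).mul (contDiff_pd (hf _) _).continuous
  set q := ∫ x in cube, quadD J G η f x
  set s := ∫ x in cube, sizeC f x
  set r := ∫ x in cube, defectC J η f x
  have hs0 : 0 ≤ s := integral_nonneg fun x => Finset.sum_nonneg fun _ _ => sq_nonneg _
  have hr0 : 0 ≤ r := integral_nonneg fun x => Finset.sum_nonneg fun _ _ => sq_nonneg _
  set D := ∫ x in cube, dTwo (testForm J η f) x ⬝ᵥ dTwo (testForm J η f) x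
  have hD : D ≤ (1 + C1) / c * (|q| + s + r) := by
    have i1 : IntegrableOn (fun x => C1 * (defectC J η f x + sizeC f x)) cube :=
      integrableOn_cube ((hdc.add hsc).const_mul C1)
    have h := setIntegral_mono_on (g := fun x => quadD J G η f x + C1 * (defectC J η f x + sizeC f x))
      (integrableOn_cube ((continuous_dTwo_sq hWd).const_mul c))
      ((integrableOn_cube hqc).add i1) measurableSet_cube fun x _ => hpt f hf x
    rw [integral_const_mul, integral_add (integrableOn_cube hqc) i1, integral_const_mul,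
      integral_add (integrableOn_cube hdc) (integrableOn_cube hsc)] at h
    rw [div_mul_eq_mul_div, le_div_iff₀ hc]
    have e1 : (1 + C1) * (|q| + s + r) = |q| + C1 * (r + s) + (s + r + C1 * |q|) := by ring
    have e2 : 0 ≤ s + r + C1 * |q| := by positivity
    linarith [le_abs_self q, mul_comm c D]
  have hgc : Continuous fun x => ∑ t : T3, pd t.1 (fun y => testForm J η f y t.2.1 t.2.2) x ^ 2 :=
    continuous_finsetSum _ fun t _ => (contDiff_pd (hWd _ _) _).continuous.pow 2
  have hfc : Continuous fun x => ∑ p : I3, pd p.1 (f p.2) x ^ 2 :=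
    continuous_finsetSum _ fun p _ => (contDiff_pd (hf _) _).continuous.pow 2
  have h := setIntegral_mono_on
    (g := fun x => 2 * (∑ t : T3, pd t.1 (fun y => testForm J η f y t.2.1 t.2.2) x ^ 2)
      + 2 * defectC J η f x)
    (integrableOn_cube hfc) (integrableOn_cube ((hgc.const_mul 2).add (hdc.const_mul 2)))
    measurableSet_cube fun x _ => by
      rw [defectC, Finset.mul_sum, Finset.mul_sum, ← Finset.sum_add_distrib]
      refine Finset.sum_le_sum fun p _ => ?_
      set a := pd p.1 (fun y => testForm J η f y p.2.1 p.2.2) x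
      set b := pd p.1 (f p.2) x
      nlinarith [sq_nonneg (b - 2 * a)]
  rw [integral_add (integrableOn_cube (hgc.const_mul 2)) (integrableOn_cube (hdc.const_mul 2)),
    integral_const_mul, integral_const_mul] at h
  have h3 := (hgrad f hf).trans (mul_le_mul_of_nonneg_left
    (add_le_add hD (show s ≤ 1 * (|q| + s + r) by linarith [abs_nonneg q])) hC3)
  nlinarith [abs_nonneg q]

theorem coeff_fsum {ι : Type*} (S : Finset ι) {F : ι → E → ℝ} (hF : ∀ i ∈ S, Continuous (F i))
    (k : K) : coeff (fun x => ∑ i ∈ S, F i x) k = ∑ i ∈ S, coeff (F i) k := by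
  unfold coeff
  rw [← integral_finsetSum _ fun i hi => integrableOn_chi_mul _ (integrableOn_cube (hF i hi))]
  congr 1
  funext x
  push_cast
  rw [Finset.mul_sum]

theorem dseq_coeff {f : E → ℝ} (hf : ContDiff ℝ ∞ f) (hp : Per f) (a : Fin 4) :
    dseq a (coeff f) = coeff (pd a f) :=
  funext fun k => (coeff_pd (hf.of_le (by simp)) hp a k).symm

theorem ip_flux_eq (hJ : IsACS V J) (hG : IsPosDefOn V G) (hη : IsTest (V ∩ box) η)
    {f : I2 → E → ℝ} (hf : ∀ α, ContDiff ℝ ∞ (f α)) (hp : ∀ α, Per (f α)) :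
    ∑ q : I3, ip (flux (aseq J G η) (fun α => coeff (f α)) q) (dseq q.1 (coeff (f q.2)))
      = ((∫ x in cube, quadD J G η f x : ℝ) : ℂ) := by
  have hA := isBox_eta_acoef hJ hG hη
  have hAs : ∀ p q, ContDiff ℝ ∞ (perz fun x => η x * acoef J G p q x) := fun p q =>
    contDiff_perz (hA p q).smooth (hA p q).compact (hA p q).supp
  set Fl : I3 → E → ℝ := fun q x =>
    ∑ p : I3, perz (fun y => η y * acoef J G p q y) x * pd p.1 (f p.2) x with hFl
  have hFs : ∀ q, ContDiff ℝ ∞ (Fl q) := fun q =>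
    ContDiff.sum fun p _ => (hAs p q).mul (contDiff_pd (hf _) _)
  have hflux : ∀ q : I3, flux (aseq J G η) (fun α => coeff (f α)) q = coeff (Fl q) := fun q => by
    funext k
    rw [show Fl q = fun x => ∑ p : I3, perz (fun y => η y * acoef J G p q y) x * pd p.1 (f p.2) x
      from rfl, coeff_fsum (F := fun p : I3 => fun x => perz (fun y => η y * acoef J G p q y) x *
        pd p.1 (f p.2) x) _ fun p _ => (hAs p q).continuous.mul (contDiff_pd (hf _) _).continuous,
      flux]
    refine Finset.sum_congr rfl fun p _ => ?_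
    rw [coeff_mul (hAs p q) (per_perz _) (integrableOn_cube (contDiff_pd (hf _) _).continuous),
      dseq_coeff (hf _) (hp _)]
    rfl
  have hi : ∀ q ∈ (Finset.univ : Finset I3),
      IntegrableOn (fun x => Fl q x * pd q.1 (f q.2) x) cube := fun q _ =>
    integrableOn_cube ((hFs q).continuous.mul (contDiff_pd (hf _) _).continuous)
  have he : ∫ x in cube, quadD J G η f x = ∫ x in cube, ∑ q : I3, Fl q x * pd q.1 (f q.2) x :=
    setIntegral_congr_fun measurableSet_cube fun x hx => Finset.sum_congr rfl fun q _ => by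
      simp only [hFl, perz_eq_cube (hA _ _).compact (hA _ _).supp hx]
  rw [he, integral_finsetSum _ hi]
  push_cast
  refine Finset.sum_congr rfl fun q _ => ?_
  rw [ip, hflux, dseq_coeff (hf _) (hp _)]
  exact (hasSum_conj_coeff_mul (hFs q).continuous.measurable
    (contDiff_pd (hf _) _).continuous.measurable (memLp_of_continuous (hFs q).continuous 2)
    (memLp_of_continuous (contDiff_pd (hf _) _).continuous 2)).tsum_eq

theorem defect_eq (hJ : IsACS V J) (hη : IsTest (V ∩ box) η)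
    {f : I2 → E → ℝ} (hf : ∀ α, ContDiff ℝ ∞ (f α)) (hp : ∀ α, Per (f α)) :
    ∫ x in cube, defectC J η f x
      ≤ (1 + 4 * (2 * Real.pi) ^ 2) *
        ∑ α, hsq 1 (fun k => coeff (f α) k - ∑ β, cconv (pseq J η α β) (coeff (f β)) k) := by
  have hP := isBox_eta_pco hJ hη
  have hPs : ∀ α β, ContDiff ℝ ∞ (perz fun x => η x * pco (J x) α β) := fun α β =>
    contDiff_perz (hP α β).smooth (hP α β).compact (hP α β).supp
  set r : I2 → E → ℝ := fun α x =>
    f α x - ∑ β : I2, perz (fun y => η y * pco (J y) α β) x * f β x with hr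
  have hrs : ∀ α, ContDiff ℝ ∞ (r α) := fun α =>
    (hf α).sub (ContDiff.sum fun β _ => (hPs α β).mul (hf β))
  have hrp : ∀ α, Per (r α) := fun α x i => by
    simp only [hr, hp _ x i, per_perz _ x i]
  have hcr : ∀ α, coeff (r α)
      = fun k => coeff (f α) k - ∑ β, cconv (pseq J η α β) (coeff (f β)) k := fun α => by
    funext k
    have hc : Continuous fun x => ∑ β : I2, perz (fun y => η y * pco (J y) α β) x * f β x :=
      continuous_finsetSum _ fun β _ => (hPs α β).continuous.mul (hf β).continuous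
    have he : r α = fun x => f α x + -(∑ β : I2, perz (fun y => η y * pco (J y) α β) x * f β x) :=
      funext fun x => sub_eq_add_neg _ _
    rw [he, coeff_add (g := fun x => -(∑ β : I2, perz (fun y => η y * pco (J y) α β) x * f β x))
        (integrableOn_cube (hf α).continuous) (integrableOn_cube hc.neg),
      coeff_neg_fun, coeff_fsum (F := fun β : I2 => fun x => perz (fun y => η y * pco (J y) α β) x * f β x)
        _ fun β _ => (hPs α β).continuous.mul (hf β).continuous,
      sub_eq_add_neg]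
    congr 1
    congr 1
    exact Finset.sum_congr rfl fun β _ =>
      coeff_mul (hPs α β) (per_perz _) (integrableOn_cube (hf β).continuous) k
  have hrd : ∀ x ∈ cube, defectC J η f x = ∑ α, ∑ a, pd a (r α) x ^ 2 := fun x hx => by
    rw [defectC, Fintype.sum_prod_type, Finset.sum_comm]
    refine Finset.sum_congr rfl fun α _ => Finset.sum_congr rfl fun a _ => ?_
    have hall : ∀ᶠ y in 𝓝 x, ∀ β : I2,
        perz (fun z => η z * pco (J z) α β) y = η y * pco (J y) α β :=
      eventually_all.2 fun β => perz_eventuallyEq (hP α β).compact (hP α β).supp hx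
    have he : r α =ᶠ[𝓝 x] fun y => f α y - testForm J η f y α.1 α.2 := by
      filter_upwards [hall] with y hy
      simp only [hr, testForm_apply, Prod.mk.eta, hy]
    congr 1
    rw [pd_congr a he]
    unfold pd
    rw [fderiv_fun_sub ((hf α).differentiable (by simp) x)
      (((isAntiOn_testForm hJ hη hf).2 α.1 α.2).smooth.differentiable (by simp) x), sub_apply]
  rw [setIntegral_congr_fun measurableSet_cube hrd, Finset.mul_sum,
    integral_finsetSum _ fun α _ => integrableOn_cube (f := fun x => ∑ a, pd a (r α) x ^ 2)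
      (continuous_finsetSum _ fun a _ => (contDiff_pd (hrs α) a).continuous.pow 2)]
  refine Finset.sum_le_sum fun α _ => ?_
  rw [integral_finsetSum _ fun a _ => integrableOn_cube (f := fun x => pd a (r α) x ^ 2)
    ((contDiff_pd (hrs α) a).continuous.pow 2), ← hcr]
  have h0 : 0 ≤ ∫ x in cube, r α x ^ 2 := integral_nonneg fun x => sq_nonneg (r α x)
  have h1 := (sum_hsq_one_real (hrs α) (hrp α)).2
  linarith

/-- The cut off operator is coercive. -/
theorem coercive_cut (hJ : IsACS V J) (hG : IsPosDefOn V G) (hη : IsTest (V ∩ box) η) :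
    ∃ C₀, Coercive (aseq J G η) (pseq J η) C₀ := by
  obtain ⟨C, hC, hmain⟩ := coercive_functions hJ hG hη
  set π2 : ℝ := 1 + 4 * (2 * Real.pi) ^ 2
  have hπ : 1 ≤ π2 := le_add_of_nonneg_right (by positivity)
  refine ⟨1 + C * π2, fun g hgf hgs => ?_⟩
  have hsum : ∀ α (n : ℕ), Summable fun k => wgt k ^ n * ‖g α k‖ := fun α n =>
    summable_of_ne_finset_zero (s := (hgf α).toFinset) fun k hk => by
      have : g α k = 0 := by
        by_contra h
        exact hk ((hgf α).mem_toFinset.2 h)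
      simp [this]
  set f : I2 → E → ℝ := fun α => toFun (g α)
  have hf : ∀ α, ContDiff ℝ ∞ (f α) := fun α => contDiff_toFun (hsum α)
  have hp : ∀ α, Per (f α) := fun α => per_toFun _
  have hcf : (fun α => coeff (f α)) = g := funext fun α => funext fun k =>
    coeff_toFun ((hsum α 0).congr fun k => by simp) (hgs α) k
  have hq := ip_flux_eq hJ hG hη hf hp
  have hd := defect_eq hJ hη hf hp
  simp only [congrFun hcf] at hd
  simp only [congrFun hcf] at hq
  rw [hq, Complex.norm_real, Real.norm_eq_abs]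
  set R1 := ∑ α, hsq 1 (fun k => g α k - ∑ β, cconv (pseq J η α β) (g β) k)
  set G0 := ∑ α, hsq 0 (g α) with hG0
  have hs : ∫ x in cube, sizeC f x = G0 := by
    unfold sizeC
    rw [integral_finsetSum _ fun α _ => integrableOn_cube (f := fun x => f α x ^ 2)
      ((hf α).continuous.pow 2)]
    refine Finset.sum_congr rfl fun α _ => ?_
    rw [← congrFun hcf α, ← (hasSum_sq_coeff (hf α).continuous.measurable
      (memLp_of_continuous (hf α).continuous 2)).tsum_eq]
    simp [hsq]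
  have hlhs : ∑ α, hsq 1 (g α) ≤ G0 + ∫ x in cube, ∑ p : I3, pd p.1 (f p.2) x ^ 2 := by
    refine (Finset.sum_le_sum fun α _ =>
      (congrFun hcf α) ▸ (sum_hsq_one_real (hf α) (hp α)).1).trans ?_
    rw [Finset.sum_add_distrib, ← integral_finsetSum _ fun α _ =>
      integrableOn_cube (f := fun x => f α x ^ 2) ((hf α).continuous.pow 2)]
    refine add_le_add (le_of_eq hs) (le_of_eq ?_)
    rw [integral_finsetSum _ fun (p : I3) _ => integrableOn_cube (f := fun x => pd p.1 (f p.2) x ^ 2)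
      ((contDiff_pd (hf _) _).continuous.pow 2)]
    rw [Fintype.sum_prod_type (f := fun p : I3 => ∫ x in cube, pd p.1 (f p.2) x ^ 2), Finset.sum_comm]
  have hR0 : 0 ≤ R1 := Finset.sum_nonneg fun _ _ => hsq_nonneg _ _
  have hG00 : 0 ≤ G0 := Finset.sum_nonneg fun _ _ => hsq_nonneg _ _
  refine hlhs.trans ((add_le_add le_rfl (hmain f hf)).trans ?_)
  rw [hs]
  set q := |∫ x in cube, quadD J G η f x|
  have hq0 : 0 ≤ q := abs_nonneg _
  have h1 := mul_le_mul_of_nonneg_left hd hC
  have h2 := mul_le_mul_of_nonneg_left hπ hC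
  rw [mul_one] at h2
  nlinarith [mul_le_mul_of_nonneg_right h2 hq0, mul_le_mul_of_nonneg_right h2 hG00,
    mul_nonneg hC hR0]

end Vale.Agent.P204.Tame
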