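import Vale.Agent.P204.Tame.FourierSmooth

/-!
Gain of one derivative for a coercive second order equation on periodic coefficient sequences.
-/

namespace Vale.Agent.P204.Tame

open scoped ComplexConjugate Topology
open Filter

/-- The square root of the weight. -/
noncomputable def sqw (k : K) : ℝ := Real.sqrt (wgt k)

theorem one_le_sqw (k : K) : 1 ≤ sqw k := Real.one_le_sqrt.2 (one_le_wgt k)

theorem sqw_pos (k : K) : 0 < sqw k := zero_lt_one.trans_le (one_le_sqw k)

theorem sq_sqw (k : K) : sqw k ^ 2 = wgt k := Real.sq_sqrt (wgt_pos k).le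

theorem sqw_le_wgt (k : K) : sqw k ≤ wgt k := by
  rw [← sq_sqw]
  exact le_self_pow₀ (one_le_sqw k) two_ne_zero

theorem sqw_le_add (k l : K) : sqw k ≤ sqw l + sqw (k - l) := by
  rw [sqw, Real.sqrt_le_left (add_nonneg (sqw_pos l).le (sqw_pos _).le), add_sq, sq_sqw, sq_sqw]
  set d := k - l
  have hk : k = l + d := by simp [d]
  have h1 : (∑ i, (l i : ℝ) * d i) ^ 2 ≤ (∑ i, (l i : ℝ) ^ 2) * ∑ i, (d i : ℝ) ^ 2 :=
    Finset.sum_mul_sq_le_sq_mul_sq _ _ _
  have h2 : (∑ i, (l i : ℝ) * d i) ^ 2 ≤ (sqw l * sqw d) ^ 2 := by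
    rw [mul_pow, sq_sqw, sq_sqw]
    refine h1.trans ?_
    refine mul_le_mul ?_ ?_ (Finset.sum_nonneg fun _ _ => sq_nonneg _) (wgt_pos l).le
    · unfold wgt; linarith
    · unfold wgt; linarith
  have h3 := abs_le_of_sq_le_sq h2 (mul_nonneg (sqw_pos l).le (sqw_pos d).le)
  have hw : wgt (l + d) = wgt l + (wgt d - 1) + 2 * ∑ i, (l i : ℝ) * d i := by
    unfold wgt
    simp only [Pi.add_apply, Int.cast_add, add_sq, Finset.sum_add_distrib, Finset.mul_sum]
    simp only [← mul_assoc]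
    ring
  rw [hk, hw]
  linarith [(abs_le.1 h3).2]

theorem sqw_neg (k : K) : sqw (-k) = sqw k := by rw [sqw, sqw, wgt_neg]

theorem abs_sqw_sub (k l : K) : |sqw k - sqw l| ≤ sqw (k - l) := by
  have h1 := sqw_le_add k l
  have h2 := sqw_le_add l k
  rw [show l - k = -(k - l) by abel, sqw_neg] at h2
  exact abs_le.2 ⟨by linarith, by linarith⟩

theorem max_sqw_le (k l : K) : max (sqw k) (sqw l) ≤ 2 * sqw (k - l) * sqw l := by
  have h1 := sqw_le_add k l
  have h2 := one_le_sqw (k - l)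
  have h3 := one_le_sqw l
  exact max_le (by nlinarith) (by nlinarith)

/-- The truncated power multiplier. -/
noncomputable def mN (s N : ℕ) (k : K) : ℝ := sqw k ^ s * max 0 (1 - wgt k / ((N : ℝ) + 1) ^ 2)

theorem mN_nonneg (s N : ℕ) (k : K) : 0 ≤ mN s N k :=
  mul_nonneg (pow_nonneg (sqw_pos k).le _) (le_max_left _ _)

theorem mN_le (s N : ℕ) (k : K) : mN s N k ≤ sqw k ^ s :=
  mul_le_of_le_one_right (pow_nonneg (sqw_pos k).le _)
    (max_le zero_le_one (sub_le_self _ (div_nonneg (wgt_pos k).le (sq_nonneg _))))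

theorem mN_neg (s N : ℕ) (k : K) : mN s N (-k) = mN s N k := by
  rw [mN, mN, sqw_neg, wgt_neg]

theorem finite_wgt_le (R : ℝ) : {k : K | wgt k ≤ R}.Finite := by
  obtain ⟨n, hn⟩ := exists_nat_gt R
  refine ((Fintype.piFinset fun _ : Fin 4 => Finset.Icc (-(n : ℤ)) n).finite_toSet).subset
    fun k hk => Fintype.mem_piFinset.2 fun i => ?_
  have h1 := (one_add_sq_le_wgt k i).trans hk
  have h2 : |(k i : ℝ)| ≤ n := by nlinarith [sq_abs (k i : ℝ), sq_nonneg (|(k i : ℝ)| - 1)]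
  rw [Finset.mem_Icc, ← abs_le, ← Int.cast_le (R := ℝ)]
  push_cast
  exact h2

theorem mN_support (s N : ℕ) : {k | mN s N k ≠ 0}.Finite := by
  refine (finite_wgt_le (((N : ℝ) + 1) ^ 2)).subset fun k hk => ?_
  by_contra h
  refine hk ?_
  rw [mN, max_eq_left, mul_zero]
  have : 1 ≤ wgt k / ((N : ℝ) + 1) ^ 2 := (one_le_div (by positivity)).2 (not_le.1 h).le
  linarith

theorem cut_lip {a b M : ℝ} (ha : 1 ≤ a) (hab : a ≤ b) (hM : 0 < M) (t : ℕ) :
    |a ^ (t + 1) * max 0 (1 - a ^ 2 / M ^ 2) - b ^ (t + 1) * max 0 (1 - b ^ 2 / M ^ 2)|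
      ≤ (t + 3 : ℝ) * (b - a) * b ^ t := by
  have hb : 0 ≤ b := by linarith
  set fa := max 0 (1 - a ^ 2 / M ^ 2) with hfa
  set fb := max 0 (1 - b ^ 2 / M ^ 2) with hfb
  have h0 : 0 ≤ fb := le_max_left _ _
  have h1 : fb ≤ 1 := max_le zero_le_one (sub_le_self _ (by positivity))
  have hfba : fb ≤ fa := max_le_max le_rfl (by gcongr)
  have hpa : a ^ (t + 1) ≤ b ^ (t + 1) := pow_le_pow_left₀ (by linarith) hab _
  have hp : b ^ (t + 1) - a ^ (t + 1) ≤ (t + 1 : ℝ) * (b - a) * b ^ t := by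
    have h := abs_pow_sub_pow_le b a (t + 1)
    rw [abs_of_nonneg (sub_nonneg.2 hpa), abs_of_nonneg (sub_nonneg.2 hab), abs_of_nonneg hb,
      abs_of_nonneg (by linarith : (0 : ℝ) ≤ a), max_eq_left hab] at h
    simp only [Nat.add_sub_cancel] at h
    push_cast at h
    linarith
  have hq : a ^ (t + 1) * (fa - fb) ≤ 2 * (b - a) * b ^ t := by
    by_cases hfz : fa = 0
    · have : fb = 0 := le_antisymm (hfz ▸ hfba) h0
      rw [hfz, this, sub_zero, mul_zero]
      exact mul_nonneg (mul_nonneg two_pos.le (sub_nonneg.2 hab)) (pow_nonneg hb _)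
    · have hfa' : fa = 1 - a ^ 2 / M ^ 2 := max_eq_right (by
        by_contra hc
        exact hfz (max_eq_left (not_le.1 hc).le))
      have haM : a ≤ M := by
        have h : 0 < fa := lt_of_le_of_ne (le_max_left _ _) (Ne.symm hfz)
        rw [hfa', sub_pos, div_lt_one (pow_pos hM 2)] at h
        exact (abs_lt_of_sq_lt_sq h hM.le |> abs_lt.1).2.le
      have hdiff : fa - fb ≤ 2 * (b - a) / a := by
        rw [le_div_iff₀ (by linarith)]
        by_cases hbM : b ≤ M
        · have hfb' : 1 - b ^ 2 / M ^ 2 ≤ fb := le_max_right _ _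
          have hq1 : fa - fb ≤ (b ^ 2 - a ^ 2) / M ^ 2 := by rw [sub_div]; linarith
          refine (mul_le_mul_of_nonneg_right hq1 (by linarith)).trans ?_
          rw [div_mul_eq_mul_div, div_le_iff₀ (pow_pos hM 2)]
          have hab2 : (b + a) * a ≤ 2 * M * M :=
            mul_le_mul (by linarith) haM (by linarith) (by linarith)
          nlinarith [mul_le_mul_of_nonneg_left hab2 (sub_nonneg.2 hab)]
        · have hq1 : fa - fb ≤ (M ^ 2 - a ^ 2) / M ^ 2 := by
            rw [sub_div, div_self (pow_ne_zero 2 hM.ne')]; linarith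
          refine (mul_le_mul_of_nonneg_right hq1 (by linarith)).trans ?_
          rw [div_mul_eq_mul_div, div_le_iff₀ (pow_pos hM 2)]
          have hab2 : (M + a) * a ≤ 2 * M * M :=
            mul_le_mul (by linarith) haM (by linarith) (by linarith)
          nlinarith [mul_le_mul_of_nonneg_left hab2 (sub_nonneg.2 haM), not_le.1 hbM,
            mul_pos hM hM]
      refine (mul_le_mul_of_nonneg_left hdiff (pow_nonneg (by linarith) _)).trans ?_
      rw [pow_succ, mul_assoc, mul_div_cancel₀ _ (by linarith : a ≠ 0), mul_comm]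
      exact mul_le_mul_of_nonneg_left (pow_le_pow_left₀ (by linarith) hab t)
        (mul_nonneg two_pos.le (sub_nonneg.2 hab))
  have hq0 : 0 ≤ a ^ (t + 1) * (fa - fb) :=
    mul_nonneg (pow_nonneg (by linarith) _) (sub_nonneg.2 hfba)
  have hp' := mul_le_mul_of_nonneg_right hp h0
  have hp1 : (t + 1 : ℝ) * (b - a) * b ^ t * fb ≤ (t + 1 : ℝ) * (b - a) * b ^ t :=
    mul_le_of_le_one_right (mul_nonneg (mul_nonneg (by positivity) (sub_nonneg.2 hab))
      (pow_nonneg hb _)) h1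
  have hp0 := mul_nonneg (sub_nonneg.2 hpa) h0
  have hexp : (t + 3 : ℝ) * (b - a) * b ^ t
      = (t + 1 : ℝ) * (b - a) * b ^ t + 2 * (b - a) * b ^ t := by ring
  rw [abs_le, hexp]
  constructor <;> linarith

/-- The multiplier is Lipschitz with one power less, uniformly in the truncation. -/
theorem mN_sub_le (t N : ℕ) (k l : K) :
    |mN (t + 1) N k - mN (t + 1) N l|
      ≤ (t + 3 : ℝ) * 2 ^ t * sqw (k - l) ^ (t + 1) * sqw l ^ t := by
  have h : |mN (t + 1) N k - mN (t + 1) N l|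
      ≤ (t + 3 : ℝ) * |sqw k - sqw l| * max (sqw k) (sqw l) ^ t := by
    rw [mN, mN, ← sq_sqw k, ← sq_sqw l]
    rcases le_total (sqw k) (sqw l) with h | h
    · rw [max_eq_right h, abs_of_nonpos (sub_nonpos.2 h), neg_sub]
      exact cut_lip (one_le_sqw k) h (by positivity) t
    · rw [max_eq_left h, abs_sub_comm, abs_of_nonneg (sub_nonneg.2 h)]
      exact cut_lip (one_le_sqw l) h (by positivity) t
  refine h.trans ?_
  calc (t + 3 : ℝ) * |sqw k - sqw l| * max (sqw k) (sqw l) ^ t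
      ≤ (t + 3 : ℝ) * sqw (k - l) * (2 * sqw (k - l) * sqw l) ^ t := by
        refine mul_le_mul (mul_le_mul_of_nonneg_left (abs_sqw_sub k l) (by positivity))
          (pow_le_pow_left₀ (le_max_of_le_left (sqw_pos k).le) (max_sqw_le k l) t)
          (pow_nonneg (le_max_of_le_left (sqw_pos k).le) t)
          (mul_nonneg (by positivity) (sqw_pos _).le)
    _ = _ := by rw [mul_pow, mul_pow]; ring

/-- The coefficient sequence of a derivative. -/
noncomputable def dseq (a : Fin 4) (c : K → ℂ) (k : K) : ℂ :=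
  ((2 * Real.pi * k a : ℝ) : ℂ) * Complex.I * c k

/-- The scalar product of coefficient sequences. -/
noncomputable def ip (a b : K → ℂ) : ℂ := ∑' k, conj (a k) * b k

theorem norm_dseq_sq_le (a : Fin 4) (c : K → ℂ) (k : K) :
    ‖dseq a c k‖ ^ 2 ≤ (2 * Real.pi) ^ 2 * (wgt k * ‖c k‖ ^ 2) := by
  rw [dseq, norm_mul, norm_mul, Complex.norm_I, mul_one, Complex.norm_real, Real.norm_eq_abs,
    mul_pow, sq_abs, mul_pow, mul_assoc ((2 * Real.pi) ^ 2)]
  refine mul_le_mul_of_nonneg_left (mul_le_mul_of_nonneg_right ?_ (sq_nonneg _)) (sq_nonneg _)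
  linarith [one_add_sq_le_wgt k a]

theorem memH_dseq {s : ℕ} {c : K → ℂ} (h : MemH (s + 1) c) (a : Fin 4) :
    MemH s (dseq a c) ∧ hsq s (dseq a c) ≤ (2 * Real.pi) ^ 2 * hsq (s + 1) c := by
  have hb : ∀ k, wgt k ^ s * ‖dseq a c k‖ ^ 2
      ≤ (2 * Real.pi) ^ 2 * (wgt k ^ (s + 1) * ‖c k‖ ^ 2) := fun k => by
    refine (mul_le_mul_of_nonneg_left (norm_dseq_sq_le a c k)
      (pow_nonneg (wgt_pos k).le _)).trans (le_of_eq ?_)
    ring
  have hm : MemH s (dseq a c) := (h.mul_left _).of_nonneg_of_le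
    (fun k => mul_nonneg (pow_nonneg (wgt_pos k).le _) (sq_nonneg _)) hb
  exact ⟨hm, (hm.tsum_le_tsum hb (h.mul_left _)).trans (le_of_eq tsum_mul_left)⟩

theorem memH_sum {ι : Type*} (S : Finset ι) {s : ℕ} {c : ι → K → ℂ} (h : ∀ i ∈ S, MemH s (c i)) :
    MemH s (fun k => ∑ i ∈ S, c i k) ∧
      hsq s (fun k => ∑ i ∈ S, c i k) ≤ S.card * ∑ i ∈ S, hsq s (c i) := by
  have hb : ∀ k, wgt k ^ s * ‖∑ i ∈ S, c i k‖ ^ 2
      ≤ (S.card : ℝ) * ∑ i ∈ S, wgt k ^ s * ‖c i k‖ ^ 2 := fun k => by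
    rw [← Finset.mul_sum, mul_left_comm]
    exact mul_le_mul_of_nonneg_left ((pow_le_pow_left₀ (norm_nonneg _) (norm_sum_le _ _) 2).trans
      sq_sum_le_card_mul_sum_sq) (pow_nonneg (wgt_pos k).le _)
  have hs : Summable fun k => ∑ i ∈ S, wgt k ^ s * ‖c i k‖ ^ 2 := summable_sum h
  have hm : MemH s (fun k => ∑ i ∈ S, c i k) := (hs.mul_left _).of_nonneg_of_le
    (fun k => mul_nonneg (pow_nonneg (wgt_pos k).le _) (sq_nonneg _)) hb
  refine ⟨hm, (hm.tsum_le_tsum hb (hs.mul_left _)).trans (le_of_eq ?_)⟩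
  rw [tsum_mul_left, Summable.tsum_finsetSum h]
  rfl

/-- Weighted commutator of the truncated multiplier with a rapidly decreasing convolution. -/
theorem wcomm_bound {a : K → ℂ} (ha : ∀ n : ℕ, Summable fun k => wgt k ^ n * ‖a k‖) (t : ℕ) :
    ∃ C : ℝ, 0 ≤ C ∧ ∀ (j : ℕ), j ≤ 1 → ∀ (N : ℕ) (c : K → ℂ), MemH (t + j) c →
      MemH j (fun k => mult (mN (t + 1) N) (cconv a c) k - cconv a (mult (mN (t + 1) N) c) k) ∧
      hsq j (fun k => mult (mN (t + 1) N) (cconv a c) k - cconv a (mult (mN (t + 1) N) c) k)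
        ≤ C * hsq (t + j) c := by
  set w : K → ℝ := fun d => ‖a d‖ * ((t + 3 : ℝ) * 2 ^ t * 2 * wgt d ^ (t + 2)) with hw
  have hw0 : ∀ d, 0 ≤ w d := fun d => by
    have := wgt_pos d
    positivity
  have hws : Summable w := ((ha (t + 2)).mul_left ((t + 3 : ℝ) * 2 ^ t * 2)).congr fun d => by
    simp only [hw]; ring
  refine ⟨(∑' k, w k) ^ 2, sq_nonneg _, fun j hj N c hc => ?_⟩
  set m := mN (t + 1) N
  have hb : Summable fun l => (sqw l ^ (t + j) * ‖c l‖) ^ 2 := hc.congr fun l => by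
    rw [mul_pow, ← pow_mul, mul_comm (t + j) 2, pow_mul, sq_sqw]
  have ha0 : Summable fun k => ‖a k‖ := (ha 0).congr fun k => by simp
  have hc0 : MemH 0 c := hc.mono (Nat.zero_le _)
  have hmc : MemH 0 (mult m c) := summable_of_ne_finset_zero (s := (mN_support (t + 1) N).toFinset)
    fun k hk => by
      have : m k = 0 := by
        by_contra h
        exact hk ((mN_support (t + 1) N).mem_toFinset.2 h)
      simp [mult, this]
  have hval : ∀ k, mult m (cconv a c) k - cconv a (mult m c) k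
      = ∑' l, a (k - l) * (((m k - m l : ℝ) : ℂ) * c l) := fun k =>
    mult_cconv_sub m ((hsq_cconv_le ha0 hc0).1 k) ((hsq_cconv_le ha0 hmc).1 k)
  have hA : ∀ k l, ‖((sqw k ^ j : ℝ) : ℂ) * (a (k - l) * (((m k - m l : ℝ) : ℂ) * c l))‖
      ≤ w (k - l) * |sqw l ^ (t + j) * ‖c l‖| := fun k l => by
    rw [abs_of_nonneg (mul_nonneg (pow_nonneg (sqw_pos l).le _) (norm_nonneg _)), norm_mul,
      norm_mul, norm_mul, Complex.norm_real, Complex.norm_real, Real.norm_eq_abs, Real.norm_eq_abs,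
      abs_of_nonneg (pow_nonneg (sqw_pos k).le _)]
    set d := k - l
    have h1 : sqw k ^ j ≤ 2 * wgt d * sqw l ^ j := by
      have hd := one_le_wgt d
      interval_cases j
      · simp only [pow_zero]; linarith
      · simp only [pow_one]
        exact ((le_max_left _ _).trans (max_sqw_le k l)).trans
          (mul_le_mul_of_nonneg_right (by linarith [sqw_le_wgt d]) (sqw_pos l).le)
    have h2 : |m k - m l| ≤ (t + 3 : ℝ) * 2 ^ t * wgt d ^ (t + 1) * sqw l ^ t := by
      refine (mN_sub_le t N k l).trans ?_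
      gcongr
      · exact pow_nonneg (sqw_pos l).le _
      · exact (sqw_pos _).le
      · exact sqw_le_wgt d
    calc sqw k ^ j * (‖a d‖ * (|m k - m l| * ‖c l‖))
        ≤ (2 * wgt d * sqw l ^ j)
          * (‖a d‖ * (((t + 3 : ℝ) * 2 ^ t * wgt d ^ (t + 1) * sqw l ^ t) * ‖c l‖)) := by
          refine mul_le_mul h1 ?_ (by positivity)
            (mul_nonneg (mul_nonneg two_pos.le (wgt_pos d).le) (pow_nonneg (sqw_pos l).le _))
          gcongr
      _ = _ := by simp only [hw]; ring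
  obtain ⟨-, h2, h3⟩ := kernel_bound hw0 hws hb hA
  have heq : ∀ k, wgt k ^ j * ‖mult m (cconv a c) k - cconv a (mult m c) k‖ ^ 2 = wgt k ^ 0 *
      ‖∑' l, ((sqw k ^ j : ℝ) : ℂ) * (a (k - l) * (((m k - m l : ℝ) : ℂ) * c l))‖ ^ 2 := fun k => by
    rw [tsum_mul_left, norm_mul, Complex.norm_real, Real.norm_eq_abs,
      abs_of_nonneg (pow_nonneg (sqw_pos k).le _), mul_pow, ← pow_mul, mul_comm j 2, pow_mul,
      sq_sqw, hval, pow_zero, one_mul]
  refine ⟨h2.congr fun k => (heq k).symm, ?_⟩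
  rw [hsq, tsum_congr heq]
  refine h3.trans (le_of_eq ?_)
  congr 1
  exact tsum_congr fun l => by rw [mul_pow, ← pow_mul, mul_comm (t + j) 2, pow_mul, sq_sqw]

theorem norm_conj_mul_le (x y : ℂ) {ε : ℝ} (hε : 0 < ε) :
    ‖conj x * y‖ ≤ ‖x‖ ^ 2 / (4 * ε) + ε * ‖y‖ ^ 2 := by
  rw [norm_mul, Complex.norm_conj, div_add' _ _ _ (by positivity), le_div_iff₀ (by positivity)]
  nlinarith [sq_nonneg (‖x‖ - 2 * ε * ‖y‖)]

theorem norm_ip_le {a b : K → ℂ} (ha : MemH 0 a) (hb : MemH 0 b) {ε : ℝ} (hε : 0 < ε) :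
    Summable (fun k => conj (a k) * b k) ∧ ‖ip a b‖ ≤ hsq 0 a / (4 * ε) + ε * hsq 0 b := by
  have hle : ∀ k, ‖conj (a k) * b k‖
      ≤ wgt k ^ 0 * ‖a k‖ ^ 2 / (4 * ε) + ε * (wgt k ^ 0 * ‖b k‖ ^ 2) := fun k => by
    simpa using norm_conj_mul_le (a k) (b k) hε
  have hs := (ha.div_const (4 * ε)).add (hb.mul_left ε)
  refine ⟨.of_norm_bounded hs hle, ?_⟩
  refine (tsum_of_norm_bounded hs.hasSum hle).trans (le_of_eq ?_)
  rw [(ha.div_const _).tsum_add (hb.mul_left _), tsum_div_const, tsum_mul_left]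
  rfl

variable {ι : Type*} [Fintype ι]

/-- The flux of a sequence family. -/
noncomputable def flux (A : Fin 4 × ι → Fin 4 × ι → K → ℂ) (U : ι → K → ℂ) (q : Fin 4 × ι) (k : K) :
    ℂ := ∑ p : Fin 4 × ι, cconv (A p q) (dseq p.1 (U p.2)) k

/-- The coercivity hypothesis. -/
def Coercive (A : Fin 4 × ι → Fin 4 × ι → K → ℂ) (P : ι → ι → K → ℂ) (C₀ : ℝ) : Prop :=
  ∀ g : ι → K → ℂ, (∀ α, {k | g α k ≠ 0}.Finite) → (∀ α k, g α (-k) = conj (g α k)) →
    ∑ α, hsq 1 (g α) ≤ C₀ * (‖∑ q : Fin 4 × ι, ip (flux A g q) (dseq q.1 (g q.2))‖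
      + ∑ α, hsq 0 (g α) + ∑ α, hsq 1 (fun k => g α k - ∑ β, cconv (P α β) (g β) k))

theorem memH_of_finite {c : K → ℂ} (h : {k | c k ≠ 0}.Finite) (s : ℕ) : MemH s c :=
  summable_of_ne_finset_zero (s := h.toFinset) fun k hk => by
    have : c k = 0 := by
      by_contra hc
      exact hk (h.mem_toFinset.2 hc)
    simp [this]

/-- One derivative gained from a coercive equation. -/
theorem core_gain {A : Fin 4 × ι → Fin 4 × ι → K → ℂ} {P : ι → ι → K → ℂ}
    (hA : ∀ p q, ∀ n : ℕ, Summable fun k => wgt k ^ n * ‖A p q k‖)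
    (hP : ∀ α β, ∀ n : ℕ, Summable fun k => wgt k ^ n * ‖P α β k‖) {C₀ : ℝ}
    (hcoer : Coercive A P C₀) (t : ℕ) :
    ∃ C : ℝ, 0 ≤ C ∧ ∀ U F : ι → K → ℂ, (∀ α k, U α (-k) = conj (U α k)) →
      (∀ α, MemH (t + 1) (U α)) → (∀ α, MemH t (F α)) →
      (∀ α k, ∑ β, cconv (P α β) (U β) k = U α k) →
      (∀ β k, -(∑ b, dseq b (flux A U (b, β)) k) = F β k) →
      (∀ α, MemH (t + 2) (U α)) ∧
        ∑ α, hsq (t + 2) (U α) ≤ C * (∑ α, hsq (t + 1) (U α) + ∑ α, hsq t (F α)) := by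
  classical
  choose CA hCA0 hCA using fun p q => wcomm_bound (hA p q) t
  choose CP hCP0 hCP using fun α β => wcomm_bound (hP α β) t
  set nι : ℝ := (Fintype.card ι : ℝ)
  set np : ℝ := (Fintype.card (Fin 4 × ι) : ℝ)
  set π2 : ℝ := (2 * Real.pi) ^ 2 with hπ2
  set K₀ : ℝ := |C₀| + 1 with hK₀
  set ε : ℝ := 1 / (4 * K₀ * (π2 * 4 + 1)) with hε
  have hK0 : 0 < K₀ := by rw [hK₀]; positivity
  have hπ0 : 0 ≤ π2 := sq_nonneg _
  have hε0 : 0 < ε := by rw [hε]; positivity
  set SA : ℝ := ∑ q, ∑ p, CA p q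
  set SP : ℝ := ∑ α, ∑ β, CP α β
  have hSA : 0 ≤ SA := Finset.sum_nonneg fun _ _ => Finset.sum_nonneg fun _ _ => hCA0 _ _
  have hSP : 0 ≤ SP := Finset.sum_nonneg fun _ _ => Finset.sum_nonneg fun _ _ => hCP0 _ _
  refine ⟨2 * (K₀ * ((1 + np * (SA * π2)) / (4 * ε) + 1 + nι * SP)), by positivity,
    fun U F hUs hU hF hPU heq => ?_⟩
  set RU := ∑ α, hsq (t + 1) (U α) with hRU
  set RF := ∑ α, hsq t (F α) with hRF
  have hRU0 : 0 ≤ RU := Finset.sum_nonneg fun _ _ => hsq_nonneg _ _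
  have hRF0 : 0 ≤ RF := Finset.sum_nonneg fun _ _ => hsq_nonneg _ _
  have hUle : ∀ α, hsq (t + 1) (U α) ≤ RU := fun α =>
    Finset.single_le_sum (f := fun α => hsq (t + 1) (U α)) (fun _ _ => hsq_nonneg _ _)
      (Finset.mem_univ α)
  have hmain : ∀ N : ℕ, ∑ α, hsq 1 (mult (mN (t + 1) N) (U α))
      ≤ 2 * (K₀ * ((1 + np * (SA * π2)) / (4 * ε) + 1 + nι * SP)) * (RU + RF) := by
    intro N
    set m := mN (t + 1) N with hm
    set g : ι → K → ℂ := fun α => mult m (U α) with hg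
    have hgf : ∀ α, {k | g α k ≠ 0}.Finite := fun α =>
      (mN_support (t + 1) N).subset fun k hk h => hk (by simp [hg, mult, hm, h])
    have hgs : ∀ α k, g α (-k) = conj (g α k) := fun α k => by
      simp [hg, mult, hm, mN_neg, hUs]
    have hgd : ∀ q : Fin 4 × ι, MemH 0 (dseq q.1 (g q.2)) ∧
        hsq 0 (dseq q.1 (g q.2)) ≤ π2 * hsq 1 (g q.2) :=
      fun q => memH_dseq (memH_of_finite (hgf _) 1) q.1
    set X := ∑ α, hsq 1 (g α) with hX
    set com : Fin 4 × ι → K → ℂ := fun q k => ∑ p : Fin 4 × ι,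
      (mult m (cconv (A p q) (dseq p.1 (U p.2))) k
        - cconv (A p q) (mult m (dseq p.1 (U p.2))) k) with hcom
    have hdU : ∀ p : Fin 4 × ι, MemH t (dseq p.1 (U p.2)) ∧
        hsq t (dseq p.1 (U p.2)) ≤ π2 * hsq (t + 1) (U p.2) := fun p => memH_dseq (hU _) p.1
    have hcomb : ∀ q, MemH 0 (com q) ∧ hsq 0 (com q) ≤ np * ((∑ p, CA p q) * (π2 * RU)) :=
        fun q => by
      have h := memH_sum Finset.univ fun p (_ : p ∈ (Finset.univ : Finset (Fin 4 × ι))) =>
        (hCA p q 0 zero_le_one N (dseq p.1 (U p.2)) (hdU p).1).1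
      refine ⟨h.1, h.2.trans ?_⟩
      rw [Finset.card_univ, Finset.sum_mul]
      refine mul_le_mul_of_nonneg_left (Finset.sum_le_sum fun p _ => ?_) (Nat.cast_nonneg _)
      refine (hCA p q 0 zero_le_one N _ (hdU p).1).2.trans ?_
      exact mul_le_mul_of_nonneg_left ((hdU p).2.trans
        (mul_le_mul_of_nonneg_left (hUle _) hπ0)) (hCA0 p q)
    have hflux : ∀ q k, flux A g q k = (m k : ℂ) * flux A U q k - com q k := fun q k => by
      simp only [flux, hcom, Finset.mul_sum, ← Finset.sum_sub_distrib]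
      refine Finset.sum_congr rfl fun p _ => ?_
      have : mult m (dseq p.1 (U p.2)) = dseq p.1 (g p.2) := by
        funext l; simp only [mult, dseq, hg]; ring
      rw [← this, mult]
      ring
    set sF : ι → K → ℂ := fun β k => ((sqw k ^ t : ℝ) : ℂ) * F β k with hsF
    have hFm : ∀ β, MemH 0 (sF β) ∧ hsq 0 (sF β) = hsq t (F β) := fun β => by
      have he : ∀ k, wgt k ^ 0 * ‖sF β k‖ ^ 2 = wgt k ^ t * ‖F β k‖ ^ 2 := fun k => by
        rw [hsF, norm_mul, Complex.norm_real, Real.norm_eq_abs,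
          abs_of_nonneg (pow_nonneg (sqw_pos k).le _), mul_pow, ← pow_mul, mul_comm t 2, pow_mul,
          sq_sqw]
        simp
      exact ⟨(hF β).congr fun k => (he k).symm, tsum_congr he⟩
    have hQ : ‖∑ q : Fin 4 × ι, ip (flux A g q) (dseq q.1 (g q.2))‖
        ≤ RF / (4 * ε) + np * (SA * π2) * RU / (4 * ε) + ε * (4 * π2 + 1) * X := by
      have hsupp : ∀ (β : ι) (k : K), g β k = 0 ∨ k ∈ (mN_support (t + 1) N).toFinset := fun β k => by
        by_cases h : mN (t + 1) N k = 0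
        · exact Or.inl (by simp [hg, mult, hm, h])
        · exact Or.inr ((mN_support (t + 1) N).mem_toFinset.2 h)
      set S := (mN_support (t + 1) N).toFinset
      have hip : ∀ q : Fin 4 × ι, ip (flux A g q) (dseq q.1 (g q.2))
          = (∑ k ∈ S, conj ((m k : ℂ) * flux A U q k) * dseq q.1 (g q.2) k)
            - ip (com q) (dseq q.1 (g q.2)) := fun q => by
        have hz : ∀ k ∉ S, dseq q.1 (g q.2) k = 0 := fun k hk => by
          rcases hsupp q.2 k with h | h
          · simp [dseq, h]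
          · exact absurd h hk
        unfold ip
        rw [tsum_eq_sum (s := S) fun k hk => by rw [hz k hk, mul_zero],
          tsum_eq_sum (s := S) fun k hk => by rw [hz k hk, mul_zero], ← Finset.sum_sub_distrib]
        exact Finset.sum_congr rfl fun k _ => by rw [hflux, map_sub]; ring
      have hfirst : (∑ q : Fin 4 × ι, ∑ k ∈ S, conj ((m k : ℂ) * flux A U q k) *
          dseq q.1 (g q.2) k) = ∑ β, ∑ k ∈ S, conj (F β k) * ((m k : ℂ) * g β k) := by
        rw [Fintype.sum_prod_type, Finset.sum_comm]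
        refine Finset.sum_congr rfl fun β _ => ?_
        rw [Finset.sum_comm]
        refine Finset.sum_congr rfl fun k _ => ?_
        rw [← heq, map_neg, map_sum, neg_mul, Finset.sum_mul, ← Finset.sum_neg_distrib]
        refine Finset.sum_congr rfl fun b _ => ?_
        simp only [dseq, map_mul, Complex.conj_ofReal, Complex.conj_I]
        ring
      have hF1 : ∀ β, ‖∑ k ∈ S, conj (F β k) * ((m k : ℂ) * g β k)‖
          ≤ hsq t (F β) / (4 * ε) + ε * hsq 1 (g β) := fun β => by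
        refine (norm_sum_le _ _).trans ?_
        refine (Finset.sum_le_sum (g := fun k => wgt k ^ t * ‖F β k‖ ^ 2 / (4 * ε)
          + ε * (wgt k ^ 1 * ‖g β k‖ ^ 2)) fun k _ => ?_).trans ?_
        · have hmk := mN_le (t + 1) N k
          have hm0 := mN_nonneg (t + 1) N k
          have hn : ‖conj (F β k) * ((m k : ℂ) * g β k)‖
              ≤ ‖conj (sF β k) * (((sqw k : ℝ) : ℂ) * g β k)‖ := by
            simp only [hsF, norm_mul, Complex.norm_conj, Complex.norm_real, Real.norm_eq_abs, hm,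
              abs_of_nonneg hm0, abs_of_nonneg (pow_nonneg (sqw_pos k).le t),
              abs_of_nonneg (sqw_pos k).le]
            rw [show sqw k ^ t * ‖F β k‖ * (sqw k * ‖g β k‖)
              = ‖F β k‖ * (sqw k ^ (t + 1) * ‖g β k‖) by ring]
            gcongr
          refine hn.trans ((norm_conj_mul_le _ _ hε0).trans (le_of_eq ?_))
          simp only [hsF, norm_mul, Complex.norm_real, Real.norm_eq_abs, mul_pow, sq_abs, pow_one,
            ← pow_mul]
          rw [mul_comm t 2, pow_mul, sq_sqw]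
        · rw [Finset.sum_add_distrib, ← Finset.sum_div, ← Finset.mul_sum]
          refine add_le_add ?_ (mul_le_mul_of_nonneg_left
            ((memH_of_finite (hgf β) 1).sum_le_tsum _ fun k _ => ?_) hε0.le)
          · exact div_le_div_of_nonneg_right ((hF β).sum_le_tsum _ fun k _ =>
              mul_nonneg (pow_nonneg (wgt_pos k).le _) (sq_nonneg _)) (by positivity)
          · exact mul_nonneg (pow_nonneg (wgt_pos k).le _) (sq_nonneg _)
      simp only [hip, Finset.sum_sub_distrib]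
      rw [hfirst]
      refine (norm_sub_le _ _).trans ?_
      refine (add_le_add ((norm_sum_le _ _).trans (Finset.sum_le_sum fun β _ => hF1 β))
        ((norm_sum_le _ _).trans (Finset.sum_le_sum fun q _ =>
          (norm_ip_le (hcomb q).1 (hgd q).1 hε0).2))).trans ?_
      simp only [Finset.sum_add_distrib, ← Finset.sum_div, ← Finset.mul_sum]
      have h1 : ∑ q, hsq 0 (com q) ≤ np * (SA * π2) * RU :=
        (Finset.sum_le_sum fun q _ => (hcomb q).2).trans (le_of_eq (by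
          simp only [← Finset.mul_sum, ← Finset.sum_mul, SA]; ring))
      have h2 : ∑ q : Fin 4 × ι, hsq 0 (dseq q.1 (g q.2)) ≤ 4 * π2 * X :=
        (Finset.sum_le_sum fun q _ => (hgd q).2).trans (le_of_eq (by
          rw [Fintype.sum_prod_type]
          simp only [← Finset.mul_sum, hX, Finset.sum_const, Finset.card_univ, Fintype.card_fin,
            nsmul_eq_mul]
          ring))
      have h3 := div_le_div_of_nonneg_right h1 (by positivity : (0 : ℝ) ≤ 4 * ε)
      have h4 := mul_le_mul_of_nonneg_left h2 hε0.le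
      rw [hX] at h4 ⊢
      rw [hRF]
      linarith
    have hg0 : ∑ α, hsq 0 (g α) ≤ RU := Finset.sum_le_sum fun α _ => by
      refine (memH_of_finite (hgf α) 0).tsum_le_tsum (fun k => ?_) (hU α)
      simp only [hg, mult]
      rw [pow_zero, one_mul, norm_mul, Complex.norm_real, Real.norm_eq_abs, mul_pow,
        sq_abs]
      refine mul_le_mul_of_nonneg_right ?_ (sq_nonneg _)
      refine (pow_le_pow_left₀ (mN_nonneg _ _ k) (mN_le _ _ k) 2).trans (le_of_eq ?_)
      rw [← pow_mul, mul_comm, pow_mul, sq_sqw]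
    have hgP : ∑ α, hsq 1 (fun k => g α k - ∑ β, cconv (P α β) (g β) k) ≤ nι * SP * RU := by
      have hone : ∀ α, hsq 1 (fun k => g α k - ∑ β, cconv (P α β) (g β) k)
          ≤ nι * ((∑ β, CP α β) * RU) := fun α => by
        have he : (fun k => g α k - ∑ β, cconv (P α β) (g β) k) = fun k => ∑ β,
            (mult m (cconv (P α β) (U β)) k - cconv (P α β) (mult m (U β)) k) := by
          funext k
          rw [Finset.sum_sub_distrib]
          congr 1
          simp only [hg, mult, ← Finset.mul_sum, hPU]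
        rw [he]
        refine (memH_sum Finset.univ fun β (_ : β ∈ (Finset.univ : Finset ι)) =>
          (hCP α β 1 le_rfl N (U β) (hU β)).1).2.trans ?_
        rw [Finset.card_univ, Finset.sum_mul]
        exact mul_le_mul_of_nonneg_left (Finset.sum_le_sum fun β _ =>
          (hCP α β 1 le_rfl N (U β) (hU β)).2.trans
            (mul_le_mul_of_nonneg_left (hUle β) (hCP0 _ _))) (Nat.cast_nonneg _)
      refine (Finset.sum_le_sum fun α _ => hone α).trans (le_of_eq ?_)
      simp only [← Finset.mul_sum, ← Finset.sum_mul, SP]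
      ring
    have hc := hcoer g hgf hgs
    have hK : X ≤ K₀ * (RF / (4 * ε) + np * (SA * π2) * RU / (4 * ε) + ε * (4 * π2 + 1) * X
        + RU + nι * SP * RU) := by
      refine hc.trans ?_
      refine (mul_le_mul_of_nonneg_right ((le_abs_self C₀).trans (by rw [hK₀]; linarith))
        (add_nonneg (add_nonneg (norm_nonneg _) (Finset.sum_nonneg fun _ _ => hsq_nonneg _ _))
          (Finset.sum_nonneg fun _ _ => hsq_nonneg _ _))).trans (mul_le_mul_of_nonneg_left ?_ hK0.le)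
      linarith
    have hεX : K₀ * (ε * (4 * π2 + 1) * X) = X / 4 := by
      rw [hε]; field_simp
    have hX0 : 0 ≤ X := Finset.sum_nonneg fun _ _ => hsq_nonneg _ _
    have hd1 : RF / (4 * ε) ≤ (RU + RF) / (4 * ε) :=
      div_le_div_of_nonneg_right (by linarith) (by positivity)
    have hk1 : 0 ≤ np * (SA * π2) / (4 * ε) := by positivity
    have hsum : K₀ * (RF / (4 * ε) + np * (SA * π2) * RU / (4 * ε) + RU + nι * SP * RU)
        ≤ K₀ * ((1 + np * (SA * π2)) / (4 * ε) + 1 + nι * SP) * (RU + RF) := by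
      rw [mul_assoc K₀]
      refine mul_le_mul_of_nonneg_left ?_ hK0.le
      have e1 : ((1 + np * (SA * π2)) / (4 * ε) + 1 + nι * SP) * (RU + RF)
          = (RU + RF) / (4 * ε) + np * (SA * π2) / (4 * ε) * (RU + RF)
            + (RU + RF) + nι * SP * (RU + RF) := by ring
      have e2 : np * (SA * π2) * RU / (4 * ε) = np * (SA * π2) / (4 * ε) * RU := by ring
      rw [e1, e2]
      have h5 : 0 ≤ nι * SP * RF := by positivity
      nlinarith [mul_nonneg hk1 hRF0]
    show X ≤ _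
    linarith
  have hfin : ∀ S : Finset (ι × K),
      ∑ p ∈ S, wgt p.2 ^ (t + 2) * ‖U p.1 p.2‖ ^ 2
        ≤ 2 * (K₀ * ((1 + np * (SA * π2)) / (4 * ε) + 1 + nι * SP)) * (RU + RF) := by
    intro S
    have hcut : ∀ k : K, Tendsto (fun N : ℕ => max 0 (1 - wgt k / ((N : ℝ) + 1) ^ 2)) atTop
        (𝓝 1) := fun k => by
      have h1 : Tendsto (fun N : ℕ => ((N : ℝ) + 1) ^ 2) atTop atTop :=
        (tendsto_pow_atTop two_ne_zero).comp
          (tendsto_atTop_add_const_right _ _ tendsto_natCast_atTop_atTop)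
      have h2 := (tendsto_const_nhds (x := (1 : ℝ))).sub
        ((tendsto_const_nhds (x := wgt k)).div_atTop h1)
      simpa using (tendsto_const_nhds (x := (0 : ℝ))).max h2
    have hlim : Tendsto (fun N : ℕ => ∑ p ∈ S,
        max 0 (1 - wgt p.2 / ((N : ℝ) + 1) ^ 2) ^ 2 * (wgt p.2 ^ (t + 2) * ‖U p.1 p.2‖ ^ 2))
        atTop (𝓝 (∑ p ∈ S, wgt p.2 ^ (t + 2) * ‖U p.1 p.2‖ ^ 2)) := by
      refine tendsto_finsetSum S fun p _ => ?_
      simpa using ((hcut p.2).pow 2).mul_const (wgt p.2 ^ (t + 2) * ‖U p.1 p.2‖ ^ 2)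
    refine le_of_tendsto' hlim fun N => le_trans ?_ (hmain N)
    have hsub : S ⊆ Finset.univ ×ˢ S.image Prod.snd := fun p hp =>
      Finset.mem_product.2 ⟨Finset.mem_univ _, Finset.mem_image_of_mem _ hp⟩
    refine (Finset.sum_le_sum_of_subset_of_nonneg hsub fun p _ _ => ?_).trans ?_
    · have := wgt_pos p.2
      positivity
    rw [Finset.sum_product]
    refine Finset.sum_le_sum fun α _ => ?_
    have hfs : {k | mult (mN (t + 1) N) (U α) k ≠ 0}.Finite :=
      (mN_support (t + 1) N).subset fun k hk h => hk (by simp [mult, h])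
    refine le_of_eq_of_le (Finset.sum_congr rfl fun k _ => ?_)
      ((memH_of_finite hfs 1).sum_le_tsum _ fun k _ =>
        mul_nonneg (pow_nonneg (wgt_pos k).le _) (sq_nonneg _))
    rw [mult, norm_mul, Complex.norm_real, Real.norm_eq_abs, mul_pow, sq_abs, mN, mul_pow,
      ← pow_mul, mul_comm (t + 1) 2, pow_mul, sq_sqw, pow_one]
    ring
  have hone : ∀ α, ∀ S : Finset K, ∑ k ∈ S, wgt k ^ (t + 2) * ‖U α k‖ ^ 2
      ≤ 2 * (K₀ * ((1 + np * (SA * π2)) / (4 * ε) + 1 + nι * SP)) * (RU + RF) := fun α S => by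
    refine le_of_eq_of_le ?_ (hfin (S.map ⟨fun k => (α, k), fun a b h => (Prod.ext_iff.1 h).2⟩))
    rw [Finset.sum_map]
    rfl
  have hmem : ∀ α, MemH (t + 2) (U α) := fun α => summable_of_sum_le
    (fun k => mul_nonneg (pow_nonneg (wgt_pos k).le _) (sq_nonneg _)) (hone α)
  refine ⟨hmem, ?_⟩
  have hlim : Tendsto (fun S : Finset K => ∑ α, ∑ k ∈ S, wgt k ^ (t + 2) * ‖U α k‖ ^ 2) atTop
      (𝓝 (∑ α, hsq (t + 2) (U α))) :=
    tendsto_finsetSum _ fun α _ => (hmem α).hasSum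
  refine le_of_tendsto' hlim fun S => ?_
  refine le_of_eq_of_le ?_ (hfin (Finset.univ ×ˢ S))
  rw [Finset.sum_product]

end Vale.Agent.P204.Tame
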