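import Vale.Agent.P204.Tame.EllipticRegularity

/-!
Interior estimates for exact solutions, and the regularity module.
-/

namespace Vale.Agent.P204.Tame

open scoped ContDiff Matrix Topology
open MeasureTheory Set Filter Metric

variable {V : Set E} {J G : E → M}

/-- The integrand of the fourth order norm. -/
noncomputable def h4Den (e : E → M) (x : E) : ℝ :=
  ∑ l ∈ Finset.range 5, ∑ i, ∑ j, ‖iteratedFDeriv ℝ l (fun y => e y i j) x‖ ^ 2

theorem h4Den_nonneg (e : E → M) (x : E) : 0 ≤ h4Den e x :=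
  Finset.sum_nonneg fun _ _ => Finset.sum_nonneg fun _ _ => Finset.sum_nonneg fun _ _ => sq_nonneg _

theorem continuousOn_iterated_sq (hV : IsOpen V) {f : E → ℝ} (hf : ContDiffOn ℝ ∞ f V) (l : ℕ) :
    ContinuousOn (fun y => ‖iteratedFDeriv ℝ l f y‖ ^ 2) V := by
  have h1 : ContinuousOn (fun y => iteratedFDerivWithin ℝ l f V y) V :=
    hf.continuousOn_iteratedFDerivWithin (WithTop.coe_le_coe.2 le_top) hV.uniqueDiffOn
  exact (h1.norm.pow 2).congr fun y hy => by
    simp only [Pi.pow_apply]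
    rw [← iteratedFDerivWithin_of_isOpen l hV hy]

theorem integrableOn_h4Den (hV : IsOpen V) {L : Set E} (hL : IsCompact L) (hLV : L ⊆ V)
    {e : E → M} (he : ∀ i j, ContDiffOn ℝ ∞ (fun x => e x i j) V) : IntegrableOn (h4Den e) L :=
  ((continuousOn_finsetSum _ fun l _ => continuousOn_finsetSum _ fun i _ =>
    continuousOn_finsetSum _ fun j _ => continuousOn_iterated_sq hV (he i j) l).mono
      hLV).integrableOn_compact hL

theorem h4On_eq (hV : IsOpen V) {L : Set E} (hL : IsCompact L) (hLV : L ⊆ V) {e : E → M}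
    (he : ∀ i j, ContDiffOn ℝ ∞ (fun x => e x i j) V) : h4On L e = ∫ x in L, h4Den e x := by
  have hi : ∀ (l : ℕ) (i j : Fin 4),
      IntegrableOn (fun y => ‖iteratedFDeriv ℝ l (fun z => e z i j) y‖ ^ 2) L := fun l i j =>
    ((continuousOn_iterated_sq hV (he i j) l).mono hLV).integrableOn_compact hL
  unfold h4On h4Den
  rw [integral_finsetSum _ fun l _ => integrable_finsetSum _ fun i _ =>
    integrable_finsetSum _ fun j _ => hi l i j]
  refine Finset.sum_congr rfl fun l _ => ?_
  rw [integral_finsetSum _ fun i _ => integrable_finsetSum _ fun j _ => hi l i j]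
  exact Finset.sum_congr rfl fun i _ => (integral_finsetSum _ fun j _ => hi l i j).symm

theorem h4Den_sh (c : E) (e : E → M) (x : E) : h4Den (sh c e) x = h4Den e (x + c) :=
  Finset.sum_congr rfl fun l _ => Finset.sum_congr rfl fun i _ => Finset.sum_congr rfl fun j _ => by
    congr 2
    exact iteratedFDeriv_comp_add_right (f := fun y => e y i j) l c x

theorem h4On_sh (c : E) (L : Set E) (e : E → M) : h4On ((· + c) ⁻¹' L) (sh c e) = h4On L e := by
  unfold h4On
  refine Finset.sum_congr rfl fun l _ => Finset.sum_congr rfl fun i _ =>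
    Finset.sum_congr rfl fun j _ => ?_
  rw [← setIntegral_shift c L fun y => ‖iteratedFDeriv ℝ l (fun z => e z i j) y‖ ^ 2]
  congr 1
  funext x
  congr 2
  exact iteratedFDeriv_comp_add_right (f := fun y => e y i j) l c x

theorem h4On_nonneg (L : Set E) (e : E → M) : 0 ≤ h4On L e :=
  Finset.sum_nonneg fun _ _ => Finset.sum_nonneg fun _ _ => Finset.sum_nonneg fun _ _ =>
    integral_nonneg fun _ => sq_nonneg _

theorem h1On_mono (hV : IsOpen V) {L L' : Set E} (hL' : IsCompact L') (hLV : L' ⊆ V) (h : L ⊆ L')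
    {u : E → M} (hu : ∀ i j, ContDiffOn ℝ ∞ (fun x => u x i j) V) : h1On L u ≤ h1On L' u :=
  setIntegral_mono_set (integrableOn_h1Den hV hL' hLV hu)
    (Eventually.of_forall fun x => h1Den_nonneg u x) h.eventuallyLE

theorem h4On_mono (hV : IsOpen V) {L L' : Set E} (hL : IsCompact L) (hL' : IsCompact L')
    (hLV : L' ⊆ V) (h : L ⊆ L') {e : E → M} (he : ∀ i j, ContDiffOn ℝ ∞ (fun x => e x i j) V) :
    h4On L e ≤ h4On L' e := by
  rw [h4On_eq hV hL (h.trans hLV) he, h4On_eq hV hL' hLV he]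
  exact setIntegral_mono_set (integrableOn_h4Den hV hL' hLV he)
    (Eventually.of_forall fun x => h4Den_nonneg e x) h.eventuallyLE

/-- The derivatives of a test function times a smooth function. -/
theorem hsq_cper_mul_le (hJ : IsACS V J) {q : E → ℝ} (hq : IsTest (V ∩ box) q) {s : ℕ}
    (hs : s ≤ 4) :
    ∃ C ≥ 0, ∀ e, IsAntiOn V J e → ∀ α : I2,
      hsq s (cper fun x => q x * e x α.1 α.2) ≤ C * h4On (tsupport q) e := by
  obtain ⟨B, hB⟩ := hq.compact.exists_bound_of_continuousOn
    (f := fun x => fun i : Fin 5 => ‖iteratedFDeriv ℝ i.1 q x‖)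
    (continuousOn_pi.2 fun i => (hq.smooth.continuous_iteratedFDeriv
      (WithTop.coe_le_coe.2 le_top)).norm.continuousOn)
  refine ⟨5 ^ s * (5 * ((2 : ℝ) ^ 4 * B) ^ 2 * 5), by positivity, fun e he α => ?_⟩
  have hV := hJ.isOpen
  have hLV : tsupport q ⊆ V := fun x hx => (hq.supp hx).1
  have hf : IsBox fun x => q x * e x α.1 α.2 :=
    (hq.mul_smooth (hV.inter isOpen_box) ((he.smooth α.1 α.2).mono inter_subset_left)).mono
      inter_subset_right
  refine (hsq_cper_le s hf).trans ?_
  rw [mul_assoc]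
  refine mul_le_mul_of_nonneg_left ?_ (by positivity)
  rw [h4On_eq hV hq.compact hLV he.smooth, ← integral_const_mul,
    ← integral_finsetSum _ fun l _ => integrable_sq_iteratedFDeriv hf.smooth hf.compact l,
    ← integral_indicator (isClosed_tsupport q).measurableSet]
  refine integral_mono (integrable_finsetSum _ fun l _ =>
      integrable_sq_iteratedFDeriv hf.smooth hf.compact l)
    (IntegrableOn.integrable_indicator ((integrableOn_h4Den hV hq.compact hLV he.smooth).const_mul _)
      (isClosed_tsupport q).measurableSet) fun x => ?_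
  by_cases hx : x ∈ tsupport q
  · rw [indicator_of_mem hx]
    have hxV := hLV hx
    have h4 := h4Den_nonneg e x
    have hone : ∀ l ∈ Finset.range (s + 1),
        ‖iteratedFDeriv ℝ l (fun y => q y * e y α.1 α.2) x‖ ^ 2
          ≤ 5 * ((2 : ℝ) ^ 4 * B) ^ 2 * h4Den e x := by
      intro l hl
      have hl4 : l ≤ 4 := (Nat.lt_succ_iff.1 (Finset.mem_range.1 hl)).trans hs
      have hm := norm_iteratedFDerivWithin_mul_le (𝕜 := ℝ) (f := q) (g := fun y => e y α.1 α.2)
        hq.smooth.contDiffOn (he.smooth α.1 α.2) hV.uniqueDiffOn hxV (n := l)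
        (WithTop.coe_le_coe.2 le_top)
      simp only [iteratedFDerivWithin_of_isOpen _ hV hxV] at hm
      refine (pow_le_pow_left₀ (norm_nonneg _) hm 2).trans ?_
      refine (pow_le_pow_left₀ (Finset.sum_nonneg fun i _ => by positivity)
        (Finset.sum_le_sum (g := fun i => (2 : ℝ) ^ 4 * B
          * ‖iteratedFDeriv ℝ (l - i) (fun y => e y α.1 α.2) x‖) fun i hi => ?_) 2).trans ?_
      · have hi5 : i < 5 := by have := Finset.mem_range.1 hi; omega
        refine mul_le_mul_of_nonneg_right ?_ (norm_nonneg _)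
        refine mul_le_mul ?_ ?_ (norm_nonneg _) (by positivity)
        · calc (l.choose i : ℝ) ≤ ((2 ^ l : ℕ) : ℝ) := Nat.cast_le.2 (Nat.choose_le_two_pow l i)
            _ ≤ (2 : ℝ) ^ 4 := by
              push_cast
              exact pow_le_pow_right₀ one_le_two hl4
        · have h := (norm_le_pi_norm (fun i : Fin 5 => ‖iteratedFDeriv ℝ i.1 q x‖) ⟨i, hi5⟩).trans
            (hB x hx)
          rwa [norm_norm] at h
      · refine (sq_sum_le_card_mul_sum_sq).trans ?_
        rw [Finset.card_range, mul_assoc]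
        refine mul_le_mul (by exact_mod_cast Nat.succ_le_succ hl4) ?_
          (Finset.sum_nonneg fun _ _ => sq_nonneg _) (by norm_num)
        simp only [mul_pow, ← Finset.mul_sum]
        refine mul_le_mul_of_nonneg_left ?_ (by positivity)
        have hr := Finset.sum_range_reflect
          (fun m => ‖iteratedFDeriv ℝ m (fun y => e y α.1 α.2) x‖ ^ 2) (l + 1)
        rw [Nat.add_sub_cancel] at hr
        rw [hr]
        refine (Finset.sum_le_sum_of_subset_of_nonneg (Finset.range_mono (by omega : l + 1 ≤ 5))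
          fun m _ _ => sq_nonneg _).trans (Finset.sum_le_sum fun m _ => ?_)
        exact (Finset.single_le_sum (f := fun j => ‖iteratedFDeriv ℝ m (fun y => e y α.1 j) x‖ ^ 2)
          (fun _ _ => sq_nonneg _) (Finset.mem_univ α.2)).trans
          (Finset.single_le_sum (f := fun i => ∑ j, ‖iteratedFDeriv ℝ m (fun y => e y i j) x‖ ^ 2)
            (fun _ _ => Finset.sum_nonneg fun _ _ => sq_nonneg _) (Finset.mem_univ α.1))
    refine (Finset.sum_le_sum hone).trans ?_
    rw [Finset.sum_const, Finset.card_range, nsmul_eq_mul]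
    calc _ ≤ (5 : ℝ) * (5 * ((2 : ℝ) ^ 4 * B) ^ 2 * h4Den e x) :=
          mul_le_mul_of_nonneg_right (by exact_mod_cast Nat.succ_le_succ hs) (by positivity)
      _ = _ := by ring
  · rw [indicator_of_notMem hx]
    refine le_of_eq (Finset.sum_eq_zero fun l _ => ?_)
    have h0 : iteratedFDeriv ℝ l (fun y => q y * e y α.1 α.2) x = 0 := by
      by_contra h
      exact hx (tsupport_mul_subset_left
        (tsupport_iteratedFDeriv_subset (𝕜 := ℝ) l (subset_tsupport _ h)))
    rw [h0, norm_zero, zero_pow two_ne_zero]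

/-- The weighted norm of the source. -/
theorem ecoef_bound (hJ : IsACS V J) {ζ : E → ℝ} (hζ : IsTest (V ∩ box) ζ) {s : ℕ} (hs : s ≤ 4) :
    ∃ C ≥ 0, ∀ e, IsAntiOn V J e → ∀ β : I2,
      hsq s (cper (ecoef J ζ e β)) ≤ C * h4On (tsupport ζ) e := by
  set q : I2 → I2 → E → ℝ := fun β α x =>
    ∑ γ : I2, ζ x * pco (J x) γ β * pfq (bas α) (bas γ) with hq
  have hV := hJ.isOpen.inter isOpen_box
  have hqt : ∀ β α, IsTest (V ∩ box) (q β α) := fun β α => IsTest.sum' _ fun γ _ =>
    (isTest_zpco hJ hζ γ β).mul_smooth hV contDiffOn_const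
  choose C hC hb using fun β α => hsq_cper_mul_le hJ (hqt β α) hs
  refine ⟨(Fintype.card I2 : ℝ) * ∑ β, ∑ α, C β α, mul_nonneg (Nat.cast_nonneg _)
    (Finset.sum_nonneg fun _ _ => Finset.sum_nonneg fun _ _ => hC _ _), fun e he β => ?_⟩
  have hbox : ∀ α : I2, IsBox fun x => q β α x * e x α.1 α.2 := fun α =>
    ((hqt β α).mul_smooth hV ((he.smooth α.1 α.2).mono inter_subset_left)).mono inter_subset_right
  have heq : ecoef J ζ e β = fun x => ∑ α : I2, q β α x * e x α.1 α.2 := by
    funext x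
    simp only [ecoef, hq, pfq_comm (e x) _, Finset.sum_mul]
    rw [Finset.sum_comm]
    refine Finset.sum_congr rfl fun γ _ => ?_
    rw [pfq_bas (bas γ) (e x), Finset.mul_sum]
    exact Finset.sum_congr rfl fun α _ => by rw [pfq_comm (bas γ) (bas α)]; ring
  rw [heq, show cper (fun x => ∑ α : I2, q β α x * e x α.1 α.2)
    = fun k => ∑ α : I2, cper (fun x => q β α x * e x α.1 α.2) k from
      funext (cper_sum _ fun α _ => hbox α)]
  refine (memH_sum Finset.univ fun α _ => memH_cper (hbox α) s).2.trans ?_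
  rw [Finset.card_univ, mul_assoc]
  refine mul_le_mul_of_nonneg_left ?_ (Nat.cast_nonneg _)
  rw [Finset.sum_mul]
  refine le_trans ?_ (Finset.single_le_sum (f := fun β => (∑ α, C β α) * h4On (tsupport ζ) e)
    (fun β' _ => mul_nonneg (Finset.sum_nonneg fun _ _ => hC _ _) (h4On_nonneg _ _))
    (Finset.mem_univ β))
  rw [Finset.sum_mul]
  refine Finset.sum_le_sum fun α _ => (hb β α e he α).trans (mul_le_mul_of_nonneg_left ?_ (hC β α))
  refine h4On_mono hJ.isOpen (hqt β α).compact hζ.compact (fun x hx => (hζ.supp hx).1) ?_ he.smooth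
  refine closure_minimal (fun x hx => subset_tsupport ζ fun h0 => hx ?_) (isClosed_tsupport ζ)
  simp [hq, h0]

/-- An exact solution is a constant sequence of approximate ones. -/
theorem approx_const (hL : LinearFacts) (hJ : IsACS V J) (hG : IsPosDefOn V G) {u e : E → M}
    (hu : IsAntiOn V J u) (he : IsAntiOn V J e)
    (hx : ∀ x ∈ V, panti (J x) (dOne (oneOf G u) x) = e x) :
    Approx V J G e fun _ => u where
  source := he
  anti _ := hu
  cauchy L _ _ δ hδ := ⟨0, fun n _ m _ => by
    have h0 : h1On L (u - u) = 0 := by simp [h1On, pd]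
    rw [h0]
    exact hδ⟩
  eqn h hh hht := by
    have heq : ∫ x, (G x *ᵥ dTwo u x) ⬝ᵥ dTwo h x = ∫ x, pfq (e x) (h x) := by
      show ∫ x, oneOf G u x ⬝ᵥ dTwo h x = _
      rw [integral_dOne_eq hJ.isOpen (contDiffOn_oneOf hJ hG hu) hht hh.skew]
      congr 1
      funext x
      by_cases hxV : x ∈ V
      · rw [pfq_panti_left hL (hJ.sq x hxV) (skew_dOne _ x) (hh.skew x hxV) (hh.anti x hxV), hx x hxV]
      · have h0 : h x = 0 := by
          ext i j
          exact image_eq_zero_of_notMem_tsupport (f := fun y => h y i j) fun h' => hxV ((hht i j).supp h')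
        simp [pfq, h0]
    rw [← heq]
    exact tendsto_const_nhds

theorem limSeq_const (u : E → M) (ζ : E → ℝ) (α : I2) : limSeq (fun _ => u) ζ α = cw ζ u α :=
  funext fun _ => tendsto_const_nhds.limUnder_eq

/-- The weighted norms of a cut off exact solution. -/
theorem cw_estimate (hL : LinearFacts) (hJ : IsACS V J) (hG : IsPosDefOn V G) : ∀ s : ℕ, s ≤ 4 →
    ∀ {ζ : E → ℝ}, IsTest (V ∩ box) ζ →
    ∃ C ≥ 0, ∃ L ⊆ V, IsCompact L ∧ ∀ u e, IsAntiOn V J u → IsAntiOn V J e →
      (∀ x ∈ V, panti (J x) (dOne (oneOf G u) x) = e x) →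
        ∑ α, hsq (s + 1) (cw ζ u α) ≤ C * (h1On L u + h4On L e) := by
  intro s
  induction s with
  | zero =>
    intro _ ζ hζ
    obtain ⟨C, hC, hb⟩ := cw_bound hJ hζ
    refine ⟨(Fintype.card I2 : ℝ) * C, by positivity, tsupport ζ, fun x hx => (hζ.supp hx).1,
      hζ.compact, fun u e hu _ _ => ?_⟩
    refine (Finset.sum_le_sum fun α _ => hb u hu α).trans ?_
    rw [Finset.sum_const, Finset.card_univ, nsmul_eq_mul, ← mul_assoc]
    exact mul_le_mul_of_nonneg_left (le_add_of_nonneg_right (h4On_nonneg _ _)) (by positivity)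
  | succ s ih =>
    intro hs ζ hζ
    obtain ⟨η, hc⟩ := exists_cut hJ hζ
    obtain ⟨C0, hC0, hgain⟩ := gain_step hJ hG hc s
    obtain ⟨C1, hC1, L1, hL1, hL1c, h1⟩ := ih (by omega) hζ
    obtain ⟨C2, hC2, L2, hL2, hL2c, h2⟩ := ih (by omega) hc.hη
    obtain ⟨C3, hC3, h3⟩ := ecoef_bound hJ hζ (s := s) (by omega)
    set L := L1 ∪ L2 ∪ tsupport ζ with hLdef
    have hLV : L ⊆ V := union_subset (union_subset hL1 hL2) fun x hx => (hζ.supp hx).1
    have hLc : IsCompact L := (hL1c.union hL2c).union hζ.compact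
    refine ⟨C0 * (C1 + C2 + (Fintype.card I2 : ℝ) * C3), by positivity, L, hLV, hLc,
      fun u e hu he hx => ?_⟩
    have happ := approx_const hL hJ hG hu he hx
    have hc' := limSeq_const u
    have hstep := hgain (cw ζ u) (cw η u) (fun γ => cper (ecoef J ζ e γ))
      (fun α k => cper_neg _ k) (fun α => memH_cper (isBox_comp hJ hζ hu α) _)
      (fun α => memH_cper (isBox_comp hJ hc.hη hu α) _)
      (fun γ => memH_cper ((isTest_ecoef hJ hζ he γ).mono inter_subset_right) _)
      (fun α k => cw_eq_pseq hJ hc hu α k) (fun β k => by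
        have h := limSeq_eqn hJ hG happ hc β k
        rwa [show limSeq (fun _ => u) ζ = cw ζ u from funext (hc' ζ),
          show limSeq (fun _ => u) η = cw η u from funext (hc' η)] at h)
    refine hstep.2.trans ?_
    rw [mul_assoc C0]
    refine mul_le_mul_of_nonneg_left ?_ hC0
    set T := h1On L u + h4On L e
    have hT : ∀ {L' : Set E}, IsCompact L' → L' ⊆ L → h1On L' u + h4On L' e ≤ T := fun hc hsub =>
      add_le_add (h1On_mono hJ.isOpen hLc hLV hsub hu.smooth)
        (h4On_mono hJ.isOpen hc hLc hLV hsub he.smooth)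
    have e1 := (h1 u e hu he hx).trans (mul_le_mul_of_nonneg_left
      (hT hL1c (subset_union_left.trans subset_union_left)) hC1)
    have e2 := (h2 u e hu he hx).trans (mul_le_mul_of_nonneg_left
      (hT hL2c (subset_union_right.trans subset_union_left)) hC2)
    have e3 : ∑ γ, hsq s (cper (ecoef J ζ e γ)) ≤ (Fintype.card I2 : ℝ) * C3 * T := by
      refine (Finset.sum_le_sum fun γ _ => h3 e he γ).trans ?_
      rw [Finset.sum_const, Finset.card_univ, nsmul_eq_mul, ← mul_assoc]
      refine mul_le_mul_of_nonneg_left ?_ (by positivity)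
      exact (le_add_of_nonneg_left (h1On_nonneg _ _)).trans (hT hζ.compact subset_union_right)
    linarith

theorem sq_le_hsq_box {f : E → ℝ} (hf : IsBox f) {x : E} (hx : x ∈ box) :
    f x ^ 2 ≤ (∑' k, (wgt k ^ 3)⁻¹) * hsq 3 (cper f) := by
  have h := sq_le_hsq (contDiff_perz hf.smooth hf.compact hf.supp) (per_perz f) x
  rwa [perz_eq_box hx] at h

/-- The local bound with two derivatives. -/
theorem ball_estimate (hL : LinearFacts) (hJ : IsACS V J) (hG : IsPosDefOn V G) {p : E}
    (hp : p ∈ V) :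
    ∃ r > 0, ∃ C ≥ 0, ∃ L ⊆ V, IsCompact L ∧ ∀ u e, IsAntiOn V J u → IsAntiOn V J e →
      (∀ x ∈ V, panti (J x) (dOne (oneOf G u) x) = e x) →
      ∀ x ∈ closedBall p r, ∀ i j a b,
        (u x i j ^ 2 + pd a (fun y => u y i j) x ^ 2
          + pd a (fun y => pd b (fun z => u z i j) y) x ^ 2) ≤ C * (h1On L u + h4On L e) := by
  obtain ⟨c, ζ, hζ, r, hr, hrV, hball⟩ := exists_centred_cutoff hJ hp
  have hJ' := hJ.shift c
  obtain ⟨C, hC, L, hLV, hLc, hest⟩ := cw_estimate hL hJ' (hG.shift c) 4 le_rfl hζ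
  set S := ∑' k : K, (wgt k ^ 3)⁻¹
  have hS : 0 ≤ S := tsum_nonneg fun k => inv_nonneg.2 (pow_nonneg (wgt_pos k).le _)
  set P : ℝ := (2 * Real.pi) ^ 2
  refine ⟨r, hr, S * (1 + P + P * P) * C, by positivity, (· + -c) ⁻¹' L,
    (preimage_mono hLV).trans (preimage_shift_neg c V).subset, isCompact_shift hLc,
    fun u e hu he hx x hxb i j a b => ?_⟩
  have hu' := hu.shift c
  have hxe : ∀ y ∈ (· + c) ⁻¹' V,
      panti (sh c J y) (dOne (oneOf (sh c G) (sh c u)) y) = sh c e y := fun y hy => by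
    have h1 : oneOf (sh c G) (sh c u) = sh c (oneOf G u) :=
      funext fun z => by rw [oneOf, dTwo_sh]; rfl
    have h2 : dOne (oneOf (sh c G) (sh c u)) y = dOne (oneOf G u) (y + c) := by
      rw [h1]
      funext k l
      exact congrArg₂ (· - ·) (pd_sh c (fun z => oneOf G u z l) k y)
        (pd_sh c (fun z => oneOf G u z k) l y)
    rw [h2]
    exact hx _ hy
  have hsum := hest _ _ hu' (he.shift c) hxe
  rw [show L = (· + c) ⁻¹' ((· + -c) ⁻¹' L) by ext z; simp, h1On_sh, h4On_sh] at hsum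
  obtain ⟨hev, hyb⟩ := hball x hxb
  set y := x - c
  have hxy : x = y + c := (sub_add_cancel x c).symm
  have hf := isBox_comp hJ' hζ hu' (i, j)
  set T := h1On ((· + -c) ⁻¹' L) u + h4On ((· + -c) ⁻¹' L) e
  have hm := memH_cper hf 5
  have h5 : hsq 5 (cper (comp ζ (sh c u) (i, j))) ≤ C * T :=
    le_trans (Finset.single_le_sum (f := fun α => hsq 5 (cw ζ (sh c u) α))
      (fun _ _ => hsq_nonneg _ _) (Finset.mem_univ (i, j))) hsum
  have heq : (comp ζ (sh c u) (i, j)) =ᶠ[𝓝 y] sh c fun z => u z i j := by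
    filter_upwards [hev] with z hz
    simp [comp, sh, hz]
  have b0 : u x i j ^ 2 ≤ S * (C * T) := by
    have h := sq_le_hsq_box hf hyb
    rw [heq.eq_of_nhds, sh, ← hxy] at h
    exact h.trans (mul_le_mul_of_nonneg_left ((hsq_mono hm (by norm_num)).trans h5) hS)
  have b1 : pd a (fun z => u z i j) x ^ 2 ≤ S * (P * (C * T)) := by
    have h := sq_le_hsq_box (hf.pd_test a) hyb
    rw [pd_congr a heq, pd_sh, ← hxy, cper_pd hf] at h
    refine h.trans (mul_le_mul_of_nonneg_left ?_ hS)
    exact (memH_dseq (memH_cper hf 4) a).2.trans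
      (mul_le_mul_of_nonneg_left ((hsq_mono hm (by norm_num)).trans h5) (sq_nonneg _))
  have b2 : pd a (fun z => pd b (fun w => u w i j) z) x ^ 2 ≤ S * (P * (P * (C * T))) := by
    have h := sq_le_hsq_box ((hf.pd_test b).pd_test a) hyb
    have he2 : pd b (comp ζ (sh c u) (i, j)) =ᶠ[𝓝 y] sh c (pd b fun w => u w i j) := by
      filter_upwards [heq.eventuallyEq_nhds] with z hz
      rw [pd_congr b hz, pd_sh]
      rfl
    rw [pd_congr a he2, pd_sh, ← hxy, cper_pd (hf.pd_test b), cper_pd hf] at h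
    refine h.trans (mul_le_mul_of_nonneg_left ?_ hS)
    exact (memH_dseq (memH_dseq hm b).1 a).2.trans (mul_le_mul_of_nonneg_left
      ((memH_dseq hm b).2.trans (mul_le_mul_of_nonneg_left h5 (sq_nonneg _))) (sq_nonneg _))
  linarith

/-- The regularity module. -/
theorem regularityLocal (hL : LinearFacts) : RegularityLocal := by
  intro V J G hJ hG
  refine ⟨fun e he v hv hcauchy heqn => ?_, fun K hKV hK => ?_⟩
  · have happ : Approx V J G e v := ⟨he, hv, hcauchy, heqn⟩
    obtain ⟨u, hu, hlim⟩ := exists_global_limit hJ hG happ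
    exact ⟨u, hu, hlim, equation_of_weak hL hJ hG hu he (weak_of_limit hJ hG happ hu hlim)⟩
  · classical
    choose r hr C hC L hLV hLc hest using fun p : K => ball_estimate hL hJ hG (hKV p.2)
    obtain ⟨S, hS⟩ := hK.elim_finite_subcover (fun p : K => ball p.1 (r p)) (fun _ => isOpen_ball)
      fun x hx => mem_iUnion.2 ⟨⟨x, hx⟩, mem_ball_self (hr _)⟩
    have hL'V : (⋃ p ∈ S, L p) ⊆ V := iUnion₂_subset fun p _ => hLV p
    have hL'c : IsCompact (⋃ p ∈ S, L p) := S.isCompact_biUnion fun p _ => hLc p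
    refine ⟨∑ p ∈ S, C p, ⋃ p ∈ S, L p, hL'V, hL'c, fun u e hu he hx x hxK i j a b => ?_⟩
    obtain ⟨p, hp, hxp⟩ := mem_iUnion₂.1 (hS hxK)
    refine (hest p u e hu he hx x (ball_subset_closedBall hxp) i j a b).trans ?_
    have hsub : L p ⊆ ⋃ q ∈ S, L q := subset_biUnion_of_mem (u := L) hp
    refine mul_le_mul (Finset.single_le_sum (fun q _ => hC q) hp) ?_
      (add_nonneg (h1On_nonneg _ _) (h4On_nonneg _ _)) (Finset.sum_nonneg fun q _ => hC q)
    exact add_le_add (h1On_mono hJ.isOpen hL'c hL'V hsub hu.smooth)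
      (h4On_mono hJ.isOpen (hLc p) hL'c hL'V hsub he.smooth)

end Vale.Agent.P204.Tame
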