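import Vale.Agent.P204.Tame.Core

/-!
Statements of the elliptic module: the estimate of the gradient of an anti-invariant two-form by
its exterior derivative, and interior regularity for the equation `panti (dOne (G du)) = e`.
Everything is local on an open subset of coordinate space.
-/

namespace Vale.Agent.P204.Tame

open scoped ContDiff Matrix
open MeasureTheory Set Filter

/-- The cyclic exterior derivative of a two-form. -/
noncomputable def altd (u : E → M) (x : E) (i j k : Fin 4) : ℝ :=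
  pd i (fun y => u y j k) x + pd j (fun y => u y k i) x + pd k (fun y => u y i j) x

/-- The exterior derivative of a two-form as a vector: `dot S (dTwo v)` is the coefficient of
`S ∧ dv`. -/
noncomputable def dTwo (u : E → M) (x : E) : E :=
  ![altd u x 1 2 3, -altd u x 0 2 3, altd u x 0 1 3, -altd u x 0 1 2]

/-- A smooth anti-invariant two-form on an open set. -/
structure IsAntiOn (V : Set E) (J u : E → M) : Prop where
  smooth : ∀ i j, ContDiffOn ℝ ∞ (fun x => u x i j) V
  skew : ∀ x ∈ V, (u x)ᵀ = -u x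
  anti : ∀ x ∈ V, (J x)ᵀ * u x * J x = -u x

/-- A smooth field of positive definite symmetric matrices on an open set. -/
structure IsPosDefOn (V : Set E) (G : E → M) : Prop where
  smooth : ∀ i j, ContDiffOn ℝ ∞ (fun x => G x i j) V
  symm : ∀ x ∈ V, (G x)ᵀ = G x
  pos : ∀ x ∈ V, ∀ v : E, v ≠ 0 → 0 < v ⬝ᵥ (G x *ᵥ v)

/-- The squared norm in first derivatives on a set. -/
noncomputable def h1On (K : Set E) (u : E → M) : ℝ :=
  ∫ x in K, ∑ i, ∑ j, (u x i j ^ 2 + ∑ a, pd a (fun y => u y i j) x ^ 2)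

/-- The squared norm in four derivatives on a set. -/
noncomputable def h4On (K : Set E) (u : E → M) : ℝ :=
  ∑ l ∈ Finset.range 5, ∑ i, ∑ j, ∫ x in K, ‖iteratedFDeriv ℝ l (fun y => u y i j) x‖ ^ 2

/-- Module Elliptic: interior gradient estimate. -/
def GardingLocal : Prop :=
  ∀ (V : Set E) (J : E → M), IsACS V J → ∀ K ⊆ V, IsCompact K →
    ∃ C : ℝ, ∃ K' ⊆ V, IsCompact K' ∧ ∀ u, IsAntiOn V J u →
      h1On K u ≤ C * ∫ x in K', (dTwo u x ⬝ᵥ dTwo u x + ∑ i, ∑ j, u x i j ^ 2)

/-- Module Elliptic: a limit of asymptotic weak solutions is smooth, and is bounded with two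
derivatives by its energy and four derivatives of the right side. -/
def RegularityLocal : Prop :=
  ∀ (V : Set E) (J G : E → M), IsACS V J → IsPosDefOn V G →
    (∀ (e : E → M), IsAntiOn V J e → ∀ v : ℕ → E → M, (∀ n, IsAntiOn V J (v n)) →
      (∀ K ⊆ V, IsCompact K → ∀ δ > 0, ∃ N, ∀ n ≥ N, ∀ m ≥ N, h1On K (v n - v m) < δ) →
      (∀ h : E → M, IsAntiOn V J h → (∀ i j, IsTest V fun x => h x i j) →
        Tendsto (fun n => ∫ x, (G x *ᵥ dTwo (v n) x) ⬝ᵥ dTwo h x) atTop
          (nhds (∫ x, pfq (e x) (h x)))) →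
      ∃ u, IsAntiOn V J u ∧
        (∀ K ⊆ V, IsCompact K → Tendsto (fun n => h1On K (v n - u)) atTop (nhds 0)) ∧
        ∀ x ∈ V, panti (J x) (dOne (fun y => G y *ᵥ dTwo u y) x) = e x) ∧
    ∀ K ⊆ V, IsCompact K → ∃ C : ℝ, ∃ K' ⊆ V, IsCompact K' ∧
      ∀ u e, IsAntiOn V J u → IsAntiOn V J e →
        (∀ x ∈ V, panti (J x) (dOne (fun y => G y *ᵥ dTwo u y) x) = e x) →
        ∀ x ∈ K, ∀ i j a b,
          (u x i j ^ 2 + pd a (fun y => u y i j) x ^ 2
            + pd a (fun y => pd b (fun z => u z i j) y) x ^ 2)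
            ≤ C * (h1On K' u + h4On K' e)

end Vale.Agent.P204.Tame
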