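import Vale.Agent.P204.Tame.EllipticAbstract

/-!
P204: on the kernel of a semipositive form, whose bounded sequences have Cauchy subsequences for a
second form, every seminorm is bounded by the second form.
-/

namespace Vale.Agent.P204.Tame

open Filter

/-- Seminorms on the kernel are bounded by the second form. -/
theorem exists_kernel_bound {V : Type*} [AddCommGroup V] [Module ℝ V]
    {B P : V →ₗ[ℝ] V →ₗ[ℝ] ℝ} (hB : SemiForm B) (hP : SemiForm P)
    (hdef : ∀ x, B x x = 0 → P x x = 0 → x = 0)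
    (hcpt : ∀ v : ℕ → V, (∀ n, B (v n) (v n) + P (v n) (v n) ≤ 2) → ∃ φ : ℕ → ℕ, StrictMono φ ∧
      ∀ δ > 0, ∃ N, ∀ n ≥ N, ∀ m ≥ N, P (v (φ n) - v (φ m)) (v (φ n) - v (φ m)) < δ)
    {ν : V → ℝ} (hadd : ∀ x y, ν (x + y) ≤ ν x + ν y) (hsmul : ∀ (r : ℝ) x, ν (r • x) = |r| * ν x) :
    ∃ C : ℝ, 0 ≤ C ∧ ∀ x, B x x = 0 → ν x ≤ C * Real.sqrt (P x x) := by
  classical
  have hν0 : ν 0 = 0 := by simpa using hsmul 0 0
  have hνpos : ∀ x, 0 ≤ ν x := fun x => by
    have h1 := hadd x ((-1 : ℝ) • x)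
    rw [hsmul, abs_neg, abs_one, one_mul, neg_one_smul, add_neg_cancel, hν0] at h1
    linarith
  -- finitely many unit vectors of the kernel separate it
  obtain ⟨s, hs, hsep⟩ : ∃ s : Finset V, (∀ a ∈ s, B a a = 0 ∧ P a a = 1) ∧
      ∀ y, B y y = 0 → P y y = 1 → ∃ a ∈ s, P a y ≠ 0 := by
    by_contra! h
    obtain ⟨f, hf, hr⟩ := exists_seq_of_forall_finset_exists
      (fun y : V => B y y = 0 ∧ P y y = 1) (fun a y => P a y = 0) fun t ht => by
        obtain ⟨y, h1, h2, h3⟩ := h t ht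
        exact ⟨y, ⟨h1, h2⟩, h3⟩
    obtain ⟨φ, hφ, hc⟩ := hcpt f fun n => by rw [(hf n).1, (hf n).2]; norm_num
    obtain ⟨N, hN⟩ := hc 1 one_pos
    have h1 := hN N le_rfl (N + 1) N.le_succ
    rw [hP.sub_self, (hf _).2, (hf _).2, hr _ _ (hφ N.lt_succ_self)] at h1
    norm_num at h1
  let T : LinearMap.ker B →ₗ[ℝ] ({a // a ∈ s} → ℝ) :=
    LinearMap.pi fun a => (P a.1).comp (LinearMap.ker B).subtype
  have hT : LinearMap.ker T = ⊥ := by
    rw [Submodule.eq_bot_iff]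
    intro x hx
    have hxB : B x.1 x.1 = 0 := by
      rw [LinearMap.mem_ker.1 x.2]; rfl
    refine Subtype.ext (hdef _ hxB ?_)
    by_contra hne
    have hpos : 0 < P x.1 x.1 := lt_of_le_of_ne (hP.nonneg _) (Ne.symm hne)
    obtain ⟨a, ha, hay⟩ := hsep ((Real.sqrt (P x.1 x.1))⁻¹ • x.1)
      (by rw [hB.smul_self, hxB, mul_zero])
      (by rw [hP.smul_self, inv_pow, Real.sq_sqrt hpos.le, inv_mul_cancel₀ hne])
    refine hay ?_
    have h0 : P a x.1 = 0 := congrFun (LinearMap.mem_ker.1 hx) ⟨a, ha⟩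
    rw [map_smul, h0, smul_zero]
  obtain ⟨L, hL⟩ := T.exists_leftInverse_of_injective hT
  set e : {a // a ∈ s} → V := fun a => (L fun b => if a = b then 1 else 0).1
  refine ⟨∑ a, ν (e a), Finset.sum_nonneg fun a _ => hνpos _, fun x hx => ?_⟩
  have hxk : x ∈ LinearMap.ker B := LinearMap.ext fun y => hB.eq_zero_of_self hx y
  have hxe : x = ∑ a, T ⟨x, hxk⟩ a • e a := by
    have h1 : L (T ⟨x, hxk⟩) = ⟨x, hxk⟩ := LinearMap.congr_fun hL _
    rw [LinearMap.pi_apply_eq_sum_univ] at h1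
    have h2 := congrArg Subtype.val h1
    simp only [Submodule.coe_sum, Submodule.coe_smul] at h2
    exact h2.symm
  conv_lhs => rw [hxe]
  refine (Finset.le_sum_of_subadditive ν hν0.le hadd _ _).trans ?_
  rw [Finset.sum_mul]
  refine Finset.sum_le_sum fun a _ => ?_
  rw [hsmul, mul_comm (ν (e a))]
  refine mul_le_mul_of_nonneg_right ?_ (hνpos _)
  have h3 := hP.abs_le a.1 x
  rw [(hs a.1 a.2).2, one_mul] at h3
  exact h3

end Vale.Agent.P204.Tame
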