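import Vale.Agent.P204.Tame.EllipticCoercive

/-!
The cut off equation on coefficient sequences, limits of asymptotic solutions, and the gain of
derivatives.
-/

namespace Vale.Agent.P204.Tame

open scoped ContDiff Matrix Topology ComplexConjugate
open MeasureTheory Set Filter

/-- The coefficient sequences of a cut off form. -/
noncomputable def cw (ζ : E → ℝ) (v : E → M) (α : I2) : K → ℂ := cper (comp ζ v α)

/-- The coefficients carried by the derivative of the cutoff. -/
noncomputable def mseq (J G : E → M) (ζ : E → ℝ) (p q : I3) : K → ℂ :=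
  cper fun x => pd p.1 ζ x * acoef J G p q x

/-- The first order coefficients. -/
noncomputable def bseq (J G : E → M) (ζ : E → ℝ) (p : I3) (β : I2) : K → ℂ :=
  cper (bcoef J G ζ p β)

/-- The right side of the cut off equation, from the wider cutoff and the source. -/
noncomputable def rhsSeq (J G : E → M) (ζ : E → ℝ) (W : I2 → K → ℂ) (S : I2 → K → ℂ) (β : I2)
    (k : K) : ℂ :=
  -(∑ b, dseq b (fun l => ∑ p : I3, cconv (mseq J G ζ p (b, β)) (W p.2) l) k)
    - (∑ p : I3, cconv (bseq J G ζ p β) (dseq p.1 (W p.2)) k) + S β k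

variable {J G : E → M} {V : Set E} {ζ η : E → ℝ} {e v : E → M}

theorem isBox_mcoef (hJ : IsACS V J) (hG : IsPosDefOn V G) (hζ : IsTest (V ∩ box) ζ) (p q : I3) :
    IsBox fun x => pd p.1 ζ x * acoef J G p q x :=
  ((hζ.pd_test p.1).mul_smooth (hJ.isOpen.inter isOpen_box)
    ((contDiffOn_acoef hJ hG p q).mono inter_subset_left)).mono inter_subset_right

theorem isBox_bcoef (hJ : IsACS V J) (hG : IsPosDefOn V G) (hζ : IsTest (V ∩ box) ζ) (p : I3)
    (β : I2) : IsBox (bcoef J G ζ p β) :=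
  (isTest_bcoef hJ hG hζ p β).mono inter_subset_right

theorem isBox_comp (hJ : IsACS V J) (hζ : IsTest (V ∩ box) ζ) (hv : IsAntiOn V J v) (α : I2) :
    IsBox (comp ζ v α) :=
  (isTest_comp hJ hζ hv α).mono inter_subset_right

theorem IsTest.mul_test {V : Set E} (hV : IsOpen V) {f g : E → ℝ} (hf : IsTest V f)
    (hg : IsTest V g) : IsTest V fun x => f x * g x :=
  hf.mul_smooth hV hg.smooth.contDiffOn

theorem cper_fluxF (hJ : IsACS V J) (hG : IsPosDefOn V G) (hc : Cut V ζ η) (hv : IsAntiOn V J v)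
    (q : I3) (k : K) : cper (fluxF J G ζ η v q) k = flux (aseq J G η) (cw ζ v) q k := by
  have hA := isBox_eta_acoef hJ hG hc.hη
  have hU := isBox_comp hJ hc.hζ hv
  unfold fluxF
  rw [cper_sum _ (fun p _ => (hA p q).mul_test isOpen_box ((hU p.2).pd_test p.1)) k, flux]
  refine Finset.sum_congr rfl fun p _ => ?_
  rw [cper_mul (hA p q) ((hU p.2).pd_test p.1), cper_pd (hU p.2)]
  rfl

theorem cper_midF (hJ : IsACS V J) (hG : IsPosDefOn V G) (hc : Cut V ζ η) (hv : IsAntiOn V J v)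
    (q : I3) : cper (midF J G ζ η v q)
      = fun l => ∑ p : I3, cconv (mseq J G ζ p q) (cw η v p.2) l := by
  funext l
  have hA := fun p => isBox_mcoef hJ hG hc.hζ p q
  have hU := isBox_comp hJ hc.hη hv
  unfold midF
  rw [cper_sum _ (fun p _ => (hA p).mul_test isOpen_box (hU p.2)) l]
  refine Finset.sum_congr rfl fun p _ => ?_
  rw [cper_mul (hA p) (hU p.2)]
  rfl

theorem cper_lowF (hJ : IsACS V J) (hG : IsPosDefOn V G) (hc : Cut V ζ η) (hv : IsAntiOn V J v)
    (β : I2) (k : K) : cper (lowF J G ζ η v β) k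
      = ∑ p : I3, cconv (bseq J G ζ p β) (dseq p.1 (cw η v p.2)) k := by
  have hB := fun p => isBox_bcoef hJ hG hc.hζ p β
  have hU := isBox_comp hJ hc.hη hv
  unfold lowF
  rw [cper_sum _ (fun p _ => (hB p).mul_test isOpen_box ((hU p.2).pd_test p.1)) k]
  refine Finset.sum_congr rfl fun p _ => ?_
  rw [cper_mul (hB p) ((hU p.2).pd_test p.1), cper_pd (hU p.2)]
  rfl

/-- The residual in coefficients. -/
theorem cper_resF (hJ : IsACS V J) (hG : IsPosDefOn V G) (hc : Cut V ζ η) (hv : IsAntiOn V J v)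
    (he : IsAntiOn V J e) (β : I2) (k : K) :
    cper (resF J G ζ η e v β) k
      = -(∑ b, dseq b (flux (aseq J G η) (cw ζ v) (b, β)) k)
        - rhsSeq J G ζ (cw η v) (fun γ => cper (ecoef J ζ e γ)) β k := by
  have hfl := fun q => (isTest_fluxF hJ hG hc hv q).mono (inter_subset_right (s := V))
  have hmi := fun q => (isTest_midF hJ hG hc hv q).mono (inter_subset_right (s := V))
  have hlo := (isTest_lowF hJ hG hc hv β).mono (inter_subset_right (s := V))
  have hec := (isTest_ecoef hJ hc.hζ he β).mono (inter_subset_right (s := V))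
  have h1 : IsBox fun x => -(∑ b, pd b (fluxF J G ζ η v (b, β)) x) :=
    (IsTest.sum' _ fun b _ => (hfl (b, β)).pd_test b).neg'
  have h2 : IsBox fun x => ∑ b, pd b (midF J G ζ η v (b, β)) x :=
    IsTest.sum' _ fun b _ => (hmi (b, β)).pd_test b
  have hadd : ∀ {f g : E → ℝ}, IsBox f → IsBox g →
      cper (fun x => f x + g x) k = cper f k + cper g k := fun hf hg =>
    coeff_add (integrableOn_cube (contDiff_perz hf.smooth hf.compact hf.supp).continuous)
      (integrableOn_cube (contDiff_perz hg.smooth hg.compact hg.supp).continuous) k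
  unfold resF
  rw [cper_sub ((h1.add' h2).add' hlo) hec, hadd (h1.add' h2) hlo, hadd h1 h2, cper_neg_fun,
    cper_sum _ (fun b _ => (hfl (b, β)).pd_test b) k,
    cper_sum _ (fun b _ => (hmi (b, β)).pd_test b) k, cper_lowF hJ hG hc hv β k]
  simp only [fun b => cper_pd (hfl (b, β)) b, fun b => cper_pd (hmi (b, β)) b,
    cper_midF hJ hG hc hv, rhsSeq, dseq, cper_fluxF hJ hG hc hv]
  ring

theorem coeff_eq_re_im {f : E → ℝ} (hf : Continuous f) (hs : Function.support f ⊆ cube) (k : K) :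
    coeff f k = ((∫ x, (chi (-k) x).re * f x : ℝ) : ℂ)
      + Complex.I * ((∫ x, (chi (-k) x).im * f x : ℝ) : ℂ) := by
  have hr : Continuous fun x => (chi (-k) x).re * f x :=
    (Complex.continuous_re.comp (continuous_chi _)).mul hf
  have hi : Continuous fun x => (chi (-k) x).im * f x :=
    (Complex.continuous_im.comp (continuous_chi _)).mul hf
  have hsub : ∀ g : E → ℝ, Function.support (fun x => g x * f x) ⊆ cube := fun g x hx =>
    hs (right_ne_zero_of_mul hx)
  rw [← integral_cube_eq (hsub _), ← integral_cube_eq (hsub fun x => (chi (-k) x).im),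
    ← integral_complex_ofReal, ← integral_complex_ofReal, ← integral_const_mul,
    ← integral_add (integrableOn_cube hr).ofReal ((integrableOn_cube hi).ofReal.const_mul _)]
  unfold coeff
  congr 1
  funext x
  conv_lhs => rw [← Complex.re_add_im (chi (-k) x)]
  push_cast
  ring

/-- The cutoff residual tends to zero for asymptotic solutions. -/
theorem tendsto_resF (hJ : IsACS V J) (hG : IsPosDefOn V G) (hc : Cut V ζ η)
    (he : IsAntiOn V J e) {v : ℕ → E → M} (hv : ∀ n, IsAntiOn V J (v n))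
    (heq : ∀ h : E → M, IsAntiOn V J h → (∀ i j, IsTest V fun x => h x i j) →
      Tendsto (fun n => ∫ x, (G x *ᵥ dTwo (v n) x) ⬝ᵥ dTwo h x) atTop
        (𝓝 (∫ x, pfq (e x) (h x)))) (β : I2) (k : K) :
    Tendsto (fun n => cper (resF J G ζ η e (v n) β) k) atTop (𝓝 0) := by
  classical
  have hφ : ∀ φ : E → ℝ, ContDiff ℝ ∞ φ →
      Tendsto (fun n => ∫ x, φ x * resF J G ζ η e (v n) β x) atTop (𝓝 0) := by
    intro φ hφ
    set Φ : I2 → E → ℝ := fun γ x => if γ = β then φ x else 0 with hΦ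
    have hΦs : ∀ γ, ContDiff ℝ ∞ (Φ γ) := fun γ => by
      by_cases h : γ = β
      · simpa [hΦ, h] using hφ
      · simpa [hΦ, h] using contDiff_const
    obtain ⟨hh, ht⟩ := isAntiOn_testForm hJ hc.hζ hΦs
    have := (heq _ hh fun i j => (ht i j).mono inter_subset_left).sub_const
      (∫ x, pfq (e x) (testForm J ζ Φ x))
    rw [sub_self] at this
    refine this.congr fun n => ?_
    rw [integral_equation hJ hG hc (hv n) he hΦs, Fintype.sum_eq_single β]
    · simp [hΦ]
    · intro γ hγ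
      simp [hΦ, hγ]
  have hb : ∀ n, IsBox (resF J G ζ η e (v n) β) := fun n =>
    (isTest_resF hJ hG hc (hv n) he β).mono inter_subset_right
  have h1 := hφ _ (Complex.reCLM.contDiff.comp (contDiff_chi (-k)))
  have h2 := hφ _ (Complex.imCLM.contDiff.comp (contDiff_chi (-k)))
  have h := ((Complex.continuous_ofReal.tendsto 0).comp h1).add
    (((Complex.continuous_ofReal.tendsto 0).comp h2).const_mul Complex.I)
  simp only [Complex.ofReal_zero, mul_zero, add_zero] at h
  refine h.congr fun n => ?_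
  rw [cper_eq_coeff (hb n).compact (hb n).supp, coeff_eq_re_im (hb n).smooth.continuous
    (fun x hx => box_subset_cube ((hb n).supp (subset_tsupport _ hx)))]
  rfl

theorem tendsto_cconv {a : K → ℂ} (ha : ∀ n : ℕ, Summable fun k => wgt k ^ n * ‖a k‖)
    {c : ℕ → K → ℂ} {d : K → ℂ} (hc : ∀ n, MemH 0 (c n)) (hd : MemH 0 d)
    (h : Tendsto (fun n => hsq 0 fun k => c n k - d k) atTop (𝓝 0)) (k : K) :
    Tendsto (fun n => cconv a (c n) k) atTop (𝓝 (cconv a d k)) := by
  have ha0 : Summable fun k => ‖a k‖ := (ha 0).congr fun k => by simp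
  have hlin : ∀ n l, cconv a (c n) l - cconv a d l = cconv a (fun i => c n i - d i) l := fun n l => by
    rw [cconv, cconv, cconv, ← ((hsq_cconv_le ha0 (hc n)).1 l).tsum_sub ((hsq_cconv_le ha0 hd).1 l)]
    exact tsum_congr fun i => by ring
  refine tendsto_apply_of_hsq (c := fun n => cconv a (c n)) (d := cconv a d) (fun n => ?_) ?_ k
  · simp only [hlin]
    exact (hsq_cconv_le ha0 ((hc n).sub hd)).2.1
  · simp only [hlin]
    exact squeeze_zero (fun n => hsq_nonneg _ _)
      (fun n => (hsq_cconv_le ha0 ((hc n).sub hd)).2.2)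
      (by simpa using h.const_mul ((∑' l, ‖a l‖) ^ 2))

/-- Convergence in the first weighted norm. -/
structure Lim (c : ℕ → K → ℂ) (d : K → ℂ) : Prop where
  mem : ∀ n, MemH 1 (c n)
  lim_mem : MemH 1 d
  conv : Tendsto (fun n => hsq 1 fun k => c n k - d k) atTop (𝓝 0)

theorem Lim.conv0 {c : ℕ → K → ℂ} {d : K → ℂ} (h : Lim c d) :
    Tendsto (fun n => hsq 0 fun k => c n k - d k) atTop (𝓝 0) :=
  squeeze_zero (fun _ => hsq_nonneg _ _)
    (fun n => hsq_mono ((h.mem n).sub h.lim_mem) zero_le_one) h.conv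

theorem Lim.apply {c : ℕ → K → ℂ} {d : K → ℂ} (h : Lim c d) (k : K) :
    Tendsto (fun n => c n k) atTop (𝓝 (d k)) :=
  tendsto_apply_of_hsq (fun n => ((h.mem n).sub h.lim_mem).mono (Nat.zero_le 1)) h.conv0 k

theorem Lim.cconv {a : K → ℂ} (ha : ∀ n : ℕ, Summable fun k => wgt k ^ n * ‖a k‖)
    {c : ℕ → K → ℂ} {d : K → ℂ} (h : Lim c d) (k : K) :
    Tendsto (fun n => Tame.cconv a (c n) k) atTop (𝓝 (Tame.cconv a d k)) :=
  tendsto_cconv ha (fun n => (h.mem n).mono (Nat.zero_le 1)) (h.lim_mem.mono (Nat.zero_le 1))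
    h.conv0 k

theorem Lim.cconv_dseq {a : K → ℂ} (ha : ∀ n : ℕ, Summable fun k => wgt k ^ n * ‖a k‖)
    {c : ℕ → K → ℂ} {d : K → ℂ} (h : Lim c d) (b : Fin 4) (k : K) :
    Tendsto (fun n => Tame.cconv a (dseq b (c n)) k) atTop (𝓝 (Tame.cconv a (dseq b d) k)) := by
  refine tendsto_cconv ha (fun n => (memH_dseq (s := 0) (h.mem n) b).1)
    (memH_dseq (s := 0) h.lim_mem b).1 (squeeze_zero (fun _ => hsq_nonneg _ _) (fun n => ?_)
      (by simpa using h.conv.const_mul ((2 * Real.pi) ^ 2))) k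
  have he : (fun l => dseq b (c n) l - dseq b d l) = dseq b fun l => c n l - d l := by
    funext l
    simp only [dseq]
    ring
  rw [he]
  exact (memH_dseq (s := 0) ((h.mem n).sub h.lim_mem) b).2

/-- A cutoff pair around a given cutoff. -/
theorem exists_cut (hJ : IsACS V J) (hζ : IsTest (V ∩ box) ζ) : ∃ η, Cut V ζ η := by
  obtain ⟨η, hη, -, U, hUo, hKU, -, hη1⟩ :=
    exists_cutoff (hJ.isOpen.inter isOpen_box) hζ.compact hζ.supp
  exact ⟨η, hζ, hη, fun x hx => by
    filter_upwards [hUo.mem_nhds (hKU hx)] with y hy using hη1 y hy⟩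

theorem comp_eq_pco (hc : Cut V ζ η) (hv : IsAntiOn V J v) (α : I2) (x : E) :
    comp ζ v α x = ∑ β : I2, η x * pco (J x) α β * comp ζ v β x := by
  have h : ∑ β : I2, η x * pco (J x) α β * comp ζ v β x
      = ζ x * η x * ∑ β : I2, pco (J x) α β * v x β.1 β.2 := by
    simp only [comp, Finset.mul_sum]
    exact Finset.sum_congr rfl fun β _ => by ring
  rw [h, hc.mul_eq, comp]
  by_cases hx : x ∈ V
  · rw [← projA_apply (J x) (v x) α.1 α.2, projA_self (hv.skew x hx) (hv.anti x hx)]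
  · rw [image_eq_zero_of_notMem_tsupport fun h' => hx (hc.hζ.supp h').1]
    simp

theorem cw_eq_pseq (hJ : IsACS V J) (hc : Cut V ζ η) (hv : IsAntiOn V J v) (α : I2) (k : K) :
    ∑ β, cconv (pseq J η α β) (cw ζ v β) k = cw ζ v α k := by
  have hP := isBox_eta_pco hJ hc.hη
  have hU := isBox_comp hJ hc.hζ hv
  conv_rhs => rw [cw, show comp ζ v α = fun x => ∑ β : I2, η x * pco (J x) α β * comp ζ v β x from
    funext fun x => comp_eq_pco hc hv α x,
    cper_sum _ (fun β _ => (hP α β).mul_test isOpen_box (hU β)) k]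
  refine Finset.sum_congr rfl fun β _ => ?_
  rw [cper_mul (hP α β) (hU β)]
  rfl

/-- The gain of one derivative for a cut off equation. -/
theorem gain_step (hJ : IsACS V J) (hG : IsPosDefOn V G) (hc : Cut V ζ η) (t : ℕ) :
    ∃ C : ℝ, 0 ≤ C ∧ ∀ U W S : I2 → K → ℂ, (∀ α k, U α (-k) = conj (U α k)) →
      (∀ α, MemH (t + 1) (U α)) → (∀ α, MemH (t + 1) (W α)) → (∀ α, MemH t (S α)) →
      (∀ α k, ∑ β, cconv (pseq J η α β) (U β) k = U α k) →
      (∀ β k, -(∑ b, dseq b (flux (aseq J G η) U (b, β)) k) = rhsSeq J G ζ W S β k) →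
      (∀ α, MemH (t + 2) (U α)) ∧ ∑ α, hsq (t + 2) (U α)
        ≤ C * (∑ α, hsq (t + 1) (U α) + ∑ α, hsq (t + 1) (W α) + ∑ α, hsq t (S α)) := by
  obtain ⟨C₀, hC₀⟩ := coercive_cut hJ hG hc.hη
  obtain ⟨C, hC, hgain⟩ := core_gain (fun p q => summable_cper (isBox_eta_acoef hJ hG hc.hη p q))
    (fun α β => summable_cper (isBox_eta_pco hJ hc.hη α β)) hC₀ t
  choose Cm hCm0 hCm using fun p q => wconv_bound (summable_cper (isBox_mcoef hJ hG hc.hζ p q)) (t + 1)
  choose Cb hCb0 hCb using fun p β => wconv_bound (summable_cper (isBox_bcoef hJ hG hc.hζ p β)) t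
  set n3 : ℝ := (Fintype.card I3 : ℝ)
  set π2 : ℝ := (2 * Real.pi) ^ 2 with hπ
  set Bm : ℝ := ∑ b : Fin 4, ∑ β : I2, 4 * (π2 * (n3 * ∑ p, Cm p (b, β))) with hBm
  set Bb : ℝ := ∑ β : I2, n3 * (π2 * ∑ p, Cb p β) with hBb
  have hBm0 : 0 ≤ Bm := Finset.sum_nonneg fun _ _ => Finset.sum_nonneg fun _ _ => by
    exact mul_nonneg (by norm_num) (mul_nonneg (sq_nonneg _) (mul_nonneg (Nat.cast_nonneg _)
      (Finset.sum_nonneg fun p _ => hCm0 _ _)))
  have hBb0 : 0 ≤ Bb := Finset.sum_nonneg fun _ _ => mul_nonneg (Nat.cast_nonneg _)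
    (mul_nonneg (sq_nonneg _) (Finset.sum_nonneg fun p _ => hCb0 _ _))
  refine ⟨C * (1 + 4 * (Bm + Bb) + 4), by positivity, fun U W S hUs hU hW hS hP heq => ?_⟩
  set RW := ∑ α, hsq (t + 1) (W α) with hRW
  have hWle : ∀ α, hsq (t + 1) (W α) ≤ RW := fun α =>
    Finset.single_le_sum (f := fun α => hsq (t + 1) (W α)) (fun _ _ => hsq_nonneg _ _)
      (Finset.mem_univ α)
  set m1 : Fin 4 → I2 → K → ℂ := fun b β =>
    dseq b fun l => ∑ p : I3, cconv (mseq J G ζ p (b, β)) (W p.2) l with hm1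
  have hm : ∀ b β, MemH t (m1 b β) ∧ hsq t (m1 b β) ≤ π2 * (n3 * ∑ p, Cm p (b, β)) * RW := by
    intro b β
    have hs := memH_sum Finset.univ fun p (_ : p ∈ (Finset.univ : Finset I3)) =>
      (hCm p (b, β) (W p.2) (hW p.2)).1
    have hd := memH_dseq hs.1 b
    refine ⟨hd.1, hd.2.trans ?_⟩
    rw [mul_assoc]
    refine mul_le_mul_of_nonneg_left (hs.2.trans ?_) (sq_nonneg _)
    rw [Finset.card_univ, mul_assoc, Finset.sum_mul]
    refine mul_le_mul_of_nonneg_left (Finset.sum_le_sum fun p _ => ?_) (Nat.cast_nonneg _)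
    exact (hCm p (b, β) (W p.2) (hW p.2)).2.trans
      (mul_le_mul_of_nonneg_left (hWle _) (hCm0 _ _))
  set l1 : I2 → K → ℂ := fun β k => ∑ p : I3, cconv (bseq J G ζ p β) (dseq p.1 (W p.2)) k with hl1
  have hl : ∀ β, MemH t (l1 β) ∧ hsq t (l1 β) ≤ n3 * (π2 * ∑ p, Cb p β) * RW := by
    intro β
    have hs := memH_sum Finset.univ fun (p : I3) (_ : p ∈ (Finset.univ : Finset I3)) =>
      (hCb p β (dseq p.1 (W p.2)) (memH_dseq (hW p.2) p.1).1).1
    refine ⟨hs.1, hs.2.trans ?_⟩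
    rw [Finset.card_univ, mul_assoc, mul_assoc, Finset.sum_mul, Finset.mul_sum (a := π2)]
    refine mul_le_mul_of_nonneg_left (Finset.sum_le_sum fun p _ => ?_) (Nat.cast_nonneg _)
    refine (hCb p β _ (memH_dseq (hW p.2) p.1).1).2.trans ?_
    rw [mul_left_comm]
    exact mul_le_mul_of_nonneg_left ((memH_dseq (hW p.2) p.1).2.trans
      (mul_le_mul_of_nonneg_left (hWle _) (sq_nonneg _))) (hCb0 _ _)
  have hF : ∀ β, MemH t (rhsSeq J G ζ W S β) ∧ hsq t (rhsSeq J G ζ W S β)
      ≤ 4 * ((∑ b, 4 * (π2 * (n3 * ∑ p, Cm p (b, β)))) * RW)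
        + 4 * (n3 * (π2 * ∑ p, Cb p β) * RW) + 4 * hsq t (S β) := by
    intro β
    have hs := memH_sum Finset.univ fun b (_ : b ∈ (Finset.univ : Finset (Fin 4))) => (hm b β).1
    have hbound : ∀ k, wgt k ^ t * ‖rhsSeq J G ζ W S β k‖ ^ 2
        ≤ 4 * (wgt k ^ t * ‖∑ b, m1 b β k‖ ^ 2) + 4 * (wgt k ^ t * ‖l1 β k‖ ^ 2)
          + 4 * (wgt k ^ t * ‖S β k‖ ^ 2) := fun k => by
      have hn : ‖rhsSeq J G ζ W S β k‖ ≤ ‖∑ b, m1 b β k‖ + ‖l1 β k‖ + ‖S β k‖ := by
        show ‖-(∑ b, m1 b β k) - l1 β k + S β k‖ ≤ _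
        refine (norm_add_le _ _).trans (add_le_add ((norm_sub_le _ _).trans (le_of_eq ?_)) le_rfl)
        rw [norm_neg]
      have hsq3 : ‖rhsSeq J G ζ W S β k‖ ^ 2
          ≤ 4 * (‖∑ b, m1 b β k‖ ^ 2 + ‖l1 β k‖ ^ 2 + ‖S β k‖ ^ 2) := by
        refine (pow_le_pow_left₀ (norm_nonneg _) hn 2).trans ?_
        nlinarith [sq_nonneg (‖∑ b, m1 b β k‖ - ‖l1 β k‖), sq_nonneg (‖l1 β k‖ - ‖S β k‖),
          sq_nonneg (‖∑ b, m1 b β k‖ - ‖S β k‖)]
      calc _ ≤ wgt k ^ t * (4 * (‖∑ b, m1 b β k‖ ^ 2 + ‖l1 β k‖ ^ 2 + ‖S β k‖ ^ 2)) :=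
            mul_le_mul_of_nonneg_left hsq3 (pow_nonneg (wgt_pos k).le _)
        _ = _ := by ring
    have hsum := ((hs.1.mul_left 4).add ((hl β).1.mul_left 4)).add ((hS β).mul_left 4)
    have hmem : MemH t (rhsSeq J G ζ W S β) := hsum.of_nonneg_of_le
      (fun k => mul_nonneg (pow_nonneg (wgt_pos k).le _) (sq_nonneg _)) hbound
    refine ⟨hmem, (hmem.tsum_le_tsum hbound hsum).trans ?_⟩
    rw [((hs.1.mul_left 4).add ((hl β).1.mul_left 4)).tsum_add ((hS β).mul_left 4),
      (hs.1.mul_left 4).tsum_add ((hl β).1.mul_left 4), tsum_mul_left, tsum_mul_left, tsum_mul_left]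
    refine add_le_add (add_le_add (mul_le_mul_of_nonneg_left ?_ (by norm_num))
      (mul_le_mul_of_nonneg_left (hl β).2 (by norm_num))) le_rfl
    refine hs.2.trans ?_
    rw [Finset.card_univ, Fintype.card_fin, Finset.sum_mul, Finset.mul_sum]
    refine Finset.sum_le_sum fun b _ => ?_
    push_cast
    rw [mul_assoc 4]
    exact mul_le_mul_of_nonneg_left (hm b β).2 (by norm_num)
  obtain ⟨hmem, hle⟩ := hgain U (rhsSeq J G ζ W S) hUs hU (fun β => (hF β).1) hP heq
  refine ⟨hmem, hle.trans ?_⟩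
  rw [mul_assoc]
  refine mul_le_mul_of_nonneg_left ?_ hC
  have hRW0 : 0 ≤ RW := Finset.sum_nonneg fun _ _ => hsq_nonneg _ _
  have hU0 : 0 ≤ ∑ α, hsq (t + 1) (U α) := Finset.sum_nonneg fun _ _ => hsq_nonneg _ _
  have hS0 : 0 ≤ ∑ α, hsq t (S α) := Finset.sum_nonneg fun _ _ => hsq_nonneg _ _
  have hFs : ∑ β, hsq t (rhsSeq J G ζ W S β) ≤ 4 * (Bm + Bb) * RW + 4 * ∑ α, hsq t (S α) := by
    refine (Finset.sum_le_sum fun β _ => (hF β).2).trans (le_of_eq ?_)
    simp only [Finset.sum_add_distrib, ← Finset.mul_sum, ← Finset.sum_mul, hBm, hBb]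
    rw [Finset.sum_comm]
    ring
  nlinarith [mul_nonneg (add_nonneg hBm0 hBb0) hU0, mul_nonneg (add_nonneg hBm0 hBb0) hS0]

theorem abs_pd_sq_le_iterated {f : E → ℝ} (a : Fin 4) (x : E) :
    pd a f x ^ 2 ≤ ‖fderiv ℝ f x‖ ^ 2 := by
  have h : |pd a f x| ≤ ‖fderiv ℝ f x‖ := by
    rw [← Real.norm_eq_abs]
    refine ((fderiv ℝ f x).le_opNorm (e a)).trans (mul_le_of_le_one_right (norm_nonneg _) ?_)
    refine (pi_norm_le_iff_of_nonneg zero_le_one).2 fun i => ?_
    by_cases hi : i = a <;> simp [e, hi]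
  rw [← sq_abs]
  exact pow_le_pow_left₀ (abs_nonneg _) h 2

/-- The first weighted norm of a test function. -/
theorem hsq_one_cper_le {f : E → ℝ} (hf : IsBox f) :
    hsq 1 (cper f) ≤ (∫ x, f x ^ 2) + ∑ a, ∫ x, pd a f x ^ 2 := by
  refine (hsq_succ_le (memH_cper hf 1)).trans (le_of_eq ?_)
  simp only [← cper_pd hf, hsq_zero_cper hf, hsq_zero_cper (hf.pd_test _)]

/-- The integrand of the first order norm. -/
noncomputable def h1Den (u : E → M) (x : E) : ℝ :=
  ∑ i, ∑ j, (u x i j ^ 2 + ∑ a, pd a (fun y => u y i j) x ^ 2)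

theorem h1Den_nonneg (u : E → M) (x : E) : 0 ≤ h1Den u x :=
  Finset.sum_nonneg fun _ _ => Finset.sum_nonneg fun _ _ =>
    add_nonneg (sq_nonneg _) (Finset.sum_nonneg fun _ _ => sq_nonneg _)

theorem continuousOn_h1Den {u : E → M} (hV : IsOpen V)
    (hu : ∀ i j, ContDiffOn ℝ ∞ (fun x => u x i j) V) : ContinuousOn (h1Den u) V :=
  continuousOn_finsetSum _ fun i _ => continuousOn_finsetSum _ fun j _ =>
    ((hu i j).continuousOn.pow 2).add (continuousOn_finsetSum _ fun a _ =>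
      (((hu i j).continuousOn_fderiv_of_isOpen hV (by simp)).clm_apply continuousOn_const).pow 2)

theorem h1On_eq (L : Set E) (u : E → M) : h1On L u = ∫ x in L, h1Den u x := rfl

/-- Cutting off is bounded in the first order norm. -/
theorem cw_bound (hJ : IsACS V J) (hζ : IsTest (V ∩ box) ζ) :
    ∃ C ≥ 0, ∀ u, IsAntiOn V J u → ∀ α, hsq 1 (cw ζ u α) ≤ C * h1On (tsupport ζ) u := by
  obtain ⟨B, hB⟩ := hζ.compact.exists_bound_of_continuousOn
    (f := fun x => (ζ x, fun a : Fin 4 => pd a ζ x))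
    (hζ.smooth.continuous.continuousOn.prodMk (continuousOn_pi.2 fun a =>
      (contDiff_pd hζ.smooth a).continuous.continuousOn))
  refine ⟨10 * B ^ 2, by positivity, fun u hu α => ?_⟩
  have hb := isBox_comp hJ hζ hu α
  refine (hsq_one_cper_le hb).trans ?_
  have hi0 : Integrable fun x => comp ζ u α x ^ 2 :=
    integrable_sq_compact hb.smooth.continuous hb.compact
  have hia : ∀ a, Integrable fun x => pd a (comp ζ u α) x ^ 2 := fun a =>
    integrable_sq_compact (hb.pd_test a).smooth.continuous (hb.pd_test a).compact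
  have hgi : IntegrableOn (h1Den u) (tsupport ζ) :=
    ((continuousOn_h1Den hJ.isOpen hu.smooth).mono fun x hx => (hζ.supp hx).1).integrableOn_compact
      hζ.compact
  rw [← integral_finsetSum _ fun a _ => hia a, ← integral_add hi0 (integrable_finsetSum _ fun a _ => hia a),
    h1On_eq, ← integral_const_mul, ← integral_indicator (isClosed_tsupport ζ).measurableSet]
  refine integral_mono (hi0.add (integrable_finsetSum _ fun a _ => hia a))
    (IntegrableOn.integrable_indicator (hgi.const_mul _) (isClosed_tsupport ζ).measurableSet) fun x => ?_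
  show comp ζ u α x ^ 2 + ∑ a, pd a (comp ζ u α) x ^ 2 ≤ _
  by_cases hx : x ∈ tsupport ζ
  · rw [indicator_of_mem hx]
    have hzb : |ζ x| ≤ B := (le_of_eq (Real.norm_eq_abs _).symm).trans ((le_max_left _ _).trans (hB x hx))
    have hdb : ∀ a, |pd a ζ x| ≤ B := fun a =>
      ((le_of_eq (Real.norm_eq_abs _).symm).trans (norm_le_pi_norm (fun a => pd a ζ x) a)).trans
        ((le_max_right _ _).trans (hB x hx))
    have hz2 : ζ x ^ 2 ≤ B ^ 2 := by rw [← sq_abs]; exact pow_le_pow_left₀ (abs_nonneg _) hzb 2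
    have hu1 : u x α.1 α.2 ^ 2 + ∑ a, pd a (fun y => u y α.1 α.2) x ^ 2 ≤ h1Den u x := by
      refine le_trans ?_ (Finset.single_le_sum (f := fun i => ∑ j, (u x i j ^ 2
        + ∑ a, pd a (fun y => u y i j) x ^ 2)) (fun i _ => Finset.sum_nonneg fun _ _ =>
          add_nonneg (sq_nonneg _) (Finset.sum_nonneg fun _ _ => sq_nonneg _)) (Finset.mem_univ α.1))
      exact Finset.single_le_sum (f := fun j => u x α.1 j ^ 2
        + ∑ a, pd a (fun y => u y α.1 j) x ^ 2) (fun j _ =>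
          add_nonneg (sq_nonneg _) (Finset.sum_nonneg fun _ _ => sq_nonneg _)) (Finset.mem_univ α.2)
    have hpd : ∀ a, pd a (comp ζ u α) x ^ 2
        ≤ 2 * B ^ 2 * (u x α.1 α.2 ^ 2 + pd a (fun y => u y α.1 α.2) x ^ 2) := fun a => by
      have hd2 : pd a ζ x ^ 2 ≤ B ^ 2 := by
        rw [← sq_abs]; exact pow_le_pow_left₀ (abs_nonneg _) (hdb a) 2
      rw [show pd a (comp ζ u α) x = pd a ζ x * u x α.1 α.2 + ζ x * pd a (fun y => u y α.1 α.2) x
        from pd_mul a (hζ.smooth.differentiable (by simp) x)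
          (((hu.smooth _ _).contDiffAt (hJ.isOpen.mem_nhds (hζ.supp hx).1)).differentiableAt (by simp))]
      nlinarith [sq_nonneg (pd a ζ x * u x α.1 α.2 - ζ x * pd a (fun y => u y α.1 α.2) x),
        mul_le_mul_of_nonneg_right hd2 (sq_nonneg (u x α.1 α.2)),
        mul_le_mul_of_nonneg_right hz2 (sq_nonneg (pd a (fun y => u y α.1 α.2) x))]
    have h0 : comp ζ u α x ^ 2 ≤ B ^ 2 * u x α.1 α.2 ^ 2 := by
      rw [comp, mul_pow]; exact mul_le_mul_of_nonneg_right hz2 (sq_nonneg _)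
    have hs := Finset.sum_le_sum fun a (_ : a ∈ (Finset.univ : Finset (Fin 4))) => hpd a
    simp only [← Finset.mul_sum, Finset.sum_add_distrib, Finset.sum_const, Finset.card_univ,
      Fintype.card_fin, nsmul_eq_mul] at hs
    push_cast at hs
    have hs2 : 0 ≤ ∑ a, pd a (fun y => u y α.1 α.2) x ^ 2 := Finset.sum_nonneg fun _ _ => sq_nonneg _
    nlinarith [mul_le_mul_of_nonneg_left hu1 (sq_nonneg B), mul_nonneg (sq_nonneg B) hs2,
      mul_nonneg (sq_nonneg B) (sq_nonneg (u x α.1 α.2))]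
  · rw [indicator_of_notMem hx]
    have h0 : comp ζ u α x = 0 := by simp [comp, image_eq_zero_of_notMem_tsupport hx]
    have hz : ∀ a, pd a (comp ζ u α) x = 0 := fun a => by
      have hn : x ∉ tsupport (comp ζ u α) := fun h => hx (tsupport_mul_subset_left h)
      rw [pd_congr a (notMem_tsupport_iff_eventuallyEq.1 hn)]
      simp [pd]
    simp [h0, hz]

theorem isAntiOn_sub {u u' : E → M} (hu : IsAntiOn V J u) (hu' : IsAntiOn V J u') :
    IsAntiOn V J (u - u') where
  smooth i j := (hu.smooth i j).sub (hu'.smooth i j)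
  skew x hx := by
    simp only [Pi.sub_apply, Matrix.transpose_sub, hu.skew x hx, hu'.skew x hx]
    abel
  anti x hx := by
    simp only [Pi.sub_apply, Matrix.mul_sub, Matrix.sub_mul, hu.anti x hx, hu'.anti x hx]
    abel

theorem cw_sub (hJ : IsACS V J) (hζ : IsTest (V ∩ box) ζ) {u u' : E → M} (hu : IsAntiOn V J u)
    (hu' : IsAntiOn V J u') (α : I2) (k : K) :
    cw ζ (u - u') α k = cw ζ u α k - cw ζ u' α k := by
  rw [cw, show comp ζ (u - u') α = fun x => comp ζ u α x - comp ζ u' α x from funext fun x => by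
    simp [comp, mul_sub], cper_sub (isBox_comp hJ hζ hu α) (isBox_comp hJ hζ hu' α)]
  rfl

/-- Asymptotic solutions which are Cauchy on compact sets. -/
structure Approx (V : Set E) (J G : E → M) (e : E → M) (v : ℕ → E → M) : Prop where
  source : IsAntiOn V J e
  anti : ∀ n, IsAntiOn V J (v n)
  cauchy : ∀ L ⊆ V, IsCompact L → ∀ δ > 0, ∃ N, ∀ n ≥ N, ∀ m ≥ N, h1On L (v n - v m) < δ
  eqn : ∀ h : E → M, IsAntiOn V J h → (∀ i j, IsTest V fun x => h x i j) →
    Tendsto (fun n => ∫ x, (G x *ᵥ dTwo (v n) x) ⬝ᵥ dTwo h x) atTop (𝓝 (∫ x, pfq (e x) (h x)))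

variable {v : ℕ → E → M}

theorem exists_lim (hJ : IsACS V J) (h : Approx V J G e v) (hζ : IsTest (V ∩ box) ζ) (α : I2) :
    ∃ d, Lim (fun n => cw ζ (v n) α) d := by
  obtain ⟨C, hC, hb⟩ := cw_bound hJ hζ
  have hmem : ∀ n, MemH 1 (cw ζ (v n) α) := fun n => memH_cper (isBox_comp hJ hζ (h.anti n) α) 1
  obtain ⟨d, hd, hconv⟩ := exists_limit_seq hmem fun δ hδ => by
    obtain ⟨N, hN⟩ := h.cauchy _ (fun x hx => (hζ.supp hx).1) hζ.compact (δ / (C + 1))
      (by positivity)
    refine ⟨N, fun n hn m hm => ?_⟩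
    have h1 := hb _ (isAntiOn_sub (h.anti n) (h.anti m)) α
    rw [show cw ζ (v n - v m) α = fun k => cw ζ (v n) α k - cw ζ (v m) α k from
      funext (cw_sub hJ hζ (h.anti n) (h.anti m) α)] at h1
    refine lt_of_le_of_lt (h1.trans (mul_le_mul_of_nonneg_left (hN n hn m hm).le hC)) ?_
    rw [mul_div_assoc', div_lt_iff₀ (by linarith)]
    nlinarith
  exact ⟨d, hmem, hd, hconv⟩

/-- The limit coefficient sequences. -/
noncomputable def limSeq (v : ℕ → E → M) (ζ : E → ℝ) (α : I2) (k : K) : ℂ :=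
  limUnder atTop fun n => cw ζ (v n) α k

theorem lim_limSeq (hJ : IsACS V J) (h : Approx V J G e v) (hζ : IsTest (V ∩ box) ζ) (α : I2) :
    Lim (fun n => cw ζ (v n) α) (limSeq v ζ α) := by
  obtain ⟨d, hd⟩ := exists_lim hJ h hζ α
  have he : limSeq v ζ α = d := funext fun k => (hd.apply k).limUnder_eq
  rw [he]
  exact hd

theorem limSeq_neg (hJ : IsACS V J) (h : Approx V J G e v) (hζ : IsTest (V ∩ box) ζ) (α : I2)
    (k : K) : limSeq v ζ α (-k) = conj (limSeq v ζ α k) := by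
  have hl := lim_limSeq hJ h hζ α
  exact tendsto_nhds_unique ((hl.apply (-k)).congr fun n => cper_neg _ k)
    ((Complex.continuous_conj.tendsto _).comp (hl.apply k))

theorem limSeq_pseq (hJ : IsACS V J) (h : Approx V J G e v) (hc : Cut V ζ η) (α : I2) (k : K) :
    ∑ β, cconv (pseq J η α β) (limSeq v ζ β) k = limSeq v ζ α k := by
  refine tendsto_nhds_unique ?_ ((lim_limSeq hJ h hc.hζ α).apply k)
  refine (tendsto_finsetSum _ fun β _ => ((lim_limSeq hJ h hc.hζ β).cconv
    (summable_cper (isBox_eta_pco hJ hc.hη α β)) k)).congr fun n => ?_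
  exact cw_eq_pseq hJ hc (h.anti n) α k

theorem limSeq_eqn (hJ : IsACS V J) (hG : IsPosDefOn V G) (h : Approx V J G e v) (hc : Cut V ζ η)
    (β : I2) (k : K) :
    -(∑ b, dseq b (flux (aseq J G η) (limSeq v ζ) (b, β)) k)
      = rhsSeq J G ζ (limSeq v η) (fun γ => cper (ecoef J ζ e γ)) β k := by
  have hζ := lim_limSeq hJ h hc.hζ
  have hη := lim_limSeq hJ h hc.hη
  have hd : ∀ {c : ℕ → K → ℂ} {d : K → ℂ} (b : Fin 4),
      Tendsto (fun n => c n k) atTop (𝓝 (d k)) →
      Tendsto (fun n => dseq b (c n) k) atTop (𝓝 (dseq b d k)) := fun b h =>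
    h.const_mul _
  have h1 : Tendsto (fun n => -(∑ b, dseq b (flux (aseq J G η) (cw ζ (v n)) (b, β)) k)) atTop
      (𝓝 (-(∑ b, dseq b (flux (aseq J G η) (limSeq v ζ) (b, β)) k))) :=
    (tendsto_finsetSum _ fun b _ => hd b (tendsto_finsetSum _ fun p _ =>
      (hζ p.2).cconv_dseq (summable_cper (isBox_eta_acoef hJ hG hc.hη p (b, β))) p.1 k)).neg
  have h2 : Tendsto (fun n => rhsSeq J G ζ (cw η (v n)) (fun γ => cper (ecoef J ζ e γ)) β k) atTop
      (𝓝 (rhsSeq J G ζ (limSeq v η) (fun γ => cper (ecoef J ζ e γ)) β k)) :=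
    (((tendsto_finsetSum _ fun b _ => hd b (tendsto_finsetSum _ fun p _ =>
      (hη p.2).cconv (summable_cper (isBox_mcoef hJ hG hc.hζ p (b, β))) k)).neg).sub
      (tendsto_finsetSum _ fun p _ =>
        (hη p.2).cconv_dseq (summable_cper (isBox_bcoef hJ hG hc.hζ p β)) p.1 k)).add_const _
  have h3 := (h1.sub h2).congr fun n => (cper_resF hJ hG hc (h.anti n) h.source β k).symm
  exact sub_eq_zero.1 (tendsto_nhds_unique h3 (tendsto_resF hJ hG hc h.source h.anti h.eqn β k))

/-- All weighted norms of the limit are finite. -/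
theorem memH_limSeq (hJ : IsACS V J) (hG : IsPosDefOn V G) (h : Approx V J G e v) :
    ∀ (s : ℕ) {ζ : E → ℝ}, IsTest (V ∩ box) ζ → ∀ α, MemH (s + 1) (limSeq v ζ α) := by
  intro s
  induction s with
  | zero => exact fun hζ α => (lim_limSeq hJ h hζ α).lim_mem
  | succ s ih =>
    intro ζ hζ α
    obtain ⟨η, hc⟩ := exists_cut hJ hζ
    obtain ⟨C, -, hstep⟩ := gain_step hJ hG hc s
    exact (hstep _ _ _ (limSeq_neg hJ h hζ) (ih hζ) (ih hc.hη)
      (fun γ => memH_cper ((isTest_ecoef hJ hζ h.source γ).mono inter_subset_right) s)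
      (limSeq_pseq hJ h hc) (limSeq_eqn hJ hG h hc)).1 α

/-- Near a cutoff the asymptotic solutions converge to a smooth form. -/
theorem exists_local_limit (hJ : IsACS V J) (hG : IsPosDefOn V G) (h : Approx V J G e v)
    (hζ : IsTest (V ∩ box) ζ) :
    ∃ u : E → M, IsAntiOn V J u ∧ ∀ O : Set E, IsOpen O → O ⊆ V → (∀ x ∈ O, ζ x = 1) →
      ∀ L ⊆ O, IsCompact L → Tendsto (fun n => h1On L (v n - u)) atTop (𝓝 0) := by
  obtain ⟨η, hc⟩ := exists_cut hJ hζ
  have hdd : ∃ d, d = limSeq v ζ := ⟨_, rfl⟩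
  obtain ⟨d, hd⟩ := hdd
  have hsum : ∀ α (m : ℕ), Summable fun k => wgt k ^ m * ‖d α k‖ := fun α m =>
    hd ▸ (summable_wgt_mul_norm (memH_limSeq hJ hG h (2 * m + 2) hζ α)).1
  set f : I2 → E → ℝ := fun α => toFun (d α)
  have hf : ∀ α, ContDiff ℝ ∞ (f α) := fun α => contDiff_toFun (hsum α)
  have hcf : ∀ α, coeff (f α) = d α := fun α => funext fun k =>
    coeff_toFun ((hsum α 0).congr fun k => by simp) (hd ▸ limSeq_neg hJ h hζ α) k
  obtain ⟨hanti, htest⟩ := isAntiOn_testForm hJ hc.hη hf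
  refine ⟨testForm J η f, hanti, fun O hOo hOV hO1 L hLO hL => ?_⟩
  have hb : ∀ α : I2, IsBox fun x => testForm J η f x α.1 α.2 := fun α =>
    (htest α.1 α.2).mono inter_subset_right
  have hcu : ∀ α : I2, cper (fun x => testForm J η f x α.1 α.2) = d α := fun α => by
    funext k
    have hP := isBox_eta_pco hJ hc.hη α
    have hPs : ∀ β, ContDiff ℝ ∞ (perz fun x => η x * pco (J x) α β) := fun β =>
      contDiff_perz (hP β).smooth (hP β).compact (hP β).supp
    rw [hd, ← limSeq_pseq hJ h hc α k, cper, ← hd]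
    rw [coeff_congr_cube (g := fun x => ∑ β : I2,
      perz (fun y => η y * pco (J y) α β) x * f β x) (fun x hx => by
        rw [perz_eq_cube (hb α).compact (hb α).supp hx, testForm_apply]
        exact Finset.sum_congr rfl fun β _ => by
          rw [perz_eq_cube (hP β).compact (hP β).supp hx, Prod.mk.eta]) k,
      coeff_fsum (F := fun β : I2 => fun x => perz (fun y => η y * pco (J y) α β) x * f β x) _
        (fun β _ => (hPs β).continuous.mul (hf β).continuous) k]
    refine Finset.sum_congr rfl fun β _ => ?_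
    rw [coeff_mul (hPs β) (per_perz _) (integrableOn_cube (hf β).continuous), hcf]
    rfl
  set g : ℕ → I2 → E → ℝ := fun n α x => comp ζ (v n) α x - testForm J η f x α.1 α.2
  have hg : ∀ n α, IsBox (g n α) := fun n α => by
    have := (isBox_comp hJ hζ (h.anti n) α).add' (hb α).neg'
    simpa [g, sub_eq_add_neg] using this
  have hgc : ∀ n α, cper (g n α) = fun k => cw ζ (v n) α k - d α k := fun n α => funext fun k => by
    rw [← hcu α]
    exact cper_sub (isBox_comp hJ hζ (h.anti n) α) (hb α) k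
  set C : ℝ := 1 + 4 * (2 * Real.pi) ^ 2
  have hgi : ∀ n α, (∫ x, g n α x ^ 2) + ∑ a, ∫ x, pd a (g n α) x ^ 2 ≤ C * hsq 1 (cper (g n α)) := by
    intro n α
    have hm := memH_cper (hg n α) 1
    have h2 : ∀ a, ∫ x, pd a (g n α) x ^ 2 ≤ (2 * Real.pi) ^ 2 * hsq 1 (cper (g n α)) := fun a => by
      rw [← hsq_zero_cper ((hg n α).pd_test a), cper_pd (hg n α)]
      exact (memH_dseq (s := 0) hm a).2
    have h1 : ∫ x, g n α x ^ 2 ≤ hsq 1 (cper (g n α)) :=
      (hsq_zero_cper (hg n α)).symm.trans_le (hsq_mono hm zero_le_one)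
    have := Finset.sum_le_sum fun a (_ : a ∈ (Finset.univ : Finset (Fin 4))) => h2 a
    simp only [Finset.sum_const, Finset.card_univ, Fintype.card_fin, nsmul_eq_mul] at this
    push_cast at this
    simp only [C]
    linarith
  have hlim : Tendsto (fun n => ∑ α : I2, C * hsq 1 (cper (g n α))) atTop (𝓝 0) := by
    simp only [hgc, hd]
    simpa using tendsto_finsetSum (Finset.univ : Finset I2) fun α _ =>
      ((lim_limSeq hJ h hζ α).conv.const_mul C)
  refine squeeze_zero (fun n => integral_nonneg fun x => h1Den_nonneg _ x) (fun n => ?_) hlim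
  have hi : ∀ α, Integrable fun x => g n α x ^ 2 + ∑ a, pd a (g n α) x ^ 2 := fun α =>
    (integrable_sq_compact (hg n α).smooth.continuous (hg n α).compact).add
      (integrable_finsetSum _ fun a _ =>
        integrable_sq_compact ((hg n α).pd_test a).smooth.continuous ((hg n α).pd_test a).compact)
  have hpt : ∀ x ∈ L, h1Den (v n - testForm J η f) x
      = ∑ α : I2, (g n α x ^ 2 + ∑ a, pd a (g n α) x ^ 2) := fun x hx => by
    have he : ∀ α : I2, (fun y => (v n - testForm J η f) y α.1 α.2) =ᶠ[𝓝 x] g n α := fun α => by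
      filter_upwards [hOo.mem_nhds (hLO hx)] with y hy
      simp [g, comp, hO1 y hy]
    rw [h1Den, Fintype.sum_prod_type]
    refine Finset.sum_congr rfl fun i _ => Finset.sum_congr rfl fun j _ => ?_
    rw [← (he (i, j)).eq_of_nhds]
    congr 1
    exact Finset.sum_congr rfl fun a _ => by rw [pd_congr a (he (i, j))]
  rw [h1On_eq, setIntegral_congr_fun hL.measurableSet hpt]
  refine (setIntegral_le_integral (integrable_finsetSum _ fun α _ => hi α) (Eventually.of_forall
    fun x => Finset.sum_nonneg fun α _ =>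
      add_nonneg (sq_nonneg _) (Finset.sum_nonneg fun _ _ => sq_nonneg _))).trans ?_
  rw [integral_finsetSum _ fun α _ => hi α]
  refine Finset.sum_le_sum fun α _ => ?_
  rw [integral_add (integrable_sq_compact (hg n α).smooth.continuous (hg n α).compact)
    (integrable_finsetSum _ fun a _ =>
      integrable_sq_compact ((hg n α).pd_test a).smooth.continuous ((hg n α).pd_test a).compact),
    integral_finsetSum _ fun a _ =>
      integrable_sq_compact ((hg n α).pd_test a).smooth.continuous ((hg n α).pd_test a).compact]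
  exact hgi n α

end Vale.Agent.P204.Tame
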