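import Vale.Agent.P204.Tame.EllipticTools
import Vale.Agent.P204.Tame.EllipticCore

/-!
Periodisation of functions supported in the open unit cube, and the translation between their
derivatives and their coefficient sequences.
-/

namespace Vale.Agent.P204.Tame

open scoped ContDiff Topology ComplexConjugate
open MeasureTheory Set Filter

/-- The open cube. -/
def box : Set E := {x | ∀ i, x i ∈ Ioo (0 : ℝ) 1}

theorem isOpen_box : IsOpen box := by
  have h : box = univ.pi fun _ : Fin 4 => Ioo (0 : ℝ) 1 := by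
    ext x; simp only [box, mem_ofPred_eq, mem_univ_pi]
  rw [h]
  exact isOpen_set_pi finite_univ fun _ _ => isOpen_Ioo

theorem box_subset_cube : box ⊆ cube := fun _ hx i => ⟨(hx i).1, (hx i).2.le⟩

/-- Periodisation. -/
noncomputable def perz (f : E → ℝ) (x : E) : ℝ := f fun i => Int.fract (x i)

theorem per_perz (f : E → ℝ) : Per (perz f) := fun x i => by
  unfold perz
  congr 1
  funext j
  by_cases h : i = j
  · subst h
    simp [e, Int.fract_add_one]
  · simp [e, Ne.symm h]

theorem perz_mul (f g : E → ℝ) : perz (fun x => f x * g x) = fun x => perz f x * perz g x := rfl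

theorem perz_eq_box {f : E → ℝ} {x : E} (hx : x ∈ box) : perz f x = f x := by
  unfold perz
  congr 1
  funext i
  exact Int.fract_eq_self.2 ⟨(hx i).1.le, (hx i).2⟩

/-- Near the period cube nothing changes. -/
theorem perz_eventuallyEq {f : E → ℝ} (hc : HasCompactSupport f) (hs : tsupport f ⊆ box) {x : E}
    (hx : x ∈ cube) : perz f =ᶠ[𝓝 x] f := by
  by_cases hb : x ∈ box
  · filter_upwards [isOpen_box.mem_nhds hb] with y hy
    exact perz_eq_box hy
  · obtain ⟨i, hi⟩ : ∃ i, x i = 1 := by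
      by_contra h
      push Not at h
      exact hb fun i => ⟨(hx i).1, lt_of_le_of_ne (hx i).2 (h i)⟩
    have hxs : x ∉ tsupport f := fun h => hb (hs h)
    obtain ⟨δ, hδ, hδ1, hδf⟩ : ∃ δ > 0, δ ≤ 1 ∧
        ∀ z ∈ tsupport f, δ ≤ z i ∧ z i ≤ 1 - δ := by
      have hK : IsCompact ((fun z : E => z i) '' tsupport f) :=
        hc.isCompact.image (continuous_apply i)
      have hsub : (fun z : E => z i) '' tsupport f ⊆ Ioo (0 : ℝ) 1 := by
        rintro _ ⟨z, hz, rfl⟩; exact hs hz i
      obtain ⟨δ, hδ, hd⟩ := hK.exists_cthickening_subset_open isOpen_Ioo hsub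
      refine ⟨min δ 1, lt_min hδ one_pos, min_le_right _ _, fun z hz => ?_⟩
      have hm := min_le_left δ 1
      have hm0 : 0 < min δ 1 := lt_min hδ one_pos
      have h1 := hd (Metric.mem_cthickening_of_dist_le (z i - min δ 1) (z i) δ _
        ⟨z, hz, rfl⟩ (by rw [Real.dist_eq, abs_le]; constructor <;> linarith))
      have h2 := hd (Metric.mem_cthickening_of_dist_le (z i + min δ 1) (z i) δ _
        ⟨z, hz, rfl⟩ (by rw [Real.dist_eq, abs_le]; constructor <;> linarith))
      exact ⟨by linarith [h1.1], by linarith [h2.2]⟩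
    have ho : IsOpen {y : E | y i ∈ Ioo (1 - δ) (1 + δ)} :=
      isOpen_Ioo.preimage (continuous_apply i)
    filter_upwards [ho.mem_nhds (show x i ∈ Ioo (1 - δ) (1 + δ) by
      rw [hi]; exact ⟨by linarith, by linarith⟩),
      notMem_tsupport_iff_eventuallyEq.1 hxs] with y hy hy0
    rw [hy0]
    simp only [Pi.zero_apply]
    unfold perz
    by_contra h
    have hh := hδf _ (subset_tsupport _ h)
    by_cases h1 : y i < 1
    · have : Int.fract (y i) = y i := Int.fract_eq_self.2 ⟨by linarith [hy.1], h1⟩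
      rw [this] at hh
      linarith [hy.1, hh.2]
    · have : Int.fract (y i) = y i - 1 := by
        rw [← Int.fract_sub_one, Int.fract_eq_self]
        exact ⟨by linarith [not_lt.1 h1], by linarith [hy.2]⟩
      rw [this] at hh
      linarith [hy.2, hh.1]

theorem perz_eq_cube {f : E → ℝ} (hc : HasCompactSupport f) (hs : tsupport f ⊆ box) {x : E}
    (hx : x ∈ cube) : perz f x = f x := (perz_eventuallyEq hc hs hx).eq_of_nhds

theorem exists_int_shift (x : E) : ∃ n : Fin 4 → ℤ, (fun i => x i - n i) ∈ cube := by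
  refine ⟨fun i => ⌈x i⌉ - 1, fun i => ?_⟩
  have h1 := Int.le_ceil (x i)
  have h2 := Int.ceil_lt_add_one (x i)
  refine ⟨?_, ?_⟩ <;> push_cast <;> linarith

theorem contDiff_perz {f : E → ℝ} (hf : ContDiff ℝ ∞ f) (hc : HasCompactSupport f)
    (hs : tsupport f ⊆ box) : ContDiff ℝ ∞ (perz f) := by
  refine contDiff_iff_contDiffAt.2 fun x => ?_
  obtain ⟨n, hn⟩ := exists_int_shift x
  have hsh : perz f = fun y => perz f (fun i => y i - n i) := by
    funext y
    unfold perz
    congr 1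
    funext i
    exact (Int.fract_sub_intCast _ _).symm
  rw [hsh]
  have hy : ContDiffAt ℝ ∞ (perz f) (fun i => x i - n i) :=
    hf.contDiffAt.congr_of_eventuallyEq (perz_eventuallyEq hc hs hn)
  exact ContDiffAt.comp (g := perz f) (f := fun (y : E) i => y i - (n i : ℝ)) x hy
    (contDiff_pi.2 fun i => (contDiff_apply ℝ ℝ i).sub contDiff_const).contDiffAt

theorem pd_perz {f : E → ℝ} (hc : HasCompactSupport f) (hs : tsupport f ⊆ box) (a : Fin 4) {x : E}
    (hx : x ∈ cube) : pd a (perz f) x = pd a f x :=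
  pd_congr a (perz_eventuallyEq hc hs hx)

theorem integral_cube_eq {g : E → ℝ} (hs : Function.support g ⊆ cube) :
    ∫ x in cube, g x = ∫ x, g x := setIntegral_eq_integral_of_forall_compl_eq_zero fun x hx => by
  by_contra h; exact hx (hs h)

/-- The coefficients of the periodisation. -/
noncomputable def cper (f : E → ℝ) : K → ℂ := coeff (perz f)

theorem coeff_congr_cube {f g : E → ℝ} (h : ∀ x ∈ cube, f x = g x) (k : K) :
    coeff f k = coeff g k :=
  coeff_congr_ae ((ae_restrict_mem measurableSet_cube).mono h) k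

theorem cper_eq_coeff {f : E → ℝ} (hc : HasCompactSupport f) (hs : tsupport f ⊆ box) :
    cper f = coeff f := funext (coeff_congr_cube fun _ hx => perz_eq_cube hc hs hx)

/-- A test function on the open cube. -/
abbrev IsBox (f : E → ℝ) : Prop := IsTest box f

theorem IsTest.pd_test {V : Set E} {f : E → ℝ} (h : IsTest V f) (a : Fin 4) : IsTest V (pd a f) :=
  ⟨contDiff_pd h.smooth a, hasCompactSupport_pd h.compact a,
    (tsupport_fderiv_apply_subset ℝ (e a)).trans h.supp⟩

theorem memH_cper {f : E → ℝ} (h : IsBox f) (s : ℕ) : MemH s (cper f) :=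
  memH_coeff (contDiff_perz h.smooth h.compact h.supp) (per_perz f) s

theorem summable_cper {f : E → ℝ} (h : IsBox f) (n : ℕ) :
    Summable fun k => wgt k ^ n * ‖cper f k‖ :=
  summable_wgt_coeff (contDiff_perz h.smooth h.compact h.supp) (per_perz f) n

theorem cper_neg (f : E → ℝ) (k : K) : cper f (-k) = conj (cper f k) := coeff_neg _ k

theorem cper_pd {f : E → ℝ} (h : IsBox f) (a : Fin 4) : cper (pd a f) = dseq a (cper f) := by
  funext k
  have hp := h.pd_test a
  rw [cper, dseq, cper, ← coeff_pd ((contDiff_perz h.smooth h.compact h.supp).of_le (by simp))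
    (per_perz f) a k]
  exact coeff_congr_cube (fun x hx => by
    rw [pd_perz h.compact h.supp a hx, perz_eq_cube hp.compact hp.supp hx]) k

theorem cper_mul {q f : E → ℝ} (hq : IsBox q) (hf : IsBox f) :
    cper (fun x => q x * f x) = cconv (cper q) (cper f) := by
  funext k
  rw [cper, perz_mul]
  exact coeff_mul (contDiff_perz hq.smooth hq.compact hq.supp) (per_perz q)
    (integrableOn_cube (contDiff_perz hf.smooth hf.compact hf.supp).continuous) k

theorem IsTest.add' {V : Set E} {f g : E → ℝ} (hf : IsTest V f) (hg : IsTest V g) :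
    IsTest V fun x => f x + g x :=
  ⟨hf.smooth.add hg.smooth, hf.compact.add hg.compact,
    (tsupport_add f g).trans (union_subset hf.supp hg.supp)⟩

theorem IsTest.zero' (V : Set E) : IsTest V fun _ => 0 :=
  ⟨contDiff_const, by simp [HasCompactSupport, tsupport], by simp [tsupport]⟩

theorem IsTest.sum' {V : Set E} {ι : Type*} (s : Finset ι) {f : ι → E → ℝ}
    (hf : ∀ i ∈ s, IsTest V (f i)) : IsTest V fun x => ∑ i ∈ s, f i x := by
  classical
  induction s using Finset.induction_on with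
  | empty => simpa using IsTest.zero' V
  | insert a s ha ih =>
    simp only [Finset.sum_insert ha]
    exact (hf a (Finset.mem_insert_self a s)).add'
      (ih fun i hi => hf i (Finset.mem_insert_of_mem hi))

theorem IsTest.mono {V W : Set E} {f : E → ℝ} (h : IsTest V f) (hVW : V ⊆ W) : IsTest W f :=
  ⟨h.smooth, h.compact, h.supp.trans hVW⟩

theorem cper_sum {ι : Type*} (s : Finset ι) {f : ι → E → ℝ} (hf : ∀ i ∈ s, IsBox (f i)) (k : K) :
    cper (fun x => ∑ i ∈ s, f i x) k = ∑ i ∈ s, cper (f i) k := by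
  classical
  induction s using Finset.induction_on with
  | empty =>
    simp only [Finset.sum_empty, cper, coeff, perz]
    simp
  | insert a s ha ih =>
    have hs : ∀ i ∈ s, IsBox (f i) := fun i hi => hf i (Finset.mem_insert_of_mem hi)
    have hga := hf a (Finset.mem_insert_self a s)
    have hgs := IsTest.sum' s hs
    simp only [Finset.sum_insert ha]
    rw [← ih hs]
    exact coeff_add (integrableOn_cube (contDiff_perz hga.smooth hga.compact hga.supp).continuous)
      (integrableOn_cube (contDiff_perz hgs.smooth hgs.compact hgs.supp).continuous) k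

theorem cper_neg_fun (f : E → ℝ) (k : K) : cper (fun x => -f x) k = -cper f k :=
  coeff_neg_fun (perz f) k

theorem cper_sub {f g : E → ℝ} (hf : IsBox f) (hg : IsBox g) (k : K) :
    cper (fun x => f x - g x) k = cper f k - cper g k := by
  have hgn : IsBox fun x => -g x :=
    ⟨hg.smooth.neg, hg.compact.neg, (tsupport_neg g).trans_subset hg.supp⟩
  rw [sub_eq_add_neg, ← cper_neg_fun]
  exact coeff_add (integrableOn_cube (contDiff_perz hf.smooth hf.compact hf.supp).continuous)
    (integrableOn_cube (contDiff_perz hgn.smooth hgn.compact hgn.supp).continuous) k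

theorem hsq_zero_cper {f : E → ℝ} (h : IsBox f) : hsq 0 (cper f) = ∫ x, f x ^ 2 := by
  have hp := contDiff_perz h.smooth h.compact h.supp
  have := (hasSum_sq_coeff hp.continuous.measurable (memLp_of_continuous hp.continuous 2)).tsum_eq
  rw [hsq]
  simp only [pow_zero, one_mul]
  rw [cper, this, setIntegral_congr_fun measurableSet_cube (g := fun x => f x ^ 2)
    fun x hx => by rw [perz_eq_cube h.compact h.supp hx]]
  refine integral_cube_eq fun x hx => box_subset_cube (h.supp (subset_tsupport _ ?_))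
  intro h0
  exact hx (by simp [h0])

theorem hsq_succ_le {s : ℕ} {c : K → ℂ} (h : MemH (s + 1) c) :
    hsq (s + 1) c ≤ hsq s c + ∑ a, hsq s (dseq a c) := by
  have hd := fun a => (memH_dseq h a).1
  have hsum : Summable fun k => ∑ a, wgt k ^ s * ‖dseq a c k‖ ^ 2 := summable_sum fun a _ => hd a
  refine (h.tsum_le_tsum (g := fun k => wgt k ^ s * ‖c k‖ ^ 2
    + ∑ a, wgt k ^ s * ‖dseq a c k‖ ^ 2) (fun k => ?_)
    ((h.mono (Nat.le_succ s)).add hsum)).trans ?_
  · have he : ∀ a, (k a : ℝ) ^ 2 * ‖c k‖ ^ 2 ≤ ‖dseq a c k‖ ^ 2 := fun a => by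
      rw [dseq, norm_mul, norm_mul, Complex.norm_I, mul_one, Complex.norm_real, Real.norm_eq_abs,
        mul_pow, sq_abs]
      refine mul_le_mul_of_nonneg_right ?_ (sq_nonneg _)
      rw [mul_pow]
      refine le_mul_of_one_le_left (sq_nonneg _) (one_le_pow₀ ?_)
      linarith [Real.pi_gt_three]
    rw [← Finset.mul_sum, ← mul_add, pow_succ, mul_assoc]
    refine mul_le_mul_of_nonneg_left ?_ (pow_nonneg (wgt_pos k).le s)
    rw [wgt, add_mul, one_mul, Finset.sum_mul]
    exact add_le_add le_rfl (Finset.sum_le_sum fun a _ => he a)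
  · rw [(h.mono (Nat.le_succ s)).tsum_add hsum, Summable.tsum_finsetSum fun a _ => hd a]
    rfl

theorem integrable_sq_iteratedFDeriv {g : E → ℝ} (hg : ContDiff ℝ ∞ g) (hc : HasCompactSupport g)
    (m : ℕ) : Integrable fun x => ‖iteratedFDeriv ℝ m g x‖ ^ 2 := by
  have h1 : Continuous fun x => ‖iteratedFDeriv ℝ m g x‖ := (hg.continuous_iteratedFDeriv
    (WithTop.coe_le_coe.2 le_top : ((m : ℕ∞) : WithTop ℕ∞) ≤ ((⊤ : ℕ∞) : WithTop ℕ∞))).norm
  have h2 : HasCompactSupport fun x => ‖iteratedFDeriv ℝ m g x‖ ^ 2 := by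
    refine HasCompactSupport.intro hc.isCompact fun x hx => ?_
    have h0 : iteratedFDeriv ℝ m g x = 0 := by
      by_contra h
      exact hx (tsupport_iteratedFDeriv_subset (𝕜 := ℝ) m (subset_tsupport _ h))
    rw [h0, norm_zero, zero_pow two_ne_zero]
  exact (h1.pow 2).integrable_of_hasCompactSupport h2

theorem norm_iteratedFDeriv_pd_le {g : E → ℝ} (hg : ContDiff ℝ ∞ g) (a : Fin 4) (l : ℕ) (x : E) :
    ‖iteratedFDeriv ℝ l (pd a g) x‖ ≤ ‖iteratedFDeriv ℝ (l + 1) g x‖ := by
  have hle : ((l : ℕ∞) : WithTop ℕ∞) ≤ ((⊤ : ℕ∞) : WithTop ℕ∞) := WithTop.coe_le_coe.2 le_top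
  have h1 : ContDiffAt ℝ ((l : ℕ∞) : WithTop ℕ∞) (fderiv ℝ g) x :=
    ((hg.fderiv_right (m := ∞) (by simp)).of_le hle).contDiffAt
  refine (norm_iteratedFDeriv_clm_apply_const (c := e a) h1 le_rfl).trans ?_
  rw [norm_iteratedFDeriv_fderiv]
  refine mul_le_of_le_one_left (norm_nonneg _) ?_
  refine (pi_norm_le_iff_of_nonneg zero_le_one).2 fun i => ?_
  by_cases hi : i = a <;> simp [e, hi]

/-- The weighted norm is bounded by the derivatives. -/
theorem hsq_cper_le : ∀ (s : ℕ) {f : E → ℝ}, IsBox f →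
    hsq s (cper f) ≤ 5 ^ s * ∑ l ∈ Finset.range (s + 1), ∫ x, ‖iteratedFDeriv ℝ l f x‖ ^ 2 := by
  intro s
  induction s with
  | zero =>
    intro f h
    rw [hsq_zero_cper h]
    simp
  | succ s ih =>
    intro f h
    set I : ℕ → ℝ := fun l => ∫ x, ‖iteratedFDeriv ℝ l f x‖ ^ 2 with hI
    have hI0 : ∀ l, 0 ≤ I l := fun l => integral_nonneg fun x => sq_nonneg _
    have hd : ∀ a, hsq s (cper (pd a f)) ≤ 5 ^ s * ∑ l ∈ Finset.range (s + 1), I (l + 1) :=
      fun a => by
        refine (ih (h.pd_test a)).trans (mul_le_mul_of_nonneg_left ?_ (by positivity))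
        refine Finset.sum_le_sum fun l _ => ?_
        exact integral_mono (integrable_sq_iteratedFDeriv (h.pd_test a).smooth (h.pd_test a).compact l)
          (integrable_sq_iteratedFDeriv h.smooth h.compact (l + 1)) fun x =>
            pow_le_pow_left₀ (norm_nonneg _) (norm_iteratedFDeriv_pd_le h.smooth a l x) 2
    refine (hsq_succ_le (memH_cper h _)).trans ?_
    refine (add_le_add (ih h) (Finset.sum_le_sum fun a _ => (cper_pd h a) ▸ hd a)).trans ?_
    rw [Finset.sum_const, Finset.card_univ, Fintype.card_fin, nsmul_eq_mul]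
    have h1 : ∑ l ∈ Finset.range (s + 1), I l ≤ ∑ l ∈ Finset.range (s + 1 + 1), I l :=
      Finset.sum_le_sum_of_subset_of_nonneg (Finset.range_mono (Nat.le_succ _))
        fun l _ _ => hI0 l
    have h2 : ∑ l ∈ Finset.range (s + 1), I (l + 1) ≤ ∑ l ∈ Finset.range (s + 1 + 1), I l := by
      rw [Finset.sum_range_succ' I (s + 1)]
      linarith [hI0 0]
    have h5 : (0 : ℝ) ≤ 5 ^ s := by positivity
    rw [pow_succ]
    push_cast
    nlinarith [mul_le_mul_of_nonneg_left h1 h5, mul_le_mul_of_nonneg_left h2 h5]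

/-- Convolution with a rapidly decreasing sequence is bounded in every weighted norm. -/
theorem wconv_bound {a : K → ℂ} (ha : ∀ n : ℕ, Summable fun k => wgt k ^ n * ‖a k‖) (s : ℕ) :
    ∃ C : ℝ, 0 ≤ C ∧ ∀ c : K → ℂ, MemH s c →
      MemH s (cconv a c) ∧ hsq s (cconv a c) ≤ C * hsq s c := by
  set w : K → ℝ := fun d => 2 ^ s * (wgt d ^ s * ‖a d‖) with hw
  refine ⟨(∑' k, w k) ^ 2, sq_nonneg _, fun c hc => ?_⟩
  have hb : Summable fun l => (sqw l ^ s * ‖c l‖) ^ 2 := hc.congr fun l => by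
    rw [mul_pow, ← pow_mul, mul_comm s 2, pow_mul, sq_sqw]
  have hA : ∀ k l, ‖((sqw k ^ s : ℝ) : ℂ) * (a (k - l) * c l)‖
      ≤ w (k - l) * |sqw l ^ s * ‖c l‖| := fun k l => by
    rw [abs_of_nonneg (mul_nonneg (pow_nonneg (sqw_pos l).le _) (norm_nonneg _)), norm_mul,
      norm_mul, Complex.norm_real, Real.norm_eq_abs, abs_of_nonneg (pow_nonneg (sqw_pos k).le _)]
    have h1 : sqw k ^ s ≤ 2 ^ s * wgt (k - l) ^ s * sqw l ^ s := by
      rw [← mul_pow, ← mul_pow]
      refine pow_le_pow_left₀ (sqw_pos k).le ?_ s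
      exact ((le_max_left _ _).trans (max_sqw_le k l)).trans
        (mul_le_mul_of_nonneg_right (by linarith [sqw_le_wgt (k - l)]) (sqw_pos l).le)
    calc _ ≤ (2 ^ s * wgt (k - l) ^ s * sqw l ^ s) * (‖a (k - l)‖ * ‖c l‖) :=
          mul_le_mul_of_nonneg_right h1 (by positivity)
      _ = _ := by simp only [hw]; ring
  obtain ⟨-, h2, h3⟩ := kernel_bound (fun d => by have := wgt_pos d; positivity)
    ((ha s).mul_left _) hb hA
  have heq : ∀ k, wgt k ^ s * ‖cconv a c k‖ ^ 2
      = wgt k ^ 0 * ‖∑' l, ((sqw k ^ s : ℝ) : ℂ) * (a (k - l) * c l)‖ ^ 2 := fun k => by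
    rw [tsum_mul_left, norm_mul, Complex.norm_real, Real.norm_eq_abs,
      abs_of_nonneg (pow_nonneg (sqw_pos k).le _), mul_pow, ← pow_mul, mul_comm s 2, pow_mul,
      sq_sqw, pow_zero, one_mul]
    rfl
  refine ⟨h2.congr fun k => (heq k).symm, ?_⟩
  rw [hsq, tsum_congr heq]
  refine h3.trans (le_of_eq ?_)
  congr 1
  exact tsum_congr fun l => by rw [mul_pow, ← pow_mul, mul_comm s 2, pow_mul, sq_sqw]

theorem sq_norm_le_hsq {c : K → ℂ} (h : MemH 0 c) (k : K) : ‖c k‖ ^ 2 ≤ hsq 0 c := by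
  have := h.le_tsum k fun j _ => mul_nonneg (pow_nonneg (wgt_pos j).le _) (sq_nonneg _)
  simpa [hsq] using this

theorem tendsto_apply_of_hsq {c : ℕ → K → ℂ} {d : K → ℂ} (hc : ∀ n, MemH 0 fun k => c n k - d k)
    (h : Tendsto (fun n => hsq 0 fun k => c n k - d k) atTop (𝓝 0)) (k : K) :
    Tendsto (fun n => c n k) atTop (𝓝 (d k)) := by
  rw [tendsto_iff_norm_sub_tendsto_zero]
  refine squeeze_zero (fun n => norm_nonneg _) (fun n => ?_)
    (by simpa using h.sqrt)
  exact Real.le_sqrt_of_sq_le (sq_norm_le_hsq (hc n) k)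

/-- A Cauchy sequence in the first weighted norm converges. -/
theorem exists_limit_seq {c : ℕ → K → ℂ} (hm : ∀ n, MemH 1 (c n))
    (h : ∀ δ > 0, ∃ N, ∀ n ≥ N, ∀ m ≥ N, hsq 1 (fun k => c n k - c m k) < δ) :
    ∃ d : K → ℂ, MemH 1 d ∧ Tendsto (fun n => hsq 1 fun k => c n k - d k) atTop (𝓝 0) := by
  have hk : ∀ k, CauchySeq fun n => c n k := fun k => by
    rw [Metric.cauchySeq_iff]
    intro δ hδ
    obtain ⟨N, hN⟩ := h (δ ^ 2) (by positivity)
    refine ⟨N, fun n hn m hm' => ?_⟩
    have h1 := sq_norm_le_hsq (((hm n).sub (hm m)).mono (Nat.zero_le 1)) k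
    have h2 := hsq_mono ((hm n).sub (hm m)) (Nat.zero_le 1)
    rw [Complex.dist_eq]
    exact abs_lt_of_sq_lt_sq (lt_of_le_of_lt (h1.trans h2) (hN n hn m hm')) hδ.le |> abs_lt.1 |>.2
  choose d hd using fun k => cauchySeq_tendsto_of_complete (hk k)
  have hnn : ∀ (v : K → ℂ) k, 0 ≤ wgt k ^ 1 * ‖v k‖ ^ 2 := fun v k =>
    mul_nonneg (pow_nonneg (wgt_pos k).le _) (sq_nonneg _)
  have hb : ∀ δ, 0 < δ → ∀ N, (∀ n ≥ N, ∀ m ≥ N, hsq 1 (fun k => c n k - c m k) < δ) →
      ∀ n ≥ N, ∀ S : Finset K, ∑ k ∈ S, wgt k ^ 1 * ‖c n k - d k‖ ^ 2 ≤ δ := by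
    intro δ _ N hN n hn S
    refine le_of_tendsto (tendsto_finsetSum S fun k _ =>
      ((((hd k).const_sub (c n k)).norm.pow 2).const_mul _)) ?_
    filter_upwards [eventually_ge_atTop N] with m hm'
    have hsum : Summable fun k => wgt k ^ 1 * ‖c n k - c m k‖ ^ 2 := (hm n).sub (hm m)
    exact (hsum.sum_le_tsum S fun k _ => hnn (fun k => c n k - c m k) k).trans (hN n hn m hm').le
  obtain ⟨N₀, hN₀⟩ := h 1 one_pos
  have hdiff : MemH 1 fun k => c N₀ k - d k :=
    summable_of_sum_le (f := fun k => wgt k ^ 1 * ‖c N₀ k - d k‖ ^ 2)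
      (hnn fun k => c N₀ k - d k) (fun S => hb 1 one_pos N₀ hN₀ N₀ le_rfl S)
  have hdm : MemH 1 d := by simpa using (hm N₀).sub hdiff
  refine ⟨d, hdm, ?_⟩
  rw [Metric.tendsto_atTop]
  intro δ hδ
  obtain ⟨N, hN⟩ := h (δ / 2) (by linarith)
  refine ⟨N, fun n hn => ?_⟩
  rw [Real.dist_eq, sub_zero, abs_of_nonneg (hsq_nonneg _ _)]
  exact lt_of_le_of_lt (Real.tsum_le_of_sum_le (hnn _) (hb (δ / 2) (by linarith) N hN n hn))
    (by linarith)

end Vale.Agent.P204.Tame
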