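import Vale.Agent.P204.Tame.Garding
import Vale.Agent.P204.Tame.EllipticPeriod

/-!
The equation `panti (dOne (G du)) = e`, cut off into the unit cube, as an equation of coefficient
sequences, and its coercivity.
-/

namespace Vale.Agent.P204.Tame

open scoped ContDiff Matrix Topology ComplexConjugate
open MeasureTheory Set Filter

/-- Matrix positions. -/
abbrev I2 : Type := Fin 4 × Fin 4

/-- Positions of first derivatives of matrices. -/
abbrev I3 : Type := Fin 4 × I2

/-- The matrix with a single unit entry. -/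
def bas (β : I2) : M := fun i j => if (i, j) = β then 1 else 0

/-- Projection onto skew anti-invariant forms. -/
noncomputable def projA (J : M) : M →ₗ[ℝ] M where
  toFun u := panti J ((1 / 2 : ℝ) • (u - uᵀ))
  map_add' u v := by
    simp only [panti, Matrix.transpose_add, add_sub_add_comm, smul_add, Matrix.mul_add,
      Matrix.add_mul]
  map_smul' r u := by
    simp only [panti, Matrix.transpose_smul, ← smul_sub, RingHom.id_apply,
      smul_comm (1 / 2 : ℝ) r, Matrix.mul_smul, Matrix.smul_mul]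

/-- The coefficients of the projection. -/
noncomputable def pco (J : M) (α β : I2) : ℝ := projA J (bas β) α.1 α.2

theorem sum_bas (u : M) : u = ∑ β : I2, u β.1 β.2 • bas β := by
  ext i j
  simp [Matrix.sum_apply, bas]

theorem projA_apply (J u : M) (i j : Fin 4) :
    projA J u i j = ∑ β : I2, pco J (i, j) β * u β.1 β.2 := by
  conv_lhs => rw [sum_bas u]
  simp [map_sum, map_smul, Matrix.sum_apply, pco, mul_comm]

theorem projA_skew (J u : M) : (projA J u)ᵀ = -projA J u := by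
  show (panti J ((1 / 2 : ℝ) • (u - uᵀ)))ᵀ = -panti J ((1 / 2 : ℝ) • (u - uᵀ))
  simp only [panti, Matrix.transpose_smul, Matrix.transpose_sub, Matrix.transpose_mul,
    Matrix.transpose_transpose, ← smul_neg]
  congr 1
  simp only [neg_sub, Matrix.mul_smul, Matrix.smul_mul, Matrix.mul_sub, Matrix.sub_mul,
    Matrix.mul_assoc]
  module

theorem projA_anti {J : M} (hJ : J * J = -1) (u : M) : Jᵀ * projA J u * J = -projA J u := by
  show Jᵀ * panti J ((1 / 2 : ℝ) • (u - uᵀ)) * J = -panti J ((1 / 2 : ℝ) • (u - uᵀ))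
  set w := (1 / 2 : ℝ) • (u - uᵀ)
  have h : Jᵀ * Jᵀ = -1 := by rw [← Matrix.transpose_mul, hJ]; simp
  simp only [panti, Matrix.mul_smul, Matrix.smul_mul, mul_sub, sub_mul]
  rw [← smul_neg]
  congr 1
  rw [show Jᵀ * (Jᵀ * w * J) * J = (Jᵀ * Jᵀ) * w * (J * J) by noncomm_ring, h, hJ]
  noncomm_ring

theorem projA_self {J u : M} (hs : uᵀ = -u) (ha : Jᵀ * u * J = -u) : projA J u = u := by
  show panti J ((1 / 2 : ℝ) • (u - uᵀ)) = u
  rw [hs, sub_neg_eq_add, ← two_smul ℝ u, smul_smul]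
  norm_num
  rw [panti, ha]
  module

/-- The exterior derivative as a function of the derivative tensor. -/
def dvec (D : Fin 4 → M) : E :=
  ![altT D (1, 2, 3), -altT D (0, 2, 3), altT D (0, 1, 3), -altT D (0, 1, 2)]

theorem dTwo_eq_dvec (u : E → M) (x : E) : dTwo u x = dvec (gradT u x) := rfl

/-- The coefficients of the exterior derivative. -/
def lco (l : Fin 4) (p : I3) : ℝ := dvec (fun a => if a = p.1 then bas p.2 else 0) l

theorem sum_lco_pick (D : Fin 4 → M) (a i j : Fin 4) :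
    ∑ p : I3, (if a = p.1 then bas p.2 else (0 : M)) i j * D p.1 p.2.1 p.2.2 = D a i j := by
  rw [Fintype.sum_eq_single (a, i, j)]
  · simp [bas]
  · rintro ⟨b, c, d⟩ hp
    by_cases h : a = b
    · subst h
      have : (i, j) ≠ (c, d) := fun h => hp (by rw [h])
      rw [if_pos rfl]
      show (if (i, j) = (c, d) then (1 : ℝ) else 0) * D a c d = 0
      rw [if_neg this, zero_mul]
    · simp [h]

theorem altT_pick (D : Fin 4 → M) (t : T3) :
    altT D t = ∑ p : I3, altT (fun a => if a = p.1 then bas p.2 else 0) t * D p.1 p.2.1 p.2.2 := by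
  simp only [altT, ten, add_mul, Finset.sum_add_distrib, sum_lco_pick]

theorem dvec_apply (D : Fin 4 → M) (l : Fin 4) :
    dvec D l = ∑ p : I3, lco l p * D p.1 p.2.1 p.2.2 := by
  fin_cases l <;>
    simp only [dvec, lco, Fin.zero_eta, Fin.mk_one, Fin.reduceFinMk, Matrix.cons_val,
      neg_mul, Finset.sum_neg_distrib, ← altT_pick]

theorem pfq_bas (a u : M) : pfq a u = ∑ γ : I2, u γ.1 γ.2 * pfq a (bas γ) := by
  simp [pfq, bas, Fintype.sum_prod_type, Fin.sum_univ_four]
  ring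

/-- Cutoffs for one equation. -/
structure Cut (V : Set E) (ζ η : E → ℝ) : Prop where
  hζ : IsTest (V ∩ box) ζ
  hη : IsTest (V ∩ box) η
  one : ∀ x ∈ tsupport ζ, η =ᶠ[𝓝 x] fun _ => 1

theorem Cut.mul_eq {V : Set E} {ζ η : E → ℝ} (hc : Cut V ζ η) (x : E) : ζ x * η x = ζ x := by
  by_cases h : x ∈ tsupport ζ
  · rw [(hc.one x h).eq_of_nhds, mul_one]
  · rw [image_eq_zero_of_notMem_tsupport h, zero_mul]

theorem Cut.pd_mul_eq {V : Set E} {ζ η : E → ℝ} (hc : Cut V ζ η) (a : Fin 4) (x : E) :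
    pd a ζ x * η x = pd a ζ x := by
  by_cases h : x ∈ tsupport ζ
  · rw [(hc.one x h).eq_of_nhds, mul_one]
  · rw [pd_congr a (notMem_tsupport_iff_eventuallyEq.1 h)]
    simp [pd]

variable (J G : E → M)

/-- The coefficient of the principal part. -/
noncomputable def acoef (p q : I3) (x : E) : ℝ :=
  ∑ l, (∑ m, G x l m * lco m p) * ∑ γ : I2, lco l (q.1, γ) * pco (J x) γ q.2

/-- The coefficient of the first order part. -/
noncomputable def bcoef (ζ : E → ℝ) (p : I3) (β : I2) (x : E) : ℝ :=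
  ∑ l, (∑ m, G x l m * lco m p) *
    ∑ bγ : I3, lco l bγ * pd bγ.1 (fun y => ζ y * pco (J y) bγ.2 β) x

/-- The source. -/
noncomputable def ecoef (ζ : E → ℝ) (e : E → M) (β : I2) (x : E) : ℝ :=
  ∑ γ : I2, ζ x * pco (J x) γ β * pfq (e x) (bas γ)

/-- A component of a form times a cutoff. -/
def comp (ζ : E → ℝ) (v : E → M) (α : I2) (x : E) : ℝ := ζ x * v x α.1 α.2

variable {J G} {V : Set E}

theorem contDiffOn_pco (hJ : IsACS V J) (α β : I2) : ContDiffOn ℝ ∞ (fun x => pco (J x) α β) V := by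
  have h : ∀ x, pco (J x) α β = (1 / 2 : ℝ) * ((1 / 2 : ℝ) * (bas β α.1 α.2 - bas β α.2 α.1)
      - ∑ d, (∑ c, J x c α.1 * ((1 / 2 : ℝ) * (bas β c d - bas β d c))) * J x d α.2) := fun x => by
    show panti (J x) ((1 / 2 : ℝ) • (bas β - (bas β)ᵀ)) α.1 α.2 = _
    simp only [panti, Matrix.smul_apply, Matrix.sub_apply, Matrix.mul_apply,
      Matrix.transpose_apply, smul_eq_mul]
  simp only [h]
  exact contDiffOn_const.mul (contDiffOn_const.sub (ContDiffOn.sum fun d _ =>
    (ContDiffOn.sum fun c _ => (hJ.smooth _ _).mul contDiffOn_const).mul (hJ.smooth _ _)))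

theorem contDiffOn_acoef (hJ : IsACS V J) (hG : IsPosDefOn V G) (p q : I3) :
    ContDiffOn ℝ ∞ (acoef J G p q) V :=
  ContDiffOn.sum fun _ _ => (ContDiffOn.sum fun _ _ => (hG.smooth _ _).mul contDiffOn_const).mul
    (ContDiffOn.sum fun _ _ => contDiffOn_const.mul (contDiffOn_pco hJ _ _))

theorem isTest_zpco (hJ : IsACS V J) {ζ : E → ℝ} (hζ : IsTest (V ∩ box) ζ) (α β : I2) :
    IsTest (V ∩ box) fun x => ζ x * pco (J x) α β :=
  hζ.mul_smooth (hJ.isOpen.inter isOpen_box) ((contDiffOn_pco hJ α β).mono inter_subset_left)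

theorem isTest_bcoef (hJ : IsACS V J) (hG : IsPosDefOn V G) {ζ : E → ℝ}
    (hζ : IsTest (V ∩ box) ζ) (p : I3) (β : I2) : IsTest (V ∩ box) (bcoef J G ζ p β) := by
  refine IsTest.sum' _ fun l _ => ?_
  have h := IsTest.sum' (V := V ∩ box) (f := fun (bγ : I3) x =>
    pd bγ.1 (fun y => ζ y * pco (J y) bγ.2 β) x * lco l bγ) Finset.univ fun bγ _ =>
      ((isTest_zpco hJ hζ _ _).pd_test _).mul_smooth (hJ.isOpen.inter isOpen_box) contDiffOn_const
  have h2 := h.mul_smooth (hJ.isOpen.inter isOpen_box) (f := fun x => ∑ m, G x l m * lco m p)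
    (ContDiffOn.sum fun m _ => ((hG.smooth _ _).mono inter_subset_left).mul contDiffOn_const)
  have he : (fun x => (∑ m, G x l m * lco m p) *
      ∑ bγ : I3, lco l bγ * pd bγ.1 (fun y => ζ y * pco (J y) bγ.2 β) x) = fun x =>
      (∑ bγ : I3, pd bγ.1 (fun y => ζ y * pco (J y) bγ.2 β) x * lco l bγ) *
        ∑ m, G x l m * lco m p := funext fun x => by
    rw [mul_comm]
    congr 1
    exact Finset.sum_congr rfl fun _ _ => mul_comm _ _
  rw [he]
  exact h2

theorem isTest_ecoef (hJ : IsACS V J) {ζ : E → ℝ} (hζ : IsTest (V ∩ box) ζ) {e : E → M}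
    (he : IsAntiOn V J e) (β : I2) : IsTest (V ∩ box) (ecoef J ζ e β) := by
  refine IsTest.sum' _ fun γ _ =>
    (isTest_zpco hJ hζ γ β).mul_smooth (hJ.isOpen.inter isOpen_box) ?_
  have h : ∀ i j, ContDiffOn ℝ ∞ (fun x => e x i j) (V ∩ box) := fun i j =>
    (he.smooth i j).mono inter_subset_left
  unfold pfq
  fun_prop

theorem isTest_comp (hJ : IsACS V J) {ζ : E → ℝ} (hζ : IsTest (V ∩ box) ζ) {v : E → M}
    (hv : IsAntiOn V J v) (α : I2) : IsTest (V ∩ box) (comp ζ v α) :=
  hζ.mul_smooth (hJ.isOpen.inter isOpen_box) ((hv.smooth _ _).mono inter_subset_left)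

/-- The flux of the cut off field. -/
noncomputable def fluxF (J G : E → M) (ζ η : E → ℝ) (v : E → M) (q : I3) (x : E) : ℝ :=
  ∑ p : I3, η x * acoef J G p q x * pd p.1 (comp ζ v p.2) x

/-- The part of the flux carried by the derivative of the cutoff. -/
noncomputable def midF (J G : E → M) (ζ η : E → ℝ) (v : E → M) (q : I3) (x : E) : ℝ :=
  ∑ p : I3, pd p.1 ζ x * acoef J G p q x * comp η v p.2 x

/-- The first order part. -/
noncomputable def lowF (J G : E → M) (ζ η : E → ℝ) (v : E → M) (β : I2) (x : E) : ℝ :=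
  ∑ p : I3, bcoef J G ζ p β x * pd p.1 (comp η v p.2) x

/-- The residual of the equation. -/
noncomputable def resF (J G : E → M) (ζ η : E → ℝ) (e v : E → M) (β : I2) (x : E) : ℝ :=
  -(∑ b, pd b (fluxF J G ζ η v (b, β)) x) + (∑ b, pd b (midF J G ζ η v (b, β)) x)
    + lowF J G ζ η v β x - ecoef J ζ e β x

variable {ζ η : E → ℝ} {e v : E → M}

theorem isTest_fluxF (hJ : IsACS V J) (hG : IsPosDefOn V G) (hc : Cut V ζ η)
    (hv : IsAntiOn V J v) (q : I3) : IsTest (V ∩ box) (fluxF J G ζ η v q) :=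
  IsTest.sum' _ fun p _ => (hc.hη.mul_smooth (hJ.isOpen.inter isOpen_box)
    ((contDiffOn_acoef hJ hG p q).mono inter_subset_left)).mul_smooth (hJ.isOpen.inter isOpen_box)
    ((isTest_comp hJ hc.hζ hv p.2).pd_test p.1).smooth.contDiffOn

theorem isTest_midF (hJ : IsACS V J) (hG : IsPosDefOn V G) (hc : Cut V ζ η)
    (hv : IsAntiOn V J v) (q : I3) : IsTest (V ∩ box) (midF J G ζ η v q) :=
  IsTest.sum' _ fun p _ => ((hc.hζ.pd_test p.1).mul_smooth (hJ.isOpen.inter isOpen_box)
    ((contDiffOn_acoef hJ hG p q).mono inter_subset_left)).mul_smooth (hJ.isOpen.inter isOpen_box)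
    (isTest_comp hJ hc.hη hv p.2).smooth.contDiffOn

theorem isTest_lowF (hJ : IsACS V J) (hG : IsPosDefOn V G) (hc : Cut V ζ η)
    (hv : IsAntiOn V J v) (β : I2) : IsTest (V ∩ box) (lowF J G ζ η v β) :=
  IsTest.sum' _ fun p _ => (isTest_bcoef hJ hG hc.hζ p β).mul_smooth
    (hJ.isOpen.inter isOpen_box) ((isTest_comp hJ hc.hη hv p.2).pd_test p.1).smooth.contDiffOn

theorem IsTest.neg' {V : Set E} {f : E → ℝ} (h : IsTest V f) : IsTest V fun x => -f x :=
  ⟨h.smooth.neg, h.compact.neg, (tsupport_neg f).trans_subset h.supp⟩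

theorem isTest_resF (hJ : IsACS V J) (hG : IsPosDefOn V G) (hc : Cut V ζ η)
    (hv : IsAntiOn V J v) (he : IsAntiOn V J e) (β : I2) :
    IsTest (V ∩ box) (resF J G ζ η e v β) :=
  (((IsTest.sum' _ fun b _ => (isTest_fluxF hJ hG hc hv (b, β)).pd_test b).neg'.add'
    (IsTest.sum' _ fun b _ => (isTest_midF hJ hG hc hv (b, β)).pd_test b)).add'
      (isTest_lowF hJ hG hc hv β)).add' (isTest_ecoef hJ hc.hζ he β).neg'

/-- The test form made from arbitrary smooth components. -/
noncomputable def testForm (J : E → M) (ζ : E → ℝ) (Φ : I2 → E → ℝ) (x : E) : M :=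
  ζ x • projA (J x) (Matrix.of fun i j => Φ (i, j) x)

theorem testForm_apply (J : E → M) (ζ : E → ℝ) (Φ : I2 → E → ℝ) (x : E) (i j : Fin 4) :
    testForm J ζ Φ x i j = ∑ β : I2, ζ x * pco (J x) (i, j) β * Φ β x := by
  simp only [testForm, Matrix.smul_apply, smul_eq_mul, projA_apply, Matrix.of_apply,
    Finset.mul_sum, Prod.mk.eta, mul_assoc]

theorem isAntiOn_testForm (hJ : IsACS V J) (hζ : IsTest (V ∩ box) ζ) {Φ : I2 → E → ℝ}
    (hΦ : ∀ β, ContDiff ℝ ∞ (Φ β)) :
    IsAntiOn V J (testForm J ζ Φ) ∧ ∀ i j, IsTest (V ∩ box) fun x => testForm J ζ Φ x i j := by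
  have ht : ∀ i j, IsTest (V ∩ box) fun x => testForm J ζ Φ x i j := fun i j => by
    simp only [testForm_apply]
    exact IsTest.sum' _ fun β _ =>
      (isTest_zpco hJ hζ _ β).mul_smooth (hJ.isOpen.inter isOpen_box) (hΦ β).contDiffOn
  refine ⟨⟨fun i j => (ht i j).smooth.contDiffOn, fun x _ => ?_, fun x hx => ?_⟩, ht⟩
  · simp [testForm, projA_skew]
  · simp [testForm, projA_anti (hJ.sq x hx)]

theorem gradT_testForm (hJ : IsACS V J) (hζ : IsTest (V ∩ box) ζ) {Φ : I2 → E → ℝ}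
    (hΦ : ∀ β, ContDiff ℝ ∞ (Φ β)) (x : E) (b : Fin 4) (γ : I2) :
    gradT (testForm J ζ Φ) x b γ.1 γ.2 = ∑ β : I2,
      (pd b (fun y => ζ y * pco (J y) γ β) x * Φ β x + ζ x * pco (J x) γ β * pd b (Φ β) x) := by
  have h1 : ∀ β : I2, DifferentiableAt ℝ (fun y => ζ y * pco (J y) γ β) x := fun β =>
    (isTest_zpco hJ hζ γ β).smooth.differentiable (by simp) x
  show pd b (fun y => testForm J ζ Φ y γ.1 γ.2) x = _
  simp only [testForm_apply, Prod.mk.eta]
  rw [pd_sum b fun β _ => (h1 β).fun_mul ((hΦ β).differentiable (by simp) x)]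
  exact Finset.sum_congr rfl fun β _ => pd_mul b (h1 β) ((hΦ β).differentiable (by simp) x)

theorem mulVec_dvec (G : M) (D : Fin 4 → M) (l : Fin 4) :
    (G *ᵥ dvec D) l = ∑ p : I3, (∑ m, G l m * lco m p) * D p.1 p.2.1 p.2.2 := by
  simp only [Matrix.mulVec, dotProduct, dvec_apply, Finset.mul_sum, Finset.sum_mul, mul_assoc]
  exact Finset.sum_comm

/-- The principal coefficient of the pointwise equation. -/
theorem flux_sub_mid (hJ : IsACS V J) (hc : Cut V ζ η) (hv : IsAntiOn V J v) (x : E) (q : I3) :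
    fluxF J G ζ η v q x - midF J G ζ η v q x
      = ∑ l, (∑ p : I3, (∑ m, G x l m * lco m p) * gradT v x p.1 p.2.1 p.2.2)
        * (ζ x * ∑ γ : I2, lco l (q.1, γ) * pco (J x) γ q.2) := by
  by_cases hx : x ∈ tsupport ζ
  · have hxV := (hc.hζ.supp hx).1
    have hη1 : η x = 1 := (hc.one x hx).eq_of_nhds
    have hdv : ∀ α : I2, DifferentiableAt ℝ (fun y => v y α.1 α.2) x := fun α =>
      ((hv.smooth _ _).contDiffAt (hJ.isOpen.mem_nhds hxV)).differentiableAt (by simp)
    simp only [fluxF, midF, ← Finset.sum_sub_distrib]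
    have hp : ∀ p : I3, η x * acoef J G p q x * pd p.1 (comp ζ v p.2) x
        - pd p.1 ζ x * acoef J G p q x * comp η v p.2 x
        = ζ x * acoef J G p q x * gradT v x p.1 p.2.1 p.2.2 := fun p => by
      rw [show pd p.1 (comp ζ v p.2) x
        = pd p.1 ζ x * v x p.2.1 p.2.2 + ζ x * gradT v x p.1 p.2.1 p.2.2 from
          pd_mul p.1 (hc.hζ.smooth.differentiable (by simp) x) (hdv p.2)]
      simp only [comp, hη1]
      ring
    rw [Finset.sum_congr rfl fun p _ => hp p]
    simp only [acoef, Finset.sum_mul, Finset.mul_sum]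
    rw [Finset.sum_comm]
    refine Finset.sum_congr rfl fun l _ => ?_
    rw [Finset.sum_comm]
    refine Finset.sum_congr rfl fun γ _ => ?_
    refine Finset.sum_congr rfl fun p _ => Finset.sum_congr rfl fun m _ => ?_
    ring
  · have h0 : ζ x = 0 := image_eq_zero_of_notMem_tsupport hx
    have hz : ∀ a, pd a ζ x = 0 := fun a => by
      rw [pd_congr a (notMem_tsupport_iff_eventuallyEq.1 hx)]; simp [pd]
    have hcz : ∀ α : I2, ∀ a, pd a (comp ζ v α) x = 0 := fun α a => by
      have hn : x ∉ tsupport (comp ζ v α) := fun h => hx (tsupport_mul_subset_left h)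
      rw [pd_congr a (notMem_tsupport_iff_eventuallyEq.1 hn)]; simp [pd]
    simp [fluxF, midF, hcz, hz, h0]

/-- The first order coefficient of the pointwise equation. -/
theorem low_eq (hc : Cut V ζ η) (x : E) (β : I2) :
    lowF J G ζ η v β x
      = ∑ l, (∑ p : I3, (∑ m, G x l m * lco m p) * gradT v x p.1 p.2.1 p.2.2)
        * ∑ bγ : I3, lco l bγ * pd bγ.1 (fun y => ζ y * pco (J y) bγ.2 β) x := by
  by_cases hx : x ∈ tsupport ζ
  · have hd : ∀ p : I3, pd p.1 (comp η v p.2) x = gradT v x p.1 p.2.1 p.2.2 := fun p =>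
      pd_congr p.1 ((hc.one x hx).mono fun y hy => by simp [comp, hy])
    simp only [lowF, bcoef, hd, Finset.sum_mul, Finset.mul_sum]
    rw [Finset.sum_comm]
    refine Finset.sum_congr rfl fun l _ => ?_
    rw [Finset.sum_comm]
    refine Finset.sum_congr rfl fun γ _ => ?_
    refine Finset.sum_congr rfl fun p _ => Finset.sum_congr rfl fun m _ => ?_
    ring
  · have hz : ∀ (bγ : I3), pd bγ.1 (fun y => ζ y * pco (J y) bγ.2 β) x = 0 := fun bγ => by
      have hn : x ∉ tsupport fun y => ζ y * pco (J y) bγ.2 β := fun h =>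
        hx (tsupport_mul_subset_left h)
      rw [pd_congr bγ.1 (notMem_tsupport_iff_eventuallyEq.1 hn)]; simp [pd]
    simp [lowF, bcoef, hz]

/-- Reordering of the sums in the weak equation. -/
theorem sum_weak_reorder (s : Fin 4 → ℝ) (L : Fin 4 → I3 → ℝ) (Z : I3 → I2 → ℝ) (c : ℝ)
    (P : I2 → I2 → ℝ) (φ : I2 → ℝ) (dφ : I3 → ℝ) :
    ∑ l, ∑ bγ : I3, ∑ β : I2, s l * L l bγ * (Z bγ β * φ β + c * P bγ.2 β * dφ (bγ.1, β))
      = ∑ q : I3, (∑ l, s l * (c * ∑ γ : I2, L l (q.1, γ) * P γ q.2)) * dφ q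
        + ∑ β : I2, (∑ l, s l * ∑ bγ : I3, L l bγ * Z bγ β) * φ β := by
  simp only [mul_add, Finset.sum_add_distrib]
  rw [add_comm]
  congr 1
  · rw [Fintype.sum_prod_type (f := fun q : I3 =>
      (∑ l, s l * (c * ∑ γ : I2, L l (q.1, γ) * P γ q.2)) * dφ q)]
    rw [Finset.sum_congr rfl fun l _ => Fintype.sum_prod_type (f := fun bγ : I3 =>
      ∑ β : I2, s l * L l bγ * (c * P bγ.2 β * dφ (bγ.1, β))), Finset.sum_comm]
    refine Finset.sum_congr rfl fun b _ => ?_
    rw [Finset.sum_comm_cycle]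
    refine Finset.sum_congr rfl fun β _ => ?_
    simp only [Finset.sum_mul, Finset.mul_sum]
    exact Finset.sum_congr rfl fun l _ => Finset.sum_congr rfl fun γ _ => by ring
  · rw [Finset.sum_comm_cycle]
    refine Finset.sum_congr rfl fun β _ => ?_
    simp only [Finset.sum_mul, Finset.mul_sum]
    exact Finset.sum_congr rfl fun l _ => Finset.sum_congr rfl fun bγ _ => by ring

/-- The pointwise form of the weak equation. -/
theorem pointwise_equation (hJ : IsACS V J) (hc : Cut V ζ η) (hv : IsAntiOn V J v)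
    {Φ : I2 → E → ℝ} (hΦ : ∀ β, ContDiff ℝ ∞ (Φ β)) (x : E) :
    (G x *ᵥ dTwo v x) ⬝ᵥ dTwo (testForm J ζ Φ) x =
      ∑ q : I3, (fluxF J G ζ η v q x - midF J G ζ η v q x) * pd q.1 (Φ q.2) x
        + ∑ β : I2, lowF J G ζ η v β x * Φ β x := by
  set D := gradT v x with hD
  set s : Fin 4 → ℝ := fun l => ∑ p : I3, (∑ m, G x l m * lco m p) * D p.1 p.2.1 p.2.2
  have hL : (G x *ᵥ dTwo v x) ⬝ᵥ dTwo (testForm J ζ Φ) x =
      ∑ l, ∑ bγ : I3, ∑ β : I2, s l * lco l bγ *
        (pd bγ.1 (fun y => ζ y * pco (J y) bγ.2 β) x * Φ β x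
          + ζ x * pco (J x) bγ.2 β * pd bγ.1 (Φ β) x) := by
    simp only [dotProduct, dTwo_eq_dvec, mulVec_dvec, dvec_apply, s, hD,
      gradT_testForm hJ hc.hζ hΦ, Finset.mul_sum, mul_assoc]
  have h1 : ∀ q : I3, fluxF J G ζ η v q x - midF J G ζ η v q x
      = ∑ l, s l * (ζ x * ∑ γ : I2, lco l (q.1, γ) * pco (J x) γ q.2) := flux_sub_mid hJ hc hv x
  have h2 : ∀ β, lowF J G ζ η v β x
      = ∑ l, s l * ∑ bγ : I3, lco l bγ * pd bγ.1 (fun y => ζ y * pco (J y) bγ.2 β) x :=
    low_eq hc x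
  rw [hL, sum_weak_reorder s lco (fun bγ β => pd bγ.1 (fun y => ζ y * pco (J y) bγ.2 β) x) (ζ x)
    (fun γ β => pco (J x) γ β) (fun β => Φ β x) (fun q => pd q.1 (Φ q.2) x)]
  exact congrArg₂ (· + ·) (Finset.sum_congr rfl fun q _ => by rw [h1])
    (Finset.sum_congr rfl fun β _ => by rw [h2])

theorem integral_pd_parts {f g : E → ℝ} (hf : IsTest (univ : Set E) f) (hg : ContDiff ℝ ∞ g)
    (a : Fin 4) : ∫ x, f x * pd a g x = -∫ x, pd a f x * g x := by
  have hfc := hf.smooth.continuous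
  have hf' := (contDiff_pd hf.smooth a).continuous
  have hg' := (contDiff_pd hg a).continuous
  have hgc := hg.continuous
  have i1 : Integrable fun x => f x * pd a g x :=
    (hfc.mul hg').integrable_of_hasCompactSupport hf.compact.mul_right
  have i2 : Integrable fun x => pd a f x * g x :=
    (hf'.mul hgc).integrable_of_hasCompactSupport (hasCompactSupport_pd hf.compact a).mul_right
  rw [eq_neg_iff_add_eq_zero, ← integral_add i1 i2,
    ← integral_pd_compact (hf.smooth.mul hg) hf.compact.mul_right a]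
  congr 1
  funext x
  rw [pd_mul a (hf.smooth.differentiable (by simp) x) (hg.differentiable (by simp) x)]
  ring

/-- The weak equation tested with cut off smooth components. -/
theorem integral_equation (hJ : IsACS V J) (hG : IsPosDefOn V G) (hc : Cut V ζ η)
    (hv : IsAntiOn V J v) (he : IsAntiOn V J e) {Φ : I2 → E → ℝ}
    (hΦ : ∀ β, ContDiff ℝ ∞ (Φ β)) :
    (∫ x, (G x *ᵥ dTwo v x) ⬝ᵥ dTwo (testForm J ζ Φ) x) - ∫ x, pfq (e x) (testForm J ζ Φ x)
      = ∑ β, ∫ x, Φ β x * resF J G ζ η e v β x := by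
  have tin : ∀ {f g : E → ℝ}, IsTest (V ∩ box) f → Continuous g →
      Integrable fun x => f x * g x := fun hf hg =>
    (hf.smooth.continuous.mul hg).integrable_of_hasCompactSupport hf.compact.mul_right
  have hfl := isTest_fluxF hJ hG hc hv
  have hmi := isTest_midF hJ hG hc hv
  have hlo := isTest_lowF hJ hG hc hv
  have hec := isTest_ecoef hJ hc.hζ he
  have hdΦ := fun (b : Fin 4) (β : I2) => (contDiff_pd (hΦ β) b).continuous
  have hE : ∀ x, pfq (e x) (testForm J ζ Φ x) = ∑ β, ecoef J ζ e β x * Φ β x := fun x => by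
    rw [pfq_bas]
    simp only [ecoef, testForm_apply, Finset.sum_mul, Prod.mk.eta]
    rw [Finset.sum_comm]
    exact Finset.sum_congr rfl fun γ _ => Finset.sum_congr rfl fun β _ => by ring
  simp only [pointwise_equation hJ hc hv hΦ, hE]
  have iq : ∀ q : I3, Integrable fun x =>
      (fluxF J G ζ η v q x - midF J G ζ η v q x) * pd q.1 (Φ q.2) x := fun q =>
    ((tin (hfl q) (hdΦ _ _)).sub (tin (hmi q) (hdΦ _ _))).congr
      (Eventually.of_forall fun x => (sub_mul _ _ _).symm)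
  rw [integral_add (integrable_finsetSum _ fun q _ => iq q)
      (integrable_finsetSum _ fun β _ => tin (hlo β) (hΦ β).continuous),
    integral_finsetSum _ fun q _ => iq q,
    integral_finsetSum _ fun β _ => tin (hlo β) (hΦ β).continuous,
    integral_finsetSum _ fun β _ => tin (hec β) (hΦ β).continuous, Fintype.sum_prod_type,
    Finset.sum_comm, ← Finset.sum_add_distrib, ← Finset.sum_sub_distrib]
  refine Finset.sum_congr rfl fun β _ => ?_
  have hparts : ∀ b, ∫ x, (fluxF J G ζ η v (b, β) x - midF J G ζ η v (b, β) x) * pd b (Φ β) x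
      = ∫ x, (-(pd b (fluxF J G ζ η v (b, β)) x) + pd b (midF J G ζ η v (b, β)) x) * Φ β x := by
    intro b
    have hA : ∫ x, (-(pd b (fluxF J G ζ η v (b, β)) x) + pd b (midF J G ζ η v (b, β)) x) * Φ β x
        = ∫ x, (pd b (midF J G ζ η v (b, β)) x * Φ β x
          - pd b (fluxF J G ζ η v (b, β)) x * Φ β x) := by
      congr 1
      funext x
      ring
    rw [hA, integral_sub (tin ((hmi (b, β)).pd_test b) (hΦ β).continuous)
      (tin ((hfl (b, β)).pd_test b) (hΦ β).continuous)]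
    simp only [sub_mul]
    rw [integral_sub (tin (hfl (b, β)) (hdΦ b β)) (tin (hmi (b, β)) (hdΦ b β)),
      integral_pd_parts ((hfl _).mono (subset_univ _)) (hΦ β),
      integral_pd_parts ((hmi _).mono (subset_univ _)) (hΦ β)]
    ring
  simp only [hparts]
  have ib : ∀ b, Integrable fun x =>
      (-(pd b (fluxF J G ζ η v (b, β)) x) + pd b (midF J G ζ η v (b, β)) x) * Φ β x := fun b =>
    tin (((hfl (b, β)).pd_test b).neg'.add' ((hmi (b, β)).pd_test b)) (hΦ β).continuous
  rw [← integral_finsetSum _ fun b _ => ib b,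
    ← integral_add (integrable_finsetSum _ fun b _ => ib b) (tin (hlo β) (hΦ β).continuous),
    ← integral_sub ((integrable_finsetSum _ fun b _ => ib b).fun_add (tin (hlo β) (hΦ β).continuous))
      (tin (hec β) (hΦ β).continuous)]
  congr 1
  funext x
  simp only [resF, ← Finset.sum_mul, Finset.sum_add_distrib, Finset.sum_neg_distrib]
  ring

end Vale.Agent.P204.Tame
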