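import Vale.Agent.P204.Tame.EllipticStokes

/-!
Interior regularity and estimates for the equation `panti (dOne (G du)) = e` on any open set.
-/

namespace Vale.Agent.P204.Tame

open scoped ContDiff Matrix Topology
open MeasureTheory Set Filter Metric

/-- Translation of a function. -/
def sh {α : Type*} (c : E) (f : E → α) (x : E) : α := f (x + c)

theorem pd_sh (c : E) (f : E → ℝ) (a : Fin 4) (x : E) : pd a (sh c f) x = pd a f (x + c) := by
  unfold pd sh
  rw [fderiv_comp_add_right]

theorem dTwo_sh (c : E) (u : E → M) (x : E) : dTwo (sh c u) x = dTwo u (x + c) := by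
  have h : gradT (sh c u) x = gradT u (x + c) := by
    funext a
    ext i j
    exact pd_sh c (fun y => u y i j) a x
  rw [dTwo_eq_dvec, dTwo_eq_dvec, h]

theorem contDiffOn_sh {V : Set E} {f : E → ℝ} (c : E) (hf : ContDiffOn ℝ ∞ f V) :
    ContDiffOn ℝ ∞ (sh c f) ((· + c) ⁻¹' V) :=
  hf.comp (contDiff_id.add contDiff_const).contDiffOn fun _ hx => hx

theorem IsTest.shift {V : Set E} {f : E → ℝ} (hf : IsTest V f) (c : E) :
    IsTest ((· + c) ⁻¹' V) (sh c f) := by
  have hs : tsupport (sh c f) = (· + c) ⁻¹' tsupport f :=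
    tsupport_comp_eq_preimage f (Homeomorph.addRight c)
  exact ⟨hf.smooth.comp (contDiff_id.add contDiff_const),
    hf.compact.comp_homeomorph (Homeomorph.addRight c), hs.trans_subset (preimage_mono hf.supp)⟩

theorem IsACS.shift {V : Set E} {J : E → M} (h : IsACS V J) (c : E) :
    IsACS ((· + c) ⁻¹' V) (sh c J) :=
  ⟨h.isOpen.preimage (continuous_id.add continuous_const), fun i j => contDiffOn_sh c (h.smooth i j),
    fun x hx => h.sq (x + c) hx⟩

theorem IsPosDefOn.shift {V : Set E} {G : E → M} (h : IsPosDefOn V G) (c : E) :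
    IsPosDefOn ((· + c) ⁻¹' V) (sh c G) :=
  ⟨fun i j => contDiffOn_sh c (h.smooth i j), fun x hx => h.symm (x + c) hx,
    fun x hx => h.pos (x + c) hx⟩

theorem IsAntiOn.shift {V : Set E} {J u : E → M} (h : IsAntiOn V J u) (c : E) :
    IsAntiOn ((· + c) ⁻¹' V) (sh c J) (sh c u) :=
  ⟨fun i j => contDiffOn_sh c (h.smooth i j), fun x hx => h.skew (x + c) hx,
    fun x hx => h.anti (x + c) hx⟩

theorem sh_sh_neg {α : Type*} (c : E) (f : E → α) : sh (-c) (sh c f) = f := by
  funext x; simp [sh]

theorem preimage_shift_neg (c : E) (V : Set E) : (· + -c) ⁻¹' ((· + c) ⁻¹' V) = V := by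
  ext x; simp

theorem setIntegral_shift (c : E) (L : Set E) (g : E → ℝ) :
    ∫ x in (· + c) ⁻¹' L, g (x + c) = ∫ y in L, g y :=
  (measurePreserving_add_right volume c).setIntegral_preimage_emb
    (measurableEmbedding_addRight c) g L

theorem h1Den_sh (c : E) (u : E → M) (x : E) : h1Den (sh c u) x = h1Den u (x + c) :=
  Finset.sum_congr rfl fun i _ => Finset.sum_congr rfl fun j _ => by
    congr 1
    exact Finset.sum_congr rfl fun a _ => congrArg (· ^ 2) (pd_sh c (fun y => u y i j) a x)

theorem h1On_sh (c : E) (L : Set E) (u : E → M) : h1On ((· + c) ⁻¹' L) (sh c u) = h1On L u := by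
  rw [h1On_eq, h1On_eq, ← setIntegral_shift c L (h1Den u)]
  simp only [h1Den_sh]

theorem isCompact_shift {c : E} {L : Set E} (h : IsCompact L) : IsCompact ((· + c) ⁻¹' L) :=
  (Homeomorph.addRight c).isCompact_preimage.2 h

theorem Approx.shift {V : Set E} {J G e : E → M} {v : ℕ → E → M} (h : Approx V J G e v) (c : E) :
    Approx ((· + c) ⁻¹' V) (sh c J) (sh c G) (sh c e) fun n => sh c (v n) where
  source := h.source.shift c
  anti n := (h.anti n).shift c
  cauchy L hL hLc δ hδ := by
    have hL' : (· + -c) ⁻¹' L ⊆ V := (preimage_mono hL).trans (preimage_shift_neg c V).subset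
    obtain ⟨N, hN⟩ := h.cauchy _ hL' (isCompact_shift hLc) δ hδ
    refine ⟨N, fun n hn m hm => ?_⟩
    have he : L = (· + c) ⁻¹' ((· + -c) ⁻¹' L) := by ext x; simp
    rw [he, show sh c (v n) - sh c (v m) = sh c (v n - v m) from rfl, h1On_sh]
    exact hN n hn m hm
  eqn g hg hgt := by
    have hg' : IsAntiOn V J (sh (-c) g) := by
      have := hg.shift (-c)
      rwa [preimage_shift_neg, sh_sh_neg] at this
    have hgt' : ∀ i j, IsTest V fun x => sh (-c) g x i j := fun i j => by
      have := (hgt i j).shift (-c)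
      rwa [preimage_shift_neg] at this
    have hlim := h.eqn _ hg' hgt'
    have h1 : ∀ n, ∫ x, (sh c G x *ᵥ dTwo (sh c (v n)) x) ⬝ᵥ dTwo g x
        = ∫ x, (G x *ᵥ dTwo (v n) x) ⬝ᵥ dTwo (sh (-c) g) x := fun n => by
      rw [← integral_add_right_eq_self (fun x => (G x *ᵥ dTwo (v n) x) ⬝ᵥ dTwo (sh (-c) g) x) c]
      congr 1
      funext x
      rw [dTwo_sh, dTwo_sh, add_neg_cancel_right]
      rfl
    have h2 : ∫ x, pfq (sh c e x) (g x) = ∫ x, pfq (e x) (sh (-c) g x) := by
      rw [← integral_add_right_eq_self (fun x => pfq (e x) (sh (-c) g x)) c]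
      simp [sh]
    rw [h2]
    exact hlim.congr fun n => (h1 n).symm

/-- The centre of the unit cube. -/
noncomputable def mid : E := fun _ => 1 / 2

theorem mid_mem_box : mid ∈ box := fun i => by constructor <;> norm_num [mid]

variable {V : Set E} {J G : E → M}

/-- Around each point, after a translation, there is a cutoff equal to one nearby. -/
theorem exists_centred_cutoff (hJ : IsACS V J) {p : E} (hp : p ∈ V) :
    ∃ (c : E) (ζ : E → ℝ), IsTest (((· + c) ⁻¹' V) ∩ box) ζ ∧ ∃ r > 0, closedBall p r ⊆ V ∧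
      ∀ x ∈ closedBall p r, (∀ᶠ y in 𝓝 (x - c), ζ y = 1) ∧ x - c ∈ box := by
  set c := p - mid with hc
  have hV' : IsOpen (((· + c) ⁻¹' V) ∩ box) :=
    (hJ.isOpen.preimage (continuous_id.add continuous_const)).inter isOpen_box
  have hm : mid ∈ ((· + c) ⁻¹' V) ∩ box :=
    ⟨show mid + c ∈ V by rw [hc, add_sub_cancel]; exact hp, mid_mem_box⟩
  obtain ⟨ζ, hζ, -, U, hUo, hmU, hUV, hU1⟩ :=
    exists_cutoff hV' (isCompact_singleton (x := mid)) (singleton_subset_iff.2 hm)
  obtain ⟨r, hr, hrU⟩ := nhds_basis_closedBall.mem_iff.1 (hUo.mem_nhds (hmU rfl))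
  refine ⟨c, ζ, hζ, r, hr, fun x hx => ?_, fun x hx => ?_⟩
  · have hxU : x - c ∈ U := hrU (by
      rw [mem_closedBall, dist_eq_norm, hc] at *
      simpa [sub_sub_eq_add_sub, add_sub_right_comm] using hx)
    simpa using (hUV hxU).1
  · have hxU : x - c ∈ U := hrU (by
      rw [mem_closedBall, dist_eq_norm, hc] at *
      simpa [sub_sub_eq_add_sub, add_sub_right_comm] using hx)
    exact ⟨(hUo.eventually_mem hxU).mono fun y hy => hU1 y hy, (hUV hxU).2⟩

/-- Near each point the asymptotic solutions converge to a smooth form. -/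
theorem exists_ball_limit (hJ : IsACS V J) (hG : IsPosDefOn V G) {e : E → M} {v : ℕ → E → M}
    (h : Approx V J G e v) {p : E} (hp : p ∈ V) :
    ∃ r > 0, closedBall p r ⊆ V ∧ ∃ f : E → M, IsAntiOn V J f ∧
      Tendsto (fun n => h1On (closedBall p r) (v n - f)) atTop (𝓝 0) := by
  obtain ⟨c, ζ, hζ, r, hr, hrV, hball⟩ := exists_centred_cutoff hJ hp
  obtain ⟨u, hu, hlim⟩ := exists_local_limit (hJ.shift c) (hG.shift c) (h.shift c) hζ
  refine ⟨r, hr, hrV, sh (-c) u, ?_, ?_⟩
  · have := hu.shift (-c)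
    rwa [preimage_shift_neg, sh_sh_neg] at this
  set O : Set E := interior {y | ζ y = 1} ∩ ((· + c) ⁻¹' V)
  have hO : IsOpen O :=
    isOpen_interior.inter (hJ.isOpen.preimage (continuous_id.add continuous_const))
  have hL : (· + c) ⁻¹' closedBall p r ⊆ O := fun y hy => by
    refine ⟨?_, hrV hy⟩
    have := (hball (y + c) hy).1
    rw [add_sub_cancel_right] at this
    exact mem_interior_iff_mem_nhds.2 this
  have hz : ∀ x ∈ O, ζ x = 1 := fun x hx => interior_subset (s := {y | ζ y = 1}) hx.1
  have := hlim O hO inter_subset_right hz _ hL (isCompact_shift (isCompact_closedBall p r))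
  refine this.congr fun n => ?_
  rw [← h1On_sh c (closedBall p r)]
  congr 1
  funext x
  simp [sh]

theorem h1On_nonneg (L : Set E) (u : E → M) : 0 ≤ h1On L u :=
  integral_nonneg fun x => h1Den_nonneg u x

theorem integrableOn_h1Den (hV : IsOpen V) {L : Set E} (hL : IsCompact L) (hLV : L ⊆ V)
    {u : E → M} (hu : ∀ i j, ContDiffOn ℝ ∞ (fun x => u x i j) V) : IntegrableOn (h1Den u) L :=
  ((continuousOn_h1Den hV hu).mono hLV).integrableOn_compact hL

theorem setIntegral_le_sum_of_cover {ι : Type*} (S : Finset ι) {L : Set E} {B : ι → Set E}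
    (hL : MeasurableSet L) (hB : ∀ i ∈ S, MeasurableSet (B i)) (hcov : L ⊆ ⋃ i ∈ S, B i)
    {g : E → ℝ} (hg : ∀ x, 0 ≤ g x) (hgL : IntegrableOn g L) (hgB : ∀ i ∈ S, IntegrableOn g (B i)) :
    ∫ x in L, g x ≤ ∑ i ∈ S, ∫ x in B i, g x := by
  classical
  calc ∫ x in L, g x = ∫ x, L.indicator g x := (integral_indicator hL).symm
    _ ≤ ∫ x, ∑ i ∈ S, (B i).indicator g x := by
        refine integral_mono (hgL.integrable_indicator hL) (integrable_finsetSum _ fun i hi =>
          (hgB i hi).integrable_indicator (hB i hi)) fun x => ?_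
        by_cases hx : x ∈ L
        · obtain ⟨i, hi, hxi⟩ := mem_iUnion₂.1 (hcov hx)
          rw [indicator_of_mem hx]
          refine le_trans (le_of_eq (indicator_of_mem hxi g).symm)
            (Finset.single_le_sum (f := fun i => (B i).indicator g x)
              (fun j _ => indicator_nonneg (fun y _ => hg y) x) hi)
        · rw [indicator_of_notMem hx]
          exact Finset.sum_nonneg fun i _ => indicator_nonneg (fun y _ => hg y) x
    _ = ∑ i ∈ S, ∫ x, (B i).indicator g x :=
        integral_finsetSum _ fun i hi => (hgB i hi).integrable_indicator (hB i hi)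
    _ = _ := Finset.sum_congr rfl fun i hi => integral_indicator (hB i hi)

/-- Two limits agree on the interior of a common compact set. -/
theorem eqOn_of_two_limits (hJ : IsACS V J) {v : ℕ → E → M} (hv : ∀ n, IsAntiOn V J (v n))
    {f g : E → M} (hf : IsAntiOn V J f) (hg : IsAntiOn V J g) {A B : Set E} (hA : IsCompact A)
    (hB : IsCompact B) (hAV : A ⊆ V) (hBV : B ⊆ V)
    (hfA : Tendsto (fun n => h1On A (v n - f)) atTop (𝓝 0))
    (hgB : Tendsto (fun n => h1On B (v n - g)) atTop (𝓝 0)) {O : Set E} (hO : IsOpen O)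
    (hOA : O ⊆ A) (hOB : O ⊆ B) : EqOn f g O := by
  have hsm : ∀ {u : E → M}, IsAntiOn V J u → ∀ n, IsAntiOn V J (v n - u) := fun hu n =>
    isAntiOn_sub (hv n) hu
  set q : E → ℝ := fun x => ∑ i, ∑ j, (f x i j - g x i j) ^ 2 with hq
  have hqc : ContinuousOn q V := continuousOn_finsetSum _ fun i _ => continuousOn_finsetSum _
    fun j _ => ((hf.smooth i j).continuousOn.sub (hg.smooth i j).continuousOn).pow 2
  have hq0 : ∀ x, 0 ≤ q x := fun x => Finset.sum_nonneg fun _ _ => Finset.sum_nonneg fun _ _ =>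
    sq_nonneg _
  have hAB : IsCompact (A ∩ B) := hA.inter_right hB.isClosed
  have hi : IntegrableOn q (A ∩ B) := (hqc.mono fun x hx => hAV hx.1).integrableOn_compact hAB
  have hbound : ∀ n, ∫ x in A ∩ B, q x ≤ 2 * h1On A (v n - f) + 2 * h1On B (v n - g) := fun n => by
    have h1 := integrableOn_h1Den hJ.isOpen hA hAV (hsm hf n).smooth
    have h2 := integrableOn_h1Den hJ.isOpen hB hBV (hsm hg n).smooth
    have h1' := h1.mono_set (inter_subset_left (t := B))
    have h2' := h2.mono_set (inter_subset_right (s := A))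
    calc ∫ x in A ∩ B, q x ≤ ∫ x in A ∩ B, (2 * h1Den (v n - f) x + 2 * h1Den (v n - g) x) := by
          refine setIntegral_mono_on hi ((h1'.const_mul 2).add (h2'.const_mul 2))
            (hA.measurableSet.inter hB.measurableSet) fun x _ => ?_
          rw [hq, h1Den, h1Den, Finset.mul_sum, Finset.mul_sum, ← Finset.sum_add_distrib]
          refine Finset.sum_le_sum fun i _ => ?_
          rw [Finset.mul_sum, Finset.mul_sum, ← Finset.sum_add_distrib]
          refine Finset.sum_le_sum fun j _ => ?_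
          have s1 : 0 ≤ ∑ a, pd a (fun y => (v n - f) y i j) x ^ 2 :=
            Finset.sum_nonneg fun _ _ => sq_nonneg _
          have s2 : 0 ≤ ∑ a, pd a (fun y => (v n - g) y i j) x ^ 2 :=
            Finset.sum_nonneg fun _ _ => sq_nonneg _
          simp only [Pi.sub_apply, Matrix.sub_apply] at *
          nlinarith [sq_nonneg (v n x i j - f x i j + (v n x i j - g x i j))]
      _ = 2 * (∫ x in A ∩ B, h1Den (v n - f) x) + 2 * ∫ x in A ∩ B, h1Den (v n - g) x := by
          rw [integral_add (h1'.const_mul 2) (h2'.const_mul 2), integral_const_mul, integral_const_mul]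
      _ ≤ _ := add_le_add (mul_le_mul_of_nonneg_left (setIntegral_mono_set h1
            (Eventually.of_forall fun x => h1Den_nonneg _ x) inter_subset_left.eventuallyLE) zero_le_two)
          (mul_le_mul_of_nonneg_left (setIntegral_mono_set h2
            (Eventually.of_forall fun x => h1Den_nonneg _ x) inter_subset_right.eventuallyLE) zero_le_two)
  have hzero : ∫ x in A ∩ B, q x = 0 := le_antisymm
    (ge_of_tendsto' (by simpa using (hfA.const_mul 2).add (hgB.const_mul 2)) hbound)
    (integral_nonneg hq0)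
  have hae := (setIntegral_eq_zero_iff_of_nonneg_ae (Eventually.of_forall hq0) hi).1 hzero
  have hOsub : O ⊆ A ∩ B := subset_inter hOA hOB
  have heq : EqOn q (fun _ => (0 : ℝ)) O := Measure.eqOn_open_of_ae_eq
    (ae_restrict_of_ae_restrict_of_subset hOsub hae) hO (hqc.mono fun x hx => hAV (hOsub hx).1)
    continuousOn_const
  intro x hx
  ext i j
  have h0 : q x = 0 := heq hx
  have h1 := (Finset.sum_eq_zero_iff_of_nonneg
    (fun i _ => Finset.sum_nonneg fun _ _ => sq_nonneg _)).1 h0 i (Finset.mem_univ i)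
  exact sub_eq_zero.1 (sq_eq_zero_iff.1
    ((Finset.sum_eq_zero_iff_of_nonneg fun _ _ => sq_nonneg _).1 h1 j (Finset.mem_univ j)))

/-- The limit form on the whole open set. -/
theorem exists_global_limit (hJ : IsACS V J) (hG : IsPosDefOn V G) {e : E → M} {v : ℕ → E → M}
    (h : Approx V J G e v) :
    ∃ u, IsAntiOn V J u ∧
      ∀ L ⊆ V, IsCompact L → Tendsto (fun n => h1On L (v n - u)) atTop (𝓝 0) := by
  classical
  choose r hr hrV f hf hlim using fun p : V => exists_ball_limit hJ hG h p.2
  set u : E → M := fun x => if hx : x ∈ V then f ⟨x, hx⟩ x else 0 with hu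
  have huf : ∀ p : V, EqOn u (f p) (ball p.1 (r p)) := fun p x hx => by
    have hxV : x ∈ V := hrV p (ball_subset_closedBall hx)
    rw [hu]
    simp only [dif_pos hxV]
    exact eqOn_of_two_limits hJ h.anti (hf _) (hf p) (isCompact_closedBall _ _)
      (isCompact_closedBall _ _) (hrV _) (hrV p) (hlim ⟨x, hxV⟩) (hlim p)
      (isOpen_ball.inter isOpen_ball) (inter_subset_left.trans ball_subset_closedBall)
      (inter_subset_right.trans ball_subset_closedBall) ⟨mem_ball_self (hr ⟨x, hxV⟩), hx⟩
  have hua : IsAntiOn V J u := by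
    refine ⟨fun i j x hx => ?_, fun x hx => ?_, fun x hx => ?_⟩
    · have he : (fun y => u y i j) =ᶠ[𝓝 x] fun y => f ⟨x, hx⟩ y i j := by
        filter_upwards [isOpen_ball.mem_nhds (mem_ball_self (hr ⟨x, hx⟩))] with y hy
        rw [huf ⟨x, hx⟩ hy]
      exact (((hf ⟨x, hx⟩).smooth i j).contDiffAt (hJ.isOpen.mem_nhds hx)).congr_of_eventuallyEq
        he |>.contDiffWithinAt
    · rw [hu]; simp only [dif_pos hx]; exact (hf _).skew x hx
    · rw [hu]; simp only [dif_pos hx]; exact (hf _).anti x hx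
  refine ⟨u, hua, fun L hLV hL => ?_⟩
  obtain ⟨S, hS⟩ := hL.elim_finite_subcover (fun p : V => ball p.1 (r p / 2)) (fun _ => isOpen_ball)
    fun x hx => mem_iUnion.2 ⟨⟨x, hLV hx⟩, mem_ball_self (half_pos (hr _))⟩
  refine squeeze_zero (fun n => h1On_nonneg L _) (fun n => ?_)
    (by simpa using tendsto_finsetSum S fun p _ => hlim p)
  have hvu := isAntiOn_sub (h.anti n) hua
  have hsub : ∀ p : V, closedBall p.1 (r p / 2) ⊆ closedBall p.1 (r p) := fun p =>
    closedBall_subset_closedBall (by linarith [hr p])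
  refine (setIntegral_le_sum_of_cover S hL.measurableSet
    (fun p _ => (isCompact_closedBall _ _).measurableSet)
    (fun x hx => by
      obtain ⟨p, hp, hxp⟩ := mem_iUnion₂.1 (hS hx)
      exact mem_iUnion₂.2 ⟨p, hp, ball_subset_closedBall hxp⟩)
    (h1Den_nonneg (v n - u)) (integrableOn_h1Den hJ.isOpen hL hLV hvu.smooth)
    (fun p _ => integrableOn_h1Den hJ.isOpen (isCompact_closedBall _ _) ((hsub p).trans (hrV p))
      hvu.smooth)).trans (Finset.sum_le_sum fun p _ => ?_)
  rw [setIntegral_congr_fun (isCompact_closedBall _ _).measurableSet (g := h1Den (v n - f p))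
    fun x hx => by
      have hxb : x ∈ ball p.1 (r p) := mem_ball.2 (lt_of_le_of_lt (mem_closedBall.1 hx) (by linarith [hr p]))
      refine Finset.sum_congr rfl fun i _ => Finset.sum_congr rfl fun j _ => ?_
      have he : (fun y => (v n - u) y i j) =ᶠ[𝓝 x] fun y => (v n - f p) y i j := by
        filter_upwards [isOpen_ball.mem_nhds hxb] with y hy
        simp only [Pi.sub_apply, huf p hy]
      simp only [pd_congr _ he, he.eq_of_nhds]]
  exact setIntegral_mono_set (integrableOn_h1Den hJ.isOpen (isCompact_closedBall _ _) (hrV p)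
      (isAntiOn_sub (h.anti n) (hf p)).smooth)
    (Eventually.of_forall fun x => h1Den_nonneg _ x) (hsub p).eventuallyLE

theorem sum_dTwo_sq_le (u : E → M) (x : E) :
    dTwo u x ⬝ᵥ dTwo u x ≤ (∑ l, ∑ p : I3, lco l p ^ 2) * h1Den u x := by
  rw [dTwo_eq_dvec]
  refine (dvec_sq_le _).trans (mul_le_mul_of_nonneg_left ?_
    (Finset.sum_nonneg fun _ _ => Finset.sum_nonneg fun _ _ => sq_nonneg _))
  rw [Fintype.sum_prod_type, Finset.sum_comm, Fintype.sum_prod_type]
  refine Finset.sum_le_sum fun i _ => Finset.sum_le_sum fun j _ => ?_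
  exact le_add_of_nonneg_left (sq_nonneg _)

theorem continuousOn_dTwo {u : E → M} (hV : IsOpen V)
    (hu : ∀ i j, ContDiffOn ℝ ∞ (fun x => u x i j) V) (l : Fin 4) :
    ContinuousOn (fun x => dTwo u x l) V := by
  simp only [dTwo_eq_dvec, dvec_apply]
  exact continuousOn_finsetSum _ fun p _ => continuousOn_const.mul
    (((hu _ _).continuousOn_fderiv_of_isOpen hV (by simp)).clm_apply continuousOn_const)

/-- The weak equation passes to the limit. -/
theorem weak_of_limit (hJ : IsACS V J) (hG : IsPosDefOn V G) {e u : E → M} {v : ℕ → E → M}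
    (h : Approx V J G e v) (hu : IsAntiOn V J u)
    (hlim : ∀ L ⊆ V, IsCompact L → Tendsto (fun n => h1On L (v n - u)) atTop (𝓝 0)) :
    ∀ g : E → M, IsAntiOn V J g → (∀ i j, IsTest V fun x => g x i j) →
      ∫ x, oneOf G u x ⬝ᵥ dTwo g x = ∫ x, pfq (e x) (g x) := by
  intro g hg hgt
  set L : Set E := ⋃ γ : I2, tsupport fun x => g x γ.1 γ.2
  have hLc : IsCompact L := isCompact_iUnion fun γ => (hgt γ.1 γ.2).compact
  have hLV : L ⊆ V := iUnion_subset fun γ => (hgt γ.1 γ.2).supp
  have hz : ∀ x ∉ L, dTwo g x = 0 := fun x hx => by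
    have hn : ∀ i j, x ∉ tsupport fun y => g y i j := fun i j hh => hx (mem_iUnion.2 ⟨(i, j), hh⟩)
    funext l
    simp [dTwo_eq_dvec, dvec_apply, gradT_eq_zero hn]
  obtain ⟨B, hB⟩ := hLc.exists_bound_of_continuousOn (f := fun x => dTwo g x ᵥ* G x)
    (continuousOn_pi.2 fun l => by
      show ContinuousOn (fun y => ∑ m, dTwo g y m * G y m l) L
      exact continuousOn_finsetSum _ fun m _ =>
        ((continuousOn_dTwo hJ.isOpen hg.smooth m).mono hLV).mul
          (((hG.smooth m l).continuousOn).mono hLV))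
  set Λ : ℝ := ∑ l, ∑ p : I3, lco l p ^ 2
  have hconv : Tendsto (fun n => ∫ x, (G x *ᵥ dTwo (v n) x) ⬝ᵥ dTwo g x) atTop
      (𝓝 (∫ x, oneOf G u x ⬝ᵥ dTwo g x)) := by
    have hlin : ∀ n x, (G x *ᵥ dTwo (v n) x) ⬝ᵥ dTwo g x - oneOf G u x ⬝ᵥ dTwo g x
        = L.indicator (fun y => (dTwo g y ᵥ* G y) ⬝ᵥ (dTwo (v n) y - dTwo u y)) x := fun n x => by
      by_cases hx : x ∈ L
      · rw [indicator_of_mem hx, oneOf, ← sub_dotProduct, ← Matrix.mulVec_sub, dotProduct_comm,
          Matrix.dotProduct_mulVec]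
      · rw [indicator_of_notMem hx, hz x hx]; simp
    have hint : ∀ {w : E → M}, IsAntiOn V J w →
        Integrable fun x => (G x *ᵥ dTwo w x) ⬝ᵥ dTwo g x := fun {w} hw => by
      have hb : IsTest V fun x => ∑ l, dTwo g x l * oneOf G w x l := by
        refine IsTest.sum' _ fun l _ => IsTest.mul_smooth hJ.isOpen ?_ (contDiffOn_oneOf hJ hG hw l)
        have : IsTest V fun x => ∑ p : I3, pd p.1 (fun y => g y p.2.1 p.2.2) x * lco l p :=
          IsTest.sum' _ fun p _ => ((hgt _ _).pd_test _).mul_smooth hJ.isOpen contDiffOn_const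
        simp only [dTwo_eq_dvec, dvec_apply]
        simp only [mul_comm (lco l _)]
        exact this
      refine (hb.smooth.continuous.integrable_of_hasCompactSupport hb.compact).congr
        (Eventually.of_forall fun x => ?_)
      show ∑ l, dTwo g x l * oneOf G w x l = (G x *ᵥ dTwo w x) ⬝ᵥ dTwo g x
      rw [dotProduct_comm]
      rfl
    have hbound : ∀ n, ∀ ε > 0, |(∫ x, (G x *ᵥ dTwo (v n) x) ⬝ᵥ dTwo g x)
        - ∫ x, oneOf G u x ⬝ᵥ dTwo g x|
        ≤ ε * (4 * B ^ 2 * volume.real L) + (4 * ε)⁻¹ * Λ * h1On L (v n - u) := fun n ε hε => by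
      have hi2 : Integrable fun x => oneOf G u x ⬝ᵥ dTwo g x := hint hu
      rw [← integral_sub (hint (h.anti n)) hi2]
      simp only [hlin]
      rw [integral_indicator hLc.measurableSet]
      have hvu := isAntiOn_sub (h.anti n) hu
      have hi := integrableOn_h1Den hJ.isOpen hLc hLV hvu.smooth
      have : IsFiniteMeasure (volume.restrict L) :=
        ⟨by rw [Measure.restrict_apply_univ]; exact hLc.measure_lt_top⟩
      rw [← Real.norm_eq_abs]
      refine (norm_integral_le_of_norm_le ((integrable_const (ε * (4 * B ^ 2))).add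
        (hi.const_mul ((4 * ε)⁻¹ * Λ))) ?_).trans (le_of_eq ?_)
      · filter_upwards [ae_restrict_mem hLc.measurableSet] with x hx
        have hdd : dTwo (v n) x - dTwo u x = dTwo (v n - u) x := by
          funext l
          simp only [Pi.sub_apply, dTwo_eq_dvec, dvec_apply, ← Finset.sum_sub_distrib, ← mul_sub]
          refine Finset.sum_congr rfl fun p _ => ?_
          congr 1
          show pd p.1 (fun y => v n y p.2.1 p.2.2) x - pd p.1 (fun y => u y p.2.1 p.2.2) x
            = pd p.1 (fun y => v n y p.2.1 p.2.2 - u y p.2.1 p.2.2) x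
          unfold pd
          rw [fderiv_fun_sub (((h.anti n).smooth _ _).contDiffAt
              (hJ.isOpen.mem_nhds (hLV hx)) |>.differentiableAt (by simp))
            ((hu.smooth _ _).contDiffAt (hJ.isOpen.mem_nhds (hLV hx)) |>.differentiableAt (by simp)),
            sub_apply]
        rw [hdd, Real.norm_eq_abs]
        set a := dTwo g x ᵥ* G x
        set d := dTwo (v n - u) x
        have ha : ∀ l, a l ^ 2 ≤ B ^ 2 := fun l => by
          have := (norm_le_pi_norm a l).trans (hB x hx)
          rw [Real.norm_eq_abs] at this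
          rw [← sq_abs]
          exact pow_le_pow_left₀ (abs_nonneg _) this 2
        have hd : d ⬝ᵥ d ≤ Λ * h1Den (v n - u) x := sum_dTwo_sq_le _ x
        have hone : ∀ l, |a l * d l| ≤ ε * a l ^ 2 + (4 * ε)⁻¹ * (d l * d l) := fun l => by
          rw [abs_mul, ← sq_abs (a l), show d l * d l = |d l| ^ 2 by rw [sq_abs, sq]]
          have he : (4 * ε)⁻¹ * (4 * ε) = 1 := inv_mul_cancel₀ (by positivity)
          nlinarith [mul_nonneg (inv_nonneg.2 (by positivity : (0:ℝ) ≤ 4 * ε))
            (sq_nonneg (2 * ε * |a l| - |d l|))]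
        refine (Finset.abs_sum_le_sum_abs _ _).trans ((Finset.sum_le_sum fun l _ => hone l).trans ?_)
        simp only [Finset.sum_add_distrib, ← Finset.mul_sum, Pi.add_apply]
        refine add_le_add (mul_le_mul_of_nonneg_left ((Finset.sum_le_sum fun l _ => ha l).trans
          (le_of_eq (by simp))) hε.le) ?_
        rw [mul_assoc]
        exact mul_le_mul_of_nonneg_left hd (by positivity)
      · simp only [Pi.add_apply]
        rw [integral_add (integrable_const _) (hi.const_mul _), integral_const, integral_const_mul,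
          smul_eq_mul, measureReal_restrict_apply_univ, h1On_eq]
        ring
    rw [Metric.tendsto_atTop]
    intro δ hδ
    set T := 4 * B ^ 2 * volume.real L
    have hT : 0 ≤ T := mul_nonneg (by positivity) measureReal_nonneg
    set ε := δ / (2 * (T + 1)) with hεdef
    have hε : 0 < ε := by positivity
    obtain ⟨N, hN⟩ := Metric.tendsto_atTop.1 (((hlim L hLV hLc).const_mul ((4 * ε)⁻¹ * Λ)))
      (δ / 2) (by linarith)
    refine ⟨N, fun n hn => ?_⟩
    have h1 := hN n hn
    rw [mul_zero, Real.dist_eq, sub_zero] at h1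
    have h2 : ε * T < δ / 2 := by
      rw [hεdef, div_mul_eq_mul_div, div_lt_div_iff₀ (by positivity) two_pos]
      nlinarith
    rw [Real.dist_eq]
    linarith [hbound n ε hε, le_abs_self ((4 * ε)⁻¹ * Λ * h1On L (v n - u))]
  exact tendsto_nhds_unique hconv (h.eqn g hg hgt)

end Vale.Agent.P204.Tame
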