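import Vale.Agent.P204.Tame.EllipticRellichIface
import Vale.Agent.P204.Tame.EllipticPeriod

/-!
Compactness: bounded gradients and values give a mean square Cauchy subsequence.
-/

namespace Vale.Agent.P204.Tame

open scoped ContDiff Topology
open MeasureTheory Metric Set Filter

/-- The rescaling of the unit cube onto a large cube. -/
noncomputable def toBig (R : ℝ) (x : E) : E := R • (x - fun _ => 1 / 2)

theorem integral_comp_toBig {R : ℝ} (hR : 0 ≤ R) (h : E → ℝ) :
    ∫ x, h (toBig R x) = (R ^ 4)⁻¹ * ∫ x, h x := by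
  unfold toBig
  rw [integral_sub_right_eq_self (fun x : E => h (R • x)) (fun _ : Fin 4 => (1 / 2 : ℝ)),
    Measure.integral_comp_smul_of_nonneg (μ := (volume : Measure E)) (hR := hR),
    Module.finrank_fin_fun, smul_eq_mul]

theorem hasFDerivAt_toBig (R : ℝ) (x : E) :
    HasFDerivAt (toBig R) (R • ContinuousLinearMap.id ℝ E) x :=
  ((hasFDerivAt_id x).sub_const _).const_smul R

theorem pd_comp_toBig {R : ℝ} {f : E → ℝ} (hf : ContDiff ℝ ∞ f) (a : Fin 4) (x : E) :
    pd a (fun y => f (toBig R y)) x = R * pd a f (toBig R x) := by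
  have h := HasFDerivAt.comp (f := toBig R) (g := f) x
    (hf.differentiable (by simp) _).hasFDerivAt (hasFDerivAt_toBig R x)
  show fderiv ℝ (f ∘ toBig R) x (e a) = _
  rw [h.fderiv]
  simp [pd]

theorem rellichTest : RellichTest := by
  intro S hS f hf hsupp B hB
  obtain ⟨R₀, hR₀⟩ := hS.isBounded.exists_norm_le
  set R : ℝ := 4 * |R₀| + 1 with hR
  have hR0 : 0 < R := by positivity
  set T := toBig R with hT
  set g : ℕ → E → ℝ := fun n x => f n (T x) with hg
  set Ti : E → E := fun z => R⁻¹ • z + fun _ => 1 / 2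
  have hTi : ∀ x, Ti (T x) = x := fun x => by
    simp only [Ti, hT, toBig, smul_smul, inv_mul_cancel₀ hR0.ne', one_smul, sub_add_cancel]
  have hTc : Continuous T := by simp only [hT]; unfold toBig; fun_prop
  have hTs : ContDiff ℝ ∞ T := by
    simp only [hT]; unfold toBig
    exact (contDiff_id.sub contDiff_const).const_smul R
  have hbox : ∀ n, IsBox (g n) := by
    intro n
    have hts : tsupport (g n) ⊆ T ⁻¹' tsupport (f n) :=
      closure_minimal (fun x hx => subset_tsupport (f n) hx)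
        ((isClosed_tsupport (f n)).preimage hTc)
    have him : tsupport (g n) ⊆ Ti '' S := fun x hx => ⟨T x, hsupp n (hts hx), hTi x⟩
    refine ⟨(hf n).smooth.comp hTs, (hS.image (by fun_prop)).of_isClosed_subset
      (isClosed_tsupport _) him, fun x hx i => ?_⟩
    have h1 : |R * (x i - 1 / 2)| ≤ |R₀| := by
      have h2 : ‖T x i‖ ≤ |R₀| := (norm_le_pi_norm (T x) i).trans
        ((hR₀ _ (hsupp n (hts hx))).trans (le_abs_self R₀))
      simpa [hT, toBig] using h2
    rw [abs_mul, abs_of_pos hR0] at h1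
    have h3 : |x i - 1 / 2| < 1 / 2 := by
      by_contra h4
      push Not at h4
      nlinarith [abs_nonneg R₀, mul_le_mul_of_nonneg_left h4 hR0.le]
    rw [abs_lt] at h3
    exact ⟨by linarith, by linarith⟩
  set C := (R ^ 4)⁻¹ * (1 + R ^ 2) * B with hC
  have hbd : ∀ n, hsq 1 (cper (g n)) ≤ C := by
    intro n
    refine (hsq_succ_le (memH_cper (hbox n) 1)).trans ?_
    simp only [← cper_pd (hbox n), hsq_zero_cper (hbox n), hsq_zero_cper ((hbox n).pd_test _)]
    have h0 : ∫ x, g n x ^ 2 = (R ^ 4)⁻¹ * ∫ x, f n x ^ 2 :=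
      integral_comp_toBig hR0.le fun x => f n x ^ 2
    have h1 : ∀ a, ∫ x, pd a (g n) x ^ 2 = R ^ 2 * ((R ^ 4)⁻¹ * ∫ x, pd a (f n) x ^ 2) := by
      intro a
      rw [← integral_comp_toBig hR0.le fun x => pd a (f n) x ^ 2, ← integral_const_mul]
      refine integral_congr_ae (Eventually.of_forall fun x => ?_)
      simp only [hg, hT, pd_comp_toBig (hf n).smooth, mul_pow]
    rw [h0, Finset.sum_congr rfl fun a _ => h1 a, ← Finset.mul_sum, ← Finset.mul_sum, hC,
      mul_assoc]
    have hx0 : 0 ≤ ∫ x, f n x ^ 2 := integral_nonneg fun x => sq_nonneg _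
    have hy0 : 0 ≤ ∑ a, ∫ x, pd a (f n) x ^ 2 :=
      Finset.sum_nonneg fun a _ => integral_nonneg fun x => sq_nonneg _
    have hB1 := hB n
    have h4 : 0 ≤ (R ^ 4)⁻¹ := by positivity
    have h5 : (∫ x, f n x ^ 2) + R ^ 2 * ∑ a, ∫ x, pd a (f n) x ^ 2 ≤ (1 + R ^ 2) * B := by
      nlinarith [sq_nonneg R]
    refine le_trans (le_of_eq ?_) (mul_le_mul_of_nonneg_left h5 h4)
    ring
  obtain ⟨φ, hφ, c₀, hc₀, -, -, hlim⟩ := rellich (fun n => memH_cper (hbox n) 1) hbd
  refine ⟨φ, hφ, fun δ hδ => ?_⟩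
  obtain ⟨N, hN⟩ := Metric.tendsto_atTop.1 hlim (δ * (R ^ 4)⁻¹ / 4) (by positivity)
  refine ⟨N, fun n hn m hm => ?_⟩
  set a : ℕ → K → ℂ := fun n k => cper (g (φ n)) k - c₀ k
  have hma : ∀ n, MemH 0 (a n) := fun n =>
    ((memH_cper (hbox (φ n)) 1).sub hc₀).mono zero_le_one
  have hlt : ∀ n ≥ N, hsq 0 (a n) < δ * (R ^ 4)⁻¹ / 4 := fun n hn => by
    have := hN n hn
    rwa [Real.dist_eq, sub_zero, abs_of_nonneg (hsq_nonneg _ _)] at this
  have hd : IsBox fun x => g (φ n) x - g (φ m) x := by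
    refine ⟨(hbox _).smooth.sub (hbox _).smooth, (hbox _).compact.sub (hbox _).compact, ?_⟩
    exact (tsupport_sub _ _).trans (union_subset (hbox _).supp (hbox _).supp)
  have h1 := hsq_zero_cper hd
  have h2 : cper (fun x => g (φ n) x - g (φ m) x) = fun k => a n k - a m k := funext fun k => by
    simp [a, cper_sub (hbox (φ n)) (hbox (φ m)) k]
  rw [h2] at h1
  have h3 := hsq_sub_le (hma n) (hma m)
  rw [h1, integral_comp_toBig hR0.le fun x => (f (φ n) x - f (φ m) x) ^ 2] at h3
  have h5 : 0 < (R ^ 4)⁻¹ := by positivity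
  exact lt_of_mul_lt_mul_left (lt_of_le_of_lt h3 (by linarith [hlt n hn, hlt m hm])) h5.le

end Vale.Agent.P204.Tame
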