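import Vale.Agent.P204.Tame.EllipticTools

namespace Vale.Agent.P204.Tame

open scoped ContDiff
open MeasureTheory Set

/-- Module EllipticRellich: bounded gradients and values give a mean square Cauchy subsequence. -/
def RellichTest : Prop :=
  ∀ (K : Set E), IsCompact K → ∀ f : ℕ → E → ℝ, (∀ n, IsTest univ (f n)) →
    (∀ n, tsupport (f n) ⊆ K) → ∀ B : ℝ,
    (∀ n, (∫ x, f n x ^ 2) + ∑ a, ∫ x, pd a (f n) x ^ 2 ≤ B) →
    ∃ φ : ℕ → ℕ, StrictMono φ ∧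
      ∀ δ > 0, ∃ N, ∀ n ≥ N, ∀ m ≥ N, ∫ x, (f (φ n) x - f (φ m) x) ^ 2 < δ

end Vale.Agent.P204.Tame
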