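import Vale.Agent.P204.Tame.Core
import Vale.Agent.P204.Tame.Measure

/-!
Statements of the local analytic modules of the tamed to compatible theorem. Each definition of
type `Prop` below is proved in the module named in its comment.
-/

namespace Vale.Agent.P204.Tame

open scoped ContDiff Matrix ENNReal
open MeasureTheory Metric Set Filter

/-- The orientation sign of a complex structure. -/
noncomputable def sgnJ (J : M) : ℝ := Real.sign (pfq (wmat J) (wmat J))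

/-- The oriented wedge pairing. -/
noncomputable def wd (J a b : M) : ℝ := sgnJ J * pfq a b

/-- Module Linear: pointwise facts, constants uniform on compact sets. -/
def LinearFacts : Prop :=
  (∀ J u v : M, J * J = -1 → uᵀ = -u → vᵀ = -v → Jᵀ * u * J = u → Jᵀ * v * J = -v →
    pfq u v = 0) ∧
  (∀ J a b : M, J * J = -1 → Psd J a → Psd J b → 0 ≤ wd J a b) ∧
  (∀ J : M, J * J = -1 → Psd J (wmat J) ∧ 0 < sgnJ J * pfq (wmat J) (wmat J)) ∧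
  (∀ S : Set M, IsCompact S → (∀ J ∈ S, J * J = -1) → ∃ c > 0, ∀ J ∈ S,
    (∀ a : M, aᵀ = -a → Jᵀ * a * J = -a → c * ∑ i, ∑ j, a i j ^ 2 ≤ wd J a a) ∧
    (∀ a : M, Psd J a → c * ∑ i, ∑ j, |a i j| ≤ wd J a (wmat J) ∧
      c * ∑ i, ∑ j, |a i j| ≤ trc J a) ∧
    (∀ J' ∈ S, ∀ b : M, Psd J' b → ∀ v,
      -(c⁻¹ * (∑ i, ∑ j, |J i j - J' i j|) ^ 2 * (∑ i, ∑ j, |b i j|) * (v ⬝ᵥ v))
        ≤ val b v (J *ᵥ v)))

/-- Module Linear: closedness of a current is orthogonality to exact forms. -/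
def PairingExact : Prop :=
  ∀ (V : Set E) (J : E → M) (μ : Measure E) (Θ : E → M), IsACS V J → IsPosCurrent V J μ Θ →
    ∀ S : E → E, (∀ i, IsTest V fun x => S x i) →
      ∫ x, wd (J x) (Θ x) (dOne S x) ∂μ = 0

/-- Module Density: the test potentials. -/
def TestPotentials : Prop :=
  ∀ (V : Set E) (J : E → M), IsACS V J → ∀ K ⊆ V, IsCompact K →
    ∃ R > 0, ∃ c > 0, ∃ C : ℝ, ∀ p ∈ K, closedBall p R ⊆ V ∧ ∃ f : ℝ → E → ℝ,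
      let s : ℝ → E → M := fun r x => panti (J x) (ddc J (f r) x)
      (∀ r ∈ Ioc (0 : ℝ) R,
        IsTest V (f r) ∧ tsupport (f r) ⊆ closedBall p R ∧
        (∀ i j, ContDiff ℝ ∞ fun x => s r x i j) ∧
        (∀ x ∈ closedBall p (c * R), ∀ v,
          (c * r ^ 2 / (‖x - p‖ ^ 2 + r ^ 2) ^ 2 - C) * (v ⬝ᵥ v)
            ≤ val (ddc J (f r) x) v (J x *ᵥ v)) ∧
        (∀ x ∈ V, ∀ v, -C * (v ⬝ᵥ v) ≤ val (ddc J (f r) x) v (J x *ᵥ v))) ∧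
      (∀ r ∈ Ioc (0 : ℝ) (R / 2), ∀ i j,
        ∫ x, (s r x i j - s (2 * r) x i j) ^ 2 ≤ C * r ^ 2 ∧
        ∫ x, ‖iteratedFDeriv ℝ 2 (fun y => s r y i j - s (2 * r) y i j) x‖ ^ 2 ≤ C / r ^ 2) ∧
      (∀ r ∈ Icc (R / 2) R, ∀ i j,
        ∫ x, (s r x i j) ^ 2 ≤ C ∧
        ∫ x, ‖iteratedFDeriv ℝ 2 (fun y => s r y i j) x‖ ^ 2 ≤ C)

/-- Module Density: a closed positive current has quadratic mass bound. -/
def DensityBound : Prop :=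
  ∀ (V : Set E) (J : E → M) (μ : Measure E) (Θ : E → M), IsACS V J → IsPosCurrent V J μ Θ →
    ∀ K ⊆ V, IsCompact K → ∃ A : ℝ, ∃ r₀ > 0, ∀ p ∈ K, ∀ r ∈ Ioc (0 : ℝ) r₀,
      μ (closedBall p r) ≤ ENNReal.ofReal (A * r ^ 2)

/-- The points of an open set near which the measure has infinite potential. -/
noncomputable def poleSet (V : Set E) (μ : Measure E) : Set E :=
  {x ∈ V | ∀ δ > 0, potential (μ.restrict (closedBall x δ)) x = ⊤}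

/-- Module ElMir: removing the poles leaves a closed current. -/
def ElMir : Prop :=
  ∀ (V : Set E) (J : E → M) (μ : Measure E) (Θ : E → M), IsACS V J → IsPosCurrent V J μ Θ →
    MeasurableSet (poleSet V μ) ∧ volume (poleSet V μ) = 0 ∧
      IsPosCurrent V J (μ.restrict (poleSet V μ)ᶜ) Θ

/-- Module Measure: outside the poles the density tends to zero. -/
def DensityOffPoles : Prop :=
  ∀ (V : Set E) (μ : Measure E), IsOpen V → ∀ x ∈ V, x ∉ poleSet V μ →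
    Tendsto (fun r : ℝ => μ (closedBall x r) / ENNReal.ofReal (r ^ 2))
      (nhdsWithin 0 (Ioi 0)) (nhds 0)

/-- Module Measure: a quadratically bounded measure does not see points of positive density of
a measure which does not charge them. -/
def VitaliNull : Prop :=
  ∀ (V : Set E) (μ ν : Measure E), IsOpen V → (∀ K ⊆ V, IsCompact K → μ K < ⊤) →
    (∀ K ⊆ V, IsCompact K → ∃ A : ℝ, ∃ r₀ > 0, ∀ p ∈ K, ∀ r ∈ Ioc (0 : ℝ) r₀,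
      ν (closedBall p r) ≤ ENNReal.ofReal (A * r ^ 2)) →
    ∀ S ⊆ V, MeasurableSet S → μ S = 0 →
      ν {x ∈ S | ¬ Tendsto (fun r : ℝ => μ (closedBall x r) / ENNReal.ofReal (r ^ 2))
        (nhdsWithin 0 (Ioi 0)) (nhds 0)} = 0

/-- Module Measure: the square of a smoothed measure. -/
def BallSquare : Prop :=
  ∀ (μ : Measure E) [SFinite μ] (r : ℝ),
    ∫⁻ x, μ (closedBall x r) ^ 2 ≤
      volume (closedBall (0 : E) r) * ∫⁻ y, μ (closedBall y (2 * r)) ∂μ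

/-- A family of maps moving points in all directions. -/
structure IsSmoother {n : ℕ} (U : Set E) (σ : (Fin n → ℝ) → E → E) : Prop where
  isOpen : IsOpen U
  smooth : ∃ W : Set ((Fin n → ℝ) × E), IsOpen W ∧ ({0} : Set (Fin n → ℝ)) ×ˢ U ⊆ W ∧
    ContDiffOn ℝ ∞ (fun z => σ z.1 z.2) W
  base : ∀ y ∈ U, σ 0 y = y
  onto : ∀ y ∈ U, Function.Surjective (fderiv ℝ (fun v => σ v y) 0)

/-- The averaged pullback of a function with a kernel. -/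
noncomputable def kerOp {n : ℕ} (σ : (Fin n → ℝ) → E → E) (ρ : (Fin n → ℝ) → ℝ)
    (q : (Fin n → ℝ) → E → ℝ) (ε : ℝ) (u : E → ℝ) (y : E) : ℝ :=
  (ε ^ n)⁻¹ * ∫ v, ρ (ε⁻¹ • v) * q v y * u (σ v y)

/-- Module Smoother: smoothing estimates for averaged pullbacks. -/
def SmootherSobolev : Prop :=
  ∀ (n : ℕ) (U : Set E) (σ : (Fin n → ℝ) → E → E), IsSmoother U σ →
    ∀ (ρ : (Fin n → ℝ) → ℝ) (q : (Fin n → ℝ) → E → ℝ),
      ContDiff ℝ ∞ ρ → tsupport ρ ⊆ closedBall 0 1 →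
      (∃ W : Set ((Fin n → ℝ) × E), IsOpen W ∧ ({0} : Set (Fin n → ℝ)) ×ˢ U ⊆ W ∧
        ContDiffOn ℝ ∞ (fun z => q z.1 z.2) W) →
      ∀ K ⊆ U, IsCompact K → ∃ ε₀ > 0,
        (∀ ε ∈ Ioc (0 : ℝ) ε₀, ∀ u : E → ℝ, MemLp u 2 volume →
          ∀ y ∈ K, ContDiffAt ℝ ∞ (kerOp σ ρ q ε u) y) ∧
        ∀ p : ℕ, ∃ C : ℝ, ∀ ε ∈ Ioc (0 : ℝ) ε₀, ∀ u : E → ℝ, MemLp u 2 volume →
          ∀ l ≤ p, ε ^ (2 * l) * ∫ y in K, ‖iteratedFDeriv ℝ l (kerOp σ ρ q ε u) y‖ ^ 2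
            ≤ C * ∫ y, u y ^ 2

/-- Module Smoother: a coefficient vanishing on the base gains one power of the scale. -/
def SmootherGain : Prop :=
  ∀ (n : ℕ) (U : Set E) (σ : (Fin n → ℝ) → E → E), IsSmoother U σ →
    ∀ (ρ : (Fin n → ℝ) → ℝ) (q : (Fin n → ℝ) → E → ℝ),
      ContDiff ℝ ∞ ρ → tsupport ρ ⊆ closedBall 0 1 →
      (∃ W : Set ((Fin n → ℝ) × E), IsOpen W ∧ ({0} : Set (Fin n → ℝ)) ×ˢ U ⊆ W ∧
        ContDiffOn ℝ ∞ (fun z => q z.1 z.2) W) →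
      (∀ y ∈ U, q 0 y = 0) →
      ∀ K ⊆ U, IsCompact K → ∃ ε₀ > 0, ∀ p : ℕ, ∃ C : ℝ, ∀ ε ∈ Ioc (0 : ℝ) ε₀,
        ∀ u : E → ℝ, MemLp u 2 volume → ∀ l ≤ p,
          ε ^ (2 * l) * ∫ y in K, ‖iteratedFDeriv ℝ l (kerOp σ ρ q ε u) y‖ ^ 2
            ≤ C * ε ^ 2 * ∫ y, u y ^ 2

/-- Module Smoother: averaged pullbacks of a positive function are dominated by ball averages. -/
def SmootherFibre : Prop :=
  ∀ (n : ℕ) (U : Set E) (σ : (Fin n → ℝ) → E → E), IsSmoother U σ →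
    ∀ K ⊆ U, IsCompact K → ∃ C : ℝ, ∃ ε₀ > 0, ∀ ε ∈ Ioc (0 : ℝ) ε₀, ∀ y ∈ K,
      ∀ f : E → ℝ≥0∞, Measurable f →
        ENNReal.ofReal ((ε ^ n)⁻¹) * ∫⁻ v in closedBall (0 : Fin n → ℝ) ε, f (σ v y) ≤
          ENNReal.ofReal (C * (ε ^ 4)⁻¹) * ∫⁻ x in closedBall y (C * ε), f x

/-- Rescaled convolution. -/
noncomputable def convAt (ρ : E → ℝ) (t : ℝ) (f : E → ℝ) (x : E) : ℝ :=
  (t ^ 4)⁻¹ * ∫ v, ρ (t⁻¹ • v) * f (x + v)

/-- An even mollifier whose convolution operator lies between zero and the identity. -/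
structure IsMol (ρ : E → ℝ) : Prop where
  smooth : ContDiff ℝ ∞ ρ
  supp : tsupport ρ ⊆ closedBall 0 1
  nonneg : ∀ x, 0 ≤ ρ x
  mass : ∫ x, ρ x = 1
  even : ∀ x, ρ (-x) = ρ x
  contract : ∀ f : E → ℝ, Continuous f → HasCompactSupport f → ∀ t > 0,
    ∫ x, (f x - convAt ρ t f x) ^ 2 ≤ ∫ x, f x ^ 2

/-- Module Mollifier: existence. -/
def MolExists : Prop := ∃ ρ : E → ℝ, IsMol ρ

/-- Module Mollifier: a functional is recovered from its values on mollified functions. -/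
def MolTelescope : Prop :=
  ∀ ρ : E → ℝ, IsMol ρ → ∀ m : ℕ, ∃ C : ℝ, ∀ (Λ : (E → ℝ) →ₗ[ℝ] ℝ) (K : Set E) (A : ℝ),
    IsCompact K →
    (∀ e, IsTest univ e → tsupport e ⊆ cthickening 2 K →
      |Λ e| ≤ A * ∑ l ∈ Finset.range 5, Real.sqrt (∫ x, ‖iteratedFDeriv ℝ l e x‖ ^ 2)) →
    ∀ e, IsTest univ e → tsupport e ⊆ K → ∀ ε ∈ Ioc (0 : ℝ) 1, ∃ u : ℕ → E → ℝ,
      (∀ j, IsTest univ (u j) ∧ tsupport (u j) ⊆ cthickening (2 * ε) K ∧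
        ∫ x, u j x ^ 2 ≤ ∫ x, e x ^ 2 ∧
        ∀ i, i ≤ m → i ≤ j → ∫ x, u j x ^ 2 ≤
          C * (ε / 2 ^ j) ^ (4 * i) * ∫ x, ‖iteratedFDeriv ℝ (2 * i) e x‖ ^ 2) ∧
      Tendsto (fun N => ∑ j ∈ Finset.range N, Λ (convAt ρ (ε / 2 ^ j) (u j))) atTop
        (nhds (Λ e))

/-- Module Bootstrap: the absorption inequality. -/
def Absorb : Prop :=
  ∀ (G L g : ℝ → ℝ) (A : ℝ),
    (∀ ε ∈ Ioc (0 : ℝ) 1, 1 ≤ g ε ∧ 0 ≤ G ε ∧ 0 ≤ L ε ∧ G ε ≤ A * (ε ^ 4)⁻¹) →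
    (∀ ε ∈ Ioc (0 : ℝ) 1, ∀ j : ℕ, g (ε / 2 ^ j) ≤ A * 4 ^ j * g ε) →
    (∀ ε ∈ Ioc (0 : ℝ) 1, L ε ^ 2 ≤ A * (g ε ^ 2 + g ε * G ε + ε ^ 2 * G ε ^ 2)) →
    (∀ ε ∈ Ioc (0 : ℝ) 1, ∀ X : ℝ, (∀ N, ∑ j ∈ Finset.range N,
        (2 ^ (8 * j) : ℝ)⁻¹ * L (ε / 2 ^ j) ≤ X) → G ε ≤ A * X) →
    ∃ C : ℝ, ∃ ε₁ > 0, ∀ ε ∈ Ioc (0 : ℝ) ε₁, G ε ≤ C * g ε

end Vale.Agent.P204.Tame
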