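import Vale.Agent.P204.Tame.EllipticLimit
import Vale.Agent.P204.Tame.Interfaces

/-!
Integration by parts between `dOne` and `dTwo`, and the equation from its weak form.
-/

namespace Vale.Agent.P204.Tame

open scoped ContDiff Matrix Topology
open MeasureTheory Set Filter

/-- The pairing of a coordinate wedge with a coordinate form. -/
def tco (a b : Fin 4) (γ : I2) : ℝ := pfq (bas (a, b) - bas (b, a)) (bas γ)

theorem sum_tco {D : Fin 4 → M} (hD : ∀ a, (D a)ᵀ = -D a) (b : Fin 4) :
    -∑ a, ∑ γ : I2, tco a b γ * D a γ.1 γ.2 = dvec D b := by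
  have e := fun a i j => skew_apply (hD a) i j
  have h : ∀ a, ∑ γ : I2, tco a b γ * D a γ.1 γ.2 = pfq (bas (a, b) - bas (b, a)) (D a) := fun a => by
    rw [pfq_bas _ (D a)]
    exact Finset.sum_congr rfl fun γ _ => by rw [tco]; ring
  simp only [h, Fin.sum_univ_four]
  fin_cases b <;>
    simp [pfq, bas, dvec, altT, ten, cyc] <;>
    linarith [e 0 0 1, e 0 0 2, e 0 0 3, e 0 1 2, e 0 1 3, e 0 2 3, e 1 0 1, e 1 0 2, e 1 0 3,
      e 1 1 2, e 1 1 3, e 1 2 3, e 2 0 1, e 2 0 2, e 2 0 3, e 2 1 2, e 2 1 3, e 2 2 3, e 3 0 1,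
      e 3 0 2, e 3 0 3, e 3 1 2, e 3 1 3, e 3 2 3]

theorem pfq_dOne_dTwo (S : E → E) (h : M) (x : E) :
    pfq (dOne S x) h = ∑ a, ∑ b, pd a (fun y => S y b) x * ∑ γ : I2, tco a b γ * h γ.1 γ.2 := by
  have hc : ∀ a b, ∑ γ : I2, tco a b γ * h γ.1 γ.2 = pfq (bas (a, b) - bas (b, a)) h := fun a b => by
    rw [pfq_bas _ h]
    exact Finset.sum_congr rfl fun γ _ => by rw [tco]; ring
  simp only [hc, Fin.sum_univ_four]
  simp [pfq, bas, dOne]
  ring

/-- Integration by parts between the two exterior derivatives. -/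
theorem integral_dOne_eq {V : Set E} (hV : IsOpen V) {S : E → E} {h : E → M}
    (hS : ∀ b, ContDiffOn ℝ ∞ (fun x => S x b) V) (ht : ∀ i j, IsTest V fun x => h x i j)
    (hskew : ∀ x ∈ V, (h x)ᵀ = -h x) :
    ∫ x, S x ⬝ᵥ dTwo h x = ∫ x, pfq (dOne S x) (h x) := by
  set L : Set E := ⋃ γ : I2, tsupport fun x => h x γ.1 γ.2 with hLdef
  have hLc : IsCompact L := isCompact_iUnion fun γ => (ht γ.1 γ.2).compact
  have hLV : L ⊆ V := iUnion_subset fun γ => (ht γ.1 γ.2).supp
  obtain ⟨η, hη, -, U, hUo, hLU, -, hη1⟩ := exists_cutoff hV hLc hLV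
  set S' : E → Fin 4 → ℝ := fun x b => η x * S x b
  have hS' : ∀ b, IsTest V fun x => S' x b := fun b => hη.mul_smooth hV (hS b)
  set T : Fin 4 → Fin 4 → E → ℝ := fun a b x => ∑ γ : I2, tco a b γ * h x γ.1 γ.2
  have hT : ∀ a b, ContDiff ℝ ∞ (T a b) := fun a b =>
    ContDiff.sum fun γ _ => contDiff_const.mul (ht γ.1 γ.2).smooth
  have hz : ∀ x ∉ L, h x = 0 ∧ ∀ a, gradT h x a = 0 := fun x hx => by
    have hn : ∀ i j, x ∉ tsupport fun y => h y i j := fun i j hh => hx (mem_iUnion.2 ⟨(i, j), hh⟩)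
    refine ⟨?_, gradT_eq_zero hn⟩
    ext i j
    exact image_eq_zero_of_notMem_tsupport (f := fun y => h y i j) (hn i j)
  have hR : ∀ x, pfq (dOne S x) (h x) = ∑ a, ∑ b, pd a (fun y => S' y b) x * T a b x := fun x => by
    by_cases hx : x ∈ L
    · rw [pfq_dOne_dTwo]
      refine Finset.sum_congr rfl fun a _ => Finset.sum_congr rfl fun b _ => ?_
      congr 1
      refine pd_congr a ?_
      filter_upwards [hUo.mem_nhds (hLU hx)] with y hy
      show S y b = η y * S y b
      rw [hη1 y hy, one_mul]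
    · simp [pfq, (hz x hx).1, T]
  have hdT : ∀ a b x, pd a (T a b) x = ∑ γ : I2, tco a b γ * gradT h x a γ.1 γ.2 := fun a b x => by
    rw [pd_sum a fun γ _ => ((ht γ.1 γ.2).smooth.differentiable (by simp) x).const_mul _]
    refine Finset.sum_congr rfl fun γ _ => ?_
    show fderiv ℝ (fun y => tco a b γ * h y γ.1 γ.2) x (e a) = _
    rw [fderiv_const_mul ((ht γ.1 γ.2).smooth.differentiable (by simp) x)]
    rfl
  have hL : ∀ x, S x ⬝ᵥ dTwo h x = -∑ a, ∑ b, S' x b * pd a (T a b) x := fun x => by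
    simp only [hdT]
    by_cases hx : x ∈ L
    · have hsk : ∀ a, (gradT h x a)ᵀ = -gradT h x a := fun a => by
        ext i j
        have he : (fun y => h y j i) =ᶠ[𝓝 x] fun y => -h y i j := by
          filter_upwards [hV.mem_nhds (hLV hx)] with y hy
          exact skew_apply (hskew y hy) i j
        show pd a (fun y => h y j i) x = -pd a (fun y => h y i j) x
        rw [pd_congr a he]
        simp [pd]
      rw [Finset.sum_comm, dTwo_eq_dvec, dotProduct, ← Finset.sum_neg_distrib]
      refine Finset.sum_congr rfl fun b _ => ?_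
      show S x b * dvec (gradT h x) b = _
      rw [← Finset.mul_sum, ← sum_tco hsk b, show S' x b = S x b from by
        show η x * S x b = S x b
        rw [hη1 x (hLU hx), one_mul]]
      ring
    · simp [dTwo_eq_dvec, dotProduct, dvec_apply, (hz x hx).2]
  have i1 : ∀ a b, Integrable fun x => S' x b * pd a (T a b) x := fun a b =>
    ((hS' b).smooth.continuous.mul (contDiff_pd (hT a b) a).continuous).integrable_of_hasCompactSupport
      (hS' b).compact.mul_right
  have i2 : ∀ a b, Integrable fun x => pd a (fun y => S' y b) x * T a b x := fun a b =>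
    ((contDiff_pd (hS' b).smooth a).continuous.mul (hT a b).continuous).integrable_of_hasCompactSupport
      (hasCompactSupport_pd (hS' b).compact a).mul_right
  simp only [hL, hR]
  rw [integral_neg, integral_finsetSum _ fun a _ => integrable_finsetSum _ fun b _ => i1 a b,
    integral_finsetSum _ fun a _ => integrable_finsetSum _ fun b _ => i2 a b, ← Finset.sum_neg_distrib]
  refine Finset.sum_congr rfl fun a _ => ?_
  rw [integral_finsetSum _ fun b _ => i1 a b, integral_finsetSum _ fun b _ => i2 a b,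
    ← Finset.sum_neg_distrib]
  refine Finset.sum_congr rfl fun b _ => ?_
  rw [integral_pd_parts ((hS' b).mono (subset_univ _)) (hT a b) a, neg_neg]

variable {V : Set E} {J G : E → M}

theorem skew_dOne (S : E → E) (x : E) : (dOne S x)ᵀ = -dOne S x := by
  ext i j
  show dOne S x j i = -dOne S x i j
  simp [dOne]

theorem panti_add_pinv (J u : M) : panti J u + pinv J u = u := by
  simp only [panti, pinv]
  module

theorem pinv_inv {J : M} (hJ : J * J = -1) (u : M) : Jᵀ * pinv J u * J = pinv J u := by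
  have h : Jᵀ * Jᵀ = -1 := by rw [← Matrix.transpose_mul, hJ]; simp
  simp only [pinv, Matrix.mul_smul, Matrix.smul_mul, mul_add, add_mul]
  congr 1
  rw [show Jᵀ * (Jᵀ * u * J) * J = (Jᵀ * Jᵀ) * u * (J * J) by noncomm_ring, h, hJ]
  noncomm_ring

theorem skew_pinv {J u : M} (hu : uᵀ = -u) : (pinv J u)ᵀ = -pinv J u := by
  simp only [pinv, Matrix.transpose_smul, Matrix.transpose_add, Matrix.transpose_mul,
    Matrix.transpose_transpose, hu]
  rw [← smul_neg]
  congr 1
  noncomm_ring

/-- Only the anti-invariant part is seen by an anti-invariant form. -/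
theorem pfq_panti_left (hL : LinearFacts) {J u h : M} (hJ : J * J = -1) (hu : uᵀ = -u)
    (hh : hᵀ = -h) (hha : Jᵀ * h * J = -h) : pfq u h = pfq (panti J u) h := by
  conv_lhs => rw [← panti_add_pinv J u, pfq_add_left,
    hL.1 J _ h hJ (skew_pinv hu) hh (pinv_inv hJ u) hha, add_zero]

/-- The one-form of a two-form. -/
noncomputable def oneOf (G : E → M) (u : E → M) (x : E) : E := G x *ᵥ dTwo u x

theorem contDiffOn_oneOf (hJ : IsACS V J) (hG : IsPosDefOn V G) {u : E → M} (hu : IsAntiOn V J u)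
    (b : Fin 4) : ContDiffOn ℝ ∞ (fun x => oneOf G u x b) V := by
  simp only [oneOf, dTwo_eq_dvec, mulVec_dvec]
  refine ContDiffOn.sum fun p _ => (ContDiffOn.sum fun m _ => (hG.smooth _ _).mul contDiffOn_const).mul ?_
  exact ((hu.smooth p.2.1 p.2.2).fderiv_of_isOpen hJ.isOpen (by simp)).clm_apply contDiffOn_const

theorem contDiffOn_panti_entry (hJ : IsACS V J) {f : E → M}
    (hf : ∀ i j, ContDiffOn ℝ ∞ (fun x => f x i j) V) (i j : Fin 4) :
    ContDiffOn ℝ ∞ (fun x => panti (J x) (f x) i j) V := by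
  simp only [panti, Matrix.smul_apply, Matrix.sub_apply, Matrix.mul_apply,
    Matrix.transpose_apply, smul_eq_mul]
  exact contDiffOn_const.mul ((hf i j).sub (ContDiffOn.sum fun b _ =>
    (ContDiffOn.sum fun a _ => (hJ.smooth _ _).mul (hf _ _)).mul (hJ.smooth _ _)))

theorem contDiffOn_dOne {V : Set E} (hV : IsOpen V) {S : E → E}
    (hS : ∀ b, ContDiffOn ℝ ∞ (fun x => S x b) V) (i j : Fin 4) :
    ContDiffOn ℝ ∞ (fun x => dOne S x i j) V :=
  (((hS j).fderiv_of_isOpen hV (by simp)).clm_apply contDiffOn_const).sub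
    (((hS i).fderiv_of_isOpen hV (by simp)).clm_apply contDiffOn_const)

/-- The pointwise equation from the weak one. -/
theorem equation_of_weak (hL : LinearFacts) (hJ : IsACS V J) (hG : IsPosDefOn V G) {u e : E → M}
    (hu : IsAntiOn V J u) (he : IsAntiOn V J e)
    (hweak : ∀ h : E → M, IsAntiOn V J h → (∀ i j, IsTest V fun x => h x i j) →
      ∫ x, oneOf G u x ⬝ᵥ dTwo h x = ∫ x, pfq (e x) (h x)) :
    ∀ x ∈ V, panti (J x) (dOne (oneOf G u) x) = e x := by
  intro x₀ hx₀
  set d : E → M := dOne (oneOf G u) with hd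
  have hds : ∀ i j, ContDiffOn ℝ ∞ (fun x => d x i j) V :=
    contDiffOn_dOne hJ.isOpen (contDiffOn_oneOf hJ hG hu)
  set r : E → M := fun x => panti (J x) (d x) - e x with hr
  have hrs : ∀ i j, ContDiffOn ℝ ∞ (fun x => r x i j) V := fun i j =>
    (contDiffOn_panti_entry hJ hds i j).sub (he.smooth i j)
  have hrk : ∀ x ∈ V, (r x)ᵀ = -r x := fun x hx => by
    have hp : (panti (J x) (d x))ᵀ = -panti (J x) (d x) := by
      simp only [panti, Matrix.transpose_smul, Matrix.transpose_sub, Matrix.transpose_mul,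
        Matrix.transpose_transpose, hd, skew_dOne]
      rw [← smul_neg]
      congr 1
      noncomm_ring
    simp only [hr, Matrix.transpose_sub, hp, he.skew x hx]
    abel
  have hra : ∀ x ∈ V, (J x)ᵀ * r x * J x = -r x := fun x hx => by
    have h : (J x)ᵀ * (J x)ᵀ = -1 := by rw [← Matrix.transpose_mul, hJ.sq x hx]; simp
    have hp : (J x)ᵀ * panti (J x) (d x) * J x = -panti (J x) (d x) := by
      simp only [panti, Matrix.mul_smul, Matrix.smul_mul, mul_sub, sub_mul]
      rw [← smul_neg]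
      congr 1
      rw [show (J x)ᵀ * ((J x)ᵀ * d x * J x) * J x = ((J x)ᵀ * (J x)ᵀ) * d x * (J x * J x) by
        noncomm_ring, h, hJ.sq x hx]
      noncomm_ring
    simp only [hr, mul_sub, sub_mul, hp, he.anti x hx]
    abel
  obtain ⟨ψ, hψ, hψ01, U, -, hxU, -, hψ1⟩ :=
    exists_cutoff hJ.isOpen (isCompact_singleton (x := x₀)) (singleton_subset_iff.2 hx₀)
  have hq : ContDiffOn ℝ ∞ (fun x => pfq (r x) (r x)) V := by
    have := hrs
    unfold pfq
    fun_prop
  set c : E → ℝ := fun x => ψ x * pfq (r x) (r x) with hc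
  set h : E → M := fun x => c x • r x with hh
  have hht : ∀ i j, IsTest V fun x => h x i j := fun i j =>
    (hψ.mul_smooth hJ.isOpen hq).mul_smooth hJ.isOpen (hrs i j)
  have hha : IsAntiOn V J h := ⟨fun i j => (hht i j).smooth.contDiffOn,
    fun x hx => by simp [hh, hrk x hx], fun x hx => by simp [hh, hra x hx]⟩
  have key := hweak h hha hht
  rw [integral_dOne_eq hJ.isOpen (contDiffOn_oneOf hJ hG hu) hht hha.skew] at key
  set m : E → ℝ := fun x => ψ x * pfq (r x) (r x) ^ 2 with hm
  have hmt : IsTest V m := hψ.mul_smooth hJ.isOpen (hq.pow 2)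
  have hint : ∀ {f : E → M}, (∀ i j, ContDiffOn ℝ ∞ (fun x => f x i j) V) →
      Integrable fun x => pfq (f x) (h x) := fun {f} hf => by
    have ht : IsTest V fun x => ∑ γ : I2, h x γ.1 γ.2 * pfq (f x) (bas γ) :=
      IsTest.sum' _ fun γ _ => (hht γ.1 γ.2).mul_smooth hJ.isOpen (by
        have := hf
        unfold pfq
        fun_prop)
    simp only [pfq_bas (f _) (h _)]
    exact ht.smooth.continuous.integrable_of_hasCompactSupport ht.compact
  have hzero : ∫ x, m x = 0 := by
    have hpt : ∀ x, m x = pfq (d x) (h x) - pfq (e x) (h x) := fun x => by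
      by_cases hx : x ∈ V
      · rw [pfq_panti_left hL (hJ.sq x hx) (skew_dOne _ x) (hha.skew x hx) (hha.anti x hx)]
        have hsub : ∀ a b g : M, pfq a g - pfq b g = pfq (a - b) g := fun a b g => by
          simp only [pfq, Matrix.sub_apply]; ring
        rw [hsub]
        show ψ x * pfq (r x) (r x) ^ 2 = pfq (r x) (c x • r x)
        rw [pfq_comm (r x) (c x • r x), pfq_smul_left, hc]
        ring
      · have h0 : ψ x = 0 := image_eq_zero_of_notMem_tsupport fun h' => hx (hψ.supp h')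
        simp [hm, hh, hc, h0, pfq]
    simp only [hpt]
    rw [integral_sub (hint hds) (hint he.smooth)]
    exact sub_eq_zero.2 key
  have hm0 : ∀ x, 0 ≤ m x := fun x => mul_nonneg (hψ01 x).1 (sq_nonneg _)
  have hmz : m x₀ = 0 := by
    have hae := (integral_eq_zero_iff_of_nonneg hm0
      (hmt.smooth.continuous.integrable_of_hasCompactSupport hmt.compact)).1 hzero
    exact congrFun ((hmt.smooth.continuous.ae_eq_iff_eq volume continuous_zero).1 hae) x₀
  rw [hm] at hmz
  simp only at hmz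
  rw [hψ1 x₀ (hxU rfl), one_mul, sq_eq_zero_iff] at hmz
  obtain ⟨cc, hcc, hbound⟩ := hL.2.2.2 {J x₀} isCompact_singleton
    (fun K hK => by rw [mem_singleton_iff.1 hK]; exact hJ.sq x₀ hx₀)
  have hwd := (hbound (J x₀) rfl).1 (r x₀) (hrk x₀ hx₀) (hra x₀ hx₀)
  rw [wd, hmz, mul_zero] at hwd
  have hsum0 : ∑ i, ∑ j, r x₀ i j ^ 2 = 0 := le_antisymm
    (le_of_mul_le_mul_left (by simpa using hwd) hcc)
    (Finset.sum_nonneg fun _ _ => Finset.sum_nonneg fun _ _ => sq_nonneg _)
  have hzero' : r x₀ = 0 := by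
    ext i j
    have h1 := (Finset.sum_eq_zero_iff_of_nonneg
      (fun i _ => Finset.sum_nonneg fun _ _ => sq_nonneg _)).1 hsum0 i (Finset.mem_univ i)
    exact sq_eq_zero_iff.1 ((Finset.sum_eq_zero_iff_of_nonneg fun _ _ => sq_nonneg _).1 h1 j
      (Finset.mem_univ j))
  exact sub_eq_zero.1 hzero'

end Vale.Agent.P204.Tame
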