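import Vale.Agent.P204.Defs

/-!
Fourier series of periodic functions on coordinate space: coefficients, Parseval, derivatives.
-/

namespace Vale.Agent.P204.Tame

open scoped ContDiff ComplexConjugate
open MeasureTheory Set

/-- Frequencies. -/
abbrev K : Type := Fin 4 → ℤ

/-- Periodicity in the four coordinate directions. -/
def Per {α : Type*} (f : E → α) : Prop := ∀ x i, f (x + e i) = f x

/-- The period cube. -/
def cube : Set E := {x | ∀ i, x i ∈ Ioc (0 : ℝ) 1}

/-- The exponential with frequency `k`. -/
noncomputable def chi (k : K) (x : E) : ℂ :=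
  Complex.exp (((2 * Real.pi * ∑ i, (k i : ℝ) * x i : ℝ) : ℂ) * Complex.I)

/-- The Fourier coefficient. -/
noncomputable def coeff (f : E → ℝ) (k : K) : ℂ := ∫ x in cube, chi (-k) x * (f x : ℂ)

theorem cube_eq_pi : cube = univ.pi fun _ : Fin 4 => Ioc (0 : ℝ) 1 := by
  ext x; simp only [cube, mem_ofPred_eq, mem_univ_pi]

theorem measurableSet_cube : MeasurableSet cube := by
  rw [cube_eq_pi]; exact MeasurableSet.univ_pi fun _ => measurableSet_Ioc

theorem volume_cube : volume cube = 1 := by
  rw [cube_eq_pi, MeasureTheory.volume_pi_pi]; simp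

theorem cube_subset_Icc : cube ⊆ Icc (0 : E) 1 := fun _ hx =>
  ⟨fun i => (hx i).1.le, fun i => (hx i).2⟩

theorem cube_ae_eq_Icc : cube =ᵐ[volume] Icc (0 : E) 1 := by
  rw [cube_eq_pi]; exact Measure.univ_pi_Ioc_ae_eq_Icc

instance : IsFiniteMeasure (volume.restrict cube) :=
  ⟨by rw [Measure.restrict_apply_univ, volume_cube]; exact ENNReal.one_lt_top⟩

theorem continuous_chi (k : K) : Continuous (chi k) := by
  unfold chi; fun_prop

@[simp] theorem norm_chi (k : K) (x : E) : ‖chi k x‖ = 1 := by
  unfold chi; exact Complex.norm_exp_ofReal_mul_I _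

theorem chi_add_freq (k l : K) (x : E) : chi (k + l) x = chi k x * chi l x := by
  unfold chi
  rw [← Complex.exp_add, ← add_mul]
  congr 2
  push_cast [Pi.add_apply, add_mul, Finset.sum_add_distrib]
  ring

theorem conj_chi (k : K) (x : E) : conj (chi k x) = chi (-k) x := by
  unfold chi
  rw [← Complex.exp_conj]
  simp [Finset.sum_neg_distrib, map_ofNat]

theorem chi_neg_mul_self (k : K) (x : E) : chi (-k) x * chi k x = 1 := by
  rw [← chi_add_freq]; simp [chi]

theorem per_chi (k : K) : Per (chi k) := by
  intro x i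
  unfold chi
  have : ∑ j, (k j : ℝ) * (x + e i) j = (∑ j, (k j : ℝ) * x j) + k i := by
    simp [e, mul_add, Finset.sum_add_distrib, Pi.single_apply]
  rw [this, Complex.exp_eq_exp_iff_exists_int]
  exact ⟨k i, by push_cast; ring⟩

theorem integrableOn_cube {α : Type*} [NormedAddCommGroup α] {f : E → α} (hf : Continuous f) :
    IntegrableOn f cube :=
  (hf.continuousOn.integrableOn_compact isCompact_Icc).mono_set cube_subset_Icc

theorem integrableOn_chi_mul (k : K) {f : E → ℝ} (hf : IntegrableOn f cube) :
    IntegrableOn (fun x => chi k x * (f x : ℂ)) cube := by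
  refine hf.ofReal.bdd_mul (continuous_chi k).aestronglyMeasurable (c := 1) ?_
  exact Filter.Eventually.of_forall fun x => (norm_chi k x).le

theorem coeff_add {f g : E → ℝ} (hf : IntegrableOn f cube) (hg : IntegrableOn g cube) (k : K) :
    coeff (fun x => f x + g x) k = coeff f k + coeff g k := by
  unfold coeff
  rw [← integral_add (integrableOn_chi_mul _ hf) (integrableOn_chi_mul _ hg)]
  congr 1
  funext x
  push_cast
  ring

theorem coeff_const_mul (r : ℝ) (f : E → ℝ) (k : K) :
    coeff (fun x => r * f x) k = r * coeff f k := by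
  unfold coeff
  rw [← integral_const_mul]
  congr 1
  funext x
  push_cast
  ring

theorem coeff_neg_fun (f : E → ℝ) (k : K) : coeff (fun x => -f x) k = -coeff f k := by
  unfold coeff
  rw [← integral_neg]
  congr 1
  funext x
  push_cast
  ring

theorem coeff_neg (f : E → ℝ) (k : K) : coeff f (-k) = conj (coeff f k) := by
  unfold coeff
  rw [← integral_conj]
  congr 1
  funext x
  rw [map_mul, Complex.conj_ofReal, conj_chi]

theorem norm_coeff_le (f : E → ℝ) (k : K) : ‖coeff f k‖ ≤ ∫ x in cube, |f x| := by
  refine (norm_integral_le_integral_norm _).trans (le_of_eq ?_)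
  congr 1
  funext x
  simp [Complex.norm_real]

theorem coeff_congr_ae {f g : E → ℝ} (h : f =ᵐ[volume.restrict cube] g) (k : K) :
    coeff f k = coeff g k :=
  integral_congr_ae (h.mono fun x hx => by simp [hx])

/-! ### Passage to the torus -/

noncomputable local instance : MeasureSpace UnitAddCircle := ⟨AddCircle.haarAddCircle⟩

local instance : Measure.IsAddHaarMeasure (volume : Measure UnitAddCircle) :=
  inferInstanceAs (Measure.IsAddHaarMeasure AddCircle.haarAddCircle)

local instance : IsProbabilityMeasure (volume : Measure UnitAddCircle) :=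
  inferInstanceAs (IsProbabilityMeasure AddCircle.haarAddCircle)

/-- The point of the torus. -/
noncomputable def toT (x : E) : UnitAddTorus (Fin 4) := fun i => (x i : UnitAddCircle)

/-- The representative of a point of the torus in the period cube. -/
noncomputable def rep (t : UnitAddTorus (Fin 4)) : E :=
  fun i => (AddCircle.equivIoc (1 : ℝ) 0 (t i) : ℝ)

theorem rep_mem (t : UnitAddTorus (Fin 4)) : rep t ∈ cube := fun i => by
  have := (AddCircle.equivIoc (1 : ℝ) 0 (t i)).2
  simpa [rep] using this

theorem toT_rep (t : UnitAddTorus (Fin 4)) : toT (rep t) = t := by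
  funext i; exact AddCircle.coe_equivIoc ..

theorem measurable_rep : Measurable rep :=
  measurable_pi_lambda _ fun i =>
    (measurable_subtype_coe.comp (AddCircle.measurableEquivIoc (1 : ℝ) 0).measurable).comp
      (measurable_pi_apply i)

theorem Per.add_int {α : Type*} {f : E → α} (hf : Per f) (x : E) (i : Fin 4) (m : ℤ) :
    f (x + (m : ℝ) • e i) = f x := by
  induction m using Int.induction_on generalizing x with
  | zero => simp
  | succ n ih =>
    have := ih (x + e i)
    rw [hf x i] at this
    rw [← this]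
    congr 1
    push_cast
    module
  | pred n ih =>
    have := hf (x + ((-(n : ℤ) - 1 : ℤ) : ℝ) • e i) i
    rw [← this, ← ih x]
    congr 1
    push_cast
    module

theorem Per.eq_of_toT {α : Type*} {f : E → α} (hf : Per f) {x y : E} (h : toT x = toT y) :
    f x = f y := by
  have hk : ∀ i, ∃ m : ℤ, y i = x i + m := fun i => by
    have := congrFun h i
    obtain ⟨m, hm⟩ := (AddCircle.coe_eq_zero_iff (1 : ℝ) (x := y i - x i)).1
      (by rw [AddCircle.coe_sub]; exact sub_eq_zero.2 this.symm)
    exact ⟨m, by simp only [zsmul_eq_mul, mul_one] at hm; rw [hm]; ring⟩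
  choose m hm using hk
  have hy : y = x + (m 0 : ℝ) • e 0 + (m 1 : ℝ) • e 1 + (m 2 : ℝ) • e 2 + (m 3 : ℝ) • e 3 := by
    funext i
    fin_cases i <;> simp [e, hm]
  rw [hy, hf.add_int, hf.add_int, hf.add_int, hf.add_int]

theorem Per.rep_eq {α : Type*} {f : E → α} (hf : Per f) (x : E) : f (rep (toT x)) = f x :=
  hf.eq_of_toT (toT_rep _)

theorem rep_toT {x : E} (hx : x ∈ cube) : rep (toT x) = x := by
  funext i
  have h := hx i
  have hi := AddCircle.coe_equivIoc (p := (1 : ℝ)) (a := 0) (y := (x i : UnitAddCircle))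
  exact (AddCircle.coe_eq_coe_iff_of_mem_Ioc (p := (1 : ℝ)) (a := 0)
    (by simpa [rep] using (rep_mem (toT x)) i) (by simpa using h)).1 hi

theorem continuous_comp_rep {α : Type*} [TopologicalSpace α] {f : E → α} (hf : Continuous f)
    (hp : Per f) : Continuous fun t => f (rep t) := by
  have hq : IsOpenQuotientMap (Pi.map fun _ : Fin 4 => ((↑) : ℝ → UnitAddCircle)) :=
    IsOpenQuotientMap.piMap fun _ => QuotientAddGroup.isOpenQuotientMap_mk
  have h : ((fun t => f (rep t)) ∘ Pi.map fun _ : Fin 4 => ((↑) : ℝ → UnitAddCircle)) = f :=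
    funext fun x => hp.rep_eq x
  rw [← hq.continuous_comp_iff, h]
  exact hf

theorem integral_rep {G : Type*} [NormedAddCommGroup G] [NormedSpace ℝ G] (g : E → G) :
    ∫ t : UnitAddTorus (Fin 4), g (rep t) = ∫ x in cube, g x := by
  rw [UnitAddTorus.integral_preimage (fun t => g (rep t)) (fun _ => 0)]
  have hs : {x : Fin 4 → ℝ | ∀ i, x i ∈ Ioc ((fun _ => (0 : ℝ)) i) ((fun _ => (0 : ℝ)) i + 1)}
      = cube := by
    ext x; simp [cube]
  rw [hs]
  refine setIntegral_congr_fun measurableSet_cube fun x hx => ?_
  exact congrArg g (rep_toT hx)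

theorem lintegral_rep (g : E → ENNReal) :
    ∫⁻ t : UnitAddTorus (Fin 4), g (rep t) = ∫⁻ x in cube, g x := by
  rw [UnitAddTorus.lintegral_preimage (fun t => g (rep t)) (fun _ => 0)]
  have hs : {x : Fin 4 → ℝ | ∀ i, x i ∈ Ioc ((fun _ => (0 : ℝ)) i) ((fun _ => (0 : ℝ)) i + 1)}
      = cube := by
    ext x; simp [cube]
  rw [hs]
  refine setLIntegral_congr_fun measurableSet_cube fun x hx => ?_
  exact congrArg g (rep_toT hx)

theorem mFourier_toT (k : K) (x : E) : UnitAddTorus.mFourier k (toT x) = chi k x := by
  simp only [UnitAddTorus.mFourier, toT, ContinuousMap.coe_mk, chi, fourier_coe_apply]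
  rw [← Complex.exp_sum]
  congr 1
  push_cast
  simp only [Finset.mul_sum, Finset.sum_mul]
  refine Finset.sum_congr rfl fun i _ => ?_
  simp only [div_one]
  ring

theorem mFourierCoeff_rep (f : E → ℝ) (k : K) :
    UnitAddTorus.mFourierCoeff (fun t => ((f (rep t) : ℝ) : ℂ)) k = coeff f k := by
  unfold UnitAddTorus.mFourierCoeff coeff
  rw [← integral_rep]
  refine integral_congr_ae (Filter.Eventually.of_forall fun t => ?_)
  simp only [smul_eq_mul]
  rw [← mFourier_toT, toT_rep]

theorem memLp_rep {p : ENNReal} (hp0 : p ≠ 0) (hp1 : p ≠ ⊤) {f : E → ℂ} (hm : Measurable f)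
    (hf : MemLp f p (volume.restrict cube)) : MemLp (fun t => f (rep t)) p volume := by
  refine ⟨(hm.comp measurable_rep).aestronglyMeasurable, ?_⟩
  have h := hf.2
  rw [eLpNorm_lt_top_iff_lintegral_rpow_enorm_lt_top hp0 hp1] at h ⊢
  rw [lintegral_rep fun x => ‖f x‖ₑ ^ p.toReal]
  exact h

theorem memLp_ofReal {f : E → ℝ} (hf : MemLp f 2 (volume.restrict cube)) :
    MemLp (fun x => (f x : ℂ)) 2 (volume.restrict cube) := hf.ofReal

/-- Parseval for inner products. -/
theorem hasSum_conj_coeff_mul {f g : E → ℝ} (hf : Measurable f) (hg : Measurable g)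
    (hf2 : MemLp f 2 (volume.restrict cube)) (hg2 : MemLp g 2 (volume.restrict cube)) :
    HasSum (fun k => conj (coeff f k) * coeff g k) ((∫ x in cube, f x * g x : ℝ) : ℂ) := by
  have hF := memLp_rep (by simp) (by simp) (Complex.measurable_ofReal.comp hf) hf2.ofReal
  have hG := memLp_rep (by simp) (by simp) (Complex.measurable_ofReal.comp hg) hg2.ofReal
  have h := UnitAddTorus.hasSum_prod_mFourierCoeff (hF.toLp _) (hG.toLp _)
  have hc : ∀ (u : E → ℝ) (hu : MemLp (fun t => (((Complex.ofReal ∘ u) (rep t)) : ℂ)) 2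
      (volume : Measure (UnitAddTorus (Fin 4)))) (k : K),
      UnitAddTorus.mFourierCoeff (hu.toLp _) k = coeff u k := fun u hu k => by
    rw [← mFourierCoeff_rep]
    exact integral_congr_ae (hu.coeFn_toLp.mono fun t ht => by
      simp only [Function.comp_apply] at ht ⊢
      rw [ht])
  simp only [hc] at h
  convert h using 1
  rw [← integral_complex_ofReal, ← integral_rep fun x => ((f x * g x : ℝ) : ℂ)]
  refine integral_congr_ae ?_
  filter_upwards [hF.coeFn_toLp, hG.coeFn_toLp] with t h1 h2
  rw [h1, h2]
  simp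

/-- Parseval for norms. -/
theorem hasSum_sq_coeff {f : E → ℝ} (hf : Measurable f) (hf2 : MemLp f 2 (volume.restrict cube)) :
    HasSum (fun k => ‖coeff f k‖ ^ 2) (∫ x in cube, f x ^ 2) := by
  have h := hasSum_conj_coeff_mul hf hf hf2 hf2
  convert Complex.hasSum_re h using 2 with k
  · rw [← Complex.normSq_eq_conj_mul_self, Complex.ofReal_re, Complex.normSq_eq_norm_sq]
  · simp [sq]

theorem memLp_of_continuous {f : E → ℝ} (hf : Continuous f) (p : ENNReal) :
    MemLp f p (volume.restrict cube) := by
  obtain ⟨C, hC⟩ := isCompact_Icc.exists_bound_of_continuousOn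
    (s := Icc (0 : E) 1) hf.continuousOn
  refine MemLp.of_bound hf.aestronglyMeasurable C ?_
  filter_upwards [ae_restrict_mem measurableSet_cube] with x hx
  exact hC x (cube_subset_Icc hx)

/-! ### Derivatives -/

/-- The integral of a derivative of a periodic function vanishes. -/
theorem integral_pd_eq_zero {g : E → ℂ} (hg : ContDiff ℝ 1 g) (hp : Per g) (j : Fin 4) :
    ∫ x in cube, fderiv ℝ g x (e j) = 0 := by
  rw [setIntegral_congr_set cube_ae_eq_Icc]
  have hc : Continuous fun x => fderiv ℝ g x (e j) :=
    (hg.continuous_fderiv (by simp)).clm_apply continuous_const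
  have h := integral_divergence_of_hasFDerivAt_off_countable' (0 : E) 1 (fun i => by simp)
    (fun i x => if i = j then g x else 0)
    (fun i x => if i = j then fderiv ℝ g x else 0) ∅ countable_empty
    (fun i => by
      by_cases hi : i = j
      · simp only [hi, if_true]; exact hg.continuous.continuousOn
      · simp only [hi, if_false]; exact continuousOn_const)
    (fun x _ i => by
      by_cases hi : i = j
      · simp only [hi, if_true]; exact (hg.differentiable (by simp) x).hasFDerivAt
      · simp only [hi, if_false]; exact hasFDerivAt_const _ _)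
    (by
      refine (hc.continuousOn.integrableOn_compact isCompact_Icc).congr_fun (fun x _ => ?_)
        measurableSet_Icc
      rw [Finset.sum_eq_single j] <;> simp +contextual [e])
  rw [setIntegral_congr_fun (g := fun x => fderiv ℝ g x (e j)) measurableSet_Icc
    (fun x _ => by rw [Finset.sum_eq_single j] <;> simp +contextual [e])] at h
  rw [h]
  refine Finset.sum_eq_zero fun i _ => sub_eq_zero.2 ?_
  congr 1
  funext x
  by_cases hi : i = j
  · subst hi
    simp only [if_true]
    have : i.insertNth ((1 : E) i) x = i.insertNth ((0 : E) i) x + e i := by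
      funext l
      refine Fin.succAboveCases i ?_ ?_ l
      · simp [e]
      · intro l; simp [e, Fin.succAbove_ne]
    rw [this, hp]
  · simp [hi]

theorem contDiff_chi {n : WithTop ℕ∞} (k : K) : ContDiff ℝ n (chi k) := by
  unfold chi
  exact (((Complex.ofRealCLM.contDiff.comp (contDiff_const.mul
    (ContDiff.sum fun i _ => contDiff_const.mul (contDiff_apply ℝ ℝ i)))).mul
      contDiff_const)).cexp

theorem fderiv_chi (k : K) (x : E) (j : Fin 4) :
    fderiv ℝ (chi k) x (e j) = ((2 * Real.pi * k j : ℝ) : ℂ) * Complex.I * chi k x := by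
  have hlin : ∀ i, HasFDerivAt (fun y : E => (k i : ℝ) * y i)
      ((k i : ℝ) • ContinuousLinearMap.proj (R := ℝ) i) x := fun i =>
    (hasFDerivAt_apply i x).const_mul _
  have h := (((Complex.ofRealCLM.hasFDerivAt.comp x
    ((HasFDerivAt.fun_sum (u := Finset.univ) fun i _ => hlin i).const_mul (2 * Real.pi))).mul_const
      Complex.I)).cexp
  have h' : HasFDerivAt (chi k) _ x := h
  rw [h'.fderiv]
  simp [chi, e, Pi.single_apply]
  ring

theorem Per.mul {α : Type*} [Mul α] {f g : E → α} (hf : Per f) (hg : Per g) :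
    Per fun x => f x * g x := fun x i => by simp only [hf x i, hg x i]

theorem Per.pd_per {f : E → ℝ} (hf : Per f) (j : Fin 4) : Per (pd j f) := by
  intro x i
  unfold pd
  have : (fun y => f (y + e i)) = f := funext fun y => hf y i
  rw [← fderiv_comp_add_right (𝕜 := ℝ) (e i), this]

/-- The coefficients of a derivative. -/
theorem coeff_pd {f : E → ℝ} (hf : ContDiff ℝ 1 f) (hp : Per f) (j : Fin 4) (k : K) :
    coeff (pd j f) k = ((2 * Real.pi * k j : ℝ) : ℂ) * Complex.I * coeff f k := by
  have hF : ContDiff ℝ 1 (fun x => (f x : ℂ)) := Complex.ofRealCLM.contDiff.comp hf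
  have hg : ContDiff ℝ 1 (fun x => chi (-k) x * (f x : ℂ)) := (contDiff_chi _).mul hF
  have h := integral_pd_eq_zero hg ((per_chi (-k)).mul fun x i => by rw [hp x i]) j
  have hd : ∀ x, fderiv ℝ (fun x => chi (-k) x * (f x : ℂ)) x (e j) =
      chi (-k) x * (pd j f x : ℂ) +
        -(((2 * Real.pi * k j : ℝ) : ℂ) * Complex.I) * (chi (-k) x * (f x : ℂ)) := fun x => by
    have h1 : HasFDerivAt (fun x => (f x : ℂ)) (Complex.ofRealCLM.comp (fderiv ℝ f x)) x :=
      Complex.ofRealCLM.hasFDerivAt.comp x (hf.differentiable (by simp) x).hasFDerivAt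
    rw [((((contDiff_chi (n := 1) (-k)).differentiable (by simp) x).hasFDerivAt).fun_mul h1).fderiv]
    simp [fderiv_chi, pd]
    ring
  simp only [hd] at h
  have hc : Continuous (pd j f) := by
    unfold pd; exact (hf.continuous_fderiv (by simp)).clm_apply continuous_const
  rw [integral_add (integrableOn_chi_mul _ (integrableOn_cube hc))
    ((integrableOn_chi_mul _ (integrableOn_cube hf.continuous)).const_mul _),
    integral_const_mul] at h
  unfold coeff
  linear_combination h

end Vale.Agent.P204.Tame
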