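import Vale.Agent.P204.Tame.FourierBasic

/-!
Coefficient sequences: weights, weighted norms, convolution, and the commutator of a multiplier
with a convolution.
-/

namespace Vale.Agent.P204.Tame

open scoped ComplexConjugate

/-- The weight `1 + |k|²`. -/
def wgt (k : K) : ℝ := 1 + ∑ i, (k i : ℝ) ^ 2

/-- The squared weighted norm of a coefficient sequence. -/
noncomputable def hsq (s : ℕ) (c : K → ℂ) : ℝ := ∑' k, wgt k ^ s * ‖c k‖ ^ 2

/-- Membership in the weighted space. -/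
def MemH (s : ℕ) (c : K → ℂ) : Prop := Summable fun k => wgt k ^ s * ‖c k‖ ^ 2

/-- A multiplier acting on a coefficient sequence. -/
noncomputable def mult (m : K → ℝ) (c : K → ℂ) (k : K) : ℂ := (m k : ℂ) * c k

/-- Convolution of coefficient sequences. -/
noncomputable def cconv (a c : K → ℂ) (k : K) : ℂ := ∑' l, a (k - l) * c l

theorem one_le_wgt (k : K) : 1 ≤ wgt k :=
  le_add_of_nonneg_right (Finset.sum_nonneg fun _ _ => sq_nonneg _)

theorem wgt_pos (k : K) : 0 < wgt k := zero_lt_one.trans_le (one_le_wgt k)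

theorem wgt_neg (k : K) : wgt (-k) = wgt k := by simp [wgt]

theorem one_add_sq_le_wgt (k : K) (i : Fin 4) : 1 + (k i : ℝ) ^ 2 ≤ wgt k := by
  unfold wgt
  gcongr
  exact Finset.single_le_sum (f := fun j => (k j : ℝ) ^ 2) (fun _ _ => sq_nonneg _)
    (Finset.mem_univ i)

theorem wgt_add_le (k l : K) : wgt (k + l) ≤ 2 * wgt k * wgt l := by
  have h : ∑ i, ((k i : ℝ) + l i) ^ 2 ≤ 2 * ∑ i, (k i : ℝ) ^ 2 + 2 * ∑ i, (l i : ℝ) ^ 2 := by
    rw [Finset.mul_sum, Finset.mul_sum, ← Finset.sum_add_distrib]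
    exact Finset.sum_le_sum fun i _ => by nlinarith [sq_nonneg ((k i : ℝ) - l i)]
  have hk : 0 ≤ ∑ i, (k i : ℝ) ^ 2 := Finset.sum_nonneg fun _ _ => sq_nonneg _
  have hl : 0 ≤ ∑ i, (l i : ℝ) ^ 2 := Finset.sum_nonneg fun _ _ => sq_nonneg _
  have he : wgt (k + l) = 1 + ∑ i, ((k i : ℝ) + l i) ^ 2 := by simp [wgt]
  rw [he, wgt, wgt]
  nlinarith [mul_nonneg hk hl]

/-- A product of summable nonnegative functions of the four coordinates is summable. -/
theorem summable_prod_coord {g : ℤ → ℝ} (hg0 : ∀ n, 0 ≤ g n) (hg : Summable g) :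
    Summable fun k : K => ∏ i, g (k i) := by
  refine summable_of_sum_le (c := (∑' n, g n) ^ 4)
    (fun k => Finset.prod_nonneg fun i _ => hg0 _) fun s => ?_
  classical
  have hsub : s ⊆ Fintype.piFinset fun i => s.image fun k => k i := fun k hk =>
    Fintype.mem_piFinset.2 fun i => Finset.mem_image_of_mem _ hk
  refine (Finset.sum_le_sum_of_subset_of_nonneg hsub fun k _ _ =>
    Finset.prod_nonneg fun i _ => hg0 _).trans ?_
  rw [← Finset.prod_univ_sum]
  calc ∏ i, ∑ n ∈ s.image fun k => k i, g n ≤ ∏ _i : Fin 4, ∑' n, g n :=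
        Finset.prod_le_prod (fun i _ => Finset.sum_nonneg fun n _ => hg0 n)
          (fun i _ => hg.sum_le_tsum _ fun n _ => hg0 n)
    _ = (∑' n, g n) ^ 4 := by simp

theorem summable_inv_wgt_pow : Summable fun k => (wgt k ^ 3)⁻¹ := by
  have hg : Summable fun n : ℤ => ((1 + (n : ℝ) ^ 2) ^ (3 / 4 : ℝ))⁻¹ := by
    refine ((hasSum_ite_eq (0 : ℤ) (1 : ℝ)).summable.add
      (Real.summable_abs_int_rpow (b := 3 / 2) (by norm_num))).of_nonneg_of_le
      (fun n => by positivity) fun n => ?_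
    by_cases hn : n = 0
    · subst hn
      simp
    · have hn' : 0 < |(n : ℝ)| := abs_pos.2 (Int.cast_ne_zero.2 hn)
      have h1 : |(n : ℝ)| ^ (3 / 2 : ℝ) ≤ (1 + (n : ℝ) ^ 2) ^ (3 / 4 : ℝ) := by
        calc |(n : ℝ)| ^ (3 / 2 : ℝ) = (|(n : ℝ)| ^ (2 : ℝ)) ^ (3 / 4 : ℝ) := by
              rw [← Real.rpow_mul hn'.le]; norm_num
          _ ≤ _ := by
              refine Real.rpow_le_rpow (by positivity) ?_ (by norm_num)
              rw [Real.rpow_two, sq_abs]; linarith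
      rw [if_neg hn, zero_add, Real.rpow_neg hn'.le]
      exact inv_anti₀ (Real.rpow_pos_of_pos hn' _) h1
  refine (summable_prod_coord (fun n => by positivity) hg).of_nonneg_of_le
    (fun k => inv_nonneg.2 (pow_nonneg (wgt_pos k).le _)) fun k => ?_
  rw [Finset.prod_inv_distrib]
  refine inv_anti₀ (Finset.prod_pos fun i _ => by positivity) ?_
  calc ∏ i, (1 + (k i : ℝ) ^ 2) ^ (3 / 4 : ℝ) ≤ ∏ _i : Fin 4, wgt k ^ (3 / 4 : ℝ) :=
        Finset.prod_le_prod (fun i _ => by positivity) fun i _ =>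
          Real.rpow_le_rpow (by positivity) (one_add_sq_le_wgt k i) (by norm_num)
    _ = wgt k ^ 3 := by
        rw [Finset.prod_const, Finset.card_univ, Fintype.card_fin, ← Real.rpow_natCast,
          ← Real.rpow_mul (wgt_pos k).le, ← Real.rpow_natCast]
        norm_num

theorem summable_inv_wgt {s : ℕ} (hs : 3 ≤ s) : Summable fun k => (wgt k ^ s)⁻¹ :=
  summable_inv_wgt_pow.of_nonneg_of_le (fun k => inv_nonneg.2 (pow_nonneg (wgt_pos k).le _))
    fun k => inv_anti₀ (pow_pos (wgt_pos k) _) (pow_le_pow_right₀ (one_le_wgt k) hs)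

theorem hsq_nonneg (s : ℕ) (c : K → ℂ) : 0 ≤ hsq s c :=
  tsum_nonneg fun k => mul_nonneg (pow_nonneg (wgt_pos k).le _) (sq_nonneg _)

theorem MemH.mono {s t : ℕ} {c : K → ℂ} (h : MemH t c) (hst : s ≤ t) : MemH s c :=
  h.of_nonneg_of_le (fun k => mul_nonneg (pow_nonneg (wgt_pos k).le _) (sq_nonneg _)) fun k =>
    mul_le_mul_of_nonneg_right (pow_le_pow_right₀ (one_le_wgt k) hst) (sq_nonneg _)

theorem hsq_mono {s t : ℕ} {c : K → ℂ} (h : MemH t c) (hst : s ≤ t) : hsq s c ≤ hsq t c :=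
  (h.mono hst).tsum_le_tsum (fun k =>
    mul_le_mul_of_nonneg_right (pow_le_pow_right₀ (one_le_wgt k) hst) (sq_nonneg _)) h

/-- Cauchy–Schwarz against the summable weights. -/
theorem summable_wgt_mul_norm {m : ℕ} {c : K → ℂ} (h : MemH (2 * m + 3) c) :
    (Summable fun k => wgt k ^ m * ‖c k‖) ∧
      (∑' k, wgt k ^ m * ‖c k‖) ^ 2 ≤ (∑' k, (wgt k ^ 3)⁻¹) * hsq (2 * m + 3) c := by
  have hb : ∀ s : Finset K, (∑ k ∈ s, wgt k ^ m * ‖c k‖) ^ 2 ≤
      (∑' k, (wgt k ^ 3)⁻¹) * hsq (2 * m + 3) c := fun s => by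
    have h1 : (∑ k ∈ s, wgt k ^ m * ‖c k‖) ^ 2 ≤
        (∑ k ∈ s, (wgt k ^ 3)⁻¹) * ∑ k ∈ s, wgt k ^ (2 * m + 3) * ‖c k‖ ^ 2 := by
      refine Finset.sum_sq_le_sum_mul_sum_of_sq_le_mul s
        (fun k _ => inv_nonneg.2 (pow_nonneg (wgt_pos k).le _))
        (fun k _ => mul_nonneg (pow_nonneg (wgt_pos k).le _) (sq_nonneg _)) fun k _ => ?_
      have := (wgt_pos k).ne'
      rw [pow_add (wgt k), pow_mul']
      field_simp
      exact le_rfl
    refine h1.trans (mul_le_mul ?_ ?_ ?_ (tsum_nonneg fun k =>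
      inv_nonneg.2 (pow_nonneg (wgt_pos k).le _)))
    · exact summable_inv_wgt_pow.sum_le_tsum _ fun k _ =>
        inv_nonneg.2 (pow_nonneg (wgt_pos k).le _)
    · exact h.sum_le_tsum _ fun k _ => mul_nonneg (pow_nonneg (wgt_pos k).le _) (sq_nonneg _)
    · exact Finset.sum_nonneg fun k _ => mul_nonneg (pow_nonneg (wgt_pos k).le _) (sq_nonneg _)
  have hnn : ∀ k, 0 ≤ wgt k ^ m * ‖c k‖ := fun k =>
    mul_nonneg (pow_nonneg (wgt_pos k).le _) (norm_nonneg _)
  have hB : ∀ s : Finset K, ∑ k ∈ s, wgt k ^ m * ‖c k‖ ≤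
      Real.sqrt ((∑' k, (wgt k ^ 3)⁻¹) * hsq (2 * m + 3) c) := fun s =>
    (le_abs_self _).trans (Real.abs_le_sqrt (hb s))
  refine ⟨summable_of_sum_le hnn hB, ?_⟩
  have h0 : 0 ≤ (∑' k, (wgt k ^ 3)⁻¹) * hsq (2 * m + 3) c := by
    exact (sq_nonneg _).trans (hb ∅)
  calc (∑' k, wgt k ^ m * ‖c k‖) ^ 2
      ≤ Real.sqrt ((∑' k, (wgt k ^ 3)⁻¹) * hsq (2 * m + 3) c) ^ 2 :=
        pow_le_pow_left₀ (tsum_nonneg hnn) (Real.tsum_le_of_sum_le hnn hB) _
    _ = _ := Real.sq_sqrt h0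

/-! ### Young's inequality and commutators -/

/-- Young's inequality for real sequences. -/
theorem young_real {a b : K → ℝ} (ha0 : ∀ k, 0 ≤ a k) (ha : Summable a)
    (hb : Summable fun k => b k ^ 2) :
    (∀ k, Summable fun l => a (k - l) * |b l|) ∧
      (Summable fun k => (∑' l, a (k - l) * |b l|) ^ 2) ∧
      ∑' k, (∑' l, a (k - l) * |b l|) ^ 2 ≤ (∑' k, a k) ^ 2 * ∑' k, b k ^ 2 := by
  set A := ∑' k, a k
  set B := ∑' k, b k ^ 2
  have hA : 0 ≤ A := tsum_nonneg ha0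
  have hsh : ∀ k, Summable fun l => a (k - l) := fun k => (Equiv.subLeft k).summable_iff.2 ha
  have hAk : ∀ k, ∑' l, a (k - l) = A := fun k => (Equiv.subLeft k).tsum_eq a
  have hb2 : ∀ k, Summable fun l => a (k - l) * b l ^ 2 := fun k =>
    (hb.mul_left A).of_nonneg_of_le (fun l => mul_nonneg (ha0 _) (sq_nonneg _)) fun l =>
      mul_le_mul_of_nonneg_right (ha.le_tsum _ fun j _ => ha0 j) (sq_nonneg _)
  have h1 : ∀ k, Summable fun l => a (k - l) * |b l| := fun k =>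
    ((hsh k).add (hb2 k)).of_nonneg_of_le (fun l => mul_nonneg (ha0 _) (abs_nonneg _)) fun l => by
      rw [← sq_abs (b l)]
      nlinarith [ha0 (k - l), abs_nonneg (b l), sq_nonneg (|b l| - 1)]
  have hpt : ∀ k, (∑' l, a (k - l) * |b l|) ^ 2 ≤ A * ∑' l, a (k - l) * b l ^ 2 := fun k => by
    have hs : ∀ s : Finset K, ∑ l ∈ s, a (k - l) * |b l| ≤
        Real.sqrt (A * ∑' l, a (k - l) * b l ^ 2) := fun s => by
      refine (le_abs_self _).trans (Real.abs_le_sqrt ?_)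
      refine (Finset.sum_sq_le_sum_mul_sum_of_sq_le_mul s (fun l _ => ha0 (k - l))
        (fun l _ => mul_nonneg (ha0 (k - l)) (sq_nonneg (b l))) fun l _ => ?_).trans ?_
      · rw [mul_pow, sq_abs]; ring_nf; exact le_rfl
      · refine mul_le_mul ?_ ((hb2 k).sum_le_tsum _ fun l _ => mul_nonneg (ha0 _) (sq_nonneg _))
          (Finset.sum_nonneg fun l _ => mul_nonneg (ha0 _) (sq_nonneg _)) hA
        rw [← hAk k]
        exact (hsh k).sum_le_tsum _ fun l _ => ha0 _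
    calc (∑' l, a (k - l) * |b l|) ^ 2 ≤ Real.sqrt (A * ∑' l, a (k - l) * b l ^ 2) ^ 2 :=
          pow_le_pow_left₀ (tsum_nonneg fun l => mul_nonneg (ha0 _) (abs_nonneg _))
            (Real.tsum_le_of_sum_le (fun l => mul_nonneg (ha0 _) (abs_nonneg _)) hs) _
      _ = _ := Real.sq_sqrt
            (mul_nonneg hA (tsum_nonneg fun l => mul_nonneg (ha0 _) (sq_nonneg _)))
  have hsum : ∀ s : Finset K, ∑ k ∈ s, (∑' l, a (k - l) * |b l|) ^ 2 ≤ A ^ 2 * B := fun s => by
    refine (Finset.sum_le_sum fun k _ => hpt k).trans ?_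
    rw [← Finset.mul_sum, ← Summable.tsum_finsetSum fun k _ => hb2 k, sq, mul_assoc]
    refine mul_le_mul_of_nonneg_left ?_ hA
    rw [← tsum_mul_left]
    refine (summable_sum fun k _ => hb2 k).tsum_le_tsum (fun l => ?_) (hb.mul_left A)
    rw [← Finset.sum_mul]
    refine mul_le_mul_of_nonneg_right ?_ (sq_nonneg _)
    calc ∑ k ∈ s, a (k - l) = ∑ j ∈ s.map (Equiv.subRight l).toEmbedding, a j := by
          rw [Finset.sum_map]; rfl
      _ ≤ A := ha.sum_le_tsum _ fun j _ => ha0 j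
  exact ⟨h1, summable_of_sum_le (fun k => sq_nonneg _) hsum,
    Real.tsum_le_of_sum_le (fun k => sq_nonneg _) hsum⟩

/-- A kernel dominated by a convolution kernel is bounded on square summable sequences. -/
theorem kernel_bound {w : K → ℝ} (hw0 : ∀ k, 0 ≤ w k) (hw : Summable w) {b : K → ℝ}
    (hb : Summable fun k => b k ^ 2) {A : K → K → ℂ} (hA : ∀ k l, ‖A k l‖ ≤ w (k - l) * |b l|) :
    (∀ k, Summable (A k)) ∧ MemH 0 (fun k => ∑' l, A k l) ∧
      hsq 0 (fun k => ∑' l, A k l) ≤ (∑' k, w k) ^ 2 * ∑' k, b k ^ 2 := by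
  obtain ⟨h1, h2, h3⟩ := young_real hw0 hw hb
  have hA1 : ∀ k, Summable (A k) := fun k => .of_norm_bounded (h1 k) (hA k)
  have hle : ∀ k, wgt k ^ 0 * ‖∑' l, A k l‖ ^ 2 ≤ (∑' l, w (k - l) * |b l|) ^ 2 := fun k => by
    rw [pow_zero, one_mul]
    exact pow_le_pow_left₀ (norm_nonneg _)
      (tsum_of_norm_bounded (h1 k).hasSum (hA k)) _
  have hm : MemH 0 (fun k => ∑' l, A k l) :=
    h2.of_nonneg_of_le (fun k => by positivity) hle
  exact ⟨hA1, hm, (hm.tsum_le_tsum hle h2).trans h3⟩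

/-- Convolution with an absolutely summable sequence is bounded. -/
theorem hsq_cconv_le {a c : K → ℂ} (ha : Summable fun k => ‖a k‖) (hc : MemH 0 c) :
    (∀ k, Summable fun l => a (k - l) * c l) ∧ MemH 0 (cconv a c) ∧
      hsq 0 (cconv a c) ≤ (∑' k, ‖a k‖) ^ 2 * hsq 0 c := by
  have hb : Summable fun k => ‖c k‖ ^ 2 := hc.congr fun k => by simp
  obtain ⟨h1, h2, h3⟩ := kernel_bound (w := fun k => ‖a k‖) (fun _ => norm_nonneg _) ha
    (b := fun k => ‖c k‖) hb (A := fun k l => a (k - l) * c l)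
    (fun k l => by rw [norm_mul, abs_norm])
  refine ⟨h1, h2, h3.trans (le_of_eq ?_)⟩
  simp [hsq]

theorem summable_cconv_of_wgt {a c : K → ℂ} {s : ℕ} (ha : Summable fun k => wgt k ^ s * ‖a k‖)
    {C : ℝ} (hc : ∀ k, ‖c k‖ ≤ C * wgt k ^ s) (k : K) :
    Summable fun l => a (k - l) * c l := by
  have hC : 0 ≤ C := nonneg_of_mul_nonneg_left ((norm_nonneg _).trans (hc k))
    (pow_pos (wgt_pos k) s)
  refine .of_norm_bounded (g := fun l => C * (2 * wgt k) ^ s * (wgt (k - l) ^ s * ‖a (k - l)‖))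
    ((((Equiv.subLeft k).summable_iff.2 ha)).mul_left _) fun l => ?_
  have h1 : wgt l ≤ 2 * wgt k * wgt (k - l) := by
    have := wgt_add_le k (-(k - l))
    rw [wgt_neg] at this
    rwa [show k + -(k - l) = l by abel] at this
  calc ‖a (k - l) * c l‖ ≤ ‖a (k - l)‖ * (C * wgt l ^ s) := by
        rw [norm_mul]; exact mul_le_mul_of_nonneg_left (hc l) (norm_nonneg _)
    _ ≤ ‖a (k - l)‖ * (C * (2 * wgt k * wgt (k - l)) ^ s) := by
        gcongr
        exact (wgt_pos l).le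
    _ = _ := by rw [mul_pow]; ring

/-- The commutator of a multiplier and a convolution. -/
theorem commutator_bound {a c : K → ℂ} {m W P : K → ℝ} (hP : ∀ k, 0 ≤ P k)
    (hm : ∀ k l, |m k - m l| ≤ P (k - l) * W l) (ha : Summable fun k => ‖a k‖ * P k)
    (hc : MemH 0 (mult W c)) :
    (∀ k, Summable fun l => a (k - l) * (((m k - m l : ℝ) : ℂ) * c l)) ∧
      MemH 0 (fun k => ∑' l, a (k - l) * (((m k - m l : ℝ) : ℂ) * c l)) ∧
      hsq 0 (fun k => ∑' l, a (k - l) * (((m k - m l : ℝ) : ℂ) * c l))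
        ≤ (∑' k, ‖a k‖ * P k) ^ 2 * hsq 0 (mult W c) := by
  have hb : Summable fun k => ‖mult W c k‖ ^ 2 := hc.congr fun k => by simp
  obtain ⟨h1, h2, h3⟩ := kernel_bound (w := fun k => ‖a k‖ * P k)
    (fun k => mul_nonneg (norm_nonneg _) (hP k)) ha
    (b := fun k => ‖mult W c k‖) hb (A := fun k l => a (k - l) * (((m k - m l : ℝ) : ℂ) * c l))
    (fun k l => by
      rw [norm_mul, norm_mul, Complex.norm_real, Real.norm_eq_abs, abs_norm, mult, norm_mul,
        Complex.norm_real, Real.norm_eq_abs, mul_assoc]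
      refine mul_le_mul_of_nonneg_left ?_ (norm_nonneg _)
      calc |m k - m l| * ‖c l‖ ≤ P (k - l) * |W l| * ‖c l‖ :=
            mul_le_mul_of_nonneg_right ((hm k l).trans
              (mul_le_mul_of_nonneg_left (le_abs_self _) (hP _))) (norm_nonneg _)
        _ = _ := mul_assoc _ _ _)
  refine ⟨h1, h2, h3.trans (le_of_eq ?_)⟩
  simp [hsq]

/-- The commutator series is the difference of the two compositions. -/
theorem mult_cconv_sub {a c : K → ℂ} (m : K → ℝ) {k : K}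
    (h1 : Summable fun l => a (k - l) * c l) (h2 : Summable fun l => a (k - l) * mult m c l) :
    mult m (cconv a c) k - cconv a (mult m c) k
      = ∑' l, a (k - l) * (((m k - m l : ℝ) : ℂ) * c l) := by
  rw [mult, cconv, cconv, ← tsum_mul_left, ← (h1.mul_left _).tsum_sub h2]
  refine tsum_congr fun l => ?_
  simp only [mult]
  push_cast
  ring

end Vale.Agent.P204.Tame
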