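import Vale.Agent.P204.Tame.FourierConv

/-!
Smooth periodic functions and their Fourier series, products, Sobolev bounds, Rellich.
-/

namespace Vale.Agent.P204.Tame

open scoped ContDiff ComplexConjugate Topology
open MeasureTheory Set Filter

/-- The function with given coefficients. -/
noncomputable def toFun (c : K → ℂ) (x : E) : ℝ := (∑' k, c k * chi k x).re

theorem pd_contDiff {f : E → ℝ} (hf : ContDiff ℝ ∞ f) (j : Fin 4) : ContDiff ℝ ∞ (pd j f) := by
  unfold pd
  exact (hf.fderiv_right (by simp)).clm_apply contDiff_const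

/-- The weight times the coefficients is the coefficient of a differential operator. -/
theorem exists_coeff_wgt {f : E → ℝ} (hf : ContDiff ℝ ∞ f) (hp : Per f) :
    ∀ s : ℕ, ∃ g : E → ℝ, ContDiff ℝ ∞ g ∧ Per g ∧
      ∀ k, coeff g k = ((wgt k ^ s : ℝ) : ℂ) * coeff f k := by
  intro s
  induction s with
  | zero => exact ⟨f, hf, hp, fun k => by simp⟩
  | succ s ih =>
    obtain ⟨g, hg, hgp, hgc⟩ := ih
    set r : ℝ := -((2 * Real.pi) ^ 2)⁻¹ with hr
    have h2 : ∀ j, ContDiff ℝ ∞ (pd j (pd j g)) := fun j => pd_contDiff (pd_contDiff hg j) j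
    refine ⟨fun x => g x + r * ∑ j, pd j (pd j g) x,
      hg.add (contDiff_const.mul (ContDiff.sum fun j _ => h2 j)), ?_, fun k => ?_⟩
    · intro x i
      simp only [hgp x i]
      congr 2
      exact Finset.sum_congr rfl fun j _ => (hgp.pd_per j).pd_per j x i
    · have hi : ∀ j, IntegrableOn (pd j (pd j g)) cube := fun j =>
        integrableOn_cube (h2 j).continuous
      have hcs : coeff (fun x => ∑ j, pd j (pd j g) x) k = ∑ j, coeff (pd j (pd j g)) k := by
        simp only [Fin.sum_univ_four]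
        have h01 : IntegrableOn (fun x => pd 0 (pd 0 g) x + pd 1 (pd 1 g) x) cube :=
          (hi 0).add (hi 1)
        have h012 : IntegrableOn
            (fun x => pd 0 (pd 0 g) x + pd 1 (pd 1 g) x + pd 2 (pd 2 g) x) cube := h01.add (hi 2)
        rw [coeff_add h012 (hi 3), coeff_add h01 (hi 2), coeff_add (hi 0) (hi 1)]
      have hsum : IntegrableOn (fun x => ∑ j, pd j (pd j g) x) cube :=
        integrable_finsetSum _ fun j _ => hi j
      rw [coeff_add (integrableOn_cube hg.continuous) (hsum.const_mul r), coeff_const_mul, hcs,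
        Finset.sum_congr rfl fun j _ => by
          rw [coeff_pd ((pd_contDiff hg j).of_le (by simp)) (hgp.pd_per j),
            coeff_pd (hg.of_le (by simp)) hgp]]
      have hj : ∀ j : Fin 4, ((2 * Real.pi * k j : ℝ) : ℂ) * Complex.I *
          (((2 * Real.pi * k j : ℝ) : ℂ) * Complex.I * coeff g k) =
          (((-((2 * Real.pi) ^ 2)) * (k j : ℝ) ^ 2 : ℝ) : ℂ) * coeff g k := fun j => by
        push_cast
        ring_nf
        rw [Complex.I_sq]
        ring
      simp only [hj]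
      rw [← Finset.sum_mul, ← Complex.ofReal_sum, ← Finset.mul_sum, hr, ← mul_assoc,
        ← Complex.ofReal_mul, hgc, ← mul_assoc, ← add_mul, ← Complex.ofReal_mul,
        ← Complex.ofReal_add]
      congr 2
      have := Real.pi_pos.ne'
      rw [pow_succ]
      unfold wgt
      field_simp
      ring

theorem summable_wgt_coeff {f : E → ℝ} (hf : ContDiff ℝ ∞ f) (hp : Per f) (s : ℕ) :
    Summable fun k => wgt k ^ s * ‖coeff f k‖ := by
  obtain ⟨g, hg, -, hgc⟩ := exists_coeff_wgt hf hp (s + 3)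
  refine (summable_inv_wgt_pow.mul_right (∫ x in cube, |g x|)).of_nonneg_of_le
    (fun k => mul_nonneg (pow_nonneg (wgt_pos k).le _) (norm_nonneg _)) fun k => ?_
  have h := norm_coeff_le g k
  rw [hgc, norm_mul, Complex.norm_real, Real.norm_eq_abs,
    abs_of_pos (pow_pos (wgt_pos k) _), pow_add, mul_comm (wgt k ^ s), mul_assoc] at h
  rwa [← inv_mul_le_iff₀ (inv_pos.2 (pow_pos (wgt_pos k) 3)), inv_inv]

theorem summable_coeff {f : E → ℝ} (hf : ContDiff ℝ ∞ f) (hp : Per f) :
    Summable fun k => ‖coeff f k‖ := (summable_wgt_coeff hf hp 0).congr fun k => by simp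

theorem memH_coeff {f : E → ℝ} (hf : ContDiff ℝ ∞ f) (hp : Per f) (s : ℕ) :
    MemH s (coeff f) := by
  obtain ⟨g, hg, -, hgc⟩ := exists_coeff_wgt hf hp s
  refine (hasSum_sq_coeff hg.continuous.measurable (memLp_of_continuous hg.continuous 2)).summable
    |>.of_nonneg_of_le (fun k => mul_nonneg (pow_nonneg (wgt_pos k).le _) (sq_nonneg _)) fun k => ?_
  rw [hgc, norm_mul, Complex.norm_real, Real.norm_eq_abs, mul_pow, sq_abs]
  exact mul_le_mul_of_nonneg_right
    (le_self_pow₀ (one_le_pow₀ (one_le_wgt k)) (by norm_num)) (sq_nonneg _)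

/-- The Fourier series converges to the function. -/
theorem hasSum_coeff_chi {f : E → ℝ} (hf : Continuous f) (hp : Per f)
    (hs : Summable fun k => ‖coeff f k‖) (x : E) :
    HasSum (fun k => coeff f k * chi k x) (f x : ℂ) := by
  let F : C(UnitAddTorus (Fin 4), ℂ) :=
    ⟨fun t => ((f (rep t) : ℝ) : ℂ), Complex.continuous_ofReal.comp (continuous_comp_rep hf hp)⟩
  have hc : UnitAddTorus.mFourierCoeff F = coeff f := funext fun k => mFourierCoeff_rep f k
  have h := UnitAddTorus.hasSum_mFourier_series_apply_of_summable (f := F)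
    (by rw [hc]; exact hs.of_norm) (toT x)
  simp only [hc, mFourier_toT, smul_eq_mul] at h
  have hx : F (toT x) = (f x : ℂ) := congrArg Complex.ofReal (hp.rep_eq x)
  rwa [hx] at h

theorem eq_toFun_coeff {f : E → ℝ} (hf : ContDiff ℝ ∞ f) (hp : Per f) : f = toFun (coeff f) :=
  funext fun x => by
    rw [toFun, (hasSum_coeff_chi hf.continuous hp (summable_coeff hf hp) x).tsum_eq,
      Complex.ofReal_re]

theorem abs_le_tsum_coeff {f : E → ℝ} (hf : ContDiff ℝ ∞ f) (hp : Per f) (x : E) :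
    |f x| ≤ ∑' k, ‖coeff f k‖ := by
  rw [← Real.norm_eq_abs, ← Complex.norm_real,
    ← (hasSum_coeff_chi hf.continuous hp (summable_coeff hf hp) x).tsum_eq]
  refine tsum_of_norm_bounded (summable_coeff hf hp).hasSum fun k => ?_
  simp

/-- Sobolev: values are bounded by the weighted norm of order three. -/
theorem sq_le_hsq {f : E → ℝ} (hf : ContDiff ℝ ∞ f) (hp : Per f) (x : E) :
    f x ^ 2 ≤ (∑' k, (wgt k ^ 3)⁻¹) * hsq 3 (coeff f) := by
  have h := (summable_wgt_mul_norm (m := 0) (memH_coeff hf hp 3)).2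
  simp only [pow_zero, one_mul, mul_zero, zero_add] at h
  exact (sq_abs (f x) ▸ pow_le_pow_left₀ (abs_nonneg _) (abs_le_tsum_coeff hf hp x) 2).trans h

/-- Sobolev: first derivatives are bounded by the weighted norm of order four. -/
theorem sq_pd_le_hsq {f : E → ℝ} (hf : ContDiff ℝ ∞ f) (hp : Per f) (j : Fin 4) (x : E) :
    pd j f x ^ 2 ≤ (2 * Real.pi) ^ 2 * (∑' k, (wgt k ^ 3)⁻¹) * hsq 4 (coeff f) := by
  refine (sq_le_hsq (pd_contDiff hf j) (hp.pd_per j) x).trans ?_
  rw [mul_comm ((2 * Real.pi) ^ 2), mul_assoc]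
  refine mul_le_mul_of_nonneg_left ?_ (tsum_nonneg fun k =>
    inv_nonneg.2 (pow_nonneg (wgt_pos k).le _))
  rw [hsq, hsq, ← tsum_mul_left]
  refine (memH_coeff (pd_contDiff hf j) (hp.pd_per j) 3).tsum_le_tsum (fun k => ?_)
    ((memH_coeff hf hp 4).mul_left _)
  rw [coeff_pd (hf.of_le (by simp)) hp, norm_mul, norm_mul, Complex.norm_I, mul_one,
    Complex.norm_real, Real.norm_eq_abs, mul_pow, sq_abs]
  have h1 := one_add_sq_le_wgt k j
  have h2 : 0 ≤ wgt k ^ 3 * ‖coeff f k‖ ^ 2 :=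
    mul_nonneg (pow_nonneg (wgt_pos k).le _) (sq_nonneg _)
  calc wgt k ^ 3 * ((2 * Real.pi * (k j : ℝ)) ^ 2 * ‖coeff f k‖ ^ 2)
      = (2 * Real.pi) ^ 2 * (k j : ℝ) ^ 2 * (wgt k ^ 3 * ‖coeff f k‖ ^ 2) := by ring
    _ ≤ (2 * Real.pi) ^ 2 * wgt k * (wgt k ^ 3 * ‖coeff f k‖ ^ 2) := by
        gcongr
        linarith
    _ = _ := by ring

/-- The coefficients of a product. -/
theorem coeff_mul {Q f : E → ℝ} (hQ : ContDiff ℝ ∞ Q) (hQp : Per Q)
    (hf : IntegrableOn f cube) (k : K) :
    coeff (fun x => Q x * f x) k = cconv (coeff Q) (coeff f) k := by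
  have hs := summable_coeff hQ hQp
  have hint : ∀ l, Integrable (fun x => coeff Q l * chi (l - k) x * (f x : ℂ))
      (volume.restrict cube) := fun l => by
    simp only [mul_assoc]
    exact (integrableOn_chi_mul (l - k) hf).const_mul _
  have hsum : Summable fun l => ∫ x in cube, ‖coeff Q l * chi (l - k) x * (f x : ℂ)‖ := by
    simp only [norm_mul, norm_chi, mul_one, Complex.norm_real, integral_const_mul]
    exact hs.mul_right _
  have h := integral_tsum_of_summable_integral_norm hint hsum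
  have hpt : ∀ x, (∑' l, coeff Q l * chi (l - k) x * (f x : ℂ)) =
      chi (-k) x * ((Q x * f x : ℝ) : ℂ) := fun x => by
    have h1 : ∀ l, coeff Q l * chi (l - k) x * (f x : ℂ) =
        coeff Q l * chi l x * (chi (-k) x * (f x : ℂ)) := fun l => by
      rw [sub_eq_add_neg, chi_add_freq]; ring
    simp only [h1]
    rw [tsum_mul_right, (hasSum_coeff_chi hQ.continuous hQp hs x).tsum_eq]
    push_cast
    ring
  simp only [hpt] at h
  unfold cconv
  rw [← (Equiv.subLeft k).tsum_eq fun l => coeff Q (k - l) * coeff f l, coeff, ← h]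
  refine tsum_congr fun l => ?_
  simp only [Equiv.subLeft_apply, sub_sub_cancel]
  unfold coeff
  rw [← integral_const_mul]
  congr 1
  funext x
  rw [neg_sub]
  ring

theorem iteratedDeriv_exp_I (n : ℕ) :
    iteratedDeriv n (fun t : ℝ => Complex.exp ((t : ℂ) * Complex.I)) =
      fun t : ℝ => Complex.I ^ n * Complex.exp ((t : ℂ) * Complex.I) := by
  induction n with
  | zero => simp
  | succ n ih =>
    rw [iteratedDeriv_succ, ih]
    funext t
    refine HasDerivAt.deriv ?_
    have h := ((Complex.ofRealCLM.hasDerivAt (x := t)).mul_const Complex.I).cexp.const_mul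
      (Complex.I ^ n)
    simp only [Complex.ofRealCLM_apply, Complex.ofReal_one, one_mul] at h
    exact h.congr_deriv (by rw [pow_succ]; ring)

theorem norm_iteratedFDeriv_chi_le (k : K) (n : ℕ) (x : E) :
    ‖iteratedFDeriv ℝ n (chi k) x‖ ≤ (8 * Real.pi * wgt k) ^ n := by
  set L : E →L[ℝ] ℝ := ∑ i, (2 * Real.pi * (k i : ℝ)) • ContinuousLinearMap.proj (R := ℝ) i with hL
  have hcomp : chi k = (fun t : ℝ => Complex.exp ((t : ℂ) * Complex.I)) ∘ L := by
    funext y
    simp [chi, hL, Finset.mul_sum, mul_assoc]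
  have hnL : ‖L‖ ≤ 8 * Real.pi * wgt k := by
    refine L.opNorm_le_bound (by have := wgt_pos k; positivity) fun y => ?_
    simp only [hL, sum_apply, smul_apply, ContinuousLinearMap.proj_apply, smul_eq_mul, Real.norm_eq_abs]
    refine (Finset.abs_sum_le_sum_abs _ _).trans ?_
    calc ∑ i, |2 * Real.pi * (k i : ℝ) * y i| ≤ ∑ _i : Fin 4, 2 * Real.pi * wgt k * ‖y‖ :=
          Finset.sum_le_sum fun i _ => by
            rw [abs_mul, abs_mul, abs_of_nonneg (by positivity)]
            gcongr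
            · have := wgt_pos k; positivity
            · nlinarith [one_add_sq_le_wgt k i, sq_abs (k i : ℝ), sq_nonneg (|(k i : ℝ)| - 1)]
            · exact norm_le_pi_norm y i
      _ = _ := by simp; ring
  have hg : ContDiff ℝ n fun t : ℝ => Complex.exp ((t : ℂ) * Complex.I) :=
    (Complex.ofRealCLM.contDiff.mul contDiff_const).cexp
  rw [hcomp, L.iteratedFDeriv_comp_right hg x le_rfl]
  refine (ContinuousMultilinearMap.norm_compContinuousLinearMap_le _ _).trans ?_
  rw [norm_iteratedFDeriv_eq_norm_iteratedDeriv, iteratedDeriv_exp_I, norm_mul, norm_pow,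
    Complex.norm_I, Complex.norm_exp_ofReal_mul_I, one_pow, one_mul, one_mul, Finset.prod_const,
    Finset.card_univ, Fintype.card_fin]
  exact pow_le_pow_left₀ (norm_nonneg _) hnL n

theorem summable_chi {c : K → ℂ} (hc : Summable fun k => ‖c k‖) (x : E) :
    Summable fun k => c k * chi k x :=
  .of_norm (hc.congr fun k => by simp)

/-- Rapidly decreasing coefficients give a smooth function. -/
theorem contDiff_toFun {c : K → ℂ} (hc : ∀ s : ℕ, Summable fun k => wgt k ^ s * ‖c k‖) :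
    ContDiff ℝ ∞ (toFun c) := by
  have h : ContDiff ℝ ∞ fun x => ∑' k, c k * chi k x := by
    refine contDiff_tsum (v := fun n k => (8 * Real.pi) ^ n * (wgt k ^ n * ‖c k‖))
      (fun k => contDiff_const.mul (contDiff_chi k)) (fun n _ => (hc n).mul_left _)
      fun n k x _ => ?_
    rw [show (fun x => c k * chi k x) = fun x => c k • chi k x from rfl,
      iteratedFDeriv_const_smul_apply' (contDiff_chi k).contDiffAt, norm_smul]
    calc ‖c k‖ * ‖iteratedFDeriv ℝ n (chi k) x‖ ≤ ‖c k‖ * (8 * Real.pi * wgt k) ^ n :=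
          mul_le_mul_of_nonneg_left (norm_iteratedFDeriv_chi_le k n x) (norm_nonneg _)
      _ = _ := by rw [mul_pow]; ring
  exact Complex.reCLM.contDiff.comp h

theorem per_toFun (c : K → ℂ) : Per (toFun c) := fun x i => by
  simp only [toFun, per_chi _ x i]

theorem integral_chi (k : K) : ∫ x in cube, chi k x = if k = 0 then 1 else 0 := by
  split_ifs with h
  · subst h
    have h1 : ∀ x, chi 0 x = 1 := fun x => by simp [chi]
    simp [h1, Measure.real, volume_cube]
  · obtain ⟨j, hj⟩ := Function.ne_iff.1 h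
    have h2 := integral_pd_eq_zero (contDiff_chi (n := 1) k) (per_chi k) j
    simp only [fderiv_chi] at h2
    rw [integral_const_mul] at h2
    refine (mul_eq_zero.1 h2).resolve_left (mul_ne_zero ?_ Complex.I_ne_zero)
    rw [Complex.ofReal_ne_zero]
    exact mul_ne_zero (by positivity) (Int.cast_ne_zero.2 hj)

/-- A symmetric summable sequence is the coefficient sequence of its function. -/
theorem coeff_toFun {c : K → ℂ} (hc : Summable fun k => ‖c k‖) (hs : ∀ k, c (-k) = conj (c k))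
    (k : K) : coeff (toFun c) k = c k := by
  have hre : ∀ x, ((toFun c x : ℝ) : ℂ) = ∑' l, c l * chi l x := fun x => by
    refine Complex.conj_eq_iff_re.1 ?_
    rw [Complex.conj_tsum, ← (Equiv.neg K).tsum_eq]
    refine tsum_congr fun l => ?_
    rw [Equiv.neg_apply, map_mul, ← hs, neg_neg, conj_chi, neg_neg]
  have hint : ∀ l, Integrable (fun x => chi (-k) x * (c l * chi l x)) (volume.restrict cube) :=
    fun l => integrableOn_cube ((continuous_chi _).mul (continuous_const.mul (continuous_chi _)))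
  have hsum : Summable fun l => ∫ x in cube, ‖chi (-k) x * (c l * chi l x)‖ := by
    simp only [norm_mul, norm_chi, mul_one, one_mul, integral_const]
    exact hc.mul_left _
  unfold coeff
  simp only [hre, ← tsum_mul_left]
  rw [← integral_tsum_of_summable_integral_norm hint hsum, tsum_eq_single k fun l hl => ?_]
  · simp only [mul_left_comm _ (c k), chi_neg_mul_self, mul_one]
    simp [Measure.real, volume_cube]
  · simp only [mul_left_comm _ (c l), ← chi_add_freq]
    rw [integral_const_mul, integral_chi, if_neg, mul_zero]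
    exact fun h => hl (neg_add_eq_zero.1 h).symm

theorem wgt_mul_sub_sq_le (s : ℕ) (c d : K → ℂ) (k : K) : wgt k ^ s * ‖c k - d k‖ ^ 2 ≤
    2 * (wgt k ^ s * ‖c k‖ ^ 2 + wgt k ^ s * ‖d k‖ ^ 2) := by
  have h1 : ‖c k - d k‖ ^ 2 ≤ 2 * (‖c k‖ ^ 2 + ‖d k‖ ^ 2) :=
    (pow_le_pow_left₀ (norm_nonneg _) (norm_sub_le _ _) 2).trans (add_sq_le ..)
  calc wgt k ^ s * ‖c k - d k‖ ^ 2 ≤ wgt k ^ s * (2 * (‖c k‖ ^ 2 + ‖d k‖ ^ 2)) :=
        mul_le_mul_of_nonneg_left h1 (pow_nonneg (wgt_pos k).le _)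
    _ = _ := by ring

theorem MemH.sub {s : ℕ} {c d : K → ℂ} (hc : MemH s c) (hd : MemH s d) :
    MemH s (fun k => c k - d k) :=
  ((hc.add hd).mul_left 2).of_nonneg_of_le
    (fun k => mul_nonneg (pow_nonneg (wgt_pos k).le _) (sq_nonneg _)) (wgt_mul_sub_sq_le s c d)

theorem hsq_sub_le {s : ℕ} {c d : K → ℂ} (hc : MemH s c) (hd : MemH s d) :
    hsq s (fun k => c k - d k) ≤ 2 * (hsq s c + hsq s d) := by
  refine ((hc.sub hd).tsum_le_tsum (wgt_mul_sub_sq_le s c d) ((hc.add hd).mul_left 2)).trans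
    (le_of_eq ?_)
  rw [tsum_mul_left, hc.tsum_add hd]
  rfl

/-- Outside low frequencies the square sum is small. -/
theorem hsq_zero_le_split {e : K → ℂ} (he : MemH 1 e) {R : ℝ} (hR : 0 < R) {F : Finset K}
    (hF : ∀ k ∉ F, R ≤ wgt k) : hsq 0 e ≤ ∑ k ∈ F, ‖e k‖ ^ 2 + hsq 1 e / R := by
  have hnn : ∀ k, 0 ≤ wgt k ^ 1 * ‖e k‖ ^ 2 / R := fun k =>
    div_nonneg (mul_nonneg (pow_nonneg (wgt_pos k).le _) (sq_nonneg _)) hR.le
  classical
  have hg : Summable fun k => (if k ∈ F then ‖e k‖ ^ 2 else 0) :=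
    summable_of_ne_finset_zero (s := F) fun k hk => if_neg hk
  refine ((he.mono (Nat.zero_le 1)).tsum_le_tsum (g := fun k =>
    (if k ∈ F then ‖e k‖ ^ 2 else 0) + wgt k ^ 1 * ‖e k‖ ^ 2 / R) (fun k => ?_)
    (hg.add (he.div_const R))).trans (le_of_eq ?_)
  · rw [pow_zero, one_mul]
    split_ifs with hk
    · exact le_add_of_nonneg_right (hnn k)
    · rw [zero_add, le_div_iff₀ hR, pow_one, mul_comm]
      exact mul_le_mul_of_nonneg_right (hF k hk) (sq_nonneg _)
  · rw [hg.tsum_add (he.div_const R), tsum_div_const,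
      tsum_eq_sum (s := F) fun k hk => if_neg hk]
    exact congrArg (· + _) (Finset.sum_congr rfl fun k hk => if_pos hk)

/-- Rellich: a bounded sequence in the first weighted space has a convergent subsequence in the
square summable sequences. -/
theorem rellich {c : ℕ → K → ℂ} {B : ℝ} (hm : ∀ n, MemH 1 (c n)) (hB : ∀ n, hsq 1 (c n) ≤ B) :
    ∃ φ : ℕ → ℕ, StrictMono φ ∧ ∃ c₀ : K → ℂ, MemH 1 c₀ ∧ hsq 1 c₀ ≤ B ∧
      (∀ k, Tendsto (fun n => c (φ n) k) atTop (𝓝 (c₀ k))) ∧
      Tendsto (fun n => hsq 0 (fun k => c (φ n) k - c₀ k)) atTop (𝓝 0) := by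
  have hB0 : 0 ≤ B := (hsq_nonneg 1 _).trans (hB 0)
  have hnn : ∀ (d : K → ℂ) k, 0 ≤ wgt k ^ 1 * ‖d k‖ ^ 2 := fun d k =>
    mul_nonneg (pow_nonneg (wgt_pos k).le _) (sq_nonneg _)
  have hk : ∀ n k, ‖c n k‖ ≤ Real.sqrt B := fun n k => by
    refine Real.le_sqrt_of_sq_le ((le_trans ?_ ((hm n).le_tsum k fun j _ => hnn _ j)).trans (hB n))
    exact le_mul_of_one_le_left (sq_nonneg _) (by simpa using one_le_wgt k)
  obtain ⟨c₀, -, φ, hφ, hlim⟩ :=
    (isCompact_univ_pi fun _ : K => isCompact_closedBall (0 : ℂ) (Real.sqrt B)).tendsto_subseq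
      (x := c) fun n k _ => mem_closedBall_zero_iff.2 (hk n k)
  have hpt : ∀ k, Tendsto (fun n => c (φ n) k) atTop (𝓝 (c₀ k)) := tendsto_pi_nhds.1 hlim
  have hfin : ∀ s : Finset K, ∑ k ∈ s, wgt k ^ 1 * ‖c₀ k‖ ^ 2 ≤ B := fun s => by
    refine le_of_tendsto' (tendsto_finsetSum s fun k _ => ((hpt k).norm.pow 2).const_mul _)
      fun n => ?_
    exact ((hm (φ n)).sum_le_tsum _ fun k _ => hnn _ k).trans (hB _)
  have hm0 : MemH 1 c₀ := summable_of_sum_le (hnn c₀) hfin
  refine ⟨φ, hφ, c₀, hm0, Real.tsum_le_of_sum_le (hnn c₀) hfin, hpt, ?_⟩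
  rw [Metric.tendsto_atTop]
  intro η hη
  obtain ⟨R, hR⟩ := exists_nat_gt (8 * B / η + 1)
  have hR0 : 0 < (R : ℝ) := lt_trans (by positivity) hR
  classical
  have hsfin : {k : K | wgt k ≤ R}.Finite := by
    refine ((Fintype.piFinset fun _ : Fin 4 => Finset.Icc (-(R : ℤ)) R).finite_toSet).subset
      fun k hk => Fintype.mem_piFinset.2 fun i => ?_
    have h1 := (one_add_sq_le_wgt k i).trans hk
    have h2 : |(k i : ℝ)| ≤ R := by nlinarith [sq_abs (k i : ℝ), sq_nonneg (|(k i : ℝ)| - 1)]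
    rw [Finset.mem_Icc, ← abs_le, ← Int.cast_le (R := ℝ)]
    push_cast
    exact h2
  have hlow : Tendsto (fun n => ∑ k ∈ hsfin.toFinset, ‖c (φ n) k - c₀ k‖ ^ 2) atTop (𝓝 0) := by
    have := tendsto_finsetSum hsfin.toFinset fun k _ =>
      ((hpt k).sub_const (c₀ k)).norm.pow 2
    simpa using this
  obtain ⟨N, hN⟩ := Metric.tendsto_atTop.1 hlow (η / 2) (by linarith)
  refine ⟨N, fun n hn => ?_⟩
  have hd1 : hsq 1 (fun k => c (φ n) k - c₀ k) ≤ 4 * B := by
    have h1 := hsq_sub_le (hm (φ n)) hm0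
    have h2 : hsq 1 c₀ ≤ B := Real.tsum_le_of_sum_le (hnn c₀) hfin
    have h3 := hB (φ n)
    linarith
  have h0 := hsq_zero_le_split ((hm (φ n)).sub hm0) hR0 (F := hsfin.toFinset) fun k hk =>
    (lt_of_not_ge fun h => hk (hsfin.mem_toFinset.2 h)).le
  have h3 : hsq 1 (fun k => c (φ n) k - c₀ k) / R < η / 2 := by
    rw [div_lt_iff₀ hR0]
    have : 8 * B / η < R := lt_trans (by linarith) hR
    rw [div_lt_iff₀ hη] at this
    nlinarith
  have h4 := hN n hn
  rw [Real.dist_eq, sub_zero, abs_of_nonneg (Finset.sum_nonneg fun _ _ => sq_nonneg _)] at h4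
  rw [Real.dist_eq, sub_zero, abs_of_nonneg (hsq_nonneg _ _)]
  linarith

end Vale.Agent.P204.Tame
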