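import Vale.Agent.P204.Tame.Core

/-!
Normal form of a complex structure on a four-dimensional space and the wedge pairing in it.
-/

namespace Vale.Agent.P204.Tame

open scoped Matrix

/-- The standard complex structure. -/
def stdJ : M := !![0, -1, 0, 0; 1, 0, 0, 0; 0, 0, 0, -1; 0, 0, 1, 0]

theorem skew_apply {u : M} (h : uᵀ = -u) (i j : Fin 4) : u j i = -u i j := by
  have := congrFun (congrFun h i) j
  simpa using this

theorem skew_diag {u : M} (h : uᵀ = -u) (i : Fin 4) : u i i = 0 := by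
  have := skew_apply h i i
  linarith

/-- A skew matrix from its six entries. -/
def skew6 (a b c d f g : ℝ) : M := !![0, a, b, c; -a, 0, d, f; -b, -d, 0, g; -c, -f, -g, 0]

theorem eq_skew6 {u : M} (h : uᵀ = -u) :
    u = skew6 (u 0 1) (u 0 2) (u 0 3) (u 1 2) (u 1 3) (u 2 3) := by
  ext i j
  fin_cases i <;> fin_cases j <;>
    simp [skew6, skew_diag h] <;> exact skew_apply h _ _

theorem pfq_congr (P : M) (a b c d f g a' b' c' d' f' g' : ℝ) :
    pfq (Pᵀ * skew6 a b c d f g * P) (Pᵀ * skew6 a' b' c' d' f' g' * P)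
      = P.det * pfq (skew6 a b c d f g) (skew6 a' b' c' d' f' g') := by
  rw [Matrix.det_succ_row_zero]
  simp [pfq, skew6, Matrix.mul_apply, Fin.sum_univ_four, Matrix.det_fin_three, Fin.succAbove]
  ring

theorem pfq_congr_skew (P : M) {u v : M} (hu : uᵀ = -u) (hv : vᵀ = -v) :
    pfq (Pᵀ * u * P) (Pᵀ * v * P) = P.det * pfq u v := by
  rw [eq_skew6 hu, eq_skew6 hv]
  exact pfq_congr P _ _ _ _ _ _ _ _ _ _ _ _

theorem pfq_comm (a b : M) : pfq a b = pfq b a := by
  simp only [pfq]; ring

theorem pfq_add_left (a a' b : M) : pfq (a + a') b = pfq a b + pfq a' b := by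
  simp only [pfq, Matrix.add_apply]; ring

theorem pfq_smul_left (r : ℝ) (a b : M) : pfq (r • a) b = r * pfq a b := by
  simp only [pfq, Matrix.smul_apply, smul_eq_mul]; ring

theorem val_congr (P u : M) (a b : E) : val (Pᵀ * u * P) a b = val u (P *ᵥ a) (P *ᵥ b) := by
  unfold val
  rw [← Matrix.mulVec_mulVec, ← Matrix.mulVec_mulVec, Matrix.dotProduct_mulVec a Pᵀ,
    Matrix.vecMul_transpose]

/-- A complex structure has a frame in which it is standard. -/
theorem exists_frame {J : M} (hJ : J * J = -1) : ∃ P : M, IsUnit P.det ∧ J * P = P * stdJ := by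
  classical
  have hJ' : ∀ v : E, J *ᵥ (J *ᵥ v) = -v := fun v => by
    rw [Matrix.mulVec_mulVec, hJ, Matrix.neg_mulVec, Matrix.one_mulVec]
  set a : E := e 0 with ha
  have ha0 : a ≠ 0 := fun h => by simpa [ha, e] using congrFun h 0
  have hS : Submodule.span ℝ ({a, J *ᵥ a} : Set E) ≠ ⊤ := by
    intro h
    have h1 := finrank_span_finset_le_card (R := ℝ) ({a, J *ᵥ a} : Finset E)
    have h2 : (({a, J *ᵥ a} : Finset E) : Set E) = {a, J *ᵥ a} := by simp
    rw [Set.finrank, h2, h, finrank_top, Module.finrank_fin_fun] at h1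
    have := Finset.card_le_two (a := a) (b := J *ᵥ a)
    omega
  obtain ⟨c, hc⟩ : ∃ c, c ∉ Submodule.span ℝ ({a, J *ᵥ a} : Set E) := by
    by_contra h
    push Not at h
    exact hS (Submodule.eq_top_iff'.2 h)
  refine ⟨Matrix.of fun i j => ![a, J *ᵥ a, c, J *ᵥ c] j i, ?_, ?_⟩
  · rw [← Matrix.isUnit_iff_isUnit_det, ← Matrix.mulVec_injective_iff_isUnit]
    refine (injective_iff_map_eq_zero
      (Matrix.mulVecLin (Matrix.of fun i j => ![a, J *ᵥ a, c, J *ᵥ c] j i))).2 fun x hx => ?_
    have hx' : x 0 • a + x 1 • (J *ᵥ a) + x 2 • c + x 3 • (J *ᵥ c) = 0 := by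
      rw [← hx]
      funext i
      simp [Matrix.mulVecLin_apply, Matrix.mulVec, dotProduct, Fin.sum_univ_four, mul_comm]
    have hJx : x 0 • (J *ᵥ a) - x 1 • a + x 2 • (J *ᵥ c) - x 3 • c = 0 := by
      have := congrArg (fun v => J *ᵥ v) hx'
      simp only [Matrix.mulVec_add, Matrix.mulVec_smul, hJ', Matrix.mulVec_zero] at this
      rw [← this]; module
    have hkey : (x 2 * x 2 + x 3 * x 3) • c
        = (-(x 2 * x 0) - x 3 * x 1) • a + (x 3 * x 0 - x 2 * x 1) • (J *ᵥ a) := by
      have h1 := congrArg (fun v => x 2 • v) hx'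
      have h2 := congrArg (fun v => x 3 • v) hJx
      simp only [smul_zero] at h1 h2
      have h3 := congrArg₂ (fun u v : E => u - v) h1 h2
      simp only [sub_zero] at h3
      rw [← sub_eq_zero, ← h3]; module
    have h23 : x 2 * x 2 + x 3 * x 3 = 0 := by
      by_contra hne
      apply hc
      have : c = (x 2 * x 2 + x 3 * x 3)⁻¹ • ((x 2 * x 2 + x 3 * x 3) • c) := by
        rw [smul_smul, inv_mul_cancel₀ hne, one_smul]
      rw [this, hkey]
      exact Submodule.smul_mem _ _ (Submodule.add_mem _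
        (Submodule.smul_mem _ _ (Submodule.subset_span (Set.mem_insert _ _)))
        (Submodule.smul_mem _ _ (Submodule.subset_span (Set.mem_insert_of_mem _ rfl))))
    have h2 : x 2 = 0 := by nlinarith [mul_self_nonneg (x 2), mul_self_nonneg (x 3)]
    have h3 : x 3 = 0 := by nlinarith [mul_self_nonneg (x 2), mul_self_nonneg (x 3)]
    simp only [h2, h3, zero_smul, add_zero, sub_zero] at hx' hJx
    have hkey2 : (x 0 * x 0 + x 1 * x 1) • a = 0 := by
      have h1 := congrArg (fun v => x 0 • v) hx'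
      have h2 := congrArg (fun v => x 1 • v) hJx
      simp only [smul_zero] at h1 h2
      have h3 := congrArg₂ (fun u v : E => u - v) h1 h2
      simp only [sub_zero] at h3
      rw [← h3]; module
    rcases smul_eq_zero.1 hkey2 with h | h
    · have h0 : x 0 = 0 := by nlinarith [mul_self_nonneg (x 0), mul_self_nonneg (x 1)]
      have h1 : x 1 = 0 := by nlinarith [mul_self_nonneg (x 0), mul_self_nonneg (x 1)]
      funext i; fin_cases i <;> simp [h0, h1, h2, h3]
    · exact absurd h ha0
  · have h1 : ∀ i, (J *ᵥ (J *ᵥ a)) i = -a i := fun i => by rw [hJ']; rfl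
    have h2 : ∀ i, (J *ᵥ (J *ᵥ c)) i = -c i := fun i => by rw [hJ']; rfl
    simp only [Matrix.mulVec, dotProduct, Fin.sum_univ_four] at h1 h2
    ext i j
    fin_cases j <;>
      simp [Matrix.mul_apply, stdJ, Fin.sum_univ_four, Matrix.mulVec, dotProduct, h1 i, h2 i]

end Vale.Agent.P204.Tame
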