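import Vale.Agent.P204.Tame.EllipticTools
import Vale.Agent.P204.Tame.Normal

/-!
The gradient of an anti-invariant two-form is controlled by its exterior derivative.
-/

namespace Vale.Agent.P204.Tame

open scoped ContDiff Matrix Topology
open MeasureTheory Set Filter

/-- Index triples. -/
abbrev T3 : Type := Fin 4 × Fin 4 × Fin 4

/-- A derivative tensor as a function on triples. -/
def ten (D : Fin 4 → M) (t : T3) : ℝ := D t.1 t.2.1 t.2.2

/-- Cyclic permutation of a triple. -/
def cyc {ι : Type*} : ι × ι × ι ≃ ι × ι × ι where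
  toFun t := (t.2.1, t.2.2, t.1)
  invFun t := (t.2.2, t.1, t.2.1)
  left_inv _ := rfl
  right_inv _ := rfl

theorem sum_cyc_sq {ι : Type*} [Fintype ι] (w : ι × ι × ι → ℝ) :
    ∑ u, (w u + w (cyc u) + w (cyc (cyc u))) ^ 2
      = 3 * ∑ u, w u ^ 2 + 6 * ∑ u, w u * w (cyc u) := by
  have h1 := fun f : ι × ι × ι → ℝ => cyc.sum_comp f
  have e1 := h1 fun u => w u ^ 2
  have e2 := h1 fun u => w (cyc u) ^ 2
  have e3 := h1 fun u => w u * w (cyc u)
  have e4 := h1 fun u => w (cyc u) * w (cyc (cyc u))
  have e5 : ∀ u : ι × ι × ι, cyc (cyc (cyc u)) = u := fun _ => rfl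
  simp only [e5] at e4
  calc ∑ u, (w u + w (cyc u) + w (cyc (cyc u))) ^ 2
      = (∑ u, w u ^ 2) + (∑ u, w (cyc u) ^ 2) + (∑ u, w (cyc (cyc u)) ^ 2)
        + 2 * (∑ u, w u * w (cyc u)) + 2 * (∑ u, w (cyc u) * w (cyc (cyc u)))
        + 2 * (∑ u, w (cyc (cyc u)) * w u) := by
        simp only [Finset.mul_sum, ← Finset.sum_add_distrib]
        exact Finset.sum_congr rfl fun u _ => by ring
    _ = _ := by rw [e4, e3, e2, e1]; ring

/-- The frame whose Gram matrix is `hmat`. -/
def frame (J : M) (a : Fin 4) : Fin 4 ⊕ Fin 4 → ℝ :=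
  Sum.elim (fun i => if a = i then 1 else 0) (fun i => J a i)

theorem frame_gram (J : M) (a i : Fin 4) : ∑ m, frame J a m * frame J i m = hmat J a i := by
  simp [Fintype.sum_sum_type, frame, hmat, Matrix.mul_apply, Matrix.one_apply]

/-- Frame triples. -/
abbrev F3 : Type := (Fin 4 ⊕ Fin 4) × (Fin 4 ⊕ Fin 4) × (Fin 4 ⊕ Fin 4)

/-- The coefficient of the change to the frame. -/
def fw (J : M) (t : T3) (u : F3) : ℝ :=
  frame J t.1 u.1 * frame J t.2.1 u.2.1 * frame J t.2.2 u.2.2

/-- A tensor in the frame. -/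
def inFrame (J : M) (A : T3 → ℝ) (u : F3) : ℝ := ∑ t, fw J t u * A t

theorem fw_gram (J : M) (t s : T3) :
    ∑ u, fw J t u * fw J s (cyc u)
      = hmat J t.1 s.2.2 * hmat J t.2.1 s.1 * hmat J t.2.2 s.2.1 := by
  rw [← frame_gram, ← frame_gram, ← frame_gram, Finset.sum_mul_sum, Finset.sum_mul,
    Fintype.sum_prod_type]
  refine Finset.sum_congr rfl fun m _ => ?_
  rw [Fintype.sum_prod_type, Finset.sum_mul]
  refine Finset.sum_congr rfl fun n _ => ?_
  rw [Finset.mul_sum]
  refine Finset.sum_congr rfl fun p _ => ?_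
  simp only [fw, cyc, Equiv.coe_fn_mk]
  ring

theorem inFrame_cyc (J : M) (A : T3 → ℝ) (u : F3) :
    inFrame J (fun t => A t + A (cyc t) + A (cyc (cyc t))) u
      = inFrame J A u + inFrame J A (cyc u) + inFrame J A (cyc (cyc u)) := by
  have h : ∀ u, ∑ t, fw J t u * A (cyc t) = ∑ t, fw J t (cyc u) * A t := fun u => by
    refine Fintype.sum_equiv cyc _ _ fun t => ?_
    simp only [fw, cyc, Equiv.coe_fn_mk]
    ring
  have h2 : ∑ t, fw J t u * A (cyc (cyc t)) = ∑ t, fw J t (cyc (cyc u)) * A t := by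
    refine Fintype.sum_equiv (cyc.trans cyc) _ _ fun t => ?_
    simp only [fw, cyc, Equiv.coe_fn_mk, Equiv.trans_apply]
    ring
  unfold inFrame
  rw [← h, ← h2]
  simp only [mul_add, Finset.sum_add_distrib]

theorem sum_sq_le_inFrame (J : M) (A : T3 → ℝ) : ∑ t, A t ^ 2 ≤ ∑ u, inFrame J A u ^ 2 := by
  let ι : T3 ↪ F3 := ⟨fun t => (.inl t.1, .inl t.2.1, .inl t.2.2), fun a b h => by
    simp only [Prod.mk.injEq, Sum.inl.injEq] at h
    exact Prod.ext h.1 (Prod.ext h.2.1 h.2.2)⟩
  have h : ∀ t, inFrame J A (ι t) = A t := fun t => by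
    show ∑ s, fw J s (Sum.inl t.1, Sum.inl t.2.1, Sum.inl t.2.2) * A s = A t
    rw [Fintype.sum_eq_single t]
    · simp [fw, frame]
    · intro s hs
      have : s.1 ≠ t.1 ∨ s.2.1 ≠ t.2.1 ∨ s.2.2 ≠ t.2.2 := by
        by_contra hc
        push Not at hc
        exact hs (Prod.ext hc.1 (Prod.ext hc.2.1 hc.2.2))
      rcases this with h | h | h <;> simp [fw, frame, h]
  calc ∑ t, A t ^ 2 = ∑ u ∈ Finset.univ.map ι, inFrame J A u ^ 2 := by
        rw [Finset.sum_map]; simp only [h]
    _ ≤ _ := Finset.sum_le_sum_of_subset_of_nonneg (Finset.subset_univ _)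
        fun u _ _ => sq_nonneg _

/-- The cyclic exterior derivative of a derivative tensor. -/
def altT (D : Fin 4 → M) (t : T3) : ℝ := ten D t + ten D (cyc t) + ten D (cyc (cyc t))

/-- The coefficient of the cross term. -/
def hcoef (J : M) (t s : T3) : ℝ :=
  hmat J t.1 s.2.2 * hmat J t.2.1 s.1 * hmat J t.2.2 s.2.1

/-- The cross term. -/
def cross (J : M) (D : Fin 4 → M) : ℝ := ∑ t, ∑ s, hcoef J t s * (ten D t * ten D s)

/-- The cross term with the two derivatives exchanged. -/
def crossSwap (J : M) (D : Fin 4 → M) : ℝ :=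
  ∑ t, ∑ s, hcoef J t s * (D s.1 t.2.1 t.2.2 * D t.1 s.2.1 s.2.2)

/-- The divergence. -/
def divH (J : M) (D : Fin 4 → M) (c : Fin 4) : ℝ := ∑ a, ∑ j, hmat J a j * D a j c

theorem inFrame_altT (J : M) (D : Fin 4 → M) :
    ∑ u, inFrame J (altT D) u ^ 2 = 3 * ∑ u, inFrame J (ten D) u ^ 2 + 6 * cross J D := by
  have hc : ∀ u, inFrame J (altT D) u =
      inFrame J (ten D) u + inFrame J (ten D) (cyc u) + inFrame J (ten D) (cyc (cyc u)) :=
    inFrame_cyc J (ten D)
  simp only [hc]
  rw [sum_cyc_sq]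
  congr 2
  unfold inFrame cross
  simp only [Finset.sum_mul_sum]
  rw [Finset.sum_comm]
  refine Finset.sum_congr rfl fun t _ => ?_
  rw [Finset.sum_comm]
  refine Finset.sum_congr rfl fun s _ => ?_
  rw [hcoef, ← fw_gram, Finset.sum_mul]
  exact Finset.sum_congr rfl fun u _ => by ring

theorem hmat_symm (J : M) (a b : Fin 4) : hmat J a b = hmat J b a := by
  have h : (hmat J)ᵀ = hmat J := by simp [hmat]
  exact congrFun (congrFun h b) a

theorem crossSwap_eq {J : M} {D : Fin 4 → M} (hD : ∀ a, (D a)ᵀ = -D a) :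
    crossSwap J D = -∑ c, ∑ j, hmat J c j * (divH J D c * divH J D j) := by
  let σ : (Fin 4 × Fin 4) × (Fin 4 × Fin 4) × (Fin 4 × Fin 4) ≃ T3 × T3 :=
    { toFun := fun q => ((q.2.2.1, q.2.1.2, q.1.1), (q.2.1.1, q.1.2, q.2.2.2))
      invFun := fun r => ((r.1.2.2, r.2.2.1), (r.2.1, r.1.2.1), (r.1.1, r.2.2.2))
      left_inv := fun _ => rfl
      right_inv := fun _ => rfl }
  unfold crossSwap
  rw [← Fintype.sum_prod_type', ← σ.sum_comp, Fintype.sum_prod_type, Fintype.sum_prod_type,
    ← Finset.sum_neg_distrib]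
  refine Finset.sum_congr rfl fun c _ => ?_
  rw [← Finset.sum_neg_distrib]
  refine Finset.sum_congr rfl fun j _ => ?_
  rw [Fintype.sum_prod_type]
  simp only [σ, hcoef, Equiv.coe_fn_mk, divH, Fintype.sum_prod_type]
  simp only [Finset.mul_sum, Finset.sum_mul, ← Finset.sum_neg_distrib]
  rw [Finset.sum_comm_cycle]
  refine Finset.sum_congr rfl fun a _ => ?_
  rw [Finset.sum_comm_cycle]
  refine Finset.sum_congr rfl fun k _ =>
    Finset.sum_congr rfl fun i _ => Finset.sum_congr rfl fun b _ => ?_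
  rw [skew_apply (hD a) k j, hmat_symm J b i]
  ring

theorem kmat_skew {J : M} (hJ : J * J = -1) : J * hmat J = -(hmat J * Jᵀ) := by
  have h : Jᵀ * Jᵀ = -1 := by rw [← Matrix.transpose_mul, hJ]; simp
  rw [hmat, mul_add, mul_one, ← mul_assoc, hJ, add_mul, one_mul, mul_assoc, h]
  simp

theorem kmat_mul_anti {J u : M} (hJ : J * J = -1) (ha : Jᵀ * u * J = -u) :
    J * hmat J * u = -(hmat J * u * J) := by
  have h : Jᵀ * u = u * J := by
    have := congrArg (fun A => A * J) ha
    simp only [mul_assoc, hJ, mul_neg, mul_one, neg_mul] at this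
    exact neg_inj.1 this
  rw [kmat_skew hJ, neg_mul, mul_assoc (hmat J), h, mul_assoc]

/-- The contraction of the exterior derivative of an anti-invariant tensor is its divergence. -/
theorem contract_altT {J : M} (hJ : J * J = -1) {D : Fin 4 → M} (hD : ∀ a, (D a)ᵀ = -D a)
    (ha : ∀ a, Jᵀ * D a * J = -D a) (d : Fin 4) :
    2 * divH J D d = ∑ b, (∑ i, ∑ j, kmat J i j * altT D (i, j, b)) * J b d := by
  have hK : ∀ i j, kmat J j i = -kmat J i j := fun i j => by
    have h : (kmat J)ᵀ = -kmat J := by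
      rw [kmat, Matrix.transpose_mul, kmat_skew hJ, neg_neg,
        show (hmat J)ᵀ = hmat J by simp [hmat]]
    simpa using congrFun (congrFun h i) j
  have hm : ∀ i b, ∑ j, kmat J i j * D i j b = -∑ c, ∑ j, hmat J i j * D i j c * J c b :=
      fun i b => by
    have := congrFun (congrFun (kmat_mul_anti hJ (ha i)) i) b
    simp only [Matrix.neg_apply, Matrix.mul_apply, Finset.sum_mul] at this
    simpa [kmat, Matrix.mul_apply, Finset.sum_mul] using this
  have htr : ∀ b, ∑ i, ∑ j, kmat J i j * D b i j = 0 := fun b => by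
    have h1 : ∑ i, ∑ j, kmat J i j * D b i j = -(kmat J * D b).trace := by
      simp only [Matrix.trace, Matrix.diag, Matrix.mul_apply, ← Finset.sum_neg_distrib]
      refine Finset.sum_congr rfl fun i _ => Finset.sum_congr rfl fun j _ => ?_
      rw [skew_apply (hD b) i j]; ring
    have h2 : (kmat J * D b).trace = -(kmat J * D b).trace := by
      conv_lhs => rw [kmat, kmat_mul_anti hJ (ha b), Matrix.trace_neg,
        Matrix.trace_mul_comm, ← mul_assoc, ← kmat]
    rw [h1]
    linarith
  have hT : ∀ b, ∑ i, ∑ j, kmat J i j * altT D (i, j, b) = -2 * ∑ c, divH J D c * J c b := by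
    intro b
    have h2 : ∑ i, ∑ j, kmat J i j * D j b i = ∑ i, ∑ j, kmat J i j * D i j b := by
      rw [Finset.sum_comm]
      refine Finset.sum_congr rfl fun i _ => Finset.sum_congr rfl fun j _ => ?_
      rw [hK, skew_apply (hD i) j b]; ring
    have h1 : ∑ i, ∑ j, kmat J i j * D i j b = -∑ c, divH J D c * J c b := by
      simp only [hm, divH, Finset.sum_mul, ← Finset.sum_neg_distrib]
      exact Finset.sum_comm
    simp only [altT, ten, cyc, Equiv.coe_fn_mk, mul_add, Finset.sum_add_distrib]
    rw [h2, htr, h1]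
    ring
  have hJJ : ∀ c, ∑ b, J c b * J b d = if c = d then -1 else 0 := fun c => by
    have := congrFun (congrFun hJ c) d
    simp only [Matrix.mul_apply, Matrix.neg_apply, Matrix.one_apply] at this
    rw [this]; split <;> simp
  calc 2 * divH J D d = -2 * ∑ c, divH J D c * ∑ b, J c b * J b d := by
        simp [hJJ]
    _ = _ := by
        simp only [hT, Finset.mul_sum, Finset.sum_mul]
        rw [Finset.sum_comm]
        exact Finset.sum_congr rfl fun b _ => Finset.sum_congr rfl fun c _ => by ring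

/-- The invariant parts of a derivative tensor. -/
noncomputable def invT (J : M) (D : Fin 4 → M) (a : Fin 4) : M := pinv J (D a)

/-- The squared size of the coefficients in the pointwise estimate. -/
def cwt (J : M) : ℝ :=
  (1 + (∑ t : T3, ∑ u, fw J t u ^ 2))
    + (1 + ∑ c, ∑ j, hmat J c j ^ 2) * (1 + ∑ i, ∑ j, hmat J i j ^ 2
      + ∑ d, ∑ t : T3, (kmat J t.1 t.2.1 * J t.2.2 d) ^ 2)

theorem sum_altT_sq_le (A : T3 → ℝ) :
    ∑ t, (A t + A (cyc t) + A (cyc (cyc t))) ^ 2 ≤ 9 * ∑ t, A t ^ 2 := by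
  rw [sum_cyc_sq]
  have h : ∑ t, A t * A (cyc t) ≤ ∑ t, A t ^ 2 := by
    have e1 := cyc.sum_comp fun t => A t ^ 2
    have : ∑ t, 2 * (A t * A (cyc t)) ≤ ∑ t, (A t ^ 2 + A (cyc t) ^ 2) :=
      Finset.sum_le_sum fun t _ => by nlinarith [sq_nonneg (A t - A (cyc t))]
    rw [← Finset.mul_sum, Finset.sum_add_distrib, e1] at this
    linarith
  linarith

theorem contract_sq_le {ι : Type*} [Fintype ι] (a b : ι → ℝ) :
    (∑ i, a i * b i) ^ 2 ≤ (∑ i, a i ^ 2) * ∑ i, b i ^ 2 :=
  Finset.sum_mul_sq_le_sq_mul_sq _ _ _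

/-- The pointwise inequality. -/
theorem pointwise_garding {J : M} (hJ : J * J = -1) {D : Fin 4 → M} (hD : ∀ a, (D a)ᵀ = -D a) :
    ∑ t, ten D t ^ 2 ≤ 800 * cwt J * (∑ t, altT D t ^ 2 + ∑ t, ten (invT J D) t ^ 2)
      + 2 * (crossSwap J D - cross J D) := by
  set A := ∑ t, altT D t ^ 2
  set Q := ∑ t, ten (invT J D) t ^ 2
  set P : Fin 4 → M := fun a => panti J (D a) with hPdef
  have hPs : ∀ a, (P a)ᵀ = -P a := fun a => by
    simp only [hPdef, panti, Matrix.transpose_smul, Matrix.transpose_sub, Matrix.transpose_mul,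
      Matrix.transpose_transpose, hD a]
    rw [← smul_neg]
    congr 1
    noncomm_ring
  have hPa : ∀ a, Jᵀ * P a * J = -P a := fun a => by
    have h : Jᵀ * Jᵀ = -1 := by rw [← Matrix.transpose_mul, hJ]; simp
    simp only [hPdef, panti, Matrix.mul_smul, Matrix.smul_mul, mul_sub, sub_mul]
    rw [← smul_neg]
    congr 1
    rw [show Jᵀ * (Jᵀ * D a * J) * J = (Jᵀ * Jᵀ) * D a * (J * J) by noncomm_ring, h, hJ]
    noncomm_ring
  have hsplit : ∀ a b c, P a b c = D a b c - invT J D a b c := fun a b c => by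
    simp only [hPdef, invT, panti, pinv, Matrix.smul_apply, Matrix.sub_apply, Matrix.add_apply,
      smul_eq_mul]
    ring
  set F := ∑ t : T3, ∑ u, fw J t u ^ 2
  set H2 := ∑ c, ∑ j, hmat J c j ^ 2
  set G := ∑ d, ∑ t : T3, (kmat J t.1 t.2.1 * J t.2.2 d) ^ 2
  have hA : 0 ≤ A := Finset.sum_nonneg fun _ _ => sq_nonneg _
  have hQ : 0 ≤ Q := Finset.sum_nonneg fun _ _ => sq_nonneg _
  have hF : 0 ≤ F := Finset.sum_nonneg fun _ _ => Finset.sum_nonneg fun _ _ => sq_nonneg _
  have hH : 0 ≤ H2 := Finset.sum_nonneg fun _ _ => Finset.sum_nonneg fun _ _ => sq_nonneg _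
  have hG : 0 ≤ G := Finset.sum_nonneg fun _ _ => Finset.sum_nonneg fun _ _ => sq_nonneg _
  have halt : ∑ u, inFrame J (altT D) u ^ 2 ≤ F * A := by
    rw [show F = ∑ u, ∑ t : T3, fw J t u ^ 2 from Finset.sum_comm, Finset.sum_mul]
    exact Finset.sum_le_sum fun u _ => contract_sq_le _ _
  have hdiv : ∀ d, divH J D d ^ 2 ≤ 2 * H2 * Q + G * (A + 9 * Q) := fun d => by
    have h1 : divH J D d = divH J P d + divH J (invT J D) d := by
      simp only [divH, hsplit, ← Finset.sum_add_distrib]
      exact Finset.sum_congr rfl fun a _ => Finset.sum_congr rfl fun j _ => by ring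
    have h2 : divH J (invT J D) d ^ 2 ≤ H2 * Q := by
      have hb : ∑ p : Fin 4 × Fin 4, invT J D p.1 p.2 d ^ 2 ≤ Q := by
        let ι : Fin 4 × Fin 4 ↪ T3 := ⟨fun p => (p.1, p.2, d), fun a b h => by
          simp only [Prod.mk.injEq] at h; exact Prod.ext h.1 h.2.1⟩
        calc _ = ∑ t ∈ Finset.univ.map ι, ten (invT J D) t ^ 2 := by
              rw [Finset.sum_map]; rfl
          _ ≤ _ := Finset.sum_le_sum_of_subset_of_nonneg (Finset.subset_univ _)
              fun _ _ _ => sq_nonneg _
      have := contract_sq_le (fun p : Fin 4 × Fin 4 => hmat J p.1 p.2)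
        (fun p => invT J D p.1 p.2 d)
      simp only [Fintype.sum_prod_type] at this hb
      exact this.trans (mul_le_mul_of_nonneg_left hb hH)
    have h3 : (2 * divH J P d) ^ 2 ≤ G * ∑ t, altT P t ^ 2 := by
      rw [contract_altT hJ hPs hPa d]
      have := contract_sq_le (fun t : T3 => kmat J t.1 t.2.1 * J t.2.2 d) (altT P)
      refine le_trans (le_of_eq ?_) (this.trans (mul_le_mul_of_nonneg_right ?_
        (Finset.sum_nonneg fun _ _ => sq_nonneg _)))
      · congr 1
        simp only [Fintype.sum_prod_type, Finset.sum_mul]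
        rw [Finset.sum_comm_cycle, Finset.sum_comm_cycle]
        exact Finset.sum_congr rfl fun b _ => Finset.sum_congr rfl fun i _ =>
          Finset.sum_congr rfl fun j _ => by ring
      · exact Finset.single_le_sum
          (f := fun d => ∑ t : T3, (kmat J t.1 t.2.1 * J t.2.2 d) ^ 2)
          (fun _ _ => Finset.sum_nonneg fun _ _ => sq_nonneg _) (Finset.mem_univ d)
    have h4 : ∑ t, altT P t ^ 2 ≤ 2 * A + 18 * Q := by
      have : ∀ t, altT P t = altT D t - altT (invT J D) t := fun t => by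
        simp only [altT, ten, hsplit]; ring
      simp only [this]
      have h9 : ∑ t, altT (invT J D) t ^ 2 ≤ 9 * Q := sum_altT_sq_le (ten (invT J D))
      calc _ ≤ ∑ t, (2 * altT D t ^ 2 + 2 * altT (invT J D) t ^ 2) :=
            Finset.sum_le_sum fun t _ => by
              nlinarith [sq_nonneg (altT D t + altT (invT J D) t)]
        _ = 2 * A + 2 * ∑ t, altT (invT J D) t ^ 2 := by
            rw [Finset.sum_add_distrib, Finset.mul_sum, Finset.mul_sum]
        _ ≤ _ := by linarith
    rw [h1]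
    nlinarith [sq_nonneg (divH J P d - divH J (invT J D) d), mul_le_mul_of_nonneg_left h4 hG]
  have hR : -crossSwap J D ≤ (1 + H2) * (4 * (2 * H2 * Q + G * (A + 9 * Q))) := by
    rw [crossSwap_eq hD, neg_neg]
    set v := divH J D
    have hv : ∑ c, v c ^ 2 ≤ 4 * (2 * H2 * Q + G * (A + 9 * Q)) :=
      (Finset.sum_le_sum fun c _ => hdiv c).trans (le_of_eq (by simp; ring))
    have hv0 : 0 ≤ ∑ c, v c ^ 2 := Finset.sum_nonneg fun _ _ => sq_nonneg _
    have h := contract_sq_le (fun p : Fin 4 × Fin 4 => hmat J p.1 p.2) (fun p => v p.1 * v p.2)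
    simp only [Fintype.sum_prod_type] at h
    rw [show (∑ c, ∑ j, (v c * v j) ^ 2) = (∑ c, v c ^ 2) ^ 2 by
      simp only [sq, Finset.sum_mul_sum]
      exact Finset.sum_congr rfl fun c _ => Finset.sum_congr rfl fun j _ => by ring] at h
    refine le_trans ?_ (mul_le_mul_of_nonneg_left hv (by linarith))
    refine (le_abs_self _).trans (abs_le_of_sq_le_sq ?_ (mul_nonneg (by linarith) hv0))
    refine h.trans ?_
    rw [mul_pow]
    exact mul_le_mul_of_nonneg_right (by nlinarith) (sq_nonneg _)
  have h0 := sum_sq_le_inFrame J (ten D)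
  have hid := inFrame_altT J D
  have hc : cwt J = (1 + F) + (1 + H2) * (1 + H2 + G) := rfl
  rw [hc]
  nlinarith [mul_nonneg hF hQ, mul_nonneg hH hA, mul_nonneg hG hQ, mul_nonneg hH hQ,
    mul_nonneg hG hA, mul_nonneg hF hA, mul_nonneg (mul_nonneg hH hG) hA,
    mul_nonneg (mul_nonneg hH hG) hQ, mul_nonneg (mul_nonneg hH hH) hQ,
    mul_nonneg (mul_nonneg hH hH) hA]

/-- The derivative tensor of a field of forms. -/
noncomputable def gradT (u : E → M) (x : E) (a : Fin 4) : M :=
  Matrix.of fun i j => pd a (fun y => u y i j) x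

theorem ten_gradT (u : E → M) (x : E) (t : T3) :
    ten (gradT u x) t = pd t.1 (fun y => u y t.2.1 t.2.2) x := rfl

theorem sum_altT_gradT {u : E → M} {x : E} (h : ∀ a, (gradT u x a)ᵀ = -gradT u x a) :
    ∑ t, altT (gradT u x) t ^ 2 = 6 * (dTwo u x ⬝ᵥ dTwo u x) := by
  have hd : ∀ i j k, altd u x i j k = altT (gradT u x) (i, j, k) := fun i j k => rfl
  have hD : ∃ D : Fin 4 → M, gradT u x = D := ⟨_, rfl⟩
  obtain ⟨D, hD⟩ := hD
  simp only [dTwo, hd, hD] at *
  have e : ∀ a, D a = skew6 (D a 0 1) (D a 0 2) (D a 0 3) (D a 1 2) (D a 1 3) (D a 2 3) :=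
    fun a => eq_skew6 (h a)
  simp only [altT, ten, cyc, Equiv.coe_fn_mk, Fintype.sum_prod_type, Fin.sum_univ_four, dotProduct]
  rw [e 0, e 1, e 2, e 3]
  simp [skew6]
  ring

theorem sum_T3 (F : T3 → ℝ) : ∑ t, F t = ∑ a, ∑ i, ∑ j, F (a, i, j) := by
  simp only [Fintype.sum_prod_type]

theorem continuous_cwt : Continuous cwt := by
  have hh : Continuous hmat := by unfold hmat; fun_prop
  have hk : Continuous kmat := by unfold kmat; exact continuous_id.mul hh
  have hf : ∀ a m, Continuous fun J : M => frame J a m := fun a m => by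
    cases m with
    | inl i => exact continuous_const
    | inr i => exact continuous_id.matrix_elem a i
  refine ((continuous_const.add (continuous_finsetSum _ fun t _ => continuous_finsetSum _
    fun u _ => (((hf _ _).mul (hf _ _)).mul (hf _ _)).pow 2))).add ((continuous_const.add
      (continuous_finsetSum _ fun c _ => continuous_finsetSum _ fun j _ =>
        (hh.matrix_elem c j).pow 2)).mul (((continuous_const.add
      (continuous_finsetSum _ fun c _ => continuous_finsetSum _ fun j _ =>
        (hh.matrix_elem c j).pow 2))).add (continuous_finsetSum _ fun d _ =>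
          continuous_finsetSum _ fun t _ =>
            ((hk.matrix_elem _ _).mul (continuous_id.matrix_elem _ d)).pow 2)))

theorem gradT_eq_zero {u : E → M} {x : E} (h : ∀ i j, x ∉ tsupport fun y => u y i j) (a : Fin 4) :
    gradT u x a = 0 := by
  ext i j
  show pd a (fun y => u y i j) x = 0
  rw [pd_congr a (notMem_tsupport_iff_eventuallyEq.1 (h i j))]
  simp [pd]

/-- The gradient estimate for compactly supported forms. -/
theorem garding_compact {V : Set E} {J : E → M} (hJ : IsACS V J) {L : Set E} (hLV : L ⊆ V)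
    (hL : IsCompact L) :
    ∃ C : ℝ, ∀ W : E → M, (∀ i j, ContDiff ℝ ∞ fun x => W x i j) →
      (∀ i j, tsupport (fun x => W x i j) ⊆ L) → (∀ x ∈ V, (W x)ᵀ = -W x) →
      (∀ x ∈ V, (J x)ᵀ * W x * J x = -W x) →
      ∑ t : T3, ∫ x, pd t.1 (fun y => W y t.2.1 t.2.2) x ^ 2
        ≤ C * ∫ x, (dTwo W x ⬝ᵥ dTwo W x + ∑ i, ∑ j, W x i j ^ 2) := by
  classical
  obtain ⟨η, hη, -, U, hUo, hLU, hUV, hη1⟩ := exists_cutoff hJ.isOpen hL hLV
  have hJc : ContinuousOn J L := continuousOn_pi.2 fun i => continuousOn_pi.2 fun j =>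
    ((hJ.smooth i j).continuousOn).mono hLV
  obtain ⟨C₀, hC₀⟩ := hL.exists_bound_of_continuousOn (continuous_cwt.comp_continuousOn hJc)
  obtain ⟨B, hB⟩ := hL.exists_bound_of_continuousOn
    (f := fun x => fun t : (Fin 4 × Fin 4) × T3 =>
      pd t.2.1 (fun y => η y * J y t.1.1 t.2.2.1 * J y t.2.2.2 t.1.2) x) (by
    refine continuousOn_pi.2 fun t => ?_
    have hs : ContDiff ℝ ∞ fun y => η y * J y t.1.1 t.2.2.1 * J y t.2.2.2 t.1.2 := by
      have := (hη.mul_smooth hJ.isOpen ((hJ.smooth t.1.1 t.2.2.1).mul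
        (hJ.smooth t.2.2.2 t.1.2))).smooth
      simpa [mul_assoc] using this
    exact ((contDiff_pd hs _).continuous).continuousOn)
  have hcs : ∀ t s : T3, ContDiff ℝ ∞ fun x => η x * hcoef (J x) t s := fun t s => by
    refine (hη.mul_smooth hJ.isOpen ?_).smooth
    have hh : ∀ a b, ContDiffOn ℝ ∞ (fun x => hmat (J x) a b) V := fun a b => by
      simp only [hmat, Matrix.add_apply, Matrix.mul_apply, Matrix.transpose_apply]
      exact contDiffOn_const.add (ContDiffOn.sum fun c _ => (hJ.smooth _ _).mul (hJ.smooth _ _))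
    exact ((hh _ _).mul (hh _ _)).mul (hh _ _)
  obtain ⟨B', hB'⟩ := hL.exists_bound_of_continuousOn
    (f := fun x => fun p : Fin 4 × T3 × T3 => pd p.1 (fun y => η y * hcoef (J y) p.2.1 p.2.2) x)
    (continuousOn_pi.2 fun p => ((contDiff_pd (hcs _ _) _).continuous).continuousOn)
  set N : ℝ := (Fintype.card T3 : ℝ) with hN
  set MB := |B'| + 1 with hMB
  set ε := 1 / (8 * N ^ 2 * MB + 1) with hε
  set P := 800 * |C₀| * (6 + N * 256 * B ^ 2) + 4 * N ^ 2 * MB / ε with hP
  refine ⟨2 * P, fun W hW hWs hskew hanti => ?_⟩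
  set f : T3 → E → ℝ := fun t x => pd t.1 (fun y => W y t.2.1 t.2.2) x with hf
  have hfs : ∀ t, ContDiff ℝ ∞ (f t) := fun t => contDiff_pd (hW _ _) _
  have hfc : ∀ t, HasCompactSupport (f t) := fun t =>
    hasCompactSupport_pd (hL.of_isClosed_subset (isClosed_tsupport _) (hWs _ _)) _
  have hWc : ∀ i j, HasCompactSupport fun x => W x i j := fun i j =>
    hL.of_isClosed_subset (isClosed_tsupport _) (hWs _ _)
  set R : E → ℝ := fun x => dTwo W x ⬝ᵥ dTwo W x + ∑ i, ∑ j, W x i j ^ 2 with hR
  set S : E → ℝ := fun x => ∑ t, f t x ^ 2 with hS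
  set Err : E → ℝ := fun x => ∑ t : T3, ∑ s : T3, η x * hcoef (J x) t s *
    (pd s.1 (fun y => W y t.2.1 t.2.2) x * pd t.1 (fun y => W y s.2.1 s.2.2) x
      - pd t.1 (fun y => W y t.2.1 t.2.2) x * pd s.1 (fun y => W y s.2.1 s.2.2) x) with hErr
  have hRnn : ∀ x, 0 ≤ R x := fun x =>
    add_nonneg (Finset.sum_nonneg fun i _ => mul_self_nonneg _)
      (Finset.sum_nonneg fun _ _ => Finset.sum_nonneg fun _ _ => sq_nonneg _)
  have hpt : ∀ x, S x ≤ 800 * |C₀| * (6 + N * 256 * B ^ 2) * R x + 2 * Err x := fun x => by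
    have hP0 : 0 ≤ 800 * |C₀| * (6 + N * 256 * B ^ 2) := by positivity
    by_cases hx : x ∈ L
    · have hxV := hLV hx
      have hD : ∀ a, (gradT W x a)ᵀ = -gradT W x a := fun a => by
        ext i j
        have he : (fun y => W y j i) =ᶠ[𝓝 x] fun y => -W y i j := by
          filter_upwards [hJ.isOpen.mem_nhds hxV] with y hy
          exact skew_apply (hskew y hy) i j
        show pd a (fun y => W y j i) x = -pd a (fun y => W y i j) x
        rw [pd_congr a he]
        simp [pd]
      have key := pointwise_garding (hJ.sq x hxV) hD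
      rw [sum_altT_gradT hD] at key
      have hQ : ∑ t, ten (invT (J x) (gradT W x)) t ^ 2
          ≤ N * 256 * B ^ 2 * ∑ i, ∑ j, W x i j ^ 2 := by
        have hone : ∀ t : T3, ten (invT (J x) (gradT W x)) t ^ 2
            ≤ 256 * B ^ 2 * ∑ i, ∑ j, W x i j ^ 2 := fun t => by
          obtain ⟨a, i, j⟩ := t
          have he : (fun y => ∑ c, ∑ d, η y * J y c i * J y d j * W y c d)
              =ᶠ[𝓝 x] fun y => -W y i j := by
            filter_upwards [hUo.mem_nhds (hLU hx)] with y hy
            have := congrFun (congrFun (hanti y (hUV hy)) i) j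
            simp only [Matrix.mul_apply, Matrix.transpose_apply, Finset.sum_mul,
              Matrix.neg_apply] at this
            rw [← this, Finset.sum_comm]
            exact Finset.sum_congr rfl fun d _ => Finset.sum_congr rfl fun c _ => by
              rw [hη1 y hy]; ring
          have hsm : ∀ c d, ContDiff ℝ ∞ fun y => η y * J y c i * J y d j := fun c d => by
            have := (hη.mul_smooth hJ.isOpen ((hJ.smooth c i).mul (hJ.smooth d j))).smooth
            simpa [mul_assoc] using this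
          have h1 := pd_congr a he
          rw [pd_sum a fun c _ => DifferentiableAt.fun_sum fun d _ =>
            ((hsm c d).differentiable (by simp) x).fun_mul ((hW c d).differentiable (by simp) x)]
            at h1
          simp only [pd_sum a fun d _ => ((hsm _ d).differentiable (by simp) x).fun_mul
            ((hW _ d).differentiable (by simp) x),
            pd_mul a ((hsm _ _).differentiable (by simp) x) ((hW _ _).differentiable (by simp) x),
            hη1 x (hLU hx), one_mul, Finset.sum_add_distrib] at h1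
          have h2 : ten (invT (J x) (gradT W x)) (a, i, j) =
              -(1 / 2) * ∑ c, ∑ d, pd a (fun y => η y * J y c i * J y d j) x * W x c d := by
            have hn : pd a (fun y => -W y i j) x = -pd a (fun y => W y i j) x := by simp [pd]
            rw [hn] at h1
            have h3 : ((J x)ᵀ * gradT W x a * J x) i j
                = ∑ c, ∑ d, J x c i * J x d j * pd a (fun y => W y c d) x := by
              simp only [Matrix.mul_apply, Matrix.transpose_apply, Finset.sum_mul, gradT,
                Matrix.of_apply]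
              rw [Finset.sum_comm]
              exact Finset.sum_congr rfl fun c _ => Finset.sum_congr rfl fun d _ => by ring
            show pinv (J x) (gradT W x a) i j = _
            simp only [pinv, Matrix.smul_apply, Matrix.add_apply, smul_eq_mul, h3]
            rw [show gradT W x a i j = pd a (fun y => W y i j) x from rfl]
            linarith
          rw [h2, ← Fintype.sum_prod_type', ← Fintype.sum_prod_type']
          have h4 := contract_sq_le
            (fun q : Fin 4 × Fin 4 => pd a (fun y => η y * J y q.1 i * J y q.2 j) x)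
            (fun q => W x q.1 q.2)
          have h5 : ∀ q : Fin 4 × Fin 4,
              pd a (fun y => η y * J y q.1 i * J y q.2 j) x ^ 2 ≤ B ^ 2 := fun q => by
            have := (norm_le_pi_norm (fun t : (Fin 4 × Fin 4) × T3 =>
              pd t.2.1 (fun y => η y * J y t.1.1 t.2.2.1 * J y t.2.2.2 t.1.2) x)
                ((q.1, j), (a, i, q.2))).trans (hB x hx)
            rw [Real.norm_eq_abs] at this
            rw [← sq_abs]
            exact pow_le_pow_left₀ (abs_nonneg _) this 2
          have h6 : (∑ q : Fin 4 × Fin 4, pd a (fun y => η y * J y q.1 i * J y q.2 j) x ^ 2)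
              ≤ 16 * B ^ 2 := (Finset.sum_le_sum fun q _ => h5 q).trans (le_of_eq (by simp))
          have h7 : 0 ≤ ∑ q : Fin 4 × Fin 4, W x q.1 q.2 ^ 2 :=
            Finset.sum_nonneg fun _ _ => sq_nonneg _
          nlinarith [mul_le_mul_of_nonneg_right h6 h7, mul_nonneg (sq_nonneg B) h7]
        refine (Finset.sum_le_sum fun t _ => hone t).trans (le_of_eq ?_)
        rw [Finset.sum_const, nsmul_eq_mul, hN, Finset.card_univ]
        ring
      have hc : cwt (J x) ≤ |C₀| := by
        have := hC₀ x hx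
        simp only [Function.comp_apply, Real.norm_eq_abs] at this
        exact (le_abs_self _).trans (this.trans (le_abs_self _))
      have hc0 : 0 ≤ cwt (J x) := by unfold cwt; positivity
      have hE : crossSwap (J x) (gradT W x) - cross (J x) (gradT W x) = Err x := by
        simp only [hErr, crossSwap, cross, ← Finset.sum_sub_distrib, hη1 x (hLU hx), one_mul,
          ← mul_sub]
        rfl
      rw [hE] at key
      have hd0 : 0 ≤ dTwo W x ⬝ᵥ dTwo W x := Finset.sum_nonneg fun i _ => mul_self_nonneg _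
      have hw0 : 0 ≤ ∑ i, ∑ j, W x i j ^ 2 :=
        Finset.sum_nonneg fun _ _ => Finset.sum_nonneg fun _ _ => sq_nonneg _
      have hS' : S x = ∑ t, ten (gradT W x) t ^ 2 := rfl
      have hq0 : 0 ≤ ∑ t, ten (invT (J x) (gradT W x)) t ^ 2 :=
        Finset.sum_nonneg fun _ _ => sq_nonneg _
      have hN0 : 0 ≤ N * 256 * B ^ 2 := by positivity
      calc S x ≤ 800 * cwt (J x) * (6 * (dTwo W x ⬝ᵥ dTwo W x)
            + ∑ t, ten (invT (J x) (gradT W x)) t ^ 2) + 2 * Err x := hS' ▸ key
        _ ≤ 800 * |C₀| * ((6 + N * 256 * B ^ 2) * R x) + 2 * Err x := by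
            refine add_le_add (mul_le_mul (by linarith) ?_ (by positivity) (by positivity)) le_rfl
            have hR' : R x = dTwo W x ⬝ᵥ dTwo W x + ∑ i, ∑ j, W x i j ^ 2 := rfl
            rw [hR']
            nlinarith [mul_nonneg hN0 hd0]
        _ = _ := by ring
    · have h0 : ∀ i j, x ∉ tsupport fun y => W y i j := fun i j h => hx (hWs i j h)
      have hz : ∀ a i j, pd a (fun y => W y i j) x = 0 := fun a i j => by
        have := congrFun (congrFun (gradT_eq_zero h0 a) i) j
        simpa [gradT] using this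
      have hS0 : S x = 0 := by simp [hS, hf, hz]
      have hE0 : Err x = 0 := by simp [hErr, hz]
      rw [hS0, hE0]
      linarith [mul_nonneg hP0 (hRnn x)]
  have icd : ∀ {g : E → ℝ}, ContDiff ℝ ∞ g → HasCompactSupport g → Integrable g := fun hg hc =>
    hg.continuous.integrable_of_hasCompactSupport hc
  have hRi : Integrable R := by
    have hd : ∀ t, Integrable fun x => f t x ^ 2 := fun t =>
      icd ((hfs t).pow 2) ((hfc t).comp_left (g := fun z : ℝ => z ^ 2) (by simp))
    have h4 : ∀ k, ContDiff ℝ ∞ (fun x => dTwo W x k) ∧ HasCompactSupport (fun x => dTwo W x k) := by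
      have ha : ∀ i j k, ContDiff ℝ ∞ (fun x => altd W x i j k) ∧
          HasCompactSupport (fun x => altd W x i j k) := fun i j k =>
        ⟨((hfs (i, j, k)).add (hfs (j, k, i))).add (hfs (k, i, j)),
          ((hfc (i, j, k)).add (hfc (j, k, i))).add (hfc (k, i, j))⟩
      intro k
      fin_cases k
      · exact ha 1 2 3
      · exact ⟨(ha 0 2 3).1.neg, (ha 0 2 3).2.neg⟩
      · exact ha 0 1 3
      · exact ⟨(ha 0 1 2).1.neg, (ha 0 1 2).2.neg⟩
    refine (integrable_finsetSum _ fun k _ => icd ((h4 k).1.mul (h4 k).1) (h4 k).2.mul_right).add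
      (integrable_finsetSum _ fun i _ => integrable_finsetSum _ fun j _ => ?_)
    exact icd ((hW i j).pow 2) ((hWc i j).comp_left (g := fun z : ℝ => z ^ 2) (by simp))
  have hSi : Integrable S := integrable_finsetSum _ fun t _ =>
    icd ((hfs t).pow 2) ((hfc t).comp_left (g := fun z : ℝ => z ^ 2) (by simp))
  have hEt : ∀ t s : T3, Integrable fun x => η x * hcoef (J x) t s *
      (pd s.1 (fun y => W y t.2.1 t.2.2) x * pd t.1 (fun y => W y s.2.1 s.2.2) x
        - pd t.1 (fun y => W y t.2.1 t.2.2) x * pd s.1 (fun y => W y s.2.1 s.2.2) x) := fun t s =>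
    icd ((hcs t s).mul (((contDiff_pd (hW _ _) _).mul (contDiff_pd (hW _ _) _)).sub
      ((contDiff_pd (hW _ _) _).mul (contDiff_pd (hW _ _) _))))
      (((hasCompactSupport_pd (hWc _ _) _).mul_right).sub
        ((hasCompactSupport_pd (hWc _ _) _).mul_right)).mul_left
  have hEi : Integrable Err := integrable_finsetSum _ fun t _ => integrable_finsetSum _ fun s _ =>
    hEt t s
  have hMB0 : 0 < MB := by rw [hMB]; positivity
  have hε0 : 0 < ε := by rw [hε]; positivity
  have hEb : ∀ t s : T3, ∫ x, η x * hcoef (J x) t s *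
      (pd s.1 (fun y => W y t.2.1 t.2.2) x * pd t.1 (fun y => W y s.2.1 s.2.2) x
        - pd t.1 (fun y => W y t.2.1 t.2.2) x * pd s.1 (fun y => W y s.2.1 s.2.2) x)
      ≤ 2 * MB / ε * (∫ x, R x) + MB * ε * ∫ x, S x := fun t s => by
    have hsw := integral_swap_pd (hcs t s) (hW t.2.1 t.2.2) (hW s.2.1 s.2.2) (hWc _ _) s.1 t.1
    rw [hsw]
    rw [← integral_const_mul, ← integral_const_mul,
      ← integral_add (hRi.const_mul _) (hSi.const_mul _)]
    refine integral_mono ?_ ((hRi.const_mul _).add (hSi.const_mul _)) fun x => ?_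
    · exact icd ((hW _ _).mul (((contDiff_pd (hcs t s) _).mul (contDiff_pd (hW _ _) _)).sub
        ((contDiff_pd (hcs t s) _).mul (contDiff_pd (hW _ _) _)))) (hWc _ _).mul_right
    show W x t.2.1 t.2.2 * (_ - _) ≤ 2 * MB / ε * R x + MB * ε * S x
    have hS0 : 0 ≤ S x := Finset.sum_nonneg fun _ _ => sq_nonneg _
    by_cases hx : x ∈ L
    · have hc : ∀ a, |pd a (fun y => η y * hcoef (J y) t s) x| ≤ MB := fun a => by
        have := (norm_le_pi_norm (fun p : Fin 4 × T3 × T3 =>
          pd p.1 (fun y => η y * hcoef (J y) p.2.1 p.2.2) x) (a, t, s)).trans (hB' x hx)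
        rw [Real.norm_eq_abs] at this
        rw [hMB]; linarith [le_abs_self B']
      have hw : W x t.2.1 t.2.2 ^ 2 ≤ R x := by
        have h1 : 0 ≤ dTwo W x ⬝ᵥ dTwo W x := Finset.sum_nonneg fun i _ => mul_self_nonneg _
        have h2 : W x t.2.1 t.2.2 ^ 2 ≤ ∑ i, ∑ j, W x i j ^ 2 :=
          (Finset.single_le_sum (f := fun j => W x t.2.1 j ^ 2) (fun _ _ => sq_nonneg _)
            (Finset.mem_univ t.2.2)).trans
          (Finset.single_le_sum (f := fun i => ∑ j, W x i j ^ 2)
            (fun _ _ => Finset.sum_nonneg fun _ _ => sq_nonneg _) (Finset.mem_univ t.2.1))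
        simp only [hR]; linarith
      have hg : ∀ a, pd a (fun y => W y s.2.1 s.2.2) x ^ 2 ≤ S x := fun a =>
        Finset.single_le_sum (f := fun u => f u x ^ 2) (fun _ _ => sq_nonneg _)
          (Finset.mem_univ (a, s.2.1, s.2.2))
      have hone : ∀ a b, |W x t.2.1 t.2.2 * (pd b (fun y => η y * hcoef (J y) t s) x *
          pd a (fun y => W y s.2.1 s.2.2) x)| ≤ MB / ε * R x + MB * ε * S x / 2 := fun a b => by
        set w := |W x t.2.1 t.2.2|
        set g := |pd a (fun y => W y s.2.1 s.2.2) x|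
        rw [abs_mul, abs_mul]
        have h2 : w * g ≤ R x / (2 * ε) + ε * S x / 2 := by
          have hw' : w ^ 2 ≤ R x := by rw [sq_abs]; exact hw
          have hg' : g ^ 2 ≤ S x := by rw [sq_abs]; exact hg a
          rw [div_add_div _ _ (by positivity) (by norm_num), le_div_iff₀ (by positivity)]
          nlinarith [sq_nonneg (w - ε * g), mul_le_mul_of_nonneg_left hg' (sq_nonneg ε)]
        calc w * (|pd b (fun y => η y * hcoef (J y) t s) x| * g) ≤ w * (MB * g) := by
              refine mul_le_mul_of_nonneg_left ?_ (abs_nonneg _)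
              exact mul_le_mul_of_nonneg_right (hc b) (abs_nonneg _)
          _ = MB * (w * g) := by ring
          _ ≤ MB * (R x / (2 * ε) + ε * S x / 2) := mul_le_mul_of_nonneg_left h2 hMB0.le
          _ ≤ _ := by
              have : 0 ≤ MB * R x / (2 * ε) := by
                have := hRnn x
                positivity
              rw [mul_add]
              refine add_le_add ?_ (le_of_eq (by ring))
              rw [show MB / ε * R x = 2 * (MB * R x / (2 * ε)) by field_simp; ,
                show MB * (R x / (2 * ε)) = MB * R x / (2 * ε) by ring]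
              linarith
      refine (le_of_eq (mul_sub _ _ _)).trans ?_
      have h1 := (abs_le.1 (hone s.1 t.1)).2
      have h2 := (abs_le.1 (hone t.1 s.1)).1
      have : 2 * MB / ε * R x = 2 * (MB / ε * R x) := by ring
      rw [this]
      linarith
    · rw [image_eq_zero_of_notMem_tsupport (f := fun y => W y t.2.1 t.2.2)
        fun h => hx (hWs _ _ h), zero_mul]
      exact add_nonneg (mul_nonneg (by positivity) (hRnn x)) (mul_nonneg (by positivity) hS0)
  have hE : ∫ x, Err x ≤ N ^ 2 * (2 * MB / ε * (∫ x, R x) + MB * ε * ∫ x, S x) := by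
    rw [hErr, integral_finsetSum _ fun t _ => integrable_finsetSum _ fun s _ => hEt t s]
    simp only [integral_finsetSum _ fun s _ => hEt _ s]
    refine (Finset.sum_le_sum fun t _ => Finset.sum_le_sum fun s _ => hEb t s).trans (le_of_eq ?_)
    simp only [Finset.sum_const, nsmul_eq_mul, Finset.card_univ, hN]
    ring
  have hmain : ∫ x, S x ≤ 800 * |C₀| * (6 + N * 256 * B ^ 2) * (∫ x, R x) + 2 * ∫ x, Err x := by
    rw [← integral_const_mul, ← integral_const_mul,
      ← integral_add (hRi.const_mul _) (hEi.const_mul _)]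
    exact integral_mono hSi ((hRi.const_mul _).add (hEi.const_mul _)) hpt
  have hsum : ∑ t : T3, ∫ x, pd t.1 (fun y => W y t.2.1 t.2.2) x ^ 2 = ∫ x, S x := by
    rw [hS, integral_finsetSum _ fun t _ =>
      icd ((hfs t).pow 2) ((hfc t).comp_left (g := fun z : ℝ => z ^ 2) (by simp))]
  have hI0 : 0 ≤ ∫ x, S x := integral_nonneg fun x => Finset.sum_nonneg fun _ _ => sq_nonneg _
  have hsmall : 2 * (N ^ 2 * (MB * ε)) ≤ 1 / 2 := by
    rw [hε, mul_one_div, mul_div_assoc', mul_div_assoc', div_le_iff₀ (by positivity)]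
    nlinarith [mul_nonneg (sq_nonneg N) hMB0.le]
  rw [hsum]
  show ∫ x, S x ≤ 2 * P * ∫ x, R x
  rw [hP]
  have h4 : 4 * N ^ 2 * MB / ε * (∫ x, R x) = 2 * (N ^ 2 * (2 * MB / ε * ∫ x, R x)) := by ring
  nlinarith [mul_le_mul_of_nonneg_right hsmall hI0]

theorem gardingLocal : GardingLocal := by
  intro V J hJ K hKV hK
  obtain ⟨η, hη, hη01, U, hUo, hKU, -, hη1⟩ := exists_cutoff hJ.isOpen hK hKV
  obtain ⟨C, hC⟩ := garding_compact hJ hη.supp hη.compact
  obtain ⟨Bη, hBη⟩ := hη.compact.exists_bound_of_continuousOn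
    (f := fun x => fun a : Fin 4 => pd a η x)
    (continuousOn_pi.2 fun a => (contDiff_pd hη.smooth a).continuous.continuousOn)
  refine ⟨|C| * (2 + 144 * Bη ^ 2) + 1, tsupport η, hη.supp, hη.compact, fun u hu => ?_⟩
  set W : E → M := fun x => η x • u x with hW
  have hWij : ∀ i j, (fun x => W x i j) = fun x => η x * u x i j := fun i j => rfl
  have hWt : ∀ i j, IsTest V fun x => W x i j := fun i j =>
    hWij i j ▸ hη.mul_smooth hJ.isOpen (hu.smooth i j)
  have hWL : ∀ i j, tsupport (fun x => W x i j) ⊆ tsupport η := fun i j =>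
    hWij i j ▸ tsupport_mul_subset_left
  have hG := hC W (fun i j => (hWt i j).smooth) hWL
    (fun x hx => by simp [hW, hu.skew x hx, smul_neg])
    (fun x hx => by simp [hW, hu.anti x hx, smul_neg])
  set g : E → ℝ := fun x => dTwo u x ⬝ᵥ dTwo u x + ∑ i, ∑ j, u x i j ^ 2 with hg
  have hus : ∀ i j, ContinuousOn (fun x => u x i j) V := fun i j => (hu.smooth i j).continuousOn
  have hup : ∀ a i j, ContinuousOn (pd a fun x => u x i j) V := fun a i j =>
    ((hu.smooth i j).continuousOn_fderiv_of_isOpen hJ.isOpen (by simp)).clm_apply continuousOn_const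
  have hua : ∀ i j k, ContinuousOn (fun x => altd u x i j k) V := fun i j k =>
    ((hup i j k).add (hup j k i)).add (hup k i j)
  have hgc : ContinuousOn g V := by
    refine ContinuousOn.add ?_ (continuousOn_finsetSum _ fun i _ => continuousOn_finsetSum _
      fun j _ => (hus i j).pow 2)
    have hd : ∀ k, ContinuousOn (fun x => dTwo u x k) V := fun k => by
      fin_cases k
      · exact hua 1 2 3
      · exact (hua 0 2 3).neg
      · exact hua 0 1 3
      · exact (hua 0 1 2).neg
    exact continuousOn_finsetSum _ fun k _ => (hd k).mul (hd k)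
  have hgi : IntegrableOn g (tsupport η) :=
    (hgc.mono hη.supp).integrableOn_compact hη.compact
  have hg0 : ∀ x, 0 ≤ g x := fun x => add_nonneg (Finset.sum_nonneg fun _ _ => mul_self_nonneg _)
    (Finset.sum_nonneg fun _ _ => Finset.sum_nonneg fun _ _ => sq_nonneg _)
  set R : E → ℝ := fun x => dTwo W x ⬝ᵥ dTwo W x + ∑ i, ∑ j, W x i j ^ 2 with hR
  have hRg : ∀ x, R x ≤ (tsupport η).indicator (fun x => (2 + 144 * Bη ^ 2) * g x) x := fun x => by
    by_cases hx : x ∈ tsupport η
    · rw [indicator_of_mem hx]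
      have hxV := hη.supp hx
      have hdu : ∀ i j, DifferentiableAt ℝ (fun y => u y i j) x := fun i j =>
        ((hu.smooth i j).contDiffAt (hJ.isOpen.mem_nhds hxV)).differentiableAt (by simp)
      have hp : ∀ a i j, pd a (fun y => W y i j) x
          = pd a η x * u x i j + η x * pd a (fun y => u y i j) x := fun a i j =>
        hWij i j ▸ pd_mul a (hη.smooth.differentiable (by simp) x) (hdu i j)
      set w2 := ∑ i, ∑ j, u x i j ^ 2 with hw2
      have huij : ∀ i j, u x i j ^ 2 ≤ w2 := fun i j =>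
        (Finset.single_le_sum (f := fun j => u x i j ^ 2) (fun _ _ => sq_nonneg _)
          (Finset.mem_univ j)).trans (Finset.single_le_sum (f := fun i => ∑ j, u x i j ^ 2)
          (fun _ _ => Finset.sum_nonneg fun _ _ => sq_nonneg _) (Finset.mem_univ i))
      have hη2 : η x ^ 2 ≤ 1 := pow_le_one₀ (hη01 x).1 (hη01 x).2
      have ha : ∀ i j k, altd W x i j k ^ 2 ≤ 2 * altd u x i j k ^ 2 + 18 * Bη ^ 2 * w2 :=
          fun i j k => by
        have h : altd W x i j k = η x * altd u x i j k + (pd i η x * u x j k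
            + pd j η x * u x k i + pd k η x * u x i j) := by simp only [altd, hp]; ring
        have hb : ∀ a b c, (pd a η x * u x b c) ^ 2 ≤ Bη ^ 2 * w2 := fun a b c => by
          rw [mul_pow]
          refine mul_le_mul ?_ (huij b c) (sq_nonneg _) (sq_nonneg _)
          have := (norm_le_pi_norm (fun a : Fin 4 => pd a η x) a).trans (hBη x hx)
          rw [Real.norm_eq_abs] at this
          rw [← sq_abs]
          exact pow_le_pow_left₀ (abs_nonneg _) this 2
        have h1 : (η x * altd u x i j k) ^ 2 ≤ altd u x i j k ^ 2 := by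
          rw [mul_pow]; exact mul_le_of_le_one_left (sq_nonneg _) hη2
        rw [h]
        nlinarith [hb i j k, hb j k i, hb k i j, h1,
          sq_nonneg (η x * altd u x i j k - (pd i η x * u x j k + pd j η x * u x k i
            + pd k η x * u x i j)), sq_nonneg (pd i η x * u x j k - pd j η x * u x k i),
          sq_nonneg (pd j η x * u x k i - pd k η x * u x i j),
          sq_nonneg (pd i η x * u x j k - pd k η x * u x i j)]
      have hw : ∑ i, ∑ j, W x i j ^ 2 ≤ w2 := Finset.sum_le_sum fun i _ =>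
        Finset.sum_le_sum fun j _ => by
          show (η x * u x i j) ^ 2 ≤ _
          rw [mul_pow]; exact mul_le_of_le_one_left (sq_nonneg _) hη2
      have hw0 : 0 ≤ w2 := Finset.sum_nonneg fun _ _ => Finset.sum_nonneg fun _ _ => sq_nonneg _
      have hd : ∀ v : E → M, dTwo v x ⬝ᵥ dTwo v x = altd v x 1 2 3 ^ 2 + altd v x 0 2 3 ^ 2
          + altd v x 0 1 3 ^ 2 + altd v x 0 1 2 ^ 2 := fun v => by
        simp [dTwo, dotProduct, Fin.sum_univ_four]; ring
      have hu2 := hd u
      have hq : 0 ≤ dTwo u x ⬝ᵥ dTwo u x := Finset.sum_nonneg fun _ _ => mul_self_nonneg _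
      simp only [hR, hg, hd W]
      nlinarith [ha 1 2 3, ha 0 2 3, ha 0 1 3, ha 0 1 2, mul_nonneg (sq_nonneg Bη) hw0,
        mul_nonneg (sq_nonneg Bη) hq]
    · rw [indicator_of_notMem hx]
      have h0 : ∀ i j, x ∉ tsupport fun y => W y i j := fun i j h => hx (hWL i j h)
      have hz : ∀ a i j, pd a (fun y => W y i j) x = 0 := fun a i j => by
        have := congrFun (congrFun (gradT_eq_zero h0 a) i) j
        simpa [gradT] using this
      have hw0 : ∀ i j, W x i j = 0 := fun i j =>
        image_eq_zero_of_notMem_tsupport (f := fun y => W y i j) (h0 i j)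
      simp [hR, dTwo, altd, hz, hw0, dotProduct, Fin.sum_univ_four]
  have hRi : ∫ x, R x ≤ (2 + 144 * Bη ^ 2) * ∫ x in tsupport η, g x := by
    rw [← integral_const_mul, ← integral_indicator (isClosed_tsupport η).measurableSet]
    refine integral_mono_of_nonneg (Eventually.of_forall fun x => ?_)
      (IntegrableOn.integrable_indicator (hgi.const_mul _) (isClosed_tsupport η).measurableSet)
      (Eventually.of_forall hRg)
    exact add_nonneg (Finset.sum_nonneg fun _ _ => mul_self_nonneg _)
      (Finset.sum_nonneg fun _ _ => Finset.sum_nonneg fun _ _ => sq_nonneg _)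
  have hKt : K ⊆ tsupport η := fun x hx =>
    subset_tsupport _ (by simp [Function.mem_support, hη1 x (hKU hx)])
  have hWeq : ∀ x ∈ K, (∑ i, ∑ j, (u x i j ^ 2 + ∑ a, pd a (fun y => u y i j) x ^ 2))
      ≤ g x + ∑ t : T3, pd t.1 (fun y => W y t.2.1 t.2.2) x ^ 2 := fun x hx => by
    have he : ∀ a i j, pd a (fun y => W y i j) x = pd a (fun y => u y i j) x := fun a i j => by
      refine pd_congr a ?_
      filter_upwards [hUo.mem_nhds (hKU hx)] with y hy
      show η y * u y i j = u y i j
      rw [hη1 y hy, one_mul]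
    rw [sum_T3]
    simp only [he, Finset.sum_add_distrib, hg]
    have hq : 0 ≤ dTwo u x ⬝ᵥ dTwo u x := Finset.sum_nonneg fun _ _ => mul_self_nonneg _
    rw [Finset.sum_comm_cycle (f := fun a i j => pd a (fun y => u y i j) x ^ 2),
      Finset.sum_comm_cycle (f := fun b a i => pd a (fun y => u y i b) x ^ 2)]
    linarith
  have hfi : ∀ t : T3, Integrable fun x => pd t.1 (fun y => W y t.2.1 t.2.2) x ^ 2 := fun t =>
    ((contDiff_pd (hWt _ _).smooth _).pow 2).continuous.integrable_of_hasCompactSupport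
      ((hasCompactSupport_pd (hWt _ _).compact _).comp_left (g := fun z : ℝ => z ^ 2) (by simp))
  have h1 : h1On K u ≤ (∫ x in tsupport η, g x)
      + ∑ t : T3, ∫ x, pd t.1 (fun y => W y t.2.1 t.2.2) x ^ 2 := by
    rw [← integral_finsetSum _ fun t _ => hfi t]
    have hgK := hgi.mono_set hKt
    have hsK : IntegrableOn (fun x => ∑ t : T3, pd t.1 (fun y => W y t.2.1 t.2.2) x ^ 2) K :=
      (integrable_finsetSum _ fun t _ => hfi t).integrableOn
    refine (integral_mono_of_nonneg (Eventually.of_forall fun x =>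
      Finset.sum_nonneg fun _ _ => Finset.sum_nonneg fun _ _ => add_nonneg (sq_nonneg _)
        (Finset.sum_nonneg fun _ _ => sq_nonneg _)) (hgK.add hsK)
      ((ae_restrict_mem hK.measurableSet).mono hWeq)).trans ?_
    rw [Pi.add_def, integral_add hgK hsK]
    exact add_le_add (setIntegral_mono_set hgi (Eventually.of_forall hg0) hKt.eventuallyLE)
      (setIntegral_le_integral (integrable_finsetSum _ fun t _ => hfi t)
        (Eventually.of_forall fun x => Finset.sum_nonneg fun _ _ => sq_nonneg _))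
  have hI0 : 0 ≤ ∫ x, R x := integral_nonneg fun x =>
    add_nonneg (Finset.sum_nonneg fun _ _ => mul_self_nonneg _)
      (Finset.sum_nonneg fun _ _ => Finset.sum_nonneg fun _ _ => sq_nonneg _)
  nlinarith [mul_le_mul_of_nonneg_left hRi (abs_nonneg C),
    mul_le_mul_of_nonneg_right (le_abs_self C) hI0, hG]

end Vale.Agent.P204.Tame
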