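import Vale.Agent.P204.Tame.Loc.Alg
import Vale.Agent.P204.Tame.DensityMass

/-!
The pointwise linear algebra of invariant, anti-invariant and semipositive forms.
-/

open scoped ContDiff Matrix
open Filter Topology Metric Set

namespace Vale.Agent.P204.Tame

theorem det_stdJ : stdJ.det = 1 := by
  rw [Matrix.det_succ_row_zero]
  simp [stdJ, Fin.sum_univ_four, Matrix.det_fin_three, Fin.succAbove]

theorem det_acs {J : M} (hJ : J * J = -1) : J.det = 1 := by
  obtain ⟨P, hdet, hP⟩ := exists_frame hJ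
  have h := congrArg Matrix.det hP
  rw [Matrix.det_mul, Matrix.det_mul, det_stdJ, mul_one] at h
  exact (mul_eq_right₀ hdet.ne_zero).1 h

theorem acs_pfq_inv_anti (J u v : M) (hJ : J * J = -1) (hu : uᵀ = -u) (hv : vᵀ = -v)
    (hi : Jᵀ * u * J = u) (ha : Jᵀ * v * J = -v) : pfq u v = 0 := by
  have h := pfq_congr_skew J hu hv
  rw [hi, ha, det_acs hJ, one_mul] at h
  have : pfq u (-v) = -pfq u v := by simp [pfq]; ring
  linarith

/-- Entries of an invariant form in the standard frame. -/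
theorem std_inv_entries {u : M} (hi : stdJᵀ * u * stdJ = u) :
    u 1 3 = u 0 2 ∧ u 1 2 = -u 0 3 := by
  constructor
  · have := congrFun (congrFun hi 0) 2
    simp [Matrix.mul_apply, stdJ, Fin.sum_univ_four] at this
    linarith
  · have := congrFun (congrFun hi 0) 3
    simp [Matrix.mul_apply, stdJ, Fin.sum_univ_four] at this
    linarith

theorem std_pfq_psd {a b : M} (ha : Psd stdJ a) (hb : Psd stdJ b) :
    pfq a b = a 0 1 * b 2 3 + b 0 1 * a 2 3 - 2 * (a 0 2 * b 0 2 + a 0 3 * b 0 3) := by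
  obtain ⟨a1, a2⟩ := std_inv_entries ha.inv
  obtain ⟨b1, b2⟩ := std_inv_entries hb.inv
  rw [pfq, a1, a2, b1, b2]; ring

theorem std_psd_bounds {a : M} (h : Psd stdJ a) :
    0 ≤ a 0 1 ∧ 0 ≤ a 2 3 ∧ a 0 2 ^ 2 + a 0 3 ^ 2 ≤ a 0 1 * a 2 3 := by
  have h0 := h.nonneg (e 0)
  have h2 := h.nonneg (e 2)
  have hp := pfq_nonneg_std h
  rw [eq_skew6 h.skew] at h0 h2
  simp [val, stdJ, skew6, e, Matrix.mulVec, dotProduct, Fin.sum_univ_four] at h0 h2
  refine ⟨h0, h2, ?_⟩
  rw [std_pfq_psd h h] at hp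
  nlinarith

theorem std_pfq_nonneg {a b : M} (ha : Psd stdJ a) (hb : Psd stdJ b) : 0 ≤ pfq a b := by
  obtain ⟨p, q, hpq⟩ := std_psd_bounds ha
  obtain ⟨p', q', hpq'⟩ := std_psd_bounds hb
  rw [std_pfq_psd ha hb]
  have hcs : (a 0 2 * b 0 2 + a 0 3 * b 0 3) ^ 2 ≤ a 0 1 * a 2 3 * (b 0 1 * b 2 3) := by
    refine le_trans ?_ (mul_le_mul hpq hpq' (by positivity) (by positivity))
    nlinarith [sq_nonneg (a 0 2 * b 0 3 - a 0 3 * b 0 2)]
  have h4 : (2 * (a 0 2 * b 0 2 + a 0 3 * b 0 3)) ^ 2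
      ≤ (a 0 1 * b 2 3 + b 0 1 * a 2 3) ^ 2 := by
    nlinarith [sq_nonneg (a 0 1 * b 2 3 - b 0 1 * a 2 3)]
  have h5 := abs_le_of_sq_le_sq h4 (by positivity)
  linarith [(abs_le.1 h5).2]

theorem std_pfq_pos {a b : M} (ha : Psd stdJ a) (ha0 : a ≠ 0) (hb : Psd stdJ b)
    (hstrict : ∀ v, v ≠ 0 → 0 < val b v (stdJ *ᵥ v)) : 0 < pfq a b := by
  obtain ⟨p, q, hpq⟩ := std_psd_bounds ha
  obtain ⟨p', q', hpq'⟩ := std_psd_bounds hb
  obtain ⟨b1, b2⟩ := std_inv_entries hb.inv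
  have hp' : 0 < b 0 1 := by
    have := hstrict (e 0) (fun h => by simpa [e] using congrFun h 0)
    rw [eq_skew6 hb.skew] at this
    simpa [val, stdJ, skew6, e, Matrix.mulVec, dotProduct, Fin.sum_univ_four] using this
  have hq' : 0 < b 2 3 := by
    have := hstrict (e 2) (fun h => by simpa [e] using congrFun h 2)
    rw [eq_skew6 hb.skew] at this
    simpa [val, stdJ, skew6, e, Matrix.mulVec, dotProduct, Fin.sum_univ_four] using this
  have hd : b 0 2 ^ 2 + b 0 3 ^ 2 < b 0 1 * b 2 3 := by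
    have hv : (![-b 0 3, -b 0 2, b 0 1, 0] : E) ≠ 0 := fun h => by
      have := congrFun h 2
      simp at this
      linarith
    have := hstrict _ hv
    rw [eq_skew6 hb.skew] at this
    simp [val, stdJ, skew6, Matrix.mulVec, dotProduct, Fin.sum_univ_four, b1, b2] at this
    nlinarith
  rw [std_pfq_psd ha hb]
  rcases (mul_nonneg p q).eq_or_lt with h0 | h0
  · have hr : a 0 2 = 0 := by nlinarith [sq_nonneg (a 0 2), sq_nonneg (a 0 3)]
    have hs : a 0 3 = 0 := by nlinarith [sq_nonneg (a 0 2), sq_nonneg (a 0 3)]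
    rw [hr, hs]
    have hne : a 0 1 ≠ 0 ∨ a 2 3 ≠ 0 := by
      by_contra hcon
      push Not at hcon
      obtain ⟨a1, a2⟩ := std_inv_entries ha.inv
      refine ha0 ?_
      rw [eq_skew6 ha.skew, hcon.1, hcon.2, hr, hs, a1, a2, hr, hs]
      ext i j
      fin_cases i <;> fin_cases j <;> simp [skew6]
    rcases hne with h | h
    · nlinarith [mul_pos (lt_of_le_of_ne p h.symm) hq', mul_nonneg hp'.le q]
    · nlinarith [mul_pos hp' (lt_of_le_of_ne q h.symm), mul_nonneg p hq'.le]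
  · have hcs : (a 0 2 * b 0 2 + a 0 3 * b 0 3) ^ 2 < a 0 1 * a 2 3 * (b 0 1 * b 2 3) := by
      calc (a 0 2 * b 0 2 + a 0 3 * b 0 3) ^ 2
          ≤ (a 0 2 ^ 2 + a 0 3 ^ 2) * (b 0 2 ^ 2 + b 0 3 ^ 2) := by
            nlinarith [sq_nonneg (a 0 2 * b 0 3 - a 0 3 * b 0 2)]
        _ ≤ (a 0 1 * a 2 3) * (b 0 2 ^ 2 + b 0 3 ^ 2) :=
            mul_le_mul_of_nonneg_right hpq (by positivity)
        _ < _ := mul_lt_mul_of_pos_left hd h0
    have h4 : (2 * (a 0 2 * b 0 2 + a 0 3 * b 0 3)) ^ 2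
        < (a 0 1 * b 2 3 + b 0 1 * a 2 3) ^ 2 := by
      nlinarith [sq_nonneg (a 0 1 * b 2 3 - b 0 1 * a 2 3)]
    have h5 := abs_lt_of_sq_lt_sq h4 (by positivity)
    linarith [(abs_lt.1 h5).2]

theorem psd_wmat {J : M} (hJ : J * J = -1) : Psd J (wmat J) := by
  have hG := gmat_congr hJ
  have hJt : Jᵀ * Jᵀ = -1 := by rw [← Matrix.transpose_mul, hJ]; simp
  refine ⟨?_, ?_, fun v => by rw [val_wmat J hJ]; exact gmat_dot_nonneg J v⟩
  · rw [wmat, Matrix.transpose_mul, transpose_gmat, Matrix.transpose_transpose]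
    conv_rhs => rw [← hG, ← Matrix.mul_assoc, ← Matrix.mul_assoc, hJt]
    simp
  · rw [wmat]
    calc Jᵀ * (Jᵀ * gmat J) * J = Jᵀ * (Jᵀ * gmat J * J) := by noncomm_ring
      _ = _ := by rw [hG]

theorem frame_data {J : M} (hJ : J * J = -1) :
    ∃ P : M, IsUnit P.det ∧ J * P = P * stdJ ∧
      ∀ v, v ≠ 0 → 0 < val (Pᵀ * wmat J * P) v (stdJ *ᵥ v) := by
  obtain ⟨P, hdet, hP⟩ := exists_frame hJ
  refine ⟨P, hdet, hP, fun v hv => ?_⟩
  have hne : P *ᵥ v ≠ 0 := fun h => hv (Matrix.mulVec_injective_iff_isUnit.2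
    ((Matrix.isUnit_iff_isUnit_det P).2 hdet) (by rw [h, Matrix.mulVec_zero]))
  rw [val_congr, Matrix.mulVec_mulVec, ← hP, ← Matrix.mulVec_mulVec, val_wmat J hJ]
  simpa using (posDef_gmat J).dotProduct_mulVec_pos hne

theorem pfq_wmat_ne {J : M} (hJ : J * J = -1) : pfq (wmat J) (wmat J) ≠ 0 := by
  obtain ⟨P, hdet, hP, hst⟩ := frame_data hJ
  have hw := psd_wmat hJ
  have hp := psd_frame hP hw
  have hne : Pᵀ * wmat J * P ≠ 0 := fun h => by
    have := hst (e 0) (fun h => by simpa [e] using congrFun h 0)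
    rw [h] at this
    simp [val] at this
  have := std_pfq_pos hp hne hp hst
  rw [pfq_congr_skew P hw.skew hw.skew] at this
  exact fun h => by rw [h, mul_zero] at this; exact lt_irrefl _ this

theorem sgnJ_mul_pos {J : M} (hJ : J * J = -1) : 0 < sgnJ J * pfq (wmat J) (wmat J) := by
  rcases lt_or_gt_of_ne (pfq_wmat_ne hJ) with h | h
  · rw [sgnJ, Real.sign_of_neg h]; linarith
  · rw [sgnJ, Real.sign_of_pos h]; linarith

theorem wd_frame {J P : M} (hJ : J * J = -1) (hdet : IsUnit P.det) (hP : J * P = P * stdJ)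
    {a b : M} (ha : aᵀ = -a) (hb : bᵀ = -b) :
    ∃ k > 0, wd J a b = k * pfq (Pᵀ * a * P) (Pᵀ * b * P) := by
  have hpos := sgnJ_mul_det_pos (psd_wmat hJ) (pfq_wmat_ne hJ) hdet hP
  refine ⟨(sgnJ J * P.det)⁻¹, inv_pos.2 hpos, ?_⟩
  rw [pfq_congr_skew P ha hb, wd]
  have hd := hdet.ne_zero
  have hs : sgnJ J ≠ 0 := fun h => by simp [h] at hpos
  field_simp
  rw [sq, sgnJ_sq (pfq_wmat_ne hJ)]
  ring

theorem wd_nonneg_psd (J a b : M) (hJ : J * J = -1) (ha : Psd J a) (hb : Psd J b) :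
    0 ≤ wd J a b := by
  obtain ⟨P, hdet, hP⟩ := exists_frame hJ
  obtain ⟨k, hk, he⟩ := wd_frame hJ hdet hP ha.skew hb.skew
  rw [he]
  exact mul_nonneg hk.le (std_pfq_nonneg (psd_frame hP ha) (psd_frame hP hb))

theorem frame_ne_zero {P a : M} (hdet : IsUnit P.det) (ha : a ≠ 0) : Pᵀ * a * P ≠ 0 := fun h => by
  refine ha ?_
  have h1 : P * P⁻¹ = 1 := Matrix.mul_nonsing_inv _ hdet
  calc a = (P * P⁻¹)ᵀ * a * (P * P⁻¹) := by rw [h1]; simp
    _ = P⁻¹ᵀ * (Pᵀ * a * P) * P⁻¹ := by simp only [Matrix.transpose_mul, Matrix.mul_assoc]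
    _ = 0 := by rw [h]; simp

theorem wd_wmat_pos {J a : M} (hJ : J * J = -1) (ha : Psd J a) (ha0 : a ≠ 0) :
    0 < wd J a (wmat J) := by
  obtain ⟨P, hdet, hP, hst⟩ := frame_data hJ
  obtain ⟨k, hk, he⟩ := wd_frame hJ hdet hP ha.skew (psd_wmat hJ).skew
  rw [he]
  exact mul_pos hk (std_pfq_pos (psd_frame hP ha) (frame_ne_zero hdet ha0)
    (psd_frame hP (psd_wmat hJ)) hst)

theorem wd_anti_pos {J a : M} (hJ : J * J = -1) (ha : aᵀ = -a) (hi : Jᵀ * a * J = -a)
    (ha0 : a ≠ 0) : 0 < wd J a a := by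
  obtain ⟨P, hdet, hP⟩ := exists_frame hJ
  obtain ⟨k, hk, he⟩ := wd_frame hJ hdet hP ha ha
  rw [he]
  refine mul_pos hk ?_
  set u := Pᵀ * a * P with hu
  have hus : uᵀ = -u := by simp [hu, Matrix.transpose_mul, Matrix.mul_assoc, ha]
  have hui : stdJᵀ * u * stdJ = -u := by
    calc stdJᵀ * (Pᵀ * a * P) * stdJ = (P * stdJ)ᵀ * a * (P * stdJ) := by
          simp only [Matrix.transpose_mul, Matrix.mul_assoc]
      _ = Pᵀ * (Jᵀ * a * J) * P := by
          rw [← hP]; simp only [Matrix.transpose_mul, Matrix.mul_assoc]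
      _ = -u := by rw [hi]; simp [hu]
  have e01 : u 0 1 = 0 := by
    have := congrFun (congrFun hui 0) 1
    simp [Matrix.mul_apply, stdJ, Fin.sum_univ_four] at this
    linarith [skew_apply hus 0 1]
  have e23 : u 2 3 = 0 := by
    have := congrFun (congrFun hui 2) 3
    simp [Matrix.mul_apply, stdJ, Fin.sum_univ_four] at this
    linarith [skew_apply hus 2 3]
  have e13 : u 1 3 = -u 0 2 := by
    have := congrFun (congrFun hui 0) 2
    simp [Matrix.mul_apply, stdJ, Fin.sum_univ_four] at this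
    linarith [skew_apply hus 0 2]
  have e12 : u 1 2 = u 0 3 := by
    have := congrFun (congrFun hui 0) 3
    simp [Matrix.mul_apply, stdJ, Fin.sum_univ_four] at this
    linarith [skew_apply hus 0 3]
  have hne := frame_ne_zero hdet ha0
  have : pfq u u = 2 * (u 0 2 ^ 2 + u 0 3 ^ 2) := by simp [pfq, e01, e23, e13, e12]; ring
  rw [this]
  rcases (by positivity : (0:ℝ) ≤ u 0 2 ^ 2 + u 0 3 ^ 2).eq_or_lt with h | h
  · refine absurd ?_ hne
    have h2 : u 0 2 = 0 := by nlinarith [sq_nonneg (u 0 2), sq_nonneg (u 0 3)]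
    have h3 : u 0 3 = 0 := by nlinarith [sq_nonneg (u 0 2), sq_nonneg (u 0 3)]
    rw [← hu, eq_skew6 hus, e01, e23, e13, e12, h2, h3]
    ext i j
    fin_cases i <;> fin_cases j <;> simp [skew6]
  · linarith

theorem trc_eq {J a : M} (hJ : J * J = -1) (ha : Psd J a) :
    trc J a = 2 * ∑ i, val a (e i) (J *ᵥ e i) := by
  have h1 : Jᵀ * a = -(a * J) := by
    calc Jᵀ * a = -(Jᵀ * a * (J * J)) := by rw [hJ]; simp
      _ = -(Jᵀ * a * J * J) := by rw [Matrix.mul_assoc (Jᵀ * a) J J]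
      _ = -(a * J) := by rw [ha.inv]
  have h2 : Jᵀ * (a * J) * J = a * J := by
    rw [← Matrix.mul_assoc Jᵀ a J, ha.inv]
  have h3 : trc J a = Matrix.trace (hmat J * (a * J)) := by
    have : ∑ i, ∑ j, kmat J i j * a i j = Matrix.trace ((kmat J)ᵀ * a) := by
      simp only [Matrix.trace, Matrix.diag_apply, Matrix.mul_apply, Matrix.transpose_apply]
      exact Finset.sum_comm
    have hh : (hmat J)ᵀ = hmat J := by simp [hmat]
    rw [trc, this, kmat, Matrix.transpose_mul, hh, Matrix.mul_assoc, h1]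
    simp
  have h4 : Matrix.trace (hmat J * (a * J)) = 2 * Matrix.trace (a * J) := by
    rw [hmat, Matrix.add_mul, Matrix.one_mul, Matrix.trace_add, Matrix.mul_assoc J,
      Matrix.trace_mul_comm J, h2]
    ring
  rw [h3, h4, Matrix.trace]
  congr 1
  refine Finset.sum_congr rfl fun i _ => ?_
  simp [val, e, Matrix.mulVec, dotProduct, Matrix.mul_apply, Pi.single_apply]

theorem trc_pos {J a : M} (hJ : J * J = -1) (ha : Psd J a) (ha0 : a ≠ 0) : 0 < trc J a := by
  rw [trc_eq hJ ha]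
  have hS : ∀ i j, val a (e i) (J *ᵥ e j) = (a * J) i j := fun i j => by
    simp [val, e, Matrix.mulVec, dotProduct, Matrix.mul_apply, Pi.single_apply]
  have hsym : ∀ i j, (a * J) j i = (a * J) i j := fun i j => by
    have h1 : (a * J)ᵀ = a * J := by
      calc (a * J)ᵀ = -(Jᵀ * a) := by rw [Matrix.transpose_mul, ha.skew, Matrix.mul_neg]
        _ = (Jᵀ * a) * (J * J) := by rw [hJ]; simp
        _ = a * J := by rw [← Matrix.mul_assoc, ha.inv]
    exact congrFun (congrFun h1 i) j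
  rcases (Finset.sum_nonneg fun i _ => ha.nonneg (e i) :
    0 ≤ ∑ i, val a (e i) (J *ᵥ e i)).eq_or_lt with h | h
  · exfalso
    have hd : ∀ i, (a * J) i i = 0 := fun i => by
      rw [← hS]
      exact (Finset.sum_eq_zero_iff_of_nonneg fun i _ => ha.nonneg (e i)).1 h.symm i
        (Finset.mem_univ i)
    have h0 : a * J = 0 := by
      ext i j
      have p1 := ha.nonneg (e i + e j)
      have p2 := ha.nonneg (e i - e j)
      have x1 : val a (e i + e j) (J *ᵥ (e i + e j))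
          = (a * J) i i + (a * J) i j + ((a * J) j i + (a * J) j j) := by
        rw [← hS, ← hS, ← hS, ← hS]
        simp [val, Matrix.mulVec_add, dotProduct_add, add_dotProduct]; ring
      have x2 : val a (e i - e j) (J *ᵥ (e i - e j))
          = (a * J) i i - (a * J) i j - ((a * J) j i - (a * J) j j) := by
        rw [← hS, ← hS, ← hS, ← hS]
        simp [val, Matrix.mulVec_sub, dotProduct_sub, sub_dotProduct]; ring
      rw [x1, hsym i j, hd, hd] at p1
      rw [x2, hsym i j, hd, hd] at p2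
      simp only [Matrix.zero_apply]
      linarith
    refine ha0 ?_
    have hm := congrArg (fun m => m * J) h0
    simpa [Matrix.mul_assoc, hJ] using hm
  · linarith

theorem continuousOn_sgnJ {S : Set M} (hS : ∀ J ∈ S, J * J = -1) : ContinuousOn sgnJ S := by
  have hw : Continuous (wmat : M → M) := continuous_id.matrix_transpose.matrix_mul continuous_gmat
  have hh : Continuous fun J : M => pfq (wmat J) (wmat J) := by
    have he : ∀ i j, Continuous fun J : M => wmat J i j := fun i j =>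
      (continuous_apply_apply i j).comp hw
    unfold pfq
    fun_prop
  refine (hh.continuousOn.div hh.abs.continuousOn fun J hJ =>
    (abs_pos.2 (pfq_wmat_ne (hS J hJ))).ne').congr fun J hJ => ?_
  rcases lt_or_gt_of_ne (pfq_wmat_ne (hS J hJ)) with h | h
  · simp only [Pi.div_apply]
    rw [sgnJ, Real.sign_of_neg h, abs_of_neg h, div_neg, div_self h.ne]
  · simp only [Pi.div_apply]
    rw [sgnJ, Real.sign_of_pos h, abs_of_pos h, div_self h.ne']

theorem isClosed_psd : IsClosed {z : M × M | Psd z.1 z.2} := by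
  have : {z : M × M | Psd z.1 z.2} = {z | z.2ᵀ = -z.2} ∩ {z | z.1ᵀ * z.2 * z.1 = z.2}
      ∩ ⋂ v : E, {z | 0 ≤ val z.2 v (z.1 *ᵥ v)} := by
    ext z
    simp only [mem_ofPred_eq, mem_inter_iff, mem_iInter]
    exact ⟨fun h => ⟨⟨h.skew, h.inv⟩, h.nonneg⟩, fun h => ⟨h.1.1, h.1.2, h.2⟩⟩
  rw [this]
  refine ((isClosed_eq (by fun_prop) (by fun_prop)).inter
    (isClosed_eq (by fun_prop) (by fun_prop))).inter (isClosed_iInter fun v => ?_)
  refine isClosed_le continuous_const ?_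
  simp only [val, dotProduct, Matrix.mulVec]
  fun_prop

theorem exists_unif_lower {S : Set M} (hS : IsCompact S) {T : Set (M × M)} (hT : IsClosed T)
    {F : M × M → ℝ} (hF : ContinuousOn F (S ×ˢ univ))
    (hpos : ∀ J ∈ S, ∀ a, (J, a) ∈ T → a ≠ 0 → 0 < F (J, a)) :
    ∃ c > 0, ∀ J ∈ S, ∀ a, (J, a) ∈ T → nrm1 a = 1 → c ≤ F (J, a) := by
  have hn : Continuous (nrm1 : M → ℝ) := by unfold nrm1; fun_prop
  have hsph : IsCompact {a : M | nrm1 a = 1} := by
    have hsub : {a : M | nrm1 a = 1} ⊆ Set.pi univ fun _ : Fin 4 => Set.pi univ fun _ : Fin 4 =>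
        Icc (-1 : ℝ) 1 := fun a ha i _ j _ => by
      have := abs_le_nrm1 a i j
      rw [show nrm1 a = 1 from ha] at this
      exact abs_le.1 this
    exact (isCompact_univ_pi fun _ => isCompact_univ_pi fun _ => isCompact_Icc).of_isClosed_subset
      (isClosed_eq hn continuous_const) hsub
  set C := (S ×ˢ {a : M | nrm1 a = 1}) ∩ T
  have hC : IsCompact C := (hS.prod hsph).inter_right hT
  rcases C.eq_empty_or_nonempty with he | hne
  · exact ⟨1, one_pos, fun J hJ a ha hn => absurd (show (J, a) ∈ C from ⟨⟨hJ, hn⟩, ha⟩) (by simp [he])⟩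
  obtain ⟨z, hz, hmin⟩ := hC.exists_isMinOn hne
    (hF.mono fun w hw => ⟨hw.1.1, mem_univ _⟩)
  refine ⟨F z, ?_, fun J hJ a ha hn => hmin ⟨⟨hJ, hn⟩, ha⟩⟩
  refine hpos z.1 hz.1.1 z.2 hz.2 fun h0 => ?_
  have : nrm1 z.2 = 1 := hz.1.2
  simp [h0, nrm1] at this

theorem linearFacts : LinearFacts := by
  refine ⟨acs_pfq_inv_anti, wd_nonneg_psd, fun J hJ => ⟨psd_wmat hJ, sgnJ_mul_pos hJ⟩,
    fun S hS hSJ => ?_⟩
  have hsg : ContinuousOn (fun z : M × M => sgnJ z.1) (S ×ˢ univ) :=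
    (continuousOn_sgnJ hSJ).comp continuousOn_fst fun z hz => hz.1
  have hw : ∀ i j, Continuous fun z : M × M => wmat z.1 i j := fun i j =>
    (continuous_apply_apply i j).comp
      ((continuous_id.matrix_transpose.matrix_mul continuous_gmat).comp continuous_fst)
  obtain ⟨c1, hc1, h1⟩ := exists_unif_lower hS
    (T := {z : M × M | z.2ᵀ = -z.2 ∧ z.1ᵀ * z.2 * z.1 = -z.2})
    ((isClosed_eq (by fun_prop) (by fun_prop)).inter (isClosed_eq (by fun_prop) (by fun_prop)))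
    (F := fun z => wd z.1 z.2 z.2)
    (hsg.mul (Continuous.continuousOn (by unfold pfq; fun_prop)))
    fun J hJ a ha ha0 => wd_anti_pos (hSJ J hJ) ha.1 ha.2 ha0
  obtain ⟨c2, hc2, h2⟩ := exists_unif_lower hS isClosed_psd
    (F := fun z => wd z.1 z.2 (wmat z.1))
    (hsg.mul (Continuous.continuousOn (by unfold pfq; fun_prop)))
    fun J hJ a ha ha0 => wd_wmat_pos (hSJ J hJ) ha ha0
  obtain ⟨c3, hc3, h3⟩ := exists_unif_lower hS isClosed_psd
    (F := fun z => trc z.1 z.2)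
    (Continuous.continuousOn (by unfold trc kmat hmat; fun_prop))
    fun J hJ a ha ha0 => trc_pos (hSJ J hJ) ha ha0
  obtain ⟨Bm, hBm⟩ := (hS.image (f := nrm1) (by unfold nrm1; fun_prop)).bddAbove
  set c := min (min c1 c2) (min c3 (1 / (8 * |Bm| + 1))) with hc
  have hc0 : 0 < c := lt_min (lt_min hc1 hc2) (lt_min hc3 (by positivity))
  have hle1 : c ≤ c1 := (min_le_left _ _).trans (min_le_left _ _)
  have hle2 : c ≤ c2 := (min_le_left _ _).trans (min_le_right _ _)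
  have hle3 : c ≤ c3 := (min_le_right _ _).trans (min_le_left _ _)
  have hle4 : c ≤ 1 / (8 * |Bm| + 1) := (min_le_right _ _).trans (min_le_right _ _)
  have hscale : ∀ a : M, a ≠ 0 → 0 < nrm1 a ∧ nrm1 ((nrm1 a)⁻¹ • a) = 1 := fun a ha => by
    have h0 : 0 < nrm1 a := by
      refine lt_of_le_of_ne (nrm1_nonneg a) fun h => ha ?_
      ext i j
      have := abs_le_nrm1 a i j
      rw [← h] at this
      simpa using abs_eq_zero.1 (le_antisymm this (abs_nonneg _))
    refine ⟨h0, ?_⟩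
    simp only [nrm1, Matrix.smul_apply, smul_eq_mul, abs_mul, ← Finset.mul_sum]
    show |(nrm1 a)⁻¹| * nrm1 a = 1
    rw [abs_of_pos (inv_pos.2 h0)]
    exact inv_mul_cancel₀ h0.ne'
  refine ⟨c, hc0, fun J hJ => ⟨fun a ha hi => ?_, fun a ha => ?_, fun J' hJ' b hb v => ?_⟩⟩
  · rcases eq_or_ne a 0 with rfl | ha0
    · simp [wd, pfq]
    obtain ⟨hn, hn1⟩ := hscale a ha0
    have := h1 J hJ ((nrm1 a)⁻¹ • a)
      ⟨by simp [Matrix.transpose_smul, ha], by simp [hi]⟩ hn1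
    have he : wd J ((nrm1 a)⁻¹ • a) ((nrm1 a)⁻¹ • a) = ((nrm1 a) ^ 2)⁻¹ * wd J a a := by
      simp only [wd, pfq, Matrix.smul_apply, smul_eq_mul]; ring
    simp only [he] at this
    rw [inv_mul_eq_div, le_div_iff₀ (by positivity)] at this
    have hsq : ∑ i, ∑ j, a i j ^ 2 ≤ nrm1 a ^ 2 := by
      calc ∑ i, ∑ j, a i j ^ 2 ≤ ∑ i, ∑ j, |a i j| * nrm1 a :=
            Finset.sum_le_sum fun i _ => Finset.sum_le_sum fun j _ => by
              rw [← sq_abs, sq]
              exact mul_le_mul_of_nonneg_left (abs_le_nrm1 a i j) (abs_nonneg _)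
        _ = nrm1 a ^ 2 := by simp [nrm1, ← Finset.sum_mul, sq]
    calc c * ∑ i, ∑ j, a i j ^ 2 ≤ c1 * nrm1 a ^ 2 := mul_le_mul hle1 hsq (by positivity) hc1.le
      _ ≤ _ := this
  · rcases eq_or_ne a 0 with rfl | ha0
    · simp [wd, pfq, trc]
    obtain ⟨hn, hn1⟩ := hscale a ha0
    have hp : Psd J ((nrm1 a)⁻¹ • a) := by
      refine ⟨by simp [Matrix.transpose_smul, ha.skew], by simp [ha.inv], fun v => ?_⟩
      have := mul_nonneg (inv_nonneg.2 hn.le) (ha.nonneg v)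
      simpa [val, Matrix.smul_mulVec] using this
    have t2 := h2 J hJ _ hp hn1
    have t3 := h3 J hJ _ hp hn1
    have e2 : wd J ((nrm1 a)⁻¹ • a) (wmat J) = (nrm1 a)⁻¹ * wd J a (wmat J) := by
      simp only [wd, pfq, Matrix.smul_apply, smul_eq_mul]; ring
    have e3 : trc J ((nrm1 a)⁻¹ • a) = (nrm1 a)⁻¹ * trc J a := by
      simp only [trc, Matrix.smul_apply, smul_eq_mul, mul_neg, Finset.mul_sum]
      congr 1
      exact Finset.sum_congr rfl fun i _ => Finset.sum_congr rfl fun j _ => by ring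
    simp only [e2, e3] at t2 t3
    rw [inv_mul_eq_div, le_div_iff₀ hn] at t2 t3
    exact ⟨le_trans (mul_le_mul_of_nonneg_right hle2 hn.le) t2,
      le_trans (mul_le_mul_of_nonneg_right hle3 hn.le) t3⟩
  · have hsq' := hSJ J' hJ'
    have hp := val_pullback_ge hsq' hb 1 J v
    simp only [Matrix.transpose_one, Matrix.one_mul, Matrix.mul_one] at hp
    refine le_trans (neg_le_neg ?_) hp
    set f := (J - J') *ᵥ v with hf
    have hvv : ∀ x : E, 0 ≤ x ⬝ᵥ x := fun x => Finset.sum_nonneg fun _ _ => mul_self_nonneg _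
    have hmv : ∀ (u : M) (x : E), (u *ᵥ x) ⬝ᵥ (u *ᵥ x) ≤ 4 * nrm1 u ^ 2 * (x ⬝ᵥ x) := fun u x => by
      have hi : ∀ i, (u *ᵥ x) i * (u *ᵥ x) i ≤ nrm1 u ^ 2 * (x ⬝ᵥ x) := fun i => by
        have hb : |(u *ᵥ x) i| ≤ nrm1 u * Real.sqrt (x ⬝ᵥ x) := by
          simp only [Matrix.mulVec, dotProduct]
          refine (Finset.abs_sum_le_sum_abs _ _).trans ?_
          refine le_trans (Finset.sum_le_sum fun j _ => ?_) (le_of_eq (Finset.sum_mul _ _ _).symm)
            |>.trans (mul_le_mul_of_nonneg_right (Finset.single_le_sum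
              (f := fun i => ∑ j, |u i j|) (fun i _ => Finset.sum_nonneg fun j _ => abs_nonneg _)
              (Finset.mem_univ i)) (Real.sqrt_nonneg _))
          rw [abs_mul]
          refine mul_le_mul_of_nonneg_left (Real.abs_le_sqrt ?_) (abs_nonneg _)
          rw [sq]
          exact Finset.single_le_sum (f := fun k => x k * x k) (fun _ _ => mul_self_nonneg _)
            (Finset.mem_univ j)
        have := pow_le_pow_left₀ (abs_nonneg _) hb 2
        rw [sq_abs, mul_pow, Real.sq_sqrt (hvv x), sq ((u *ᵥ x) i)] at this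
        exact this
      refine (Finset.sum_le_card_nsmul _ _ _ fun i _ => hi i).trans (le_of_eq ?_)
      simp; ring
    have hB : nrm1 J' ≤ |Bm| := (hBm ⟨J', hJ', rfl⟩).trans (le_abs_self _)
    have hn' := nrm1_nonneg J'
    have hff := hvv f
    have hs : Real.sqrt ((J' *ᵥ f) ⬝ᵥ (J' *ᵥ f) * (f ⬝ᵥ f)) ≤ 2 * |Bm| * (f ⬝ᵥ f) := by
      rw [Real.sqrt_le_iff]
      refine ⟨by positivity, ?_⟩
      calc (J' *ᵥ f) ⬝ᵥ (J' *ᵥ f) * (f ⬝ᵥ f) ≤ 4 * nrm1 J' ^ 2 * (f ⬝ᵥ f) * (f ⬝ᵥ f) :=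
            mul_le_mul_of_nonneg_right (hmv J' f) hff
        _ ≤ 4 * |Bm| ^ 2 * (f ⬝ᵥ f) * (f ⬝ᵥ f) := by gcongr
        _ = _ := by ring
    have hc8 : 8 * |Bm| ≤ c⁻¹ := by
      have h := inv_anti₀ hc0 hle4
      rw [one_div, inv_inv] at h
      linarith
    calc nrm1 b * Real.sqrt ((J' *ᵥ f) ⬝ᵥ (J' *ᵥ f) * (f ⬝ᵥ f))
        ≤ nrm1 b * (2 * |Bm| * (4 * nrm1 (J - J') ^ 2 * (v ⬝ᵥ v))) :=
          mul_le_mul_of_nonneg_left (hs.trans (mul_le_mul_of_nonneg_left (hmv _ v) (by positivity)))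
            (nrm1_nonneg b)
      _ = 8 * |Bm| * nrm1 (J - J') ^ 2 * nrm1 b * (v ⬝ᵥ v) := by ring
      _ ≤ c⁻¹ * nrm1 (J - J') ^ 2 * nrm1 b * (v ⬝ᵥ v) := by
          have := nrm1_nonneg b
          have := hvv v
          gcongr
      _ = _ := by simp [nrm1]

end Vale.Agent.P204.Tame
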