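import Vale.Agent.P204.Tame.Interfaces
import Vale.Agent.P204.Tame.Measure

/-!
The measure statements of the interfaces: density off the poles, the Vitali null set, the square
of a smoothed measure, the absorption inequality, and comparison of poles and densities.
-/

namespace Vale.Agent.P204.Tame

open scoped ENNReal Topology
open MeasureTheory Metric Set Filter

theorem densityOffPoles : DensityOffPoles := by
  intro V μ _ x hx hnot
  simp only [poleSet, mem_ofPred_eq, not_and, not_forall] at hnot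
  obtain ⟨δ, hδ, hfin⟩ := hnot hx
  refine (tendsto_density_zero (μ := μ.restrict (closedBall x δ)) hfin).congr' ?_
  filter_upwards [Ioc_mem_nhdsGT hδ] with r hr
  rw [Measure.restrict_apply measurableSet_closedBall,
    inter_eq_self_of_subset_left (closedBall_subset_closedBall hr.2)]

theorem vitaliNull : VitaliNull := by
  intro V μ ν hV hμ hν S hSV _ hS0
  refine measure_null_of_locally_null _ fun x hx => ?_
  obtain ⟨δ, hδ, hball⟩ := nhds_basis_closedBall.mem_iff.1 (hV.mem_nhds (hSV hx.1))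
  set bad := {x ∈ S | ¬ Tendsto (fun r : ℝ => μ (closedBall x r) / ENNReal.ofReal (r ^ 2))
    (𝓝[>] 0) (𝓝 0)}
  refine ⟨bad ∩ ball x δ, inter_mem self_mem_nhdsWithin
    (mem_nhdsWithin_of_mem_nhds (ball_mem_nhds x hδ)), ?_⟩
  have hK := isCompact_closedBall x δ
  have : IsFiniteMeasure (μ.restrict (ball x δ)) := isFiniteMeasure_restrict.2
    ((measure_mono ball_subset_closedBall).trans_lt (hμ _ hball hK)).ne
  obtain ⟨A, r₀, hr₀, hA⟩ := hν _ hball hK
  refine null_densSet (μ := μ.restrict (ball x δ)) (A := max A 0) (r₀ := r₀) ?_ ?_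
    (le_max_right _ _) hr₀ fun y hy r hr hr' =>
      (hA y (ball_subset_closedBall hy.2) r ⟨hr, hr'⟩).trans (ENNReal.ofReal_le_ofReal
        (mul_le_mul_of_nonneg_right (le_max_left _ _) (sq_nonneg r)))
  · exact fun y hy => (mem_densSet_restrict_iff μ isOpen_ball hy.2).2 hy.1.2
  · exact le_antisymm ((Measure.restrict_apply_le _ _).trans
      ((measure_mono fun y hy => hy.1.1).trans hS0.le)) zero_le

theorem ballSquare : BallSquare := by
  intro μ _ r
  have hm : Measurable fun p : E × E => (closedBall p.1 r).indicator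
      (fun y => μ (closedBall y (2 * r))) p.2 := by
    have hs : MeasurableSet {p : E × E | dist p.2 p.1 ≤ r} :=
      measurableSet_le (by fun_prop) measurable_const
    exact ((measurable_measure_closedBall μ (2 * r)).comp measurable_snd).indicator hs
  calc ∫⁻ x, μ (closedBall x r) ^ 2
      ≤ ∫⁻ x, ∫⁻ y, (closedBall x r).indicator (fun y => μ (closedBall y (2 * r))) y ∂μ := by
        refine lintegral_mono fun x => ?_
        rw [lintegral_indicator measurableSet_closedBall, pow_two]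
        calc μ (closedBall x r) * μ (closedBall x r)
            = ∫⁻ _ in closedBall x r, μ (closedBall x r) ∂μ := by rw [setLIntegral_const]
          _ ≤ _ := setLIntegral_mono (measurable_measure_closedBall μ (2 * r)) fun y hy =>
              measure_mono (closedBall_subset_closedBall' (by
                rw [dist_comm]; linarith [mem_closedBall.1 hy]))
    _ = ∫⁻ y, volume (closedBall (0 : E) r) * μ (closedBall y (2 * r)) ∂μ := by
        rw [lintegral_lintegral_swap hm.aemeasurable]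
        refine lintegral_congr fun y => ?_
        have e : (fun x => (closedBall x r).indicator (fun y => μ (closedBall y (2 * r))) y) =
            (closedBall y r).indicator fun _ => μ (closedBall y (2 * r)) := by
          ext x
          simp only [indicator, mem_closedBall, dist_comm]
        rw [e, lintegral_indicator_const measurableSet_closedBall,
          Measure.addHaar_closedBall_center (volume : Measure E), mul_comm]
    _ = _ := lintegral_const_mul _ (measurable_measure_closedBall μ _)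

theorem absorb : Absorb := by
  intro G L g A hbd hdoub hL hG
  set a := max A 1
  have ha1 : 1 ≤ a := le_max_right _ _
  have hAa : A ≤ a := le_max_left _ _
  set θ : ℝ := 1 / (12 * a ^ 3)
  have hθ : 0 < θ := by positivity
  set ε₁ : ℝ := min 1 θ
  set K : ℝ := 3 * a ^ 3 * (1 + θ⁻¹)
  have hK : 0 ≤ K := by positivity
  have hε₁ : 0 < ε₁ := lt_min one_pos hθ
  refine ⟨4 * K, ε₁, hε₁, fun ε hε => ?_⟩
  have step : ∀ n : ℕ, ∀ ε ∈ Ioc (0 : ℝ) ε₁,
      G ε ≤ 4 * K * g ε + a * (1 / 2) ^ n * (ε ^ 4)⁻¹ := by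
    intro n
    induction n with
    | zero =>
      intro ε hε
      obtain ⟨hg, -, -, hA⟩ := hbd ε ⟨hε.1, hε.2.trans (min_le_left _ _)⟩
      have : A * (ε ^ 4)⁻¹ ≤ a * (ε ^ 4)⁻¹ := mul_le_mul_of_nonneg_right hAa (by positivity)
      nlinarith [mul_nonneg (mul_nonneg (show (0:ℝ) ≤ 4 by norm_num) hK) (zero_le_one.trans hg)]
    | succ n ih =>
      intro ε hε
      have hε0 : 0 < ε := hε.1
      obtain ⟨hg, hG0, -, -⟩ := hbd ε ⟨hε.1, hε.2.trans (min_le_left _ _)⟩
      set b : ℝ := a * (1 / 2) ^ n * (ε ^ 4)⁻¹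
      have hb : 0 ≤ b := by positivity
      set u : ℝ := 2 * a * ((1 + θ⁻¹) * a * g ε + 2 * θ * (4 * K * a * g ε + b))
      have hterm : ∀ j : ℕ, (2 ^ (8 * j) : ℝ)⁻¹ * L (ε / 2 ^ j) ≤ u / 2 * (1 / 16) ^ j := by
        intro j
        have hpos : 0 < ε / 2 ^ j := by positivity
        have hle : ε / 2 ^ j ≤ ε := div_le_self hε.1.le (one_le_pow₀ (by norm_num))
        have hmem : ε / 2 ^ j ∈ Ioc (0 : ℝ) ε₁ := ⟨hpos, hle.trans hε.2⟩
        have hmem1 : ε / 2 ^ j ∈ Ioc (0 : ℝ) 1 := ⟨hpos, hmem.2.trans (min_le_left _ _)⟩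
        obtain ⟨hg', hG', hL', -⟩ := hbd _ hmem1
        have hgj : g (ε / 2 ^ j) ≤ a * 16 ^ j * g ε := by
          refine (hdoub ε ⟨hε.1, hε.2.trans (min_le_left _ _)⟩ j).trans ?_
          exact mul_le_mul_of_nonneg_right ((mul_le_mul_of_nonneg_right hAa (by positivity)).trans
            (mul_le_mul_of_nonneg_left (pow_le_pow_left₀ (by norm_num) (by norm_num) j)
              (by positivity))) (by linarith)
        have hGj : G (ε / 2 ^ j) ≤ 16 ^ j * (4 * K * a * g ε + b) := by
          refine (ih _ hmem).trans ?_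
          have h16 : ((ε / 2 ^ j) ^ 4)⁻¹ = 16 ^ j * (ε ^ 4)⁻¹ := by
            rw [div_pow, inv_div, ← pow_mul, mul_comm j 4, pow_mul, div_eq_mul_inv]
            norm_num
          rw [h16]
          have := mul_le_mul_of_nonneg_left hgj (show 0 ≤ 4 * K by positivity)
          simp only [b]
          nlinarith
        set g' := g (ε / 2 ^ j)
        set G' := G (ε / 2 ^ j)
        set e' := ε / 2 ^ j
        set Y : ℝ := a * ((1 + θ⁻¹) * g' + 2 * θ * G')
        have hY : 0 ≤ Y := by
          have : (0:ℝ) ≤ g' := by linarith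
          positivity
        have hLY : L e' ≤ Y := by
          refine (pow_le_pow_iff_left₀ hL' hY two_ne_zero).1 ((hL e' hmem1).trans ?_)
          have hg'0 : (0:ℝ) ≤ g' := by linarith
          have hbr : g' ^ 2 + g' * G' + e' ^ 2 * G' ^ 2 ≤ ((1 + θ⁻¹) * g' + 2 * θ * G') ^ 2 := by
            have he : e' ≤ θ := hmem.2.trans (min_le_right _ _)
            have he2 : e' ^ 2 * G' ^ 2 ≤ θ ^ 2 * G' ^ 2 :=
              mul_le_mul_of_nonneg_right (pow_le_pow_left₀ hpos.le he 2) (sq_nonneg _)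
            have hti : θ⁻¹ * θ = 1 := inv_mul_cancel₀ hθ.ne'
            have hti0 : 0 ≤ θ⁻¹ := by positivity
            have e2 : ((1 + θ⁻¹) * g' + 2 * θ * G') ^ 2 = (1 + θ⁻¹) ^ 2 * g' ^ 2 +
                4 * (θ + 1) * (g' * G') + 4 * θ ^ 2 * G' ^ 2 := by
              linear_combination 4 * g' * G' * hti
            rw [e2]
            nlinarith [mul_nonneg hg'0 hG', mul_nonneg (mul_nonneg hg'0 hG') hθ.le,
              mul_nonneg (sq_nonneg g') hti0, mul_nonneg (sq_nonneg g') (sq_nonneg θ⁻¹),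
              mul_nonneg (sq_nonneg θ) (sq_nonneg G')]
          calc A * (g' ^ 2 + g' * G' + e' ^ 2 * G' ^ 2)
              ≤ a * (g' ^ 2 + g' * G' + e' ^ 2 * G' ^ 2) :=
                mul_le_mul_of_nonneg_right hAa (by positivity)
            _ ≤ a ^ 2 * ((1 + θ⁻¹) * g' + 2 * θ * G') ^ 2 :=
                mul_le_mul (by nlinarith) hbr (by positivity) (by positivity)
            _ = Y ^ 2 := by ring
        have hY' : Y ≤ 16 ^ j * (u / 2) := by
          simp only [Y, u]
          nlinarith [mul_le_mul_of_nonneg_left hgj (show 0 ≤ a * (1 + θ⁻¹) by positivity),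
            mul_le_mul_of_nonneg_left hGj (show 0 ≤ a * (2 * θ) by positivity)]
        calc (2 ^ (8 * j) : ℝ)⁻¹ * L e' ≤ (2 ^ (8 * j) : ℝ)⁻¹ * (16 ^ j * (u / 2)) :=
              mul_le_mul_of_nonneg_left (hLY.trans hY') (by positivity)
          _ = u / 2 * (1 / 16) ^ j := by
            rw [pow_mul, show ((2:ℝ) ^ 8) = 16 * 16 by norm_num, mul_pow, one_div, inv_pow]
            field_simp
      have hu : 0 ≤ u := by
        have : (0:ℝ) ≤ g ε := by linarith
        positivity
      have hsum : ∀ N, ∑ j ∈ Finset.range N, (2 ^ (8 * j) : ℝ)⁻¹ * L (ε / 2 ^ j) ≤ u := by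
        intro N
        refine (Finset.sum_le_sum fun j _ => hterm j).trans ?_
        rw [← Finset.mul_sum]
        have hgeom : ∑ j ∈ Finset.range N, (1 / 16 : ℝ) ^ j ≤ 2 := by
          refine ((summable_geometric_of_lt_one (by norm_num) (by norm_num)).sum_le_tsum _
            fun _ _ => by positivity).trans ?_
          rw [tsum_geometric_of_lt_one (by norm_num) (by norm_num)]
          norm_num
        nlinarith
      refine ((hG ε ⟨hε.1, hε.2.trans (min_le_left _ _)⟩ u hsum).trans
        (mul_le_mul_of_nonneg_right hAa hu)).trans ?_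
      have hθa : 12 * a ^ 3 * θ = 1 := by simp [θ]; field_simp
      have key : a * u = 2 * a ^ 3 * (1 + θ⁻¹) * g ε + 4 / 3 * K * g ε * (12 * a ^ 3 * θ) +
          1 / 3 * b * a⁻¹ * (12 * a ^ 3 * θ) := by
        simp only [u]
        field_simp
        ring
      rw [key, hθa, mul_one, mul_one]
      have h1 : 2 * a ^ 3 * (1 + θ⁻¹) * g ε ≤ K * g ε := by
        simp only [K]
        exact mul_le_mul_of_nonneg_right (by nlinarith [show 0 ≤ a ^ 3 * (1 + θ⁻¹) by positivity])
          (by linarith)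
      have h2 : 1 / 3 * b * a⁻¹ ≤ 1 / 2 * b := by
        have : a⁻¹ ≤ 1 := inv_le_one_of_one_le₀ ha1
        nlinarith
      have h3 : a * (1 / 2) ^ (n + 1) * (ε ^ 4)⁻¹ = 1 / 2 * b := by simp only [b, pow_succ]; ring
      rw [h3]
      have : 0 ≤ K * g ε := mul_nonneg hK (by linarith)
      nlinarith
  have hlim : Tendsto (fun n : ℕ => 4 * K * g ε + a * (1 / 2 : ℝ) ^ n * (ε ^ 4)⁻¹) atTop
      (𝓝 (4 * K * g ε)) := by
    simpa using tendsto_const_nhds.add (((tendsto_pow_atTop_nhds_zero_of_lt_one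
      (show (0:ℝ) ≤ 1 / 2 by norm_num) (by norm_num)).const_mul a).mul_const ((ε ^ 4)⁻¹))
  exact ge_of_tendsto' hlim fun n => step n ε hε

/-! ### Comparison -/

/-- Comparable ball masses transfer vanishing density. -/
theorem tendsto_density_of_le {μ μ' : Measure E} {x y : E} {L : ℝ} {C : ℝ≥0∞} (hL : 0 < L)
    (hC : C ≠ ⊤) (h : ∀ᶠ r in 𝓝[>] 0, μ' (closedBall y r) ≤ C * μ (closedBall x (L * r)))
    (hμ : Tendsto (fun r : ℝ => μ (closedBall x r) / ENNReal.ofReal (r ^ 2)) (𝓝[>] 0) (𝓝 0)) :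
    Tendsto (fun r : ℝ => μ' (closedBall y r) / ENNReal.ofReal (r ^ 2)) (𝓝[>] 0) (𝓝 0) := by
  have hsc : Tendsto (fun r : ℝ => L * r) (𝓝[>] 0) (𝓝[>] 0) := by
    refine tendsto_nhdsWithin_iff.2 ⟨?_, ?_⟩
    · simpa using ((continuous_const_mul (L : ℝ)).tendsto (0 : ℝ)).mono_left
        nhdsWithin_le_nhds
    · filter_upwards [self_mem_nhdsWithin] with r hr using mul_pos hL hr
  have h0 : Tendsto (fun r : ℝ => C * ENNReal.ofReal (L ^ 2) *
      (μ (closedBall x (L * r)) / ENNReal.ofReal ((L * r) ^ 2))) (𝓝[>] 0) (𝓝 0) := by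
    simpa using ENNReal.Tendsto.const_mul (hμ.comp hsc)
      (Or.inr (ENNReal.mul_ne_top hC ENNReal.ofReal_ne_top))
  refine tendsto_of_tendsto_of_tendsto_of_le_of_le' tendsto_const_nhds h0
    (Eventually.of_forall fun _ => zero_le) ?_
  filter_upwards [h] with r hr
  refine (ENNReal.div_le_div_right hr _).trans (le_of_eq ?_)
  rw [mul_pow, ENNReal.ofReal_mul (sq_nonneg L)]
  have h1 : ENNReal.ofReal (L ^ 2) ≠ 0 := by simp [hL.ne']
  rw [div_eq_mul_inv, div_eq_mul_inv, ENNReal.mul_inv (Or.inl h1) (Or.inl ENNReal.ofReal_ne_top)]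
  rw [show C * ENNReal.ofReal (L ^ 2) * (μ (closedBall x (L * r)) *
      ((ENNReal.ofReal (L ^ 2))⁻¹ * (ENNReal.ofReal (r ^ 2))⁻¹)) = C * μ (closedBall x (L * r)) *
      (ENNReal.ofReal (r ^ 2))⁻¹ * (ENNReal.ofReal (L ^ 2) * (ENNReal.ofReal (L ^ 2))⁻¹) by ring,
    ENNReal.mul_inv_cancel h1 ENNReal.ofReal_ne_top, mul_one]

/-- A smooth inverse controls preimages of small balls, uniformly on compact sets. -/
theorem exists_preimage_ball {U U' : Set E} {t g : E → E} (hU' : IsOpen U')
    (ht : MapsTo t U U') (hgt : ∀ x ∈ U, g (t x) = x) (hg : ContDiffOn ℝ 1 g U') {K : Set E}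
    (hKU : K ⊆ U) (htK : IsCompact (t '' K)) :
    ∃ L > 0, ∃ r₀ > 0, ∀ p ∈ K, ∀ r ≤ r₀,
      U ∩ t ⁻¹' closedBall (t p) r ⊆ closedBall p (L * r) := by
  obtain ⟨δ, hδ, hsub⟩ := htK.exists_cthickening_subset_open hU'
    (image_subset_iff.2 (hKU.trans ht))
  have hcpt : IsCompact (cthickening δ (t '' K)) := htK.cthickening
  have hloc : LocallyLipschitzOn (cthickening δ (t '' K)) g := by
    intro z hz
    obtain ⟨C, w, hw, hlip⟩ := (hg.contDiffAt (hU'.mem_nhds (hsub hz))).exists_lipschitzOnWith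
    exact ⟨C, w, mem_nhdsWithin_of_mem_nhds hw, hlip⟩
  obtain ⟨C, hC⟩ := hloc.exists_lipschitzOnWith_of_compact hcpt
  refine ⟨C + 1, by positivity, δ, hδ, fun p hp r hr q hq => ?_⟩
  have hp' : t p ∈ cthickening δ (t '' K) := self_subset_cthickening (t '' K) ⟨p, hp, rfl⟩
  have hq' : t q ∈ cthickening δ (t '' K) :=
    mem_cthickening_of_dist_le (t q) (t p) δ (t '' K) ⟨p, hp, rfl⟩ ((mem_closedBall.1 hq.2).trans hr)
  have hd := hC.dist_le_mul _ hq' _ hp'
  rw [hgt q hq.1, hgt p (hKU hp)] at hd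
  rw [mem_closedBall]
  refine hd.trans ((mul_le_mul_of_nonneg_left (mem_closedBall.1 hq.2) C.coe_nonneg).trans ?_)
  nlinarith [dist_nonneg (x := t q) (y := t p), mem_closedBall.1 hq.2]

/-- A measure dominated by the image of `μ` under a diffeomorphism has comparable ball masses. -/
theorem exists_ball_le {U U' : Set E} {t g : E → E} {μ μ' : Measure E} {C : ℝ≥0∞}
    (hU' : IsOpen U') (ht : MapsTo t U U') (hgt : ∀ x ∈ U, g (t x) = x)
    (hg : ContDiffOn ℝ 1 g U') {K : Set E} (hKU : K ⊆ U) (htK : IsCompact (t '' K))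
    (hμ' : ∀ s ⊆ U', MeasurableSet s → μ' s ≤ C * μ (U ∩ t ⁻¹' s)) :
    ∃ L > 0, ∃ r₀ > 0, ∀ p ∈ K, ∀ r ∈ Ioo 0 r₀,
      μ' (closedBall (t p) r) ≤ C * μ (closedBall p (L * r)) := by
  obtain ⟨L, hL, r₀, hr₀, hsub⟩ := exists_preimage_ball hU' ht hgt hg hKU htK
  obtain ⟨δ, hδ, hball⟩ := htK.exists_cthickening_subset_open hU'
    (image_subset_iff.2 (hKU.trans ht))
  refine ⟨L, hL, min r₀ δ, lt_min hr₀ hδ, fun p hp r hr => ?_⟩
  have hr' : closedBall (t p) r ⊆ U' := ((closedBall_subset_closedBall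
    (hr.2.le.trans (min_le_right _ _))).trans
      (closedBall_subset_cthickening (E := t '' K) ⟨p, hp, rfl⟩ δ)).trans hball
  exact (hμ' _ hr' measurableSet_closedBall).trans
    (mul_le_mul_right (measure_mono (hsub p hp r (hr.2.le.trans (min_le_left _ _)))) C)

/-- Quadratic bounds transfer. -/
theorem exists_quadratic_of_le {μ μ' : Measure E} {t : E → E} {K : Set E} {L r₀ r₁ A C : ℝ}
    (hL : 0 < L) (hC : 0 ≤ C) (hr₀ : 0 < r₀) (hr₁ : 0 < r₁)
    (h : ∀ p ∈ K, ∀ r ∈ Ioo 0 r₀, μ' (closedBall (t p) r) ≤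
      ENNReal.ofReal C * μ (closedBall p (L * r)))
    (hμ : ∀ p ∈ K, ∀ r ∈ Ioc (0 : ℝ) r₁, μ (closedBall p r) ≤ ENNReal.ofReal (A * r ^ 2)) :
    ∃ A' : ℝ, ∃ r₂ > 0, ∀ p ∈ K, ∀ r ∈ Ioc (0 : ℝ) r₂,
      μ' (closedBall (t p) r) ≤ ENNReal.ofReal (A' * r ^ 2) := by
  refine ⟨C * A * L ^ 2, min (r₀ / 2) (r₁ / L), lt_min (half_pos hr₀) (div_pos hr₁ hL),
    fun p hp r hr => ?_⟩
  have h1 : r < r₀ := lt_of_le_of_lt (hr.2.trans (min_le_left _ _)) (half_lt_self hr₀)
  have h2 : L * r ≤ r₁ := by
    have := hr.2.trans (min_le_right _ _)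
    rw [le_div_iff₀ hL] at this
    linarith
  refine ((h p hp r ⟨hr.1, h1⟩).trans
    (mul_le_mul_right (hμ p hp _ ⟨mul_pos hL hr.1, h2⟩) _)).trans_eq ?_
  rw [← ENNReal.ofReal_mul hC]
  congr 1
  ring

/-- Images under diffeomorphisms transfer poles. -/
theorem poleSet_of_map_le {V V' U U' : Set E} {t g : E → E} {μ μ' : Measure E} {x : E}
    {C : ℝ≥0∞} (hC : C ≠ ⊤) (hU : IsOpen U) (hU' : IsOpen U') (hx : x ∈ U) (hxV : x ∈ V)
    (htc : ContinuousOn t U) (ht : MapsTo t U U') (hgt : ∀ z ∈ U, g (t z) = z)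
    (hg : ContDiffOn ℝ 1 g U')
    (hμ' : ∀ s ⊆ U', MeasurableSet s → μ' s ≤ C * μ (U ∩ t ⁻¹' s))
    (hy : t x ∈ poleSet V' μ') : x ∈ poleSet V μ := by
  refine ⟨hxV, fun δ hδ => ?_⟩
  by_contra hne
  obtain ⟨L, hL, r₀, hr₀, hsub⟩ := exists_preimage_ball hU' ht hgt hg (K := {x})
    (singleton_subset_iff.2 hx) (isCompact_singleton.image_of_continuousOn
      (htc.mono (singleton_subset_iff.2 hx)))
  obtain ⟨δ₁, hδ₁, hball⟩ := nhds_basis_closedBall.mem_iff.1 (hU'.mem_nhds (ht hx))
  set d := min δ₁ (min r₀ (δ / L))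
  have hd : 0 < d := lt_min hδ₁ (lt_min hr₀ (by positivity))
  have hdL : L * d ≤ δ := by
    have : d ≤ δ / L := (min_le_right _ _).trans (min_le_right _ _)
    rw [le_div_iff₀ hL] at this
    linarith
  set D := U ∩ t ⁻¹' closedBall (t x) d
  have hD : D ⊆ closedBall x δ := (hsub x rfl d ((min_le_right _ _).trans (min_le_left _ _))).trans
    (closedBall_subset_closedBall hdL)
  have htm : AEMeasurable t (μ.restrict D) :=
    (htc.aemeasurable hU.measurableSet).mono_measure (Measure.restrict_mono inter_subset_left le_rfl)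
  have hle : μ'.restrict (closedBall (t x) d) ≤ C • (μ.restrict D).map t := by
    refine Measure.le_iff.2 fun s hs => ?_
    rw [Measure.restrict_apply hs, Measure.smul_apply, Measure.map_apply_of_aemeasurable htm hs,
      smul_eq_mul]
    refine (hμ' _ (inter_subset_right.trans ((closedBall_subset_closedBall (min_le_left _ _)).trans
      hball)) (hs.inter measurableSet_closedBall)).trans (mul_le_mul_right ?_ C)
    refine le_trans (measure_mono ?_) (Measure.le_restrict_apply _ _)
    exact fun z hz => ⟨hz.2.1, hz.1, hz.2.2⟩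
  refine absurd (hy.2 d hd) (ne_top_of_le_ne_top (ENNReal.mul_ne_top hC
    (ENNReal.mul_ne_top (ENNReal.ofReal_ne_top (r := L ^ 2)) hne)) ?_)
  calc potential (μ'.restrict (closedBall (t x) d)) (t x)
      ≤ ∫⁻ z, pole (t x) z ∂(C • (μ.restrict D).map t) := lintegral_mono' hle le_rfl
    _ = C * ∫⁻ q, pole (t x) (t q) ∂μ.restrict D := by
        have hp : Measurable fun z : E => pole (t x) z := by
          unfold pole
          exact ((Continuous.edist continuous_const continuous_id).measurable.pow_const 2).inv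
        rw [lintegral_smul_measure, lintegral_map' hp.aemeasurable htm, smul_eq_mul]
    _ ≤ C * (ENNReal.ofReal (L ^ 2) * potential (μ.restrict (closedBall x δ)) x) := by
        refine mul_le_mul_right ?_ C
        rw [potential, ← lintegral_const_mul' _ _ ENNReal.ofReal_ne_top]
        refine le_trans (lintegral_mono_ae ?_) (lintegral_mono_set hD)
        have hDm : MeasurableSet D := by
          have e : D = U \ (U ∩ t ⁻¹' (closedBall (t x) d)ᶜ) := by
            ext z
            simp only [D, mem_inter_iff, Set.mem_sdiff, mem_preimage, mem_compl_iff]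
            tauto
          rw [e]
          exact hU.measurableSet.diff
            (htc.isOpen_inter_preimage hU isClosed_closedBall.isOpen_compl).measurableSet
        filter_upwards [ae_restrict_mem hDm] with q hq
        rcases eq_or_ne x q with rfl | hne'
        · simp [hL.ne']
        have hne2 : t x ≠ t q := fun e => hne' (by rw [← hgt x hx, ← hgt q hq.1, e])
        rw [pole_eq hne', pole_eq hne2, ← ENNReal.ofReal_mul (sq_nonneg L)]
        refine ENNReal.ofReal_le_ofReal ?_
        have hq2 : dist (t q) (t x) ≤ r₀ :=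
          (mem_closedBall.1 hq.2).trans ((min_le_right _ _).trans (min_le_left _ _))
        have h1 := mem_closedBall.1 (hsub x rfl _ hq2 ⟨hq.1, mem_closedBall.2 le_rfl⟩)
        rw [dist_comm q x, dist_comm (t q) (t x)] at h1
        have h0 : 0 < dist x q := dist_pos.2 hne'
        have h2 : 0 < dist (t x) (t q) := dist_pos.2 hne2
        rw [← div_eq_mul_inv, le_div_iff₀ (by positivity), inv_mul_le_iff₀ (by positivity), ← mul_pow]
        calc dist x q ^ 2 ≤ (L * dist (t x) (t q)) ^ 2 := pow_le_pow_left₀ h0.le h1 2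
          _ = (dist (t x) (t q) * L) ^ 2 := by ring

end Vale.Agent.P204.Tame
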