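import Vale.Agent.P204.Tame.Interfaces

/-!
Averaged pullbacks along a smoother: a box around a point, change of variables, fibre estimate.
-/

namespace Vale.Agent.P204.Tame

open scoped ContDiff ENNReal Topology
open MeasureTheory Metric Set Filter

/-- The parameters of a smoother. -/
abbrev Par (n : ℕ) : Type := Fin n → ℝ

theorem volume_closedBall_scale {ι : Type*} [Fintype ι] (x : ι → ℝ) {r : ℝ} (hr : 0 ≤ r) :
    volume (closedBall x r) =
      ENNReal.ofReal (r ^ Fintype.card ι) * volume (closedBall (0 : ι → ℝ) 1) := by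
  rw [Measure.addHaar_closedBall' _ _ hr, Module.finrank_fintype_fun_eq_card]

theorem exists_det_threshold : ∃ d : ℝ, 0 < d ∧ d ≤ 1 / 2 ∧
    ∀ L : E →L[ℝ] E, ‖L - 1‖ ≤ d → 1 / 2 ≤ |L.det| := by
  have h : ∀ᶠ L : E →L[ℝ] E in 𝓝 1, 1 / 2 < |L.det| := by
    refine (ContinuousLinearMap.continuous_det.abs.tendsto _).eventually_const_lt ?_
    rw [show (1 : E →L[ℝ] E).det = 1 from LinearMap.det_id]
    norm_num
  obtain ⟨d, hd, hball⟩ := Metric.eventually_nhds_iff.1 h
  refine ⟨min (d / 2) (1 / 2), by positivity, min_le_right _ _, fun L hL => (hball ?_).le⟩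
  rw [dist_eq_norm]
  exact lt_of_le_of_lt (hL.trans (min_le_left _ _)) (half_lt_self hd)

/-- The closeness to the identity used for changes of variables. -/
noncomputable def nearTol : ℝ := exists_det_threshold.choose

theorem nearTol_pos : 0 < nearTol := exists_det_threshold.choose_spec.1

theorem nearTol_le : nearTol ≤ 1 / 2 := exists_det_threshold.choose_spec.2.1

theorem det_of_near {L : E →L[ℝ] E} (h : ‖L - 1‖ ≤ nearTol) : 1 / 2 ≤ |L.det| :=
  exists_det_threshold.choose_spec.2.2 L h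

theorem isUnit_of_near {L : E →L[ℝ] E} (h : ‖L - 1‖ ≤ nearTol) : IsUnit L := by
  have h1 : ‖1 - L‖ < 1 := by
    rw [norm_sub_rev]
    exact lt_of_le_of_lt (h.trans nearTol_le) (by norm_num)
  obtain ⟨u, hu⟩ := isUnit_one_sub_of_norm_lt_one h1
  exact ⟨u, by rw [hu, sub_sub_cancel]⟩

/-- Change of variables for a map close to the identity on a convex set. -/
theorem lintegral_comp_near_le {φ : E → E} {φ' : E → E →L[ℝ] E} {s : Set E}
    (hs : MeasurableSet s) (hc : Convex ℝ s) (hd : ∀ x ∈ s, HasFDerivWithinAt φ (φ' x) s x)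
    (hn : ∀ x ∈ s, ‖φ' x - 1‖ ≤ nearTol) (g : E → ℝ≥0∞) :
    ∫⁻ x in s, g (φ x) ≤ 2 * ∫⁻ x in φ '' s, g x := by
  have hinj : InjOn φ s := fun x hx y hy hxy => by
    have h := hc.norm_image_sub_le_of_norm_hasFDerivWithin_le' (φ := 1) hd hn hx hy
    rw [hxy, sub_self, zero_sub, norm_neg, one_apply_eq_self] at h
    have h' := h.trans (mul_le_mul_of_nonneg_right nearTol_le (norm_nonneg _))
    exact (sub_eq_zero.1 (norm_le_zero_iff.1 (by linarith [norm_nonneg (y - x)]))).symm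
  rw [lintegral_image_eq_lintegral_abs_det_fderiv_mul volume hs hd hinj g,
    ← lintegral_const_mul' _ _ ENNReal.ofNat_ne_top]
  refine setLIntegral_mono' hs fun x hx => ?_
  rw [← mul_assoc]
  refine le_mul_of_one_le_left bot_le ?_
  rw [show (2 : ℝ≥0∞) = ENNReal.ofReal 2 by simp, ← ENNReal.ofReal_mul (by norm_num),
    ← ENNReal.ofReal_one]
  exact ENNReal.ofReal_le_ofReal (by linarith [det_of_near (hn x hx)])

/-- The derivative in the parameters. -/
noncomputable def dV {n : ℕ} (σ : Par n → E → E) (z : Par n × E) : Par n →L[ℝ] E :=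
  (fderiv ℝ (fun w : Par n × E => σ w.1 w.2) z).comp (ContinuousLinearMap.inl ℝ (Par n) E)

/-- The derivative in the point. -/
noncomputable def dY {n : ℕ} (σ : Par n → E → E) (z : Par n × E) : E →L[ℝ] E :=
  (fderiv ℝ (fun w : Par n × E => σ w.1 w.2) z).comp (ContinuousLinearMap.inr ℝ (Par n) E)

/-- A product neighbourhood of `(0, y₀)` on which the smoother is close to translations. -/
structure Box {n : ℕ} (σ : Par n → E → E) (y₀ : E) (δ : ℝ) (R₀ : E →L[ℝ] Par n) : Prop where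
  pos : 0 < δ
  smooth : ContDiffOn ℝ ∞ (fun w : Par n × E => σ w.1 w.2) (ball 0 (4 * δ) ×ˢ ball y₀ (4 * δ))
  base : ∀ y ∈ ball y₀ (4 * δ), σ 0 y = y
  near_y : ∀ z ∈ ball (0 : Par n) (4 * δ) ×ˢ ball y₀ (4 * δ), ‖dY σ z - 1‖ ≤ nearTol
  near_v : ∀ z ∈ ball (0 : Par n) (4 * δ) ×ˢ ball y₀ (4 * δ),
    ‖(dV σ z).comp R₀ - 1‖ ≤ nearTol

/-- The largest scale allowed in a box. -/
noncomputable def boxRad {n : ℕ} (δ : ℝ) (R₀ : E →L[ℝ] Par n) : ℝ := δ / (1 + 2 * ‖R₀‖)

variable {n : ℕ} {σ : Par n → E → E} {y₀ : E} {δ : ℝ} {R₀ : E →L[ℝ] Par n}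

/-- Boxes exist inside any given neighbourhood. -/
theorem exists_box {U : Set E} (hσ : IsSmoother U σ) {y₀ : E} (hy₀ : y₀ ∈ U)
    {W' : Set (Par n × E)} (hW' : IsOpen W') (hmem : ((0 : Par n), y₀) ∈ W') :
    ∃ (δ : ℝ) (R₀ : E →L[ℝ] Par n), Box σ y₀ δ R₀ ∧
      ball (0 : Par n) (4 * δ) ×ˢ ball y₀ (4 * δ) ⊆ W' ∧ ball y₀ (4 * δ) ⊆ U := by
  obtain ⟨W, hW, hW0, hS⟩ := hσ.smooth
  set S := fun w : Par n × E => σ w.1 w.2 with hS'
  have hz₀ : ((0 : Par n), y₀) ∈ W := hW0 ⟨rfl, hy₀⟩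
  have hdiff : DifferentiableAt ℝ S ((0 : Par n), y₀) :=
    (hS.differentiableOn (by simp)).differentiableAt (hW.mem_nhds hz₀)
  have hv : HasFDerivAt (fun v => σ v y₀) (dV σ ((0 : Par n), y₀)) 0 := by
    have h := HasFDerivAt.comp (f := fun v : Par n => (v, y₀)) (g := S) (0 : Par n)
      hdiff.hasFDerivAt ((hasFDerivAt_id (0 : Par n)).prodMk (hasFDerivAt_const y₀ 0))
    exact h.congr_fderiv (by ext1 v; simp [dV, hS'])
  have hy : HasFDerivAt (fun y => σ 0 y) (dY σ ((0 : Par n), y₀)) y₀ := by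
    have h := HasFDerivAt.comp (f := fun y : E => ((0 : Par n), y)) (g := S) y₀
      hdiff.hasFDerivAt ((hasFDerivAt_const (0 : Par n) y₀).prodMk (hasFDerivAt_id y₀))
    exact h.congr_fderiv (by ext1 v; simp [dY, hS'])
  have hy1 : dY σ ((0 : Par n), y₀) = 1 := by
    refine hy.unique ((hasFDerivAt_id y₀).congr_of_eventuallyEq ?_)
    exact Filter.eventually_of_mem (hσ.isOpen.mem_nhds hy₀) hσ.base
  obtain ⟨R₀, hR₀⟩ := (dV σ ((0 : Par n), y₀)).exists_rightInverse_of_surjective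
    (LinearMap.range_eq_top.2 (hv.fderiv ▸ hσ.onto y₀ hy₀))
  have hcont : ContinuousAt (fun z => fderiv ℝ S z) ((0 : Par n), y₀) :=
    (hS.continuousOn_fderiv_of_isOpen hW (by simp)).continuousAt (hW.mem_nhds hz₀)
  have e1 : ∀ᶠ z in 𝓝 ((0 : Par n), y₀), ‖dY σ z - 1‖ ≤ nearTol := by
    have h : ContinuousAt (fun z => ‖dY σ z - 1‖) ((0 : Par n), y₀) := by
      unfold dY
      exact ((hcont.clm_comp continuousAt_const).sub continuousAt_const).norm
    refine (h.eventually_lt continuousAt_const ?_).mono fun z hz => le_of_lt hz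
    simp [hy1, nearTol_pos]
  have e2 : ∀ᶠ z in 𝓝 ((0 : Par n), y₀), ‖(dV σ z).comp R₀ - 1‖ ≤ nearTol := by
    have h : ContinuousAt (fun z => ‖(dV σ z).comp R₀ - 1‖) ((0 : Par n), y₀) := by
      unfold dV
      exact (((hcont.clm_comp continuousAt_const).clm_comp continuousAt_const).sub
        continuousAt_const).norm
    refine (h.eventually_lt continuousAt_const ?_).mono fun z hz => le_of_lt hz
    rw [hR₀]
    simp [ContinuousLinearMap.one_def, nearTol_pos]
  have e3 : ∀ᶠ z : Par n × E in 𝓝 ((0 : Par n), y₀), z ∈ W ∩ W' ∧ z.2 ∈ U :=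
    ((hW.inter hW').eventually_mem ⟨hz₀, hmem⟩).and
      (continuousAt_snd.eventually_mem (hσ.isOpen.mem_nhds hy₀))
  obtain ⟨r, hr, hball⟩ := Metric.eventually_nhds_iff_ball.1 (e1.and (e2.and e3))
  have hsub : ball (0 : Par n) (4 * (r / 4)) ×ˢ ball y₀ (4 * (r / 4)) ⊆ ball ((0 : Par n), y₀) r := by
    rw [ball_prod_same, show 4 * (r / 4) = r by ring]
  refine ⟨r / 4, R₀, ⟨by positivity,
    hS.mono fun z hz => (hball z (hsub hz)).2.2.1.1, fun y hy' => hσ.base y ?_,
    fun z hz => (hball z (hsub hz)).1, fun z hz => (hball z (hsub hz)).2.1⟩,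
    fun z hz => (hball z (hsub hz)).2.2.1.2, fun y hy' => ?_⟩
  all_goals
    exact (hball _ (hsub (mk_mem_prod (mem_ball_self (by positivity)) hy'))).2.2.2

theorem Box.boxRad_pos (hB : Box σ y₀ δ R₀) : 0 < boxRad δ R₀ := by
  have := hB.pos
  unfold boxRad
  positivity

theorem Box.boxRad_le (hB : Box σ y₀ δ R₀) : boxRad δ R₀ ≤ δ :=
  div_le_self hB.pos.le (le_add_of_nonneg_right (by positivity))

theorem Box.closed_subset (hB : Box σ y₀ δ R₀) :
    closedBall (0 : Par n) (3 * δ) ×ˢ closedBall y₀ (3 * δ) ⊆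
      ball (0 : Par n) (4 * δ) ×ˢ ball y₀ (4 * δ) := by
  have := hB.pos
  exact prod_mono (closedBall_subset_ball (by linarith)) (closedBall_subset_ball (by linarith))

theorem Box.differentiableAt (hB : Box σ y₀ δ R₀) {z : Par n × E}
    (hz : z ∈ ball (0 : Par n) (4 * δ) ×ˢ ball y₀ (4 * δ)) :
    DifferentiableAt ℝ (fun w : Par n × E => σ w.1 w.2) z :=
  (hB.smooth.differentiableOn (by simp)).differentiableAt ((isOpen_ball.prod isOpen_ball).mem_nhds hz)

theorem Box.hasFDerivAt_v (hB : Box σ y₀ δ R₀) {z : Par n × E}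
    (hz : z ∈ ball (0 : Par n) (4 * δ) ×ˢ ball y₀ (4 * δ)) :
    HasFDerivAt (fun v => σ v z.2) (dV σ z) z.1 :=
  (HasFDerivAt.comp (f := fun v : Par n => (v, z.2)) (g := fun w : Par n × E => σ w.1 w.2) z.1
    (hB.differentiableAt hz).hasFDerivAt
    ((hasFDerivAt_id z.1).prodMk (hasFDerivAt_const z.2 z.1))).congr_fderiv
    (by ext1 v; simp [dV])

theorem Box.hasFDerivAt_y (hB : Box σ y₀ δ R₀) {z : Par n × E}
    (hz : z ∈ ball (0 : Par n) (4 * δ) ×ˢ ball y₀ (4 * δ)) :
    HasFDerivAt (fun y => σ z.1 y) (dY σ z) z.2 :=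
  (HasFDerivAt.comp (f := fun y : E => (z.1, y)) (g := fun w : Par n × E => σ w.1 w.2) z.2
    (hB.differentiableAt hz).hasFDerivAt
    ((hasFDerivAt_const z.1 z.2).prodMk (hasFDerivAt_id z.2))).congr_fderiv
    (by ext1 v; simp [dY])

/-- Displacements are linear in the parameter. -/
theorem Box.exists_lip (hB : Box σ y₀ δ R₀) : ∃ L : ℝ, 0 ≤ L ∧
    ∀ v ∈ closedBall (0 : Par n) (3 * δ), ∀ y ∈ closedBall y₀ (3 * δ),
      ‖σ v y - y‖ ≤ L * ‖v‖ := by
  set S := fun w : Par n × E => σ w.1 w.2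
  have ho : IsOpen (ball (0 : Par n) (4 * δ) ×ˢ ball y₀ (4 * δ)) := isOpen_ball.prod isOpen_ball
  obtain ⟨L, hL⟩ := ((isCompact_closedBall (0 : Par n) (3 * δ)).prod
    (isCompact_closedBall y₀ (3 * δ))).exists_bound_of_continuousOn
    ((hB.smooth.continuousOn_fderiv_of_isOpen ho (by simp)).mono hB.closed_subset)
  refine ⟨max L 0, le_max_right _ _, fun v hv y hy => ?_⟩
  have h := ((convex_closedBall (0 : Par n) (3 * δ)).prod
    (convex_closedBall y₀ (3 * δ))).norm_image_sub_le_of_norm_fderiv_le (f := S) (C := max L 0)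
    (fun z hz => hB.differentiableAt (hB.closed_subset hz))
    (fun z hz => (hL z hz).trans (le_max_left _ _))
    (x := ((0 : Par n), y)) (y := (v, y))
    (mk_mem_prod (mem_closedBall_self (by have := hB.pos; linarith)) hy) (mk_mem_prod hv hy)
  simp only [S, Prod.mk_sub_mk, sub_zero, sub_self] at h
  rw [hB.base y (closedBall_subset_ball (by linarith [hB.pos]) hy)] at h
  simpa [Prod.norm_def] using h

/-- The smoother cut off outside the box, a measurable map. -/
noncomputable def cutMap (σ : Par n → E → E) (y₀ : E) (δ : ℝ) (z : Par n × E) : E :=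
  open scoped Classical in
  if z ∈ closedBall (0 : Par n) (3 * δ) ×ˢ closedBall y₀ (3 * δ) then σ z.1 z.2 else 0

theorem Box.measurable_cutMap (hB : Box σ y₀ δ R₀) : Measurable (cutMap σ y₀ δ) := by
  classical
  exact (hB.smooth.continuousOn.mono hB.closed_subset).measurable_piecewise continuousOn_const
    (isClosed_closedBall.prod isClosed_closedBall).measurableSet

theorem cutMap_of_mem {v : Par n} {y : E} (hv : v ∈ closedBall (0 : Par n) (3 * δ))
    (hy : y ∈ closedBall y₀ (3 * δ)) : cutMap σ y₀ δ (v, y) = σ v y := by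
  unfold cutMap
  rw [if_pos (mk_mem_prod hv hy)]

/-- The fibre estimate in a box. -/
theorem Box.fibre (hB : Box σ y₀ δ R₀) : ∃ C : ℝ, 0 ≤ C ∧ ∀ ε ∈ Ioc (0 : ℝ) (boxRad δ R₀),
    ∀ y ∈ closedBall y₀ (2 * δ), ∀ f : E → ℝ≥0∞, Measurable f →
      ∫⁻ v in closedBall (0 : Par n) ε, f (σ v y) ≤
        ENNReal.ofReal (C * ε ^ n * (ε ^ 4)⁻¹) * ∫⁻ x in closedBall y (C * ε), f x := by
  obtain ⟨L, hL0, hL⟩ := hB.exists_lip
  set a := 1 + ‖R₀‖ with ha
  set b := 1 + 2 * ‖R₀‖ with hb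
  set wn := (volume (closedBall (0 : Par n) 1)).toReal with hwn
  set w4 := (volume (closedBall (0 : E) 1)).toReal with hw4
  have hw4pos : 0 < w4 :=
    ENNReal.toReal_pos (measure_closedBall_pos volume _ one_pos).ne' measure_closedBall_lt_top.ne
  have ha1 : 1 ≤ a := le_add_of_nonneg_right (norm_nonneg _)
  refine ⟨max (2 * a ^ n * wn / w4) (L * b), le_max_of_le_right (by positivity),
    fun ε hε y hy f hf => ?_⟩
  obtain ⟨hε0, hεr⟩ := hε
  have hbε : b * ε ≤ δ := by
    rw [boxRad, le_div_iff₀ (by positivity)] at hεr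
    rw [hb]; linarith
  have hy3 : y ∈ closedBall y₀ (3 * δ) :=
    closedBall_subset_closedBall (by linarith [hB.pos]) hy
  have hb1 : 1 ≤ b := le_add_of_nonneg_right (by positivity)
  have hbd : ∀ v ∈ closedBall (0 : Par n) (a * ε), ∀ x ∈ closedBall (0 : E) ε,
      v + R₀ x ∈ closedBall (0 : Par n) (3 * δ) ∧ ‖v + R₀ x‖ ≤ b * ε := fun v hv x hx => by
    rw [mem_closedBall_zero_iff] at hv hx ⊢
    have h : ‖v + R₀ x‖ ≤ b * ε := by
      calc ‖v + R₀ x‖ ≤ ‖v‖ + ‖R₀ x‖ := norm_add_le _ _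
        _ ≤ a * ε + ‖R₀‖ * ε := add_le_add hv ((R₀.le_opNorm x).trans (by gcongr))
        _ = _ := by rw [ha, hb]; ring
    exact ⟨h.trans (by linarith [hB.pos]), h⟩
  set F : Par n → ℝ≥0∞ := (closedBall (0 : Par n) ε).indicator fun v => f (cutMap σ y₀ δ (v, y))
    with hF
  have hFm : Measurable F :=
    (hf.comp (hB.measurable_cutMap.comp measurable_prodMk_right)).indicator measurableSet_closedBall
  have hlhs : ∫⁻ v in closedBall (0 : Par n) ε, f (σ v y) = ∫⁻ v, F v := by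
    rw [hF, lintegral_indicator measurableSet_closedBall]
    refine setLIntegral_congr_fun measurableSet_closedBall fun v hv => ?_
    rw [cutMap_of_mem (closedBall_subset_closedBall (by nlinarith [hB.pos]) hv) hy3]
  set Z := closedBall y (max (2 * a ^ n * wn / w4) (L * b) * ε)
  have hstep : volume (closedBall (0 : E) ε) * ∫⁻ v, F v ≤
      volume (closedBall (0 : Par n) (a * ε)) * (2 * ∫⁻ x in Z, f x) := by
    have h1 : ∀ x : E, ∫⁻ v, F v = ∫⁻ v, F (v + R₀ x) := fun x =>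
      (lintegral_add_right_eq_self F (R₀ x)).symm
    have h2 : volume (closedBall (0 : E) ε) * ∫⁻ v, F v =
        ∫⁻ x in closedBall (0 : E) ε, ∫⁻ v, F (v + R₀ x) := by
      simp only [← h1, setLIntegral_const, mul_comm]
    have h3 : ∀ x ∈ closedBall (0 : E) ε, ∫⁻ v, F (v + R₀ x) ≤
        ∫⁻ v in closedBall (0 : Par n) (a * ε), f (cutMap σ y₀ δ (v + R₀ x, y)) := fun x hx => by
      rw [← lintegral_indicator measurableSet_closedBall]
      refine lintegral_mono fun v => ?_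
      by_cases hv : v + R₀ x ∈ closedBall (0 : Par n) ε
      · have hv' : v ∈ closedBall (0 : Par n) (a * ε) := by
          rw [mem_closedBall_zero_iff] at hv hx ⊢
          calc ‖v‖ = ‖(v + R₀ x) - R₀ x‖ := by rw [add_sub_cancel_right]
            _ ≤ ε + ‖R₀‖ * ε :=
              (norm_sub_le _ _).trans (add_le_add hv ((R₀.le_opNorm x).trans (by gcongr)))
            _ = _ := by rw [ha]; ring
        simp [hF, indicator_of_mem hv, indicator_of_mem hv']
      · simp [hF, indicator_of_notMem hv]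
    rw [h2]
    refine (setLIntegral_mono' measurableSet_closedBall h3).trans ?_
    rw [lintegral_lintegral_swap]
    · refine (setLIntegral_mono' (g := fun _ => 2 * ∫⁻ x in Z, f x) measurableSet_closedBall
        fun v hv => ?_).trans (by rw [setLIntegral_const, mul_comm])
      have hmem : ∀ x ∈ closedBall (0 : E) ε,
          ((v + R₀ x, y) : Par n × E) ∈ ball (0 : Par n) (4 * δ) ×ˢ ball y₀ (4 * δ) := fun x hx =>
        hB.closed_subset (mk_mem_prod (hbd v hv x hx).1 hy3)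
      rw [setLIntegral_congr_fun measurableSet_closedBall fun x hx => by
        rw [cutMap_of_mem (hbd v hv x hx).1 hy3]]
      refine (lintegral_comp_near_le (φ := fun x => σ (v + R₀ x) y)
        (φ' := fun x => (dV σ (v + R₀ x, y)).comp R₀) measurableSet_closedBall
        (convex_closedBall _ _) (fun x hx => ?_) (fun x hx => hB.near_v _ (hmem x hx)) f).trans ?_
      · exact (((hB.hasFDerivAt_v (hmem x hx)).comp x
          (R₀.hasFDerivAt.const_add v)).hasFDerivWithinAt)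
      · refine mul_le_mul' le_rfl (lintegral_mono_set ?_)
        rintro _ ⟨x, hx, rfl⟩
        obtain ⟨h5, h6⟩ := hbd v hv x hx
        rw [mem_closedBall, dist_eq_norm]
        calc ‖σ (v + R₀ x) y - y‖ ≤ L * ‖v + R₀ x‖ := hL _ h5 y hy3
          _ ≤ L * (b * ε) := by gcongr
          _ ≤ max (2 * a ^ n * wn / w4) (L * b) * ε := by
              rw [← mul_assoc]; gcongr; exact le_max_right _ _
    · exact ((hf.comp (hB.measurable_cutMap.comp (((measurable_snd.add
        (R₀.continuous.measurable.comp measurable_fst))).prodMk measurable_const)))).aemeasurable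
  rw [hlhs]
  rw [volume_closedBall_scale (0 : E) hε0.le,
    volume_closedBall_scale (0 : Par n) (mul_nonneg (zero_le_one.trans ha1) hε0.le),
    Fintype.card_fin, Fintype.card_fin] at hstep
  rw [← ENNReal.ofReal_toReal (measure_closedBall_lt_top (x := (0 : E)) (r := 1)).ne,
    ← ENNReal.ofReal_toReal (measure_closedBall_lt_top (x := (0 : Par n)) (r := 1)).ne,
    ← hwn, ← hw4, ← ENNReal.ofReal_mul (by positivity), ← ENNReal.ofReal_mul (by positivity),
    show (2 : ℝ≥0∞) = ENNReal.ofReal 2 by simp, ← mul_assoc,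
    ← ENNReal.ofReal_mul (by positivity)] at hstep
  have hpos : 0 < ε ^ 4 * w4 := by positivity
  calc ∫⁻ v, F v
      = ENNReal.ofReal (ε ^ 4 * w4)⁻¹ * (ENNReal.ofReal (ε ^ 4 * w4) * ∫⁻ v, F v) := by
        rw [← mul_assoc, ← ENNReal.ofReal_mul (by positivity), inv_mul_cancel₀ hpos.ne',
          ENNReal.ofReal_one, one_mul]
    _ ≤ ENNReal.ofReal (ε ^ 4 * w4)⁻¹ *
        (ENNReal.ofReal ((a * ε) ^ n * wn * 2) * ∫⁻ x in Z, f x) := mul_le_mul' le_rfl hstep
    _ ≤ _ := by
        rw [← mul_assoc, ← ENNReal.ofReal_mul (by positivity)]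
        refine mul_le_mul' (ENNReal.ofReal_le_ofReal ?_) le_rfl
        calc (ε ^ 4 * w4)⁻¹ * ((a * ε) ^ n * wn * 2)
            = (2 * a ^ n * wn / w4) * ε ^ n * (ε ^ 4)⁻¹ := by
              rw [mul_pow]; field_simp
          _ ≤ _ := by gcongr; exact le_max_left _ _

/-- Composition with a fixed parameter does not increase the squared size much. -/
theorem Box.lintegral_comp_le (hB : Box σ y₀ δ R₀) {v : Par n}
    (hv : v ∈ closedBall (0 : Par n) (3 * δ)) (f : E → ℝ≥0∞) :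
    ∫⁻ y in closedBall y₀ (2 * δ), f (σ v y) ≤ 2 * ∫⁻ x, f x := by
  have hmem : ∀ y ∈ closedBall y₀ (2 * δ),
      ((v, y) : Par n × E) ∈ ball (0 : Par n) (4 * δ) ×ˢ ball y₀ (4 * δ) := fun y hy =>
    hB.closed_subset (mk_mem_prod hv (closedBall_subset_closedBall (by linarith [hB.pos]) hy))
  exact (lintegral_comp_near_le measurableSet_closedBall (convex_closedBall _ _)
    (fun y hy => (hB.hasFDerivAt_y (hmem y hy)).hasFDerivWithinAt)
    (fun y hy => hB.near_y _ (hmem y hy)) f).trans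
    (mul_le_mul' le_rfl (setLIntegral_le_lintegral _ _))

/-- Module Smoother, the fibre estimate. -/
theorem smootherFibre : SmootherFibre := by
  intro n U σ hσ K hKU hK
  have hex : ∀ y ∈ K, ∃ (δ : ℝ) (R₀ : E →L[ℝ] Par n), Box σ y δ R₀ := fun y hy => by
    obtain ⟨δ, R₀, h, -, -⟩ := exists_box hσ (hKU hy) isOpen_univ (mem_univ _)
    exact ⟨δ, R₀, h⟩
  choose! δ R₀ hbox using hex
  obtain ⟨t, htK, hcov⟩ := hK.elim_nhds_subcover (fun y => ball y (δ y))
    fun y hy => ball_mem_nhds _ (hbox y hy).pos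
  choose! C hC0 hC using fun y (hy : y ∈ t) => (hbox y (htK y hy)).fibre
  obtain ⟨ε₀, hε₀, hεle⟩ : ∃ ε₀ > 0, ∀ y ∈ t, ε₀ ≤ boxRad (δ y) (R₀ y) := by
    rcases t.eq_empty_or_nonempty with h | h
    · exact ⟨1, one_pos, by simp [h]⟩
    · obtain ⟨y, hy, hmin⟩ := t.exists_min_image (fun y => boxRad (δ y) (R₀ y)) h
      exact ⟨_, (hbox y (htK y hy)).boxRad_pos, hmin⟩
  refine ⟨∑ y ∈ t, C y, ε₀, hε₀, fun ε hε y hy f hf => ?_⟩
  obtain ⟨y', hy't, hyy'⟩ := mem_iUnion₂.1 (hcov hy)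
  have hδ := (hbox y' (htK y' hy't)).pos
  have h := hC y' hy't ε ⟨hε.1, hε.2.trans (hεle y' hy't)⟩ y
    (closedBall_subset_closedBall (by linarith) (ball_subset_closedBall hyy')) f hf
  have hCle : C y' ≤ ∑ y ∈ t, C y := Finset.single_le_sum hC0 hy't
  refine (mul_le_mul' le_rfl h).trans ?_
  rw [← mul_assoc, ← ENNReal.ofReal_mul (by have := hε.1; positivity)]
  refine mul_le_mul' (ENNReal.ofReal_le_ofReal ?_) (lintegral_mono_set
    (closedBall_subset_closedBall (mul_le_mul_of_nonneg_right hCle hε.1.le)))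
  have hn : (ε ^ n)⁻¹ * (C y' * ε ^ n * (ε ^ 4)⁻¹) = C y' * (ε ^ 4)⁻¹ := by
    have := (pow_pos hε.1 n).ne'
    field_simp
  rw [hn]
  exact mul_le_mul_of_nonneg_right hCle (by have := hε.1; positivity)

end Vale.Agent.P204.Tame
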