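import Vale.Agent.P204.Tame.DensityTest

/-!
An even mollifier whose convolution operator lies between zero and the identity, its second order
estimate, and the telescoping recovery of a functional from its values on mollified functions.
-/

open scoped ContDiff Convolution
open MeasureTheory Metric Set Filter Topology ContinuousLinearMap

namespace Vale.Agent.P204.Tame

/-- An even smooth weight of mass one supported in the closed ball of radius `R`. -/
structure IsKer (k : E → ℝ) (R : ℝ) : Prop where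
  smooth : ContDiff ℝ ∞ k
  supp : tsupport k ⊆ closedBall 0 R
  nonneg : ∀ x, 0 ≤ k x
  mass : ∫ x, k x = 1
  even : ∀ x, k (-x) = k x

theorem IsKer.compact {k : E → ℝ} {R : ℝ} (h : IsKer k R) : HasCompactSupport k :=
  (isCompact_closedBall 0 R).of_isClosed_subset (isClosed_tsupport _) h.supp

theorem compact_normsq {f : E → ℝ} (hf : HasCompactSupport f) (n : ℕ) :
    HasCompactSupport fun x => ‖iteratedFDeriv ℝ n f x‖ ^ 2 := by
  have h : HasCompactSupport fun x => ‖iteratedFDeriv ℝ n f x‖ := (hf.iteratedFDeriv n).norm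
  exact h.comp_left (g := fun r : ℝ => r ^ 2) (zero_pow two_ne_zero)

theorem compact_sq {f : E → ℝ} (hf : HasCompactSupport f) : HasCompactSupport fun x => f x ^ 2 :=
  hf.comp_left (g := fun r : ℝ => r ^ 2) (zero_pow two_ne_zero)

theorem IsMol.toKer {ρ : E → ℝ} (h : IsMol ρ) : IsKer ρ 1 :=
  ⟨h.smooth, h.supp, h.nonneg, h.mass, h.even⟩

/-- Averaging against a weight. -/
noncomputable def avgBy (k : E → ℝ) (t : ℝ) (f : E → ℝ) (x : E) : ℝ := ∫ v, k v * f (x + t • v)

theorem convAt_eq_avgBy (k : E → ℝ) {t : ℝ} (ht : 0 < t) (f : E → ℝ) :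
    convAt k t f = avgBy k t f := by
  funext x
  have h := Measure.integral_comp_inv_smul_of_nonneg (volume : Measure E)
    (fun v : E => k v * f (x + t • v)) ht.le
  simp only [smul_smul, mul_inv_cancel₀ ht.ne', one_smul, Module.finrank_fin_fun, smul_eq_mul] at h
  rw [convAt, h, avgBy, ← mul_assoc, inv_mul_cancel₀ (pow_ne_zero 4 ht.ne'), one_mul]

theorem avgBy_eq_conv {k : E → ℝ} (hk : ∀ x, k (-x) = k x) {t : ℝ} (ht : 0 < t) (f : E → ℝ) :
    avgBy k t f = (fun v => (t ^ 4)⁻¹ * k (t⁻¹ • v)) ⋆[lsmul ℝ ℝ, volume] f := by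
  funext x
  rw [← convAt_eq_avgBy k ht]
  simp only [convolution, lsmul_apply, smul_eq_mul]
  rw [← integral_neg_eq_self (fun v => (t ^ 4)⁻¹ * k (t⁻¹ • v) * f (x - v)), convAt,
    ← integral_const_mul]
  refine integral_congr_ae (Eventually.of_forall fun v => ?_)
  simp only [smul_neg, hk, sub_neg_eq_add]
  ring

theorem avgBy_integrable {k : E → ℝ} {R : ℝ} (hk : IsKer k R) {f : E → ℝ} (hf : Continuous f)
    (t : ℝ) (x : E) : Integrable fun v => k v * f (x + t • v) :=
  (hk.smooth.continuous.mul (hf.comp (by fun_prop))).integrable_of_hasCompactSupport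
    hk.compact.mul_right

theorem scaled_locallyIntegrable {k : E → ℝ} {R : ℝ} (hk : IsKer k R) (t : ℝ) :
    LocallyIntegrable (fun v : E => (t ^ 4)⁻¹ * k (t⁻¹ • v)) volume :=
  (continuous_const.mul (hk.smooth.continuous.comp (by fun_prop))).locallyIntegrable

theorem avgBy_contDiff {k : E → ℝ} {R : ℝ} (hk : IsKer k R) {t : ℝ} (ht : 0 < t) {f : E → ℝ}
    (hf : ContDiff ℝ ∞ f) (hfc : HasCompactSupport f) : ContDiff ℝ ∞ (avgBy k t f) := by
  rw [avgBy_eq_conv hk.even ht]
  exact hfc.contDiff_convolution_right (lsmul ℝ ℝ) (scaled_locallyIntegrable hk t) hf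

theorem pd_avgBy {k : E → ℝ} {R : ℝ} (hk : IsKer k R) {t : ℝ} (ht : 0 < t) {f : E → ℝ}
    (hf : ContDiff ℝ ∞ f) (hfc : HasCompactSupport f) (a : Fin 4) :
    pd a (avgBy k t f) = avgBy k t (pd a f) := by
  funext x
  rw [avgBy_eq_conv hk.even ht, avgBy_eq_conv hk.even ht]
  have h := hfc.hasFDerivAt_convolution_right (lsmul ℝ ℝ) (scaled_locallyIntegrable hk t)
    (hf.of_le (by norm_cast)) x
  show fderiv ℝ _ x (e a) = _
  rw [h.fderiv, convolution_precompR_apply (L := lsmul ℝ ℝ) (scaled_locallyIntegrable hk t)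
    (hfc.fderiv ℝ) (hf.continuous_fderiv (by simp))]
  rfl

theorem avgBy_continuous {k : E → ℝ} {R : ℝ} (hk : IsKer k R) {t : ℝ} (ht : 0 < t) {f : E → ℝ}
    (hf : Continuous f) (hfc : HasCompactSupport f) : Continuous (avgBy k t f) := by
  rw [avgBy_eq_conv hk.even ht]
  exact hfc.continuous_convolution_right (lsmul ℝ ℝ) (scaled_locallyIntegrable hk t) hf

theorem tsupport_avgBy {k : E → ℝ} {R : ℝ} (hk : IsKer k R) {t : ℝ} (ht : 0 ≤ t) {f : E → ℝ}
    {K : Set E} (hfs : tsupport f ⊆ K) :
    tsupport (avgBy k t f) ⊆ cthickening (t * R) K := by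
  refine closure_minimal (fun x hx => ?_) isClosed_cthickening
  by_contra hn
  refine hx (integral_eq_zero_of_ae (Eventually.of_forall fun v => ?_))
  by_cases hv : k v = 0
  · simp [hv]
  · have hvR : ‖v‖ ≤ R := by
      simpa [mem_closedBall_zero_iff] using hk.supp (subset_tsupport k hv)
    have : x + t • v ∉ K := fun h => hn (by
      refine mem_cthickening_of_dist_le x (x + t • v) _ K h ?_
      rw [dist_eq_norm, sub_add_cancel_left, norm_neg, norm_smul, Real.norm_eq_abs, abs_of_nonneg ht]
      exact mul_le_mul_of_nonneg_left hvR ht)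
    simp [image_eq_zero_of_notMem_tsupport fun h => this (hfs h)]

theorem avgBy_compact {k : E → ℝ} {R : ℝ} (hk : IsKer k R) {t : ℝ} (ht : 0 ≤ t) {f : E → ℝ}
    (hfc : HasCompactSupport f) : HasCompactSupport (avgBy k t f) :=
  hfc.cthickening.of_isClosed_subset (isClosed_tsupport _)
    (tsupport_avgBy hk ht subset_rfl)

theorem avgBy_sq_le {k : E → ℝ} {R : ℝ} (hk : IsKer k R) {f : E → ℝ} (hf : Continuous f) (t : ℝ)
    (x : E) : avgBy k t f x ^ 2 ≤ avgBy k t (fun y => f y ^ 2) x := by
  set c := avgBy k t f x with hc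
  have h1 := avgBy_integrable hk hf t x
  have h2 := avgBy_integrable hk (hf.pow 2) t x
  have h0 : Integrable k := hk.smooth.continuous.integrable_of_hasCompactSupport hk.compact
  have hnn : 0 ≤ ∫ v, k v * (f (x + t • v) - c) ^ 2 :=
    integral_nonneg fun v => mul_nonneg (hk.nonneg v) (sq_nonneg _)
  have he : (fun v => k v * (f (x + t • v) - c) ^ 2)
      = fun v => k v * f (x + t • v) ^ 2 - 2 * c * (k v * f (x + t • v)) + c ^ 2 * k v := by
    funext v; ring
  have h2' : Integrable fun v => k v * f (x + t • v) ^ 2 := h2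
  have ea := integral_add (h2'.sub (h1.const_mul (2 * c))) (h0.const_mul (c ^ 2))
  simp only [Pi.sub_apply] at ea
  rw [he, ea, integral_sub h2' (h1.const_mul _), integral_const_mul, integral_const_mul,
    hk.mass] at hnn
  change 0 ≤ avgBy k t (fun y => f y ^ 2) x - 2 * c * c + c ^ 2 * 1 at hnn
  nlinarith

theorem fubini_translate {k : E → ℝ} {R : ℝ} (hk : IsKer k R) {F : E → E → ℝ}
    (hF : Continuous fun z : E × E => F z.1 z.2) {K : Set E} (hK : IsCompact K)
    (hsupp : ∀ x v, k v ≠ 0 → x ∉ K → F x v = 0) :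
    ∫ x, ∫ v, k v * F x v = ∫ v, k v * ∫ x, F x v := by
  have h : Integrable (Function.uncurry fun x v => k v * F x v)
      ((volume : Measure E).prod volume) := by
    refine Continuous.integrable_of_hasCompactSupport ?_ ?_
    · exact (hk.smooth.continuous.comp continuous_snd).mul hF
    · refine HasCompactSupport.intro (hK.prod hk.compact) fun z hz => ?_
      simp only [mem_prod, not_and_or] at hz
      rcases hz with hz | hz
      · by_cases hv : k z.2 = 0
        · simp [Function.uncurry, hv]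
        · simp [Function.uncurry, hsupp _ _ hv hz]
      · simp [Function.uncurry, image_eq_zero_of_notMem_tsupport hz]
  rw [integral_integral_swap h]
  exact integral_congr_ae (Eventually.of_forall fun v => integral_const_mul _ _)

theorem integral_avgBy_mul {k : E → ℝ} {R : ℝ} (hk : IsKer k R) (t : ℝ) {f g : E → ℝ}
    (hf : Continuous f) (hg : Continuous g) (hgc : HasCompactSupport g) :
    ∫ x, avgBy k t f x * g x = ∫ v, k v * ∫ x, f (x + t • v) * g x := by
  rw [← fubini_translate hk (F := fun x v => f (x + t • v) * g x) (by fun_prop) hgc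
    fun x v _ hx => by simp [image_eq_zero_of_notMem_tsupport hx]]
  refine integral_congr_ae (Eventually.of_forall fun x => ?_)
  simp only [avgBy]
  rw [← integral_mul_const]
  exact integral_congr_ae (Eventually.of_forall fun v => by ring)

theorem integral_avgBy_symm {k : E → ℝ} {R : ℝ} (hk : IsKer k R) (t : ℝ) {f g : E → ℝ}
    (hf : Continuous f) (hfc : HasCompactSupport f) (hg : Continuous g)
    (hgc : HasCompactSupport g) :
    ∫ x, avgBy k t f x * g x = ∫ x, f x * avgBy k t g x := by
  simp only [mul_comm (f _) (avgBy k t g _)]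
  rw [integral_avgBy_mul hk t hf hg hgc, integral_avgBy_mul hk t hg hf hfc,
    ← integral_neg_eq_self (fun v => k v * ∫ x, g (x + t • v) * f x)]
  refine integral_congr_ae (Eventually.of_forall fun v => ?_)
  simp only [hk.even]
  congr 1
  rw [← integral_add_right_eq_self (fun x => g (x + t • -v) * f x) (t • v)]
  exact integral_congr_ae (Eventually.of_forall fun x => by simp [add_assoc, mul_comm])

theorem integral_avgBy_sq_le {k : E → ℝ} {R : ℝ} (hk : IsKer k R) {t : ℝ} (ht : 0 < t)
    {f : E → ℝ} (hf : Continuous f) (hfc : HasCompactSupport f) :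
    ∫ x, avgBy k t f x ^ 2 ≤ ∫ x, f x ^ 2 := by
  have hf2 : HasCompactSupport fun x => f x ^ 2 :=
    compact_sq hfc
  have hint : Integrable fun x => avgBy k t (fun y => f y ^ 2) x :=
    (avgBy_continuous hk ht (hf.pow 2) hf2).integrable_of_hasCompactSupport
      (avgBy_compact hk ht.le hf2)
  refine (integral_mono_of_nonneg (Eventually.of_forall fun x => sq_nonneg _) hint
    (Eventually.of_forall fun x => avgBy_sq_le hk hf t x)).trans (le_of_eq ?_)
  have hswap : ∫ x, ∫ v, k v * f (x + t • v) ^ 2 = ∫ v, k v * ∫ x, f (x + t • v) ^ 2 :=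
    fubini_translate hk (F := fun x v => f (x + t • v) ^ 2) (by fun_prop)
      (hf2.cthickening (r := |t| * R)) fun x v hv hx => by
        have hvR : ‖v‖ ≤ R := by
          simpa [mem_closedBall_zero_iff] using hk.supp (subset_tsupport k hv)
        have : x + t • v ∉ tsupport fun x => f x ^ 2 := fun h => hx (by
          refine mem_cthickening_of_dist_le x _ _ _ h ?_
          rw [dist_eq_norm, sub_add_cancel_left, norm_neg, norm_smul, Real.norm_eq_abs]
          exact mul_le_mul_of_nonneg_left hvR (abs_nonneg t))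
        exact image_eq_zero_of_notMem_tsupport (f := fun x => f x ^ 2) this
  show ∫ x, ∫ v, k v * f (x + t • v) ^ 2 = _
  rw [hswap]
  simp only [integral_add_right_eq_self (fun x => f x ^ 2)]
  rw [integral_mul_const, hk.mass, one_mul]

/-- The one-variable bump used for the mollifier. -/
noncomputable def bump1 : ContDiffBump (0 : ℝ) := ⟨1 / 4, 1 / 2, by norm_num, by norm_num⟩

theorem exists_ker : ∃ k : E → ℝ, IsKer k (1 / 2) := by
  set η : E → ℝ := fun v => ∏ i, bump1 (v i) with hη
  have hs : ContDiff ℝ ∞ η := contDiff_prod fun i _ => bump1.contDiff.comp (contDiff_apply ℝ ℝ i)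
  have hsup : tsupport η ⊆ closedBall 0 (1 / 2) := by
    refine closure_minimal (fun v hv => ?_) isClosed_closedBall
    rw [mem_closedBall_zero_iff, pi_norm_le_iff_of_nonneg (by norm_num)]
    intro i
    have hi : bump1 (v i) ≠ 0 := fun h => hv (Finset.prod_eq_zero (Finset.mem_univ i) h)
    have := bump1.support_eq.subset hi
    rw [mem_ball_zero_iff] at this
    exact this.le
  have h0 : 0 < η 0 := Finset.prod_pos fun i _ => bump1.pos_of_mem_ball (mem_ball_self (by
    norm_num [bump1]))
  have hpos : 0 < ∫ v, η v := hs.continuous.integral_pos_of_hasCompactSupport_nonneg_nonzero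
    ((isCompact_closedBall (0:E) (1 / 2)).of_isClosed_subset (isClosed_tsupport _) hsup)
    (fun v => Finset.prod_nonneg fun i _ => bump1.nonneg) (x := 0) h0.ne'
  refine ⟨fun v => (∫ v, η v)⁻¹ * η v, contDiff_const.mul hs, ?_, fun v => ?_, ?_, fun v => ?_⟩
  · exact (tsupport_mul_subset_right).trans hsup
  · exact mul_nonneg (inv_nonneg.2 hpos.le) (Finset.prod_nonneg fun i _ => bump1.nonneg)
  · rw [integral_const_mul, inv_mul_cancel₀ hpos.ne']
  · simp only [hη, Pi.neg_apply, bump1.neg]

theorem avgBy_avgBy {k : E → ℝ} {R : ℝ} (hk : IsKer k R) {f : E → ℝ} (hf : Continuous f) (t : ℝ) (x : E) :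
    avgBy (avgBy k 1 k) t f x = avgBy k t (avgBy k t f) x := by
  show ∫ w, (∫ v, k v * k (w + (1:ℝ) • v)) * f (x + t • w) = _
  simp only [← integral_mul_const, mul_assoc]
  rw [fubini_translate hk (F := fun w v => k (w + (1:ℝ) • v) * f (x + t • w))
    ((hk.smooth.continuous.comp (by fun_prop)).mul (hf.comp (by fun_prop)))
    (hk.compact.cthickening (r := R)) fun w v hv hw => ?_ ]
  · show _ = ∫ v, k v * ∫ u, k u * f (x + t • v + t • u)
    rw [← integral_neg_eq_self (fun v => k v * ∫ u, k u * f (x + t • v + t • u))]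
    refine integral_congr_ae (Eventually.of_forall fun v => ?_)
    simp only [hk.even, one_smul]
    congr 1
    rw [← integral_add_right_eq_self (fun u => k u * f (x + t • -v + t • u)) v]
    refine integral_congr_ae (Eventually.of_forall fun w => ?_)
    show k (w + v) * _ = k (w + v) * _
    congr 2
    module
  · have : w + (1:ℝ) • v ∉ tsupport k := fun h => hw (by
      refine mem_cthickening_of_dist_le w _ _ _ h ?_
      rw [one_smul, dist_eq_norm, sub_add_cancel_left, norm_neg]
      simpa [mem_closedBall_zero_iff] using hk.supp (subset_tsupport k hv))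
    rw [image_eq_zero_of_notMem_tsupport this, zero_mul]

theorem molExists : MolExists := by
  obtain ⟨k, hk⟩ := exists_ker
  set ρ := avgBy k 1 k with hρ
  have hρs : tsupport ρ ⊆ closedBall 0 1 := by
    refine (tsupport_avgBy hk zero_le_one hk.supp).trans ?_
    rw [one_mul, cthickening_closedBall (by norm_num) (by norm_num)]
    norm_num
  have hρc : HasCompactSupport ρ :=
    (isCompact_closedBall 0 1).of_isClosed_subset (isClosed_tsupport _) hρs
  refine ⟨ρ, avgBy_contDiff hk one_pos hk.smooth hk.compact, hρs, fun x => ?_, ?_, fun x => ?_,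
    fun f hf hfc t ht => ?_⟩
  · exact integral_nonneg fun v => mul_nonneg (hk.nonneg v) (hk.nonneg _)
  · show ∫ w, ∫ v, k v * k (w + (1:ℝ) • v) = 1
    rw [fubini_translate hk (F := fun w v => k (w + (1:ℝ) • v))
      (hk.smooth.continuous.comp (by fun_prop)) (hk.compact.cthickening (r := 1 / 2))
      fun w v hv hw => image_eq_zero_of_notMem_tsupport fun h => hw ?_]
    · simp only [one_smul, integral_add_right_eq_self k, hk.mass, mul_one]
    · refine mem_cthickening_of_dist_le w _ _ _ h ?_
      rw [one_smul, dist_eq_norm, sub_add_cancel_left, norm_neg]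
      simpa [mem_closedBall_zero_iff] using hk.supp (subset_tsupport k hv)
  · show ∫ v, k v * k (-x + (1:ℝ) • v) = ∫ v, k v * k (x + (1:ℝ) • v)
    rw [← integral_neg_eq_self (fun v => k v * k (x + (1:ℝ) • v))]
    refine integral_congr_ae (Eventually.of_forall fun v => ?_)
    simp only [hk.even, one_smul]
    rw [← hk.even (-x + v), neg_add, neg_neg]
  · rw [convAt_eq_avgBy ρ ht]
    have hS : ∀ x, avgBy ρ t f x = avgBy k t (avgBy k t f) x := avgBy_avgBy hk hf t
    simp only [hS]
    set g := avgBy k t f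
    have hg : Continuous g := avgBy_continuous hk ht hf hfc
    have hgc : HasCompactSupport g := avgBy_compact hk ht.le hfc
    have hh : Continuous (avgBy k t g) := avgBy_continuous hk ht hg hgc
    have hhc : HasCompactSupport (avgBy k t g) := avgBy_compact hk ht.le hgc
    have i1 : Integrable fun x => f x ^ 2 := (hf.pow 2).integrable_of_hasCompactSupport
      (compact_sq hfc)
    have i2 : Integrable fun x => f x * avgBy k t g x :=
      (hf.mul hh).integrable_of_hasCompactSupport hfc.mul_right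
    have i3 : Integrable fun x => avgBy k t g x ^ 2 := (hh.pow 2).integrable_of_hasCompactSupport
      (compact_sq hhc)
    have e1 : ∫ x, f x * avgBy k t g x = ∫ x, g x ^ 2 := by
      rw [← integral_avgBy_symm hk t hf hfc hg hgc]
      simp only [sq, g]
    have e2 := integral_avgBy_sq_le hk ht hg hgc
    have he : (fun x => (f x - avgBy k t g x) ^ 2)
        = fun x => f x ^ 2 - 2 * (f x * avgBy k t g x) + avgBy k t g x ^ 2 := by funext x; ring
    have ea := integral_add (i1.sub (i2.const_mul 2)) i3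
    simp only [Pi.sub_apply] at ea
    rw [he, ea, integral_sub i1 (i2.const_mul 2), integral_const_mul, e1]
    have : 0 ≤ ∫ x, g x ^ 2 := integral_nonneg fun x => sq_nonneg _
    linarith

theorem taylor_two {h h1 h2 : ℝ → ℝ} (d1 : ∀ s, HasDerivAt h (h1 s) s)
    (d2 : ∀ s, HasDerivAt h1 (h2 s) s) (c2 : Continuous h2) (t : ℝ) :
    h t - h 0 - t * h1 0 = ∫ s in (0:ℝ)..t, (t - s) * h2 s := by
  have hd : ∀ s ∈ uIcc (0:ℝ) t,
      HasDerivAt (fun s => h s + (t - s) * h1 s) ((t - s) * h2 s) s := fun s _ => by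
    have := (d1 s).add (((hasDerivAt_id' s).const_sub t).mul (d2 s))
    exact this.congr_deriv (by ring)
  rw [intervalIntegral.integral_eq_sub_of_hasDerivAt hd (Continuous.intervalIntegrable (by fun_prop) 0 t)]
  ring

theorem fderiv_pair_le {f : E → ℝ} (x v : E) (hv : ‖v‖ ≤ 1) :
    |fderiv ℝ (fderiv ℝ f) x v v| ≤ ‖iteratedFDeriv ℝ 2 f x‖ := by
  have h := (iteratedFDeriv ℝ 2 f x).le_opNorm ![v, v]
  rw [iteratedFDeriv_two_apply, Real.norm_eq_abs] at h
  refine h.trans (mul_le_of_le_one_right (norm_nonneg _) ?_)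
  simp only [Fin.prod_univ_two, Matrix.cons_val_zero, Matrix.cons_val_one]
  exact mul_le_one₀ hv (norm_nonneg _) hv

theorem sq_intervalIntegral_le {a b : ℝ} (hab : a ≤ b) {g : ℝ → ℝ} (hg : Continuous g) :
    (∫ s in a..b, g s) ^ 2 ≤ (b - a) * ∫ s in a..b, g s ^ 2 := by
  set I := ∫ s in a..b, g s
  set Q := ∫ s in a..b, g s ^ 2
  rcases hab.eq_or_lt with rfl | hlt
  · simp [I, Q]
  set c := I / (b - a)
  have h0 : 0 ≤ ∫ s in a..b, (g s - c) ^ 2 :=
    intervalIntegral.integral_nonneg hab fun s _ => sq_nonneg _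
  have he : (fun s => (g s - c) ^ 2) = fun s => g s ^ 2 - 2 * c * g s + c ^ 2 := by funext s; ring
  have c1 : IntervalIntegrable (fun s => g s ^ 2) volume a b := (hg.pow 2).intervalIntegrable a b
  have c2 : IntervalIntegrable (fun s => 2 * c * g s) volume a b :=
    (continuous_const.mul hg).intervalIntegrable a b
  rw [he, intervalIntegral.integral_add (c1.sub c2) intervalIntegrable_const,
    intervalIntegral.integral_sub c1 c2, intervalIntegral.integral_const_mul,
    intervalIntegral.integral_const, smul_eq_mul] at h0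
  have hd : 0 < b - a := by linarith
  have : c * (b - a) = I := div_mul_cancel₀ _ hd.ne'
  change 0 ≤ Q - 2 * c * I + (b - a) * c ^ 2 at h0
  nlinarith

theorem avgBy_second {ρ : E → ℝ} (hρ : IsKer ρ 1) {f : E → ℝ} (hf : ContDiff ℝ ∞ f)
    (hfc : HasCompactSupport f) {t : ℝ} (ht : 0 < t) :
    ∫ x, (f x - avgBy ρ t f x) ^ 2 ≤ t ^ 4 * ∫ x, ‖iteratedFDeriv ℝ 2 f x‖ ^ 2 := by
  set G : E → ℝ := fun x => ‖iteratedFDeriv ℝ 2 f x‖ ^ 2 with hG
  have hGc : Continuous G := (hf.continuous_iteratedFDeriv (by norm_cast)).norm.pow 2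
  have hGs : HasCompactSupport G := compact_normsq hfc 2
  have hd2c : Continuous (fderiv ℝ (fderiv ℝ f)) :=
    (hf.fderiv_right (m := ∞) le_rfl).continuous_fderiv (by simp)
  have hd1c : Continuous (fderiv ℝ f) := hf.continuous_fderiv (by simp)
  -- pointwise Taylor bound
  have hpt : ∀ x, (f x - avgBy ρ t f x) ^ 2 ≤ t ^ 3 * ∫ v, ρ v * ∫ s in (0:ℝ)..t, G (x + s • v) := by
    intro x
    set q : E → ℝ := fun v => f (x + t • v) - f x - t * fderiv ℝ f x v with hq
    have hqc : Continuous q := by
      rw [hq]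
      exact ((hf.continuous.comp (by fun_prop)).sub continuous_const).sub
        (continuous_const.mul (fderiv ℝ f x).continuous)
    have hint : ∀ g : E → ℝ, Continuous g → Integrable fun v => ρ v * g v := fun g hg =>
      (hρ.smooth.continuous.mul hg).integrable_of_hasCompactSupport hρ.compact.mul_right
    have hodd : ∫ v, ρ v * fderiv ℝ f x v = 0 := by
      have h := integral_neg_eq_self (fun v => ρ v * fderiv ℝ f x v) (volume : Measure E)
      simp only [hρ.even, map_neg, mul_neg, integral_neg] at h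
      linarith
    have hmean : avgBy ρ t f x - f x = ∫ v, ρ v * q v := by
      have he : (fun v => ρ v * q v)
          = fun v => ρ v * f (x + t • v) - f x * ρ v - t * (ρ v * fderiv ℝ f x v) := by
        funext v; simp only [hq]; ring
      have i1 := hint _ (hf.continuous.comp (show Continuous fun v : E => x + t • v by fun_prop))
      have i2 : Integrable ρ := hρ.smooth.continuous.integrable_of_hasCompactSupport hρ.compact
      have i3 := hint _ (fderiv ℝ f x).continuous
      simp only [Function.comp_def] at i1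
      have ea := integral_sub (i1.sub (i2.const_mul (f x))) (i3.const_mul t)
      simp only [Pi.sub_apply] at ea
      rw [he, ea, integral_sub i1 (i2.const_mul _), integral_const_mul, integral_const_mul, hodd,
        hρ.mass, avgBy]
      ring
    have hq2 : ∀ v, ‖v‖ ≤ 1 → q v ^ 2 ≤ t ^ 3 * ∫ s in (0:ℝ)..t, G (x + s • v) := by
      intro v hv
      have hd : ∀ s : ℝ, HasDerivAt (fun s : ℝ => x + s • v) v s := fun s => by
        simpa using ((hasDerivAt_id s).smul_const v).const_add x
      have d1 : ∀ s, HasDerivAt (fun s => f (x + s • v)) (fderiv ℝ f (x + s • v) v) s := fun s =>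
        ((hf.differentiable (by simp)) _).hasFDerivAt.comp_hasDerivAt s (hd s)
      have d2 : ∀ s, HasDerivAt (fun s => fderiv ℝ f (x + s • v) v)
          (fderiv ℝ (fderiv ℝ f) (x + s • v) v v) s := fun s => by
        have := (((hf.fderiv_right (m := ∞) le_rfl).differentiable (by simp)) _).hasFDerivAt
          |>.comp_hasDerivAt s (hd s)
        simpa using this.clm_apply (hasDerivAt_const s v)
      have c2 : Continuous fun s : ℝ => fderiv ℝ (fderiv ℝ f) (x + s • v) v v :=
        ((hd2c.comp (by fun_prop)).clm_apply continuous_const).clm_apply continuous_const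
      have hT := taylor_two d1 d2 c2 t
      simp only [zero_smul, add_zero] at hT
      have hqe : q v = ∫ s in (0:ℝ)..t, (t - s) * fderiv ℝ (fderiv ℝ f) (x + s • v) v v := hT
      rw [hqe]
      refine (sq_intervalIntegral_le ht.le (by fun_prop)).trans ?_
      rw [sub_zero, ← intervalIntegral.integral_const_mul, ← intervalIntegral.integral_const_mul]
      refine intervalIntegral.integral_mono_on ht.le (Continuous.intervalIntegrable (by fun_prop) _ _)
        (Continuous.intervalIntegrable (continuous_const.mul (hGc.comp (by fun_prop))) _ _)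
        fun s hs => ?_
      have h1 : ((t - s) * fderiv ℝ (fderiv ℝ f) (x + s • v) v v) ^ 2 ≤ t ^ 2 * G (x + s • v) := by
        rw [mul_pow]
        refine mul_le_mul (pow_le_pow_left₀ (by linarith [hs.2]) (by linarith [hs.1]) 2) ?_
          (sq_nonneg _) (sq_nonneg t)
        rw [← sq_abs]
        exact pow_le_pow_left₀ (abs_nonneg _) (fderiv_pair_le _ v hv) 2
      calc t * ((t - s) * fderiv ℝ (fderiv ℝ f) (x + s • v) v v) ^ 2
          ≤ t * (t ^ 2 * G (x + s • v)) := mul_le_mul_of_nonneg_left h1 ht.le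
        _ = _ := by ring
    have hJ : (∫ v, ρ v * q v) ^ 2 ≤ ∫ v, ρ v * q v ^ 2 := by
      have := avgBy_sq_le hρ hqc 1 0
      simpa [avgBy] using this
    have hIc : Continuous fun v => ∫ s in (0:ℝ)..t, G (x + s • v) :=
      intervalIntegral.continuous_parametric_intervalIntegral_of_continuous'
        (by exact hGc.comp (by fun_prop)) 0 t
    calc (f x - avgBy ρ t f x) ^ 2 = (∫ v, ρ v * q v) ^ 2 := by rw [← hmean]; ring
      _ ≤ ∫ v, ρ v * q v ^ 2 := hJ
      _ ≤ ∫ v, ρ v * (t ^ 3 * ∫ s in (0:ℝ)..t, G (x + s • v)) := by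
          refine integral_mono (hint _ (hqc.pow 2)) (hint _ (continuous_const.mul hIc)) fun v => ?_
          rcases eq_or_ne (ρ v) 0 with h | h
          · simp [h]
          · exact mul_le_mul_of_nonneg_left (hq2 v
              (by simpa [mem_closedBall_zero_iff] using hρ.supp (subset_tsupport ρ h))) (hρ.nonneg v)
      _ = _ := by
          rw [← integral_const_mul]
          exact integral_congr_ae (Eventually.of_forall fun v => by ring)
  -- integrate in `x`
  set K := cthickening t (tsupport G) with hK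
  have hKc : IsCompact K := hGs.cthickening
  have hzero : ∀ x v, ρ v ≠ 0 → x ∉ K → ∫ s in (0:ℝ)..t, G (x + s • v) = 0 := by
    intro x v hv hx
    refine (intervalIntegral.integral_congr fun s hs => ?_).trans intervalIntegral.integral_zero
    rw [uIcc_of_le ht.le] at hs
    refine image_eq_zero_of_notMem_tsupport (f := G) fun h => hx ?_
    refine mem_cthickening_of_dist_le x _ _ _ h ?_
    rw [dist_eq_norm, sub_add_cancel_left, norm_neg, norm_smul, Real.norm_eq_abs, abs_of_nonneg hs.1]
    calc s * ‖v‖ ≤ t * 1 := mul_le_mul hs.2 (by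
          simpa [mem_closedBall_zero_iff] using hρ.supp (subset_tsupport ρ hv)) (norm_nonneg _) ht.le
      _ = t := mul_one t
  have hFc : Continuous fun z : E × E => ∫ s in (0:ℝ)..t, G (z.1 + s • z.2) :=
    intervalIntegral.continuous_parametric_intervalIntegral_of_continuous'
      (by exact hGc.comp (by fun_prop)) 0 t
  have hFv : ∀ v, ∫ x, ∫ s in (0:ℝ)..t, G (x + s • v) = t * ∫ x, G x := by
    intro v
    simp only [intervalIntegral.integral_of_le ht.le]
    rw [integral_integral_swap]
    · simp only [integral_add_right_eq_self G]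
      rw [setIntegral_const, Real.volume_real_Ioc_of_le ht.le, sub_zero, smul_eq_mul]
    · have : IntegrableOn (fun z : E × ℝ => G (z.1 + z.2 • v))
          (cthickening (t * ‖v‖) (tsupport G) ×ˢ Icc 0 t) ((volume : Measure E).prod volume) :=
        (hGc.comp (by fun_prop)).continuousOn.integrableOn_compact
          ((hGs.cthickening).prod isCompact_Icc)
      have hm := (this.mono_set (prod_mono subset_rfl Ioc_subset_Icc_self))
      rw [IntegrableOn, ← Measure.prod_restrict] at hm
      have hrest : (volume : Measure E).prod (volume.restrict (Ioc 0 t))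
          = ((volume : Measure E).prod volume).restrict (univ ×ˢ Ioc 0 t) := by
        rw [← Measure.prod_restrict, Measure.restrict_univ]
      rw [hrest]
      refine Integrable.congr (((this.mono_set (prod_mono subset_rfl Ioc_subset_Icc_self))
        |>.of_forall_sdiff_eq_zero (measurableSet_prod.2 (Or.inl ⟨MeasurableSet.univ,
          measurableSet_Ioc⟩)) fun z hz => ?_)) (Eventually.of_forall fun z => rfl)
      obtain ⟨⟨-, hz2⟩, hzn⟩ := hz
      have : z.1 ∉ cthickening (t * ‖v‖) (tsupport G) := fun h => hzn ⟨h, hz2⟩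
      refine image_eq_zero_of_notMem_tsupport (f := G) fun h => this ?_
      refine mem_cthickening_of_dist_le z.1 _ _ _ h ?_
      rw [dist_eq_norm, sub_add_cancel_left, norm_neg, norm_smul, Real.norm_eq_abs,
        abs_of_nonneg hz2.1.le]
      exact mul_le_mul_of_nonneg_right hz2.2 (norm_nonneg _)
  have hswap := fubini_translate hρ (F := fun x v => ∫ s in (0:ℝ)..t, G (x + s • v)) hFc hKc hzero
  have houter : Continuous fun x => ∫ v, ρ v * ∫ s in (0:ℝ)..t, G (x + s • v) := by
    refine continuous_parametric_integral_of_continuous (s := tsupport ρ) ?_ hρ.compact |>.congr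
      fun x => setIntegral_eq_integral_of_forall_compl_eq_zero fun v hv => by
        simp [image_eq_zero_of_notMem_tsupport hv]
    exact (hρ.smooth.continuous.comp continuous_snd).mul hFc
  have hRint : Integrable fun x => t ^ 3 * ∫ v, ρ v * ∫ s in (0:ℝ)..t, G (x + s • v) := by
    refine (houter.integrable_of_hasCompactSupport ?_).const_mul _
    refine HasCompactSupport.intro hKc fun x hx => integral_eq_zero_of_ae
      (Eventually.of_forall fun v => ?_)
    rcases eq_or_ne (ρ v) 0 with h | h
    · simp [h]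
    · simp [hzero x v h hx]
  refine (integral_mono_of_nonneg (Eventually.of_forall fun x => sq_nonneg _) hRint
    (Eventually.of_forall hpt)).trans (le_of_eq ?_)
  rw [integral_const_mul, hswap]
  simp only [hFv]
  rw [integral_mul_const, hρ.mass]
  ring

/-- The remainders of successive mollification at dyadic scales. -/
noncomputable def rem (ρ : E → ℝ) (ε : ℝ) : ℕ → (E → ℝ) → E → ℝ
  | 0, f => f
  | j + 1, f => fun x => rem ρ ε j f x - avgBy ρ (ε / 2 ^ j) (rem ρ ε j f) x

theorem rem_test {ρ : E → ℝ} (hρ : IsKer ρ 1) {ε : ℝ} (hε : 0 < ε) {f : E → ℝ}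
    (hf : IsTest univ f) {K : Set E} (hfs : tsupport f ⊆ K) (hK : IsCompact K) (j : ℕ) :
    IsTest univ (rem ρ ε j f) ∧
      tsupport (rem ρ ε j f) ⊆ cthickening (2 * ε - 2 * ε / 2 ^ j) K := by
  induction j with
  | zero => exact ⟨hf, hfs.trans (self_subset_cthickening K)⟩
  | succ j ih =>
    obtain ⟨hu, hus⟩ := ih
    have hb : 0 ≤ 2 * ε - 2 * ε / 2 ^ j :=
      sub_nonneg.2 (div_le_self (by positivity) (one_le_pow₀ one_le_two))
    have hs : tsupport (avgBy ρ (ε / 2 ^ j) (rem ρ ε j f))
        ⊆ cthickening (2 * ε - 2 * ε / 2 ^ (j + 1)) K := by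
      refine (tsupport_avgBy hρ (t := ε / 2 ^ j) (by positivity) hus).trans ?_
      rw [mul_one, cthickening_cthickening (by positivity) hb]
      refine cthickening_mono (le_of_eq ?_) K
      rw [pow_succ]; field_simp; ring
    have hle : cthickening (2 * ε - 2 * ε / 2 ^ j) K
        ⊆ cthickening (2 * ε - 2 * ε / 2 ^ (j + 1)) K := by
      refine cthickening_mono (sub_le_sub_left ?_ _) K
      exact div_le_div_of_nonneg_left (by positivity) (by positivity)
        (pow_le_pow_right₀ one_le_two (Nat.le_succ j))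
    have hsub : tsupport (rem ρ ε (j + 1) f) ⊆ cthickening (2 * ε - 2 * ε / 2 ^ (j + 1)) K := by
      refine closure_minimal (fun x hx => ?_) isClosed_cthickening
      by_contra hn
      refine hx ?_
      show rem ρ ε j f x - avgBy ρ (ε / 2 ^ j) (rem ρ ε j f) x = 0
      rw [image_eq_zero_of_notMem_tsupport fun h => hn (hle (hus h)),
        image_eq_zero_of_notMem_tsupport fun h => hn (hs h), sub_zero]
    exact ⟨⟨hu.smooth.sub (avgBy_contDiff hρ (by positivity) hu.smooth hu.compact),
      hK.cthickening.of_isClosed_subset (isClosed_tsupport _) hsub, subset_univ _⟩, hsub⟩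

theorem test_pd {f : E → ℝ} (hf : IsTest univ f) (a : Fin 4) : IsTest univ (pd a f) :=
  contDiff_pd_test hf a

theorem pd_rem {ρ : E → ℝ} (hρ : IsKer ρ 1) {ε : ℝ} (hε : 0 < ε) {f : E → ℝ}
    (hf : IsTest univ f) (a : Fin 4) (j : ℕ) :
    pd a (rem ρ ε j f) = rem ρ ε j (pd a f) := by
  induction j with
  | zero => rfl
  | succ j ih =>
    obtain ⟨hu, -⟩ := rem_test hρ hε hf subset_rfl hf.compact j
    have hS := avgBy_contDiff hρ (t := ε / 2 ^ j) (by positivity) hu.smooth hu.compact
    funext x
    show fderiv ℝ (rem ρ ε j f - avgBy ρ (ε / 2 ^ j) (rem ρ ε j f)) x (e a) = _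
    rw [fderiv_sub ((hu.smooth.differentiable (by simp)) x) ((hS.differentiable (by simp)) x)]
    show pd a (rem ρ ε j f) x - pd a (avgBy ρ (ε / 2 ^ j) (rem ρ ε j f)) x = _
    rw [pd_avgBy hρ (by positivity) hu.smooth hu.compact, ih]
    rfl

theorem rem_sq_le {ρ : E → ℝ} (hρ : IsMol ρ) {ε : ℝ} (hε : 0 < ε) {f : E → ℝ}
    (hf : IsTest univ f) (j : ℕ) : ∫ x, rem ρ ε j f x ^ 2 ≤ ∫ x, f x ^ 2 := by
  induction j with
  | zero => exact le_rfl
  | succ j ih =>
    obtain ⟨hu, -⟩ := rem_test hρ.toKer hε hf subset_rfl hf.compact j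
    refine le_trans ?_ ih
    have h := hρ.contract _ hu.smooth.continuous hu.compact (ε / 2 ^ j) (by positivity)
    rw [convAt_eq_avgBy ρ (by positivity)] at h
    exact h

theorem norm_iteratedFDeriv_pd_le_succ {f : E → ℝ} (hf : ContDiff ℝ ∞ f) (a : Fin 4) (n : ℕ) (x : E) :
    ‖iteratedFDeriv ℝ n (pd a f) x‖ ≤ ‖iteratedFDeriv ℝ (n + 1) f x‖ := by
  rw [← norm_iteratedFDeriv_fderiv]
  set L : (E →L[ℝ] ℝ) →L[ℝ] ℝ := ContinuousLinearMap.apply ℝ ℝ (e a)
  have hL : ‖L‖ ≤ 1 := L.opNorm_le_bound zero_le_one fun T => by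
    rw [one_mul]
    refine (T.le_opNorm _).trans (mul_le_of_le_one_right (norm_nonneg _) ?_)
    exact (pi_norm_le_iff_of_nonneg zero_le_one).2 fun l => by by_cases h : l = a <;> simp [e, h]
  exact (L.norm_iteratedFDeriv_comp_left (hf.fderiv_right (m := ∞) le_rfl).contDiffAt
    (by exact_mod_cast le_top)).trans (mul_le_of_le_one_left (norm_nonneg _) hL)

theorem integrable_iterated_sq {f : E → ℝ} (hf : ContDiff ℝ ∞ f) (hfc : HasCompactSupport f)
    (n : ℕ) : Integrable fun x => ‖iteratedFDeriv ℝ n f x‖ ^ 2 :=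
  ((hf.continuous_iteratedFDeriv (by norm_cast; simp)).norm.pow 2).integrable_of_hasCompactSupport
    (compact_normsq hfc n)

theorem second_le_pd {f : E → ℝ} (hf : IsTest univ f) :
    ∫ x, ‖iteratedFDeriv ℝ 2 f x‖ ^ 2 ≤ 16 * ∑ a, ∑ b, ∫ x, pd a (pd b f) x ^ 2 := by
  have hi : ∀ a b, Integrable fun x => pd a (pd b f) x ^ 2 := fun a b =>
    ((test_pd (test_pd hf b) a).smooth.continuous.pow 2).integrable_of_hasCompactSupport
      (compact_sq (test_pd (test_pd hf b) a).compact)
  have hs : ∀ a, Integrable fun x => ∑ b, pd a (pd b f) x ^ 2 := fun a =>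
    integrable_finsetSum _ fun b _ => hi a b
  have hpt : ∀ x, ‖iteratedFDeriv ℝ 2 f x‖ ^ 2 ≤ 16 * ∑ a, ∑ b, pd a (pd b f) x ^ 2 := fun x => by
    refine (pow_le_pow_left₀ (norm_nonneg _) (norm_iteratedFDeriv_two_le hf.smooth x) 2).trans ?_
    refine (sq_sum_le_card_mul_sum_sq).trans ?_
    rw [Finset.card_univ, Fintype.card_fin]
    have : ∀ a, (∑ b, |pd a (pd b f) x|) ^ 2 ≤ 4 * ∑ b, pd a (pd b f) x ^ 2 := fun a => by
      refine (sq_sum_le_card_mul_sum_sq).trans ?_
      simp [sq_abs]
    calc ((4:ℕ):ℝ) * ∑ a, (∑ b, |pd a (pd b f) x|) ^ 2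
        ≤ ((4:ℕ):ℝ) * ∑ a, 4 * ∑ b, pd a (pd b f) x ^ 2 :=
          mul_le_mul_of_nonneg_left (Finset.sum_le_sum fun a _ => this a) (Nat.cast_nonneg _)
      _ = _ := by rw [← Finset.mul_sum]; push_cast; ring
  refine (integral_mono (integrable_iterated_sq hf.smooth hf.compact 2)
    ((integrable_finsetSum _ fun a _ => hs a).const_mul 16) hpt).trans (le_of_eq ?_)
  rw [integral_const_mul, integral_finsetSum _ fun a _ => hs a]
  congr 1
  exact Finset.sum_congr rfl fun a _ => integral_finsetSum _ fun b _ => hi a b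

theorem rem_high {ρ : E → ℝ} (hρ : IsMol ρ) (i : ℕ) :
    ∃ C : ℝ, 0 ≤ C ∧ ∀ {ε : ℝ}, 0 < ε → ∀ {f : E → ℝ}, IsTest univ f → ∀ j, i ≤ j →
      ∫ x, rem ρ ε j f x ^ 2 ≤
        C * (ε / 2 ^ j) ^ (4 * i) * ∫ x, ‖iteratedFDeriv ℝ (2 * i) f x‖ ^ 2 := by
  induction i with
  | zero =>
    refine ⟨1, zero_le_one, fun hε f hf j _ => (rem_sq_le hρ hε hf j).trans (le_of_eq ?_)⟩
    simp [norm_iteratedFDeriv_zero]
  | succ i ih =>
    obtain ⟨C, hC, ih⟩ := ih
    refine ⟨256 * C * 2 ^ (4 * (i + 1)), by positivity, fun {ε} hε {f} hf j hij => ?_⟩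
    obtain ⟨j, rfl⟩ : ∃ j', j = j' + 1 := ⟨j - 1, by omega⟩
    obtain ⟨hu, -⟩ := rem_test hρ.toKer hε hf subset_rfl hf.compact j
    set t := ε / 2 ^ j with ht
    have ht0 : 0 < t := by positivity
    set D := ∫ x, ‖iteratedFDeriv ℝ (2 * (i + 1)) f x‖ ^ 2
    have hterm : ∀ a b, ∫ x, pd a (pd b (rem ρ ε j f)) x ^ 2 ≤ C * t ^ (4 * i) * D := fun a b => by
      rw [pd_rem hρ.toKer hε hf b, pd_rem hρ.toKer hε (test_pd hf b) a]
      refine (ih hε (test_pd (test_pd hf b) a) j (by omega)).trans
        (mul_le_mul_of_nonneg_left ?_ (by positivity))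
      refine integral_mono (integrable_iterated_sq (test_pd (test_pd hf b) a).smooth
        (test_pd (test_pd hf b) a).compact _) (integrable_iterated_sq hf.smooth hf.compact _)
        fun x => pow_le_pow_left₀ (norm_nonneg _) ?_ 2
      exact (norm_iteratedFDeriv_pd_le_succ (test_pd hf b).smooth a _ x).trans
        ((norm_iteratedFDeriv_pd_le_succ hf.smooth b _ x).trans (le_of_eq (by rw [mul_add, mul_one])))
    have hstep := avgBy_second hρ.toKer hu.smooth hu.compact ht0
    have hsum := second_le_pd hu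
    have hsum2 : (∑ a, ∑ b, ∫ x, pd a (pd b (rem ρ ε j f)) x ^ 2) ≤ 16 * (C * t ^ (4 * i) * D) := by
      refine (Finset.sum_le_card_nsmul _ _ _ fun a _ =>
        Finset.sum_le_card_nsmul _ _ _ fun b _ => hterm a b).trans (le_of_eq ?_)
      simp; ring
    calc ∫ x, rem ρ ε (j + 1) f x ^ 2 ≤ t ^ 4 * ∫ x, ‖iteratedFDeriv ℝ 2 (rem ρ ε j f) x‖ ^ 2 := hstep
      _ ≤ t ^ 4 * (16 * (16 * (C * t ^ (4 * i) * D))) :=
          mul_le_mul_of_nonneg_left (hsum.trans (mul_le_mul_of_nonneg_left hsum2 (by norm_num)))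
            (by positivity)
      _ = 256 * C * D * t ^ (4 * (i + 1)) := by ring
      _ = _ := by
          rw [show t = 2 * (ε / 2 ^ (j + 1)) by rw [ht, pow_succ]; field_simp, mul_pow]
          ring

theorem iterated_succ_le_pd {f : E → ℝ} (hf : IsTest univ f) (l : ℕ) :
    ∫ x, ‖iteratedFDeriv ℝ (l + 1) f x‖ ^ 2
      ≤ 4 * ∑ a, ∫ x, ‖iteratedFDeriv ℝ l (pd a f) x‖ ^ 2 := by
  set L : Fin 4 → ℝ →L[ℝ] E →L[ℝ] ℝ := fun a =>
    (1 : ℝ →L[ℝ] ℝ).smulRight (ContinuousLinearMap.proj (R := ℝ) a : E →L[ℝ] ℝ)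
  have hexp : fderiv ℝ f = fun y => ∑ a, L a (pd a f y) := by
    funext y
    refine ContinuousLinearMap.ext fun v => ?_
    have hv : v = ∑ a, v a • e a := by ext i; simp [e, Finset.sum_apply, Pi.single_apply]
    conv_lhs => rw [hv]
    simp [L, pd, mul_comm]
  have hLn : ∀ a, ‖L a‖ ≤ 1 := fun a => by
    refine (L a).opNorm_le_bound zero_le_one fun r => ?_
    rw [one_mul]
    refine ContinuousLinearMap.opNorm_le_bound _ (norm_nonneg r) fun v => ?_
    simp [L]
    exact mul_le_mul_of_nonneg_left (norm_le_pi_norm v a) (abs_nonneg r)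
  have hpt : ∀ x, ‖iteratedFDeriv ℝ (l + 1) f x‖ ^ 2
      ≤ 4 * ∑ a, ‖iteratedFDeriv ℝ l (pd a f) x‖ ^ 2 := fun x => by
    rw [← norm_iteratedFDeriv_fderiv, hexp]
    have hs : ∀ a, ContDiff ℝ l fun y => L a (pd a f y) := fun a =>
      (L a).contDiff.comp ((test_pd hf a).smooth.of_le (by norm_cast; simp))
    rw [iteratedFDeriv_fun_sum_apply fun a _ => (hs a).contDiffAt]
    calc ‖∑ a, iteratedFDeriv ℝ l (fun y => L a (pd a f y)) x‖ ^ 2
        ≤ (∑ a, ‖iteratedFDeriv ℝ l (pd a f) x‖) ^ 2 := by
          refine pow_le_pow_left₀ (norm_nonneg _) ((norm_sum_le _ _).trans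
            (Finset.sum_le_sum fun a _ => ?_)) 2
          exact ((L a).norm_iteratedFDeriv_comp_left (f := pd a f)
            (test_pd hf a).smooth.contDiffAt (by exact_mod_cast le_top)).trans
              (mul_le_of_le_one_left (norm_nonneg _) (hLn a))
      _ ≤ _ := sq_sum_le_card_mul_sum_sq.trans (le_of_eq (by simp))
  have hi := fun a => integrable_iterated_sq (test_pd hf a).smooth (test_pd hf a).compact l
  refine (integral_mono (integrable_iterated_sq hf.smooth hf.compact _)
    ((integrable_finsetSum _ fun a _ => hi a).const_mul 4) hpt).trans (le_of_eq ?_)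
  rw [integral_const_mul, integral_finsetSum _ fun a _ => hi a]

theorem rem_tendsto {ρ : E → ℝ} (hρ : IsMol ρ) {ε : ℝ} (hε : 0 < ε) :
    ∀ (l : ℕ) {f : E → ℝ}, IsTest univ f →
      Tendsto (fun N => ∫ x, ‖iteratedFDeriv ℝ l (rem ρ ε N f) x‖ ^ 2) atTop (𝓝 0) := by
  intro l
  induction l with
  | zero =>
    intro f hf
    obtain ⟨C, hC, h⟩ := rem_high hρ 1
    have hlim : Tendsto (fun N : ℕ => C * (ε / 2 ^ N) ^ 4 *
        ∫ x, ‖iteratedFDeriv ℝ 2 f x‖ ^ 2) atTop (𝓝 0) := by
      have h2 : Tendsto (fun N : ℕ => ε / 2 ^ N) atTop (𝓝 0) := by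
        have := (tendsto_pow_atTop_nhds_zero_of_lt_one (r := (1/2:ℝ)) (by norm_num) (by norm_num)).const_mul ε
        simpa [div_pow, one_div, div_eq_mul_inv] using this
      simpa using ((h2.pow 4).const_mul C).mul_const (∫ x, ‖iteratedFDeriv ℝ 2 f x‖ ^ 2)
    refine squeeze_zero' (Eventually.of_forall fun N => integral_nonneg fun x => sq_nonneg _)
      ((eventually_ge_atTop 1).mono fun N hN => ?_) hlim
    simpa [norm_iteratedFDeriv_zero] using h hε hf N hN
  | succ l ih =>
    intro f hf
    have hlim : Tendsto (fun N => 4 * ∑ a, ∫ x, ‖iteratedFDeriv ℝ l (rem ρ ε N (pd a f)) x‖ ^ 2)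
        atTop (𝓝 0) := by
      simpa using (tendsto_finsetSum Finset.univ fun a _ => ih (test_pd hf a)).const_mul (4:ℝ)
    refine squeeze_zero (fun N => integral_nonneg fun x => sq_nonneg _) (fun N => ?_) hlim
    refine (iterated_succ_le_pd (rem_test hρ.toKer hε hf subset_rfl hf.compact N).1 l).trans
      (le_of_eq ?_)
    simp [pd_rem hρ.toKer hε hf]

theorem molTelescope : MolTelescope := by
  intro ρ hρ m
  choose Ci hCi hhigh using fun i => rem_high hρ i
  refine ⟨∑ i ∈ Finset.range (m + 1), Ci i, fun Λ K A hK hΛ f hf hfs ε hε =>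
    ⟨fun j => rem ρ ε j f, fun j => ?_, ?_⟩⟩
  · obtain ⟨h1, h2⟩ := rem_test hρ.toKer hε.1 hf hfs hK j
    refine ⟨h1, h2.trans (cthickening_mono (sub_le_self _ (by have := hε.1; positivity)) K),
      rem_sq_le hρ hε.1 hf j, fun i him hij => ?_⟩
    refine (hhigh i hε.1 hf j hij).trans (mul_le_mul_of_nonneg_right
      (mul_le_mul_of_nonneg_right ?_ (by have := hε.1; positivity))
      (integral_nonneg fun x => sq_nonneg _))
    exact Finset.single_le_sum (fun i _ => hCi i) (Finset.mem_range.2 (by omega))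
  · have hterm : ∀ j, Λ (convAt ρ (ε / 2 ^ j) (rem ρ ε j f))
        = Λ (rem ρ ε j f) - Λ (rem ρ ε (j + 1) f) := fun j => by
      rw [← map_sub, convAt_eq_avgBy ρ (by have := hε.1; positivity)]
      congr 1
      funext x
      simp [rem]
    simp only [hterm, Finset.sum_range_sub']
    have h0 : Tendsto (fun N => Λ (rem ρ ε N f)) atTop (𝓝 0) := by
      have hb : Tendsto (fun N => A * ∑ l ∈ Finset.range 5,
          Real.sqrt (∫ x, ‖iteratedFDeriv ℝ l (rem ρ ε N f) x‖ ^ 2)) atTop (𝓝 0) := by
        simpa using (tendsto_finsetSum (Finset.range 5)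
          fun l _ => (rem_tendsto hρ hε.1 l hf).sqrt).const_mul A
      refine squeeze_zero_norm (fun N => ?_) hb
      obtain ⟨h1, h2⟩ := rem_test hρ.toKer hε.1 hf hfs hK N
      refine hΛ _ h1 (h2.trans (cthickening_mono ?_ K))
      have : 0 ≤ 2 * ε / 2 ^ N := by have := hε.1; positivity
      linarith [hε.2]
    simpa [rem] using h0.const_sub (Λ f)

end Vale.Agent.P204.Tame
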