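import Vale.Agent.P204.Tame.ElMir
import Vale.Agent.P204.Tame.Mfd.ChartAssembly
import Vale.Agent.P204.Tame.Mfd.Kaehler
import Vale.Agent.P204.Tame.Mfd.Poles
import Vale.Agent.P204.Tame.Mfd.Separation
import Vale.Agent.P204.Tame.Mfd.Bootstrap
import Vale.Agent.P204.Tame.Mfd.DensityStep
import Vale.Agent.P204.Tame.Mfd.Core
import Vale.Agent.P204.Tame.Mfd.Conclusion
import Vale.Agent.P204.Tame.Mfd.EllipticGlobal

/-!
Assembly: a symplectic form taming an almost complex structure on a closed four-manifold gives a
compatible one.
-/

namespace Vale.Agent.P204.Tame.Mfd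

/-- The theorem, given the elliptic step. -/
theorem donaldson_of_solve (hE : EllipticSolve) : DonaldsonTamedToCompatible :=
  donaldsonTamedToCompatible_of kaehlerCurrent (removePoles_of elMir) (separation_of hE)
    (obstructionRegular_of lowStep densityStep) noObstruction

/-- Donaldson's tamed to compatible conjecture. -/
theorem donaldsonTamedToCompatible : DonaldsonTamedToCompatible :=
  donaldson_of_solve ellipticSolve

end Vale.Agent.P204.Tame.Mfd
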