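import Vale.Agent.P204.Tame.SmootherInduction

/-!
Smoothing estimates for averaged pullbacks on compact sets.
-/

namespace Vale.Agent.P204.Tame

open scoped ContDiff ENNReal Topology
open MeasureTheory Metric Set Filter

variable {n : ℕ}

/-- A compact set is covered by finitely many boxes carrying the kernel. -/
theorem exists_boxCover {U : Set E} {σ : Par n → E → E} (hσ : IsSmoother U σ) {ρ : Par n → ℝ}
    {q : Par n → E → ℝ} (hρ : ContDiff ℝ ∞ ρ) (hs : tsupport ρ ⊆ closedBall 0 1)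
    (hq : ∃ W : Set (Par n × E), IsOpen W ∧ ({0} : Set (Par n)) ×ˢ U ⊆ W ∧
      ContDiffOn ℝ ∞ (fun z => q z.1 z.2) W) {K : Set E} (hKU : K ⊆ U) (hK : IsCompact K) :
    ∃ (t : Finset E) (δ : E → ℝ) (R₀ : E → E →L[ℝ] Par n),
      (∀ c ∈ t, Box σ c (δ c) (R₀ c) ∧ BoxKer σ c (δ c) ρ q ∧ ball c (4 * δ c) ⊆ U) ∧
      (∀ y ∈ K, ∃ c ∈ t, y ∈ ball c (δ c)) ∧
      ∃ ε₀ > 0, ε₀ ≤ 1 ∧ ∀ c ∈ t, ε₀ ≤ boxRad (δ c) (R₀ c) := by
  obtain ⟨W, hW, hW0, hqs⟩ := hq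
  have hex : ∀ c ∈ K, ∃ (δ : ℝ) (R₀ : E →L[ℝ] Par n),
      Box σ c δ R₀ ∧ BoxKer σ c δ ρ q ∧ ball c (4 * δ) ⊆ U := fun c hc => by
    obtain ⟨δ, R₀, h, hsub, hU⟩ := exists_box hσ (hKU hc) hW (hW0 ⟨rfl, hKU hc⟩)
    exact ⟨δ, R₀, h, ⟨hρ, hs, hqs.mono hsub⟩, hU⟩
  choose! δ R₀ hbox using hex
  obtain ⟨t, htK, hcov⟩ := hK.elim_nhds_subcover (fun c => ball c (δ c))
    fun c hc => ball_mem_nhds _ (hbox c hc).1.pos
  refine ⟨t, δ, R₀, fun c hc => hbox c (htK c hc), fun y hy => ?_, ?_⟩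
  · simpa using mem_iUnion₂.1 (hcov hy)
  rcases t.eq_empty_or_nonempty with h | h
  · exact ⟨1, one_pos, le_rfl, by simp [h]⟩
  · obtain ⟨c, hc, hmin⟩ := t.exists_min_image (fun c => boxRad (δ c) (R₀ c)) h
    exact ⟨min (boxRad (δ c) (R₀ c)) 1, lt_min (hbox c (htK c hc)).1.boxRad_pos one_pos,
      min_le_right _ _, fun d hd => (min_le_left _ _).trans (hmin d hd)⟩

/-- A nonnegative integrand over a covered set is dominated by the sum over the cover. -/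
theorem setIntegral_le_sum_cover {f : E → ℝ} (hf : ∀ y, 0 ≤ f y) {K : Set E}
    (hK : MeasurableSet K) {t : Finset E} {s : E → Set E}
    (hsm : ∀ c ∈ t, MeasurableSet (s c)) (hsi : ∀ c ∈ t, IntegrableOn f (s c))
    (hcov : ∀ y ∈ K, ∃ c ∈ t, y ∈ s c) :
    ∫ y in K, f y ≤ ∑ c ∈ t, ∫ y in s c, f y := by
  have hi : ∀ c ∈ t, Integrable ((s c).indicator f) := fun c hc =>
    (hsi c hc).integrable_indicator (hsm c hc)
  rw [← integral_indicator hK, ← Finset.sum_congr rfl fun c hc => integral_indicator (hsm c hc),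
    ← integral_finsetSum _ hi]
  refine integral_mono_of_nonneg (Eventually.of_forall fun y => indicator_nonneg (fun y _ => hf y) y)
    (integrable_finsetSum _ hi) (Eventually.of_forall fun y => ?_)
  by_cases hy : y ∈ K
  · obtain ⟨c, hc, hyc⟩ := hcov y hy
    simp only [indicator_of_mem hy]
    rw [← indicator_of_mem hyc f]
    exact Finset.single_le_sum (f := fun c => (s c).indicator f y)
      (fun c _ => indicator_nonneg (fun y _ => hf y) y) hc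
  · simp only [indicator_of_notMem hy]
    exact Finset.sum_nonneg fun c _ => indicator_nonneg (fun y _ => hf y) y

/-- The operator of a square integrable function agrees near the inner ball with the operator of
its measurable representative. -/
theorem Box.kerOp_mk_eventuallyEq {σ : Par n → E → E} {c : E} {δ : ℝ} {R₀ : E →L[ℝ] Par n}
    (hB : Box σ c δ R₀) {ρ : Par n → ℝ} {q : Par n → E → ℝ} (hk : BoxKer σ c δ ρ q) {ε : ℝ}
    (hε : ε ∈ Ioc (0 : ℝ) (boxRad δ R₀)) {u : E → ℝ} (hu : MemLp u 2 volume) {y : E}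
    (hy : y ∈ closedBall c δ) :
    kerOp σ ρ q ε u =ᶠ[𝓝 y] kerOp σ ρ q ε (hu.1.mk u) := by
  filter_upwards [isOpen_ball.mem_nhds
    (closedBall_subset_ball (by linarith [hB.pos] : δ < 2 * δ) hy)] with x hx
  exact hB.kerOp_congr hk.supp_rho q hε (ball_subset_closedBall hx) hu.1.ae_eq_mk

/-- From the estimates in boxes to the estimate on a compact set. -/
theorem estimate_of_boxes {σ : Par n → E → E} {ρ : Par n → ℝ} {q : Par n → E → ℝ} {K : Set E}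
    (hK : IsCompact K) {t : Finset E} {δ : E → ℝ} {R₀ : E → E →L[ℝ] Par n}
    (hbox : ∀ c ∈ t, Box σ c (δ c) (R₀ c) ∧ BoxKer σ c (δ c) ρ q)
    (hcov : ∀ y ∈ K, ∃ c ∈ t, y ∈ ball c (δ c)) {ε₀ : ℝ} (hε1 : ε₀ ≤ 1)
    (hεle : ∀ c ∈ t, ε₀ ≤ boxRad (δ c) (R₀ c)) {C : E → ℕ → ℝ} {w : ℝ → ℝ}
    (hw : ∀ ε ∈ Ioc (0 : ℝ) ε₀, 0 ≤ w ε)
    (hC0 : ∀ c ∈ t, ∀ l, 0 ≤ C c l)
    (hC : ∀ c ∈ t, ∀ l, ∀ ε ∈ Ioc (0 : ℝ) (boxRad (δ c) (R₀ c)), ε ≤ 1 →
      ∀ u : E → ℝ, Measurable u → MemLp u 2 volume →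
        ε ^ (2 * l) * ∫ y in closedBall c (δ c), ‖iteratedFDeriv ℝ l (kerOp σ ρ q ε u) y‖ ^ 2 ≤
          C c l * w ε * ∫ x, u x ^ 2) (p : ℕ) :
    ∃ D : ℝ, ∀ ε ∈ Ioc (0 : ℝ) ε₀, ∀ u : E → ℝ, MemLp u 2 volume → ∀ l ≤ p,
      ε ^ (2 * l) * ∫ y in K, ‖iteratedFDeriv ℝ l (kerOp σ ρ q ε u) y‖ ^ 2 ≤
        D * w ε * ∫ x, u x ^ 2 := by
  refine ⟨∑ c ∈ t, ∑ l ∈ Finset.range (p + 1), C c l, fun ε hε u hu l hl => ?_⟩
  have hεc : ∀ c ∈ t, ε ∈ Ioc (0 : ℝ) (boxRad (δ c) (R₀ c)) := fun c hc =>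
    ⟨hε.1, hε.2.trans (hεle c hc)⟩
  set v := hu.1.mk u with hv
  have hvm : Measurable v := hu.1.stronglyMeasurable_mk.measurable
  have hv2 : MemLp v 2 volume := hu.ae_eq hu.1.ae_eq_mk
  have heq : ∀ c ∈ t, EqOn (fun y => ‖iteratedFDeriv ℝ l (kerOp σ ρ q ε v) y‖ ^ 2)
      (fun y => ‖iteratedFDeriv ℝ l (kerOp σ ρ q ε u) y‖ ^ 2) (closedBall c (δ c)) :=
    fun c hc y hy => by
      simp only
      rw [(((hbox c hc).1.kerOp_mk_eventuallyEq (hbox c hc).2 (hεc c hc) hu hy).iteratedFDeriv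
        ℝ l).eq_of_nhds]
  have hint : ∀ c ∈ t, IntegrableOn (fun y => ‖iteratedFDeriv ℝ l (kerOp σ ρ q ε u) y‖ ^ 2)
      (closedBall c (δ c)) := fun c hc =>
    ((hbox c hc).1.integrableOn_deriv_sq (hbox c hc).2 (hεc c hc) hvm hv2 l).congr_fun
      (heq c hc) measurableSet_closedBall
  have hsq : ∫ x, v x ^ 2 = ∫ x, u x ^ 2 :=
    integral_congr_ae (hu.1.ae_eq_mk.mono fun x hx => by simp only; rw [hv, ← hx])
  have h1 := setIntegral_le_sum_cover (fun y => sq_nonneg _) hK.measurableSet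
    (fun c _ => measurableSet_closedBall) hint fun y hy => by
      obtain ⟨c, hc, hyc⟩ := hcov y hy
      exact ⟨c, hc, ball_subset_closedBall hyc⟩
  refine (mul_le_mul_of_nonneg_left h1 (pow_nonneg hε.1.le _)).trans ?_
  rw [Finset.mul_sum, Finset.sum_mul, Finset.sum_mul]
  refine Finset.sum_le_sum fun c hc => ?_
  rw [← setIntegral_congr_fun measurableSet_closedBall (heq c hc)]
  refine (hC c hc l ε (hεc c hc) (hε.2.trans hε1) v hvm hv2).trans ?_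
  rw [hsq]
  refine mul_le_mul_of_nonneg_right (mul_le_mul_of_nonneg_right ?_ (hw ε hε))
    (integral_nonneg fun x => sq_nonneg _)
  exact Finset.single_le_sum (f := fun l => C c l) (fun l _ => hC0 c hc l)
    (Finset.mem_range.2 (Nat.lt_succ_of_le hl))

theorem smootherSobolev : SmootherSobolev := by
  intro n U σ hσ ρ q hρ hs hq K hKU hK
  obtain ⟨t, δ, R₀, hbox, hcov, ε₀, hε₀, hε1, hεle⟩ := exists_boxCover hσ hρ hs hq hKU hK
  refine ⟨ε₀, hε₀, fun ε hε u hu y hy => ?_, fun p => ?_⟩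
  · obtain ⟨c, hc, hyc⟩ := hcov y hy
    have hεc : ε ∈ Ioc (0 : ℝ) (boxRad (δ c) (R₀ c)) := ⟨hε.1, hε.2.trans (hεle c hc)⟩
    exact ((hbox c hc).1.contDiffAt_kerOp (hbox c hc).2.1 hεc
      hu.1.stronglyMeasurable_mk.measurable (hu.ae_eq hu.1.ae_eq_mk)
      (ball_subset_closedBall hyc)).congr_of_eventuallyEq
        ((hbox c hc).1.kerOp_mk_eventuallyEq (hbox c hc).2.1 hεc hu (ball_subset_closedBall hyc))
  · choose! C hC0 hC using fun c (hc : c ∈ t) (l : ℕ) =>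
      (hbox c hc).1.sobolev l ρ q (hbox c hc).2.1
    obtain ⟨D, hD⟩ := estimate_of_boxes (w := fun _ => 1) hK
      (fun c hc => ⟨(hbox c hc).1, (hbox c hc).2.1⟩) hcov hε1 hεle (fun _ _ => zero_le_one) hC0
      (fun c hc l ε hε hε1 u hum hu => by simpa using hC c hc l ε hε hε1 u hum hu) p
    exact ⟨D, fun ε hε u hu l hl => by simpa using hD ε hε u hu l hl⟩

theorem smootherGain : SmootherGain := by
  intro n U σ hσ ρ q hρ hs hq h0 K hKU hK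
  obtain ⟨t, δ, R₀, hbox, hcov, ε₀, hε₀, hε1, hεle⟩ := exists_boxCover hσ hρ hs hq hKU hK
  refine ⟨ε₀, hε₀, fun p => ?_⟩
  choose! C hC0 hC using fun c (hc : c ∈ t) (l : ℕ) =>
    (hbox c hc).1.sobolev_gain l ρ q (hbox c hc).2.1 fun y hy => h0 y ((hbox c hc).2.2 hy)
  exact estimate_of_boxes (w := fun ε => ε ^ 2) hK
    (fun c hc => ⟨(hbox c hc).1, (hbox c hc).2.1⟩) hcov hε1 hεle (fun _ _ => sq_nonneg _) hC0 hC p

end Vale.Agent.P204.Tame
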