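import Vale.Agent.P204.Tame.Core

/-!
Semiclassical Sobolev sums on compact subsets of coordinate space: products with smooth functions,
changes of variables, sums and unions.
-/

namespace Vale.Agent.P204.Tame

open scoped ContDiff Topology
open MeasureTheory Set Filter Finset

/-- The sum of `ε ^ l` times the `L ^ 2` norms of the derivatives of order `l ≤ k` on `s`. -/
noncomputable def sobS (k : ℕ) (ε : ℝ) (s : Set E) (f : E → ℝ) : ℝ :=
  ∑ l ∈ range (k + 1), ε ^ l * Real.sqrt (∫ y in s, ‖iteratedFDeriv ℝ l f y‖ ^ 2)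

lemma sobS_nonneg {k : ℕ} {ε : ℝ} (hε : 0 ≤ ε) (s : Set E) (f : E → ℝ) : 0 ≤ sobS k ε s f :=
  sum_nonneg fun _ _ => mul_nonneg (pow_nonneg hε _) (Real.sqrt_nonneg _)

lemma continuousOn_iterated {V : Set E} (hV : IsOpen V) {f : E → ℝ} (hf : ContDiffOn ℝ ∞ f V)
    (l : ℕ) : ContinuousOn (fun y => iteratedFDeriv ℝ l f y) V :=
  (hf.continuousOn_iteratedFDerivWithin (by exact_mod_cast le_top) hV.uniqueDiffOn).congr
    fun _ hy => (iteratedFDerivWithin_of_isOpen l hV hy).symm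

lemma integrableOn_iterated {V K : Set E} (hV : IsOpen V) (hK : IsCompact K) (hKV : K ⊆ V)
    {f : E → ℝ} (hf : ContDiffOn ℝ ∞ f V) (l : ℕ) :
    IntegrableOn (fun y => ‖iteratedFDeriv ℝ l f y‖ ^ 2) K :=
  ((((continuousOn_iterated hV hf l).mono hKV).norm).pow 2).integrableOn_compact hK

/-- The triangle inequality for root mean squares. -/
lemma sqrt_integral_add_le {α : Type*} [MeasurableSpace α] {μ : Measure α} {u v : α → ℝ}
    (hu : Integrable (fun y => u y ^ 2) μ) (hv : Integrable (fun y => v y ^ 2) μ) :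
    Real.sqrt (∫ y, (u y + v y) ^ 2 ∂μ) ≤
      Real.sqrt (∫ y, u y ^ 2 ∂μ) + Real.sqrt (∫ y, v y ^ 2 ∂μ) := by
  set a := Real.sqrt (∫ y, u y ^ 2 ∂μ)
  set b := Real.sqrt (∫ y, v y ^ 2 ∂μ)
  have ha : 0 ≤ a := Real.sqrt_nonneg _
  have hb : 0 ≤ b := Real.sqrt_nonneg _
  have ha2 : a ^ 2 = ∫ y, u y ^ 2 ∂μ := Real.sq_sqrt (integral_nonneg fun _ => sq_nonneg _)
  have hb2 : b ^ 2 = ∫ y, v y ^ 2 ∂μ := Real.sq_sqrt (integral_nonneg fun _ => sq_nonneg _)
  refine le_of_forall_pos_le_add fun δ hδ => ?_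
  have hp : 0 < a + δ / 2 := by linarith
  have hq : 0 < b + δ / 2 := by linarith
  set t := (b + δ / 2) / (a + δ / 2)
  have ht : 0 < t := div_pos hq hp
  have hpt : ∀ y, (u y + v y) ^ 2 ≤ (1 + t) * u y ^ 2 + (1 + t⁻¹) * v y ^ 2 := fun y => by
    nlinarith [mul_nonneg (sq_nonneg (t * u y - v y)) (inv_nonneg.2 ht.le),
      mul_inv_cancel₀ ht.ne']
  rw [Real.sqrt_le_left (by linarith)]
  calc ∫ y, (u y + v y) ^ 2 ∂μ ≤ ∫ y, ((1 + t) * u y ^ 2 + (1 + t⁻¹) * v y ^ 2) ∂μ :=
        integral_mono_of_nonneg (Eventually.of_forall fun _ => sq_nonneg _)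
          ((hu.const_mul _).add (hv.const_mul _)) (Eventually.of_forall hpt)
    _ = (1 + t) * a ^ 2 + (1 + t⁻¹) * b ^ 2 := by
        rw [integral_add (hu.const_mul _) (hv.const_mul _), integral_const_mul,
          integral_const_mul, ha2, hb2]
    _ ≤ (1 + t) * (a + δ / 2) ^ 2 + (1 + t⁻¹) * (b + δ / 2) ^ 2 := by
        have : 0 ≤ t⁻¹ := inv_nonneg.2 ht.le
        refine add_le_add (mul_le_mul_of_nonneg_left ?_ (by linarith))
          (mul_le_mul_of_nonneg_left ?_ (by linarith)) <;> nlinarith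
    _ = (a + b + δ) ^ 2 := by
        simp only [t]
        field_simp
        ring

/-- A pointwise bound by a sum gives a bound of the root mean square. -/
lemma sqrt_integral_le_sum {α ι : Type*} [MeasurableSpace α] {μ : Measure α} (s : Finset ι)
    {C : ℝ} (hC : 0 ≤ C) {g : α → ℝ} {h : ι → α → ℝ} (hg : ∀ᵐ y ∂μ, 0 ≤ g y)
    (hle : ∀ᵐ y ∂μ, g y ≤ C * ∑ j ∈ s, h j y) (hm : ∀ j ∈ s, AEStronglyMeasurable (h j) μ)
    (hi : ∀ j ∈ s, Integrable (fun y => h j y ^ 2) μ) :
    Real.sqrt (∫ y, g y ^ 2 ∂μ) ≤ C * ∑ j ∈ s, Real.sqrt (∫ y, h j y ^ 2 ∂μ) := by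
  classical
  have key : Integrable (fun y => (∑ j ∈ s, h j y) ^ 2) μ ∧
      Real.sqrt (∫ y, (∑ j ∈ s, h j y) ^ 2 ∂μ) ≤ ∑ j ∈ s, Real.sqrt (∫ y, h j y ^ 2 ∂μ) := by
    clear hle
    induction s using Finset.induction_on with
    | empty => simp
    | insert a s ha ih =>
      obtain ⟨h1, h2⟩ := ih (fun j hj => hm j (mem_insert_of_mem hj))
        fun j hj => hi j (mem_insert_of_mem hj)
      have h3 := hi a (mem_insert_self a s)
      simp only [sum_insert ha]
      refine ⟨?_, (sqrt_integral_add_le h3 h1).trans (by linarith)⟩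
      have hms : AEStronglyMeasurable (fun y => ∑ j ∈ s, h j y) μ :=
        Finset.aestronglyMeasurable_fun_sum s fun j hj => hm j (mem_insert_of_mem hj)
      exact ((h3.const_mul 2).add (h1.const_mul 2)).mono'
        (((hm a (mem_insert_self a s)).add hms).pow 2)
        (Eventually.of_forall fun y => by
          rw [Real.norm_of_nonneg (sq_nonneg _), Pi.add_apply]
          nlinarith [sq_nonneg (h a y - ∑ j ∈ s, h j y)])
  calc Real.sqrt (∫ y, g y ^ 2 ∂μ) ≤ Real.sqrt (∫ y, C ^ 2 * (∑ j ∈ s, h j y) ^ 2 ∂μ) := by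
        refine Real.sqrt_le_sqrt (integral_mono_of_nonneg
          (Eventually.of_forall fun _ => sq_nonneg _) (key.1.const_mul _) ?_)
        filter_upwards [hg, hle] with y hy1 hy2
        rw [← mul_pow]
        exact pow_le_pow_left₀ hy1 hy2 2
    _ = C * Real.sqrt (∫ y, (∑ j ∈ s, h j y) ^ 2 ∂μ) := by
        rw [integral_const_mul, Real.sqrt_mul (sq_nonneg C), Real.sqrt_sq hC]
    _ ≤ _ := mul_le_mul_of_nonneg_left key.2 hC

/-- A pointwise bound between derivatives gives a bound between Sobolev sums. -/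
lemma sobS_le_of_pointwise {k : ℕ} {V V' K : Set E} (hV : IsOpen V) (hV' : IsOpen V')
    (hK : IsCompact K) (hKV : K ⊆ V) (hKV' : K ⊆ V') {f g : E → ℝ} (hf : ContDiffOn ℝ ∞ f V)
    (hg : ContDiffOn ℝ ∞ g V') {C : ℝ} (hC : 0 ≤ C)
    (h : ∀ l ≤ k, ∀ y ∈ K, ‖iteratedFDeriv ℝ l g y‖ ≤
      C * ∑ m ∈ range (l + 1), ‖iteratedFDeriv ℝ m f y‖)
    {ε : ℝ} (hε : ε ∈ Ioc (0 : ℝ) 1) :
    sobS k ε K g ≤ (k + 1) * C * sobS k ε K f := by
  have hε0 : 0 ≤ ε := hε.1.le
  have hterm : ∀ l ∈ range (k + 1),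
      ε ^ l * Real.sqrt (∫ y in K, ‖iteratedFDeriv ℝ l g y‖ ^ 2) ≤ C * sobS k ε K f := by
    intro l hl
    have hl' : l ≤ k := Nat.lt_succ_iff.1 (Finset.mem_range.1 hl)
    have h1 := sqrt_integral_le_sum (μ := volume.restrict K) (range (l + 1)) hC
      (g := fun y => ‖iteratedFDeriv ℝ l g y‖) (h := fun m y => ‖iteratedFDeriv ℝ m f y‖)
      (Eventually.of_forall fun _ => norm_nonneg _)
      (ae_restrict_of_forall_mem hK.measurableSet (h l hl'))
      (fun m _ => ((continuousOn_iterated hV hf m).mono hKV).norm.aestronglyMeasurable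
        hK.measurableSet)
      (fun m _ => integrableOn_iterated hV hK hKV hf m)
    refine (mul_le_mul_of_nonneg_left h1 (pow_nonneg hε0 l)).trans ?_
    rw [mul_left_comm, mul_sum]
    refine mul_le_mul_of_nonneg_left ?_ hC
    refine (sum_le_sum fun m hm => mul_le_mul_of_nonneg_right (pow_le_pow_of_le_one hε0 hε.2
      (Nat.lt_succ_iff.1 (Finset.mem_range.1 hm))) (Real.sqrt_nonneg _)).trans ?_
    exact sum_le_sum_of_subset_of_nonneg (range_subset_range.2 (by omega))
      fun m _ _ => mul_nonneg (pow_nonneg hε0 m) (Real.sqrt_nonneg _)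
  refine (sum_le_sum hterm).trans (le_of_eq ?_)
  simp only [sum_const, card_range, nsmul_eq_mul, Nat.cast_add, Nat.cast_one]
  ring

/-- Multiplication by a fixed smooth function. -/
theorem exists_sobS_mul {V K : Set E} (hV : IsOpen V) (hK : IsCompact K) (hKV : K ⊆ V)
    {g : E → ℝ} (hg : ContDiffOn ℝ ∞ g V) (k : ℕ) :
    ∃ C : ℝ, 0 ≤ C ∧ ∀ f : E → ℝ, ContDiffOn ℝ ∞ f V → ∀ ε ∈ Ioc (0 : ℝ) 1,
      sobS k ε K (fun y => g y * f y) ≤ C * sobS k ε K f := by
  obtain ⟨G, hG⟩ := (hK.bddAbove_image ((ContinuousOn.mono (continuousOn_finsetSum (range (k + 1))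
    fun i _ => (continuousOn_iterated hV hg i).norm) hKV))).imp fun G hG =>
      show ∀ y ∈ K, ∑ i ∈ range (k + 1), ‖iteratedFDeriv ℝ i g y‖ ≤ G from
        fun y hy => hG ⟨y, hy, rfl⟩
  refine ⟨(k + 1) * ((2 : ℝ) ^ k * max G 0), by positivity, fun f hf ε hε => ?_⟩
  refine sobS_le_of_pointwise hV hV hK hKV hKV hf (hg.mul hf) (by positivity) ?_ hε
  intro l hl y hy
  have h := norm_iteratedFDerivWithin_mul_le hg hf hV.uniqueDiffOn (hKV hy) (n := l)
    (by exact_mod_cast le_top)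
  simp only [iteratedFDerivWithin_of_isOpen _ hV (hKV hy)] at h
  refine h.trans ?_
  rw [← sum_range_reflect (fun m => ‖iteratedFDeriv ℝ m f y‖) (l + 1), mul_sum]
  refine sum_le_sum fun i hi => ?_
  have hil : i ≤ l := Nat.lt_succ_iff.1 (Finset.mem_range.1 hi)
  have h1 : (l.choose i : ℝ) ≤ (2 : ℝ) ^ k := by
    exact_mod_cast (Nat.choose_le_two_pow l i).trans (Nat.pow_le_pow_right (by norm_num) hl)
  have h2 : ‖iteratedFDeriv ℝ i g y‖ ≤ max G 0 :=
    ((single_le_sum (fun j _ => norm_nonneg _) (Finset.mem_range.2 (by omega))).trans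
      (hG y hy)).trans (le_max_left _ _)
  rw [show l + 1 - 1 - i = l - i by omega]
  gcongr

/-- Composition with a fixed diffeomorphism. -/
theorem exists_sobS_comp {V V' K : Set E} (hV : IsOpen V) (hV' : IsOpen V') (hK : IsCompact K)
    (hKV : K ⊆ V) {t : E → E} (ht : ContDiffOn ℝ ∞ t V) (hm : MapsTo t V V')
    (hinj : InjOn t V) (hdet : ∀ y ∈ K, (fderiv ℝ t y).det ≠ 0) (k : ℕ) :
    ∃ C : ℝ, 0 ≤ C ∧ ∀ f : E → ℝ, ContDiffOn ℝ ∞ f V' → ∀ ε ∈ Ioc (0 : ℝ) 1,
      sobS k ε K (fun y => f (t y)) ≤ C * sobS k ε (t '' K) f := by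
  have hcont : ∀ i, ContinuousOn (fun y => ‖iteratedFDerivWithin ℝ i t V y‖) V := fun i =>
    (ht.continuousOn_iteratedFDerivWithin (by exact_mod_cast le_top) hV.uniqueDiffOn).norm
  obtain ⟨D₀, hD₀⟩ := hK.bddAbove_image ((ContinuousOn.mono (continuousOn_finsetSum (range (k + 1))
    fun i _ => hcont i) hKV))
  set D := max D₀ 1
  have hD1 : (1 : ℝ) ≤ D := le_max_right _ _
  have hfd : ContinuousOn (fun y => |(fderiv ℝ t y).det|) V :=
    (continuous_abs.comp ContinuousLinearMap.continuous_det).comp_continuousOn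
      (ht.continuousOn_fderiv_of_isOpen hV (by exact_mod_cast le_top))
  obtain ⟨c, hc, hcK⟩ : ∃ c > 0, ∀ y ∈ K, c ≤ |(fderiv ℝ t y).det| := by
    rcases K.eq_empty_or_nonempty with rfl | hne
    · exact ⟨1, one_pos, by simp⟩
    obtain ⟨y₀, hy₀, hmin⟩ := hK.exists_isMinOn hne (hfd.mono hKV)
    exact ⟨_, abs_pos.2 (hdet y₀ hy₀), fun y hy => hmin hy⟩
  refine ⟨(k + 1) * (k.factorial * D ^ k) * Real.sqrt c⁻¹, by positivity, fun f hf ε hε => ?_⟩
  have hε0 : 0 ≤ ε := hε.1.le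
  have hft : ContDiffOn ℝ ∞ (fun y => f (t y)) V := hf.comp ht hm
  have hcomp : ∀ m, Real.sqrt (∫ y in K, ‖iteratedFDeriv ℝ m f (t y)‖ ^ 2) ≤
      Real.sqrt c⁻¹ * Real.sqrt (∫ y in t '' K, ‖iteratedFDeriv ℝ m f y‖ ^ 2) := fun m => by
    rw [← Real.sqrt_mul (inv_nonneg.2 hc.le)]
    refine Real.sqrt_le_sqrt ?_
    rw [integral_image_eq_integral_abs_det_fderiv_smul volume hK.measurableSet
      (fun y hy => (((ht.differentiableOn (by simp)) y (hKV hy)).differentiableAt
        (hV.mem_nhds (hKV hy))).hasFDerivAt.hasFDerivWithinAt) (hinj.mono hKV),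
      ← integral_const_mul]
    have hcm : ContinuousOn (fun y => ‖iteratedFDeriv ℝ m f (t y)‖ ^ 2) K :=
      (((continuousOn_iterated hV' hf m).comp ht.continuousOn hm).mono hKV).norm.pow 2
    refine setIntegral_mono_on (hcm.integrableOn_compact hK) ?_ hK.measurableSet fun y hy => ?_
    · exact ((((hfd.mono hKV).smul hcm).integrableOn_compact hK).const_mul _)
    · rw [smul_eq_mul, ← mul_assoc]
      refine le_mul_of_one_le_left (sq_nonneg _) ?_
      rw [← div_eq_inv_mul, le_div_iff₀ hc, one_mul]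
      exact hcK y hy
  have hterm : ∀ l ∈ range (k + 1),
      ε ^ l * Real.sqrt (∫ y in K, ‖iteratedFDeriv ℝ l (fun y => f (t y)) y‖ ^ 2) ≤
        (k.factorial * D ^ k) * Real.sqrt c⁻¹ * sobS k ε (t '' K) f := by
    intro l hl
    have hl' : l ≤ k := Nat.lt_succ_iff.1 (Finset.mem_range.1 hl)
    have hpt : ∀ y ∈ K, ‖iteratedFDeriv ℝ l (fun y => f (t y)) y‖ ≤
        (k.factorial * D ^ k) * ∑ m ∈ range (l + 1), ‖iteratedFDeriv ℝ m f (t y)‖ := by
      intro y hy
      rw [← iteratedFDerivWithin_of_isOpen l hV (hKV hy)]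
      refine (norm_iteratedFDerivWithin_comp_le hf ht (by exact_mod_cast le_top) hV'.uniqueDiffOn
        hV.uniqueDiffOn hm (hKV hy) (C := ∑ m ∈ range (l + 1), ‖iteratedFDeriv ℝ m f (t y)‖)
        (D := D) (fun i hi => ?_) (fun i hi1 hi => ?_)).trans ?_
      · rw [iteratedFDerivWithin_of_isOpen i hV' (hm (hKV hy))]
        exact single_le_sum (fun j _ => norm_nonneg (iteratedFDeriv ℝ j f (t y)))
          (Finset.mem_range.2 (by omega))
      · refine le_trans ?_ (le_self_pow₀ hD1 (by omega : i ≠ 0))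
        exact ((single_le_sum (fun j _ => norm_nonneg _) (Finset.mem_range.2 (by omega))).trans
          (hD₀ ⟨y, hy, rfl⟩)).trans (le_max_left _ _)
      · have hf1 : (l.factorial : ℝ) ≤ k.factorial := by exact_mod_cast Nat.factorial_le hl'
        have hf2 : D ^ l ≤ D ^ k := pow_le_pow_right₀ hD1 hl'
        rw [mul_right_comm]
        gcongr
    have h1 := sqrt_integral_le_sum (μ := volume.restrict K) (range (l + 1))
      (show (0:ℝ) ≤ k.factorial * D ^ k by positivity)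
      (g := fun y => ‖iteratedFDeriv ℝ l (fun y => f (t y)) y‖)
      (h := fun m y => ‖iteratedFDeriv ℝ m f (t y)‖)
      (Eventually.of_forall fun _ => norm_nonneg _)
      (ae_restrict_of_forall_mem hK.measurableSet hpt)
      (fun m _ => (((continuousOn_iterated hV' hf m).comp ht.continuousOn hm).mono
        hKV).norm.aestronglyMeasurable hK.measurableSet)
      (fun m _ => ((((continuousOn_iterated hV' hf m).comp ht.continuousOn hm).mono
        hKV).norm.pow 2).integrableOn_compact hK)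
    refine (mul_le_mul_of_nonneg_left h1 (pow_nonneg hε0 l)).trans ?_
    rw [mul_left_comm, mul_assoc _ (Real.sqrt c⁻¹)]
    refine mul_le_mul_of_nonneg_left ?_ (by positivity)
    rw [sobS, mul_sum, mul_sum]
    refine (sum_le_sum fun m hm' => ?_).trans (sum_le_sum_of_subset_of_nonneg
      (range_subset_range.2 (by omega : l + 1 ≤ k + 1))
      fun m _ _ => mul_nonneg (Real.sqrt_nonneg _) (mul_nonneg (pow_nonneg hε0 m) (Real.sqrt_nonneg _)))
    refine (mul_le_mul_of_nonneg_left (hcomp m) (pow_nonneg hε0 l)).trans ?_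
    rw [mul_left_comm]
    exact mul_le_mul_of_nonneg_left (mul_le_mul_of_nonneg_right (pow_le_pow_of_le_one hε0 hε.2
      (Nat.lt_succ_iff.1 (Finset.mem_range.1 hm'))) (Real.sqrt_nonneg _)) (Real.sqrt_nonneg _)
  refine (sum_le_sum hterm).trans (le_of_eq ?_)
  simp only [sum_const, card_range, nsmul_eq_mul, Nat.cast_add, Nat.cast_one]
  ring

lemma sobS_add_le {k : ℕ} {V K : Set E} (hV : IsOpen V) (hK : IsCompact K) (hKV : K ⊆ V)
    {f g : E → ℝ} (hf : ContDiffOn ℝ ∞ f V) (hg : ContDiffOn ℝ ∞ g V) {ε : ℝ} (hε : 0 ≤ ε) :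
    sobS k ε K (fun y => f y + g y) ≤ sobS k ε K f + sobS k ε K g := by
  rw [sobS, sobS, sobS, ← sum_add_distrib]
  refine sum_le_sum fun l _ => ?_
  rw [← mul_add]
  refine mul_le_mul_of_nonneg_left ?_ (pow_nonneg hε l)
  have h := integrableOn_iterated hV hK hKV hf l
  have h' := integrableOn_iterated hV hK hKV hg l
  refine le_trans (Real.sqrt_le_sqrt (setIntegral_mono_on ?_ ?_ hK.measurableSet fun y hy => ?_))
    (sqrt_integral_add_le h h')
  · exact integrableOn_iterated hV hK hKV (hf.add hg) l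
  · exact ((((continuousOn_iterated hV hf l).mono hKV).norm.add
      ((continuousOn_iterated hV hg l).mono hKV).norm).pow 2).integrableOn_compact hK
  · refine pow_le_pow_left₀ (norm_nonneg _) ?_ 2
    have hy' := hV.mem_nhds (hKV hy)
    rw [show (fun y => f y + g y) = f + g from rfl, iteratedFDeriv_add_apply
      ((hf.contDiffAt hy').of_le (by exact_mod_cast le_top))
      ((hg.contDiffAt hy').of_le (by exact_mod_cast le_top))]
    exact norm_add_le _ _

lemma sobS_congr {k : ℕ} {ε : ℝ} {s : Set E} (hs : MeasurableSet s) {f g : E → ℝ}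
    (h : ∀ y ∈ s, f =ᶠ[𝓝 y] g) : sobS k ε s f = sobS k ε s g := by
  refine sum_congr rfl fun l _ => ?_
  rw [setIntegral_congr_fun hs fun y hy => by rw [((h y hy).iteratedFDeriv ℝ l).eq_of_nhds]]

lemma sobS_zero {k : ℕ} {ε : ℝ} {s : Set E} : sobS k ε s (fun _ => 0) = 0 := by
  refine sum_eq_zero fun l _ => ?_
  simp [iteratedFDeriv_fun_zero]

lemma sobS_const_mul {k : ℕ} {V K : Set E} (hV : IsOpen V) (hK : IsCompact K) (hKV : K ⊆ V)
    {f : E → ℝ} (hf : ContDiffOn ℝ ∞ f V) (r : ℝ) {ε : ℝ} :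
    sobS k ε K (fun y => r * f y) = |r| * sobS k ε K f := by
  rw [sobS, sobS, mul_sum]
  refine sum_congr rfl fun l _ => ?_
  rw [setIntegral_congr_fun hK.measurableSet (g := fun y => r ^ 2 * ‖iteratedFDeriv ℝ l f y‖ ^ 2)
    fun y hy => ?_]
  · rw [integral_const_mul, Real.sqrt_mul (sq_nonneg r), Real.sqrt_sq_eq_abs]
    ring
  · rw [show (fun y => r * f y) = r • f from rfl, iteratedFDeriv_const_smul_apply
      ((hf.contDiffAt (hV.mem_nhds (hKV hy))).of_le (by exact_mod_cast le_top)), norm_smul,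
      mul_pow, Real.norm_eq_abs, sq_abs]

lemma sobS_sum_le {k : ℕ} {V K : Set E} (hV : IsOpen V) (hK : IsCompact K) (hKV : K ⊆ V)
    {ι : Type*} (s : Finset ι) {f : ι → E → ℝ} (hf : ∀ i ∈ s, ContDiffOn ℝ ∞ (f i) V) {ε : ℝ}
    (hε : 0 ≤ ε) : sobS k ε K (fun y => ∑ i ∈ s, f i y) ≤ ∑ i ∈ s, sobS k ε K (f i) := by
  classical
  induction s using Finset.induction_on with
  | empty => simp [sobS_zero]
  | insert a s ha ih =>
    simp only [sum_insert ha]
    refine (sobS_add_le hV hK hKV (hf a (mem_insert_self a s))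
      (ContDiffOn.sum fun i hi => hf i (mem_insert_of_mem hi)) hε).trans ?_
    linarith [ih fun i hi => hf i (mem_insert_of_mem hi)]

lemma sobS_mono_set {k : ℕ} {V K s : Set E} (hV : IsOpen V) (hK : IsCompact K) (hKV : K ⊆ V)
    (hs : s ⊆ K) {f : E → ℝ} (hf : ContDiffOn ℝ ∞ f V) {ε : ℝ} (hε : 0 ≤ ε) :
    sobS k ε s f ≤ sobS k ε K f :=
  sum_le_sum fun l _ => mul_le_mul_of_nonneg_left (Real.sqrt_le_sqrt (setIntegral_mono_set
    (integrableOn_iterated hV hK hKV hf l) (Eventually.of_forall fun _ => sq_nonneg _)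
    hs.eventuallyLE)) (pow_nonneg hε l)

lemma sobS_le_univ {k : ℕ} {f : E → ℝ} (hf : ContDiff ℝ ∞ f) (hc : HasCompactSupport f)
    (s : Set E) {ε : ℝ} (hε : 0 ≤ ε) : sobS k ε s f ≤ sobS k ε univ f := by
  refine sum_le_sum fun l _ => mul_le_mul_of_nonneg_left (Real.sqrt_le_sqrt ?_) (pow_nonneg hε l)
  rw [setIntegral_univ]
  refine setIntegral_le_integral ?_ (Eventually.of_forall fun _ => sq_nonneg _)
  have hcont : Continuous (iteratedFDeriv ℝ l f) :=
    hf.continuous_iteratedFDeriv (by exact_mod_cast le_top)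
  have h2 : Continuous fun y => ‖iteratedFDeriv ℝ l f y‖ ^ 2 := hcont.norm.pow 2
  refine h2.integrable_of_hasCompactSupport ?_
  exact HasCompactSupport.intro (hc.iteratedFDeriv l) fun y hy => by
    rw [image_eq_zero_of_notMem_tsupport hy, norm_zero]
    norm_num

lemma sobS_union_le {k : ℕ} {V : Set E} {ι : Type*} [Fintype ι] {K : Set E} {L : ι → Set E}
    (hV : IsOpen V) (hK : IsCompact K) (hKV : K ⊆ V) (hL : ∀ i, IsCompact (L i))
    (hLV : ∀ i, L i ⊆ V) (hcov : K ⊆ ⋃ i, L i) {f : E → ℝ} (hf : ContDiffOn ℝ ∞ f V)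
    {ε : ℝ} (hε : 0 ≤ ε) : sobS k ε K f ≤ ∑ i, sobS k ε (L i) f := by
  simp only [sobS]
  rw [sum_comm]
  refine sum_le_sum fun l _ => ?_
  rw [← mul_sum]
  refine mul_le_mul_of_nonneg_left ?_ (pow_nonneg hε l)
  set g := fun y => ‖iteratedFDeriv ℝ l f y‖
  have hgi : ∀ i, IntegrableOn (fun y => g y ^ 2) (L i) := fun i =>
    integrableOn_iterated hV (hL i) (hLV i) hf l
  have hi : ∀ i, Integrable ((L i).indicator fun y => g y ^ 2) (volume.restrict K) := fun i =>
    ((integrable_indicator_iff (hL i).measurableSet).2 (hgi i)).restrict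
  have hsq : ∀ i, (fun y => (L i).indicator g y ^ 2) = (L i).indicator fun y => g y ^ 2 := by
    intro i; ext y; by_cases hy : y ∈ L i <;> simp [hy]
  refine (sqrt_integral_le_sum (μ := volume.restrict K) Finset.univ zero_le_one
    (g := g) (h := fun i => (L i).indicator g) (Eventually.of_forall fun _ => norm_nonneg _)
    (ae_restrict_of_forall_mem hK.measurableSet fun y hy => ?_)
    (fun i _ => ?_) (fun i _ => by rw [hsq]; exact hi i)).trans ?_
  · obtain ⟨i, hi⟩ := mem_iUnion.1 (hcov hy)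
    rw [one_mul]
    refine le_trans (le_of_eq (indicator_of_mem hi g).symm) ?_
    exact single_le_sum (f := fun j => (L j).indicator g y)
      (fun j _ => indicator_nonneg (fun _ _ => norm_nonneg _) y) (Finset.mem_univ i)
  · exact (((aestronglyMeasurable_indicator_iff (hL i).measurableSet).2
      (((continuousOn_iterated hV hf l).mono (hLV i)).norm.aestronglyMeasurable
        (hL i).measurableSet))).restrict
  · rw [one_mul]
    refine sum_le_sum fun i _ => Real.sqrt_le_sqrt ?_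
    rw [hsq]
    refine (setIntegral_le_integral ((integrable_indicator_iff (hL i).measurableSet).2 (hgi i))
      (Eventually.of_forall (indicator_nonneg fun _ _ => sq_nonneg _))).trans ?_
    rw [integral_indicator (hL i).measurableSet]

/-- Where a function vanishes nearby nothing is counted. -/
lemma sobS_eq_of_zero {k : ℕ} {ε : ℝ} {s s' : Set E} (hs : MeasurableSet s) (hsub : s' ⊆ s)
    {f : E → ℝ} (h : ∀ y ∈ s, y ∉ s' → f =ᶠ[𝓝 y] fun _ => 0) :
    sobS k ε s f = sobS k ε s' f := by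
  refine sum_congr rfl fun l _ => ?_
  rw [setIntegral_eq_of_subset_of_forall_sdiff_eq_zero hs hsub fun y hy => ?_]
  rw [((h y hy.1 hy.2).iteratedFDeriv ℝ l).eq_of_nhds]
  simp [iteratedFDeriv_fun_zero]

end Vale.Agent.P204.Tame
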