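import Vale.Agent.P204.Tame.SmootherBasic

/-!
Averaged pullbacks in a box: integrability and the bounds by the square integral.
-/

namespace Vale.Agent.P204.Tame

open scoped ContDiff ENNReal Topology
open MeasureTheory Metric Set Filter

variable {n : ℕ} {σ : Par n → E → E} {y₀ : E} {δ : ℝ} {R₀ : E →L[ℝ] Par n}

/-- Kernels of a box. -/
structure BoxKer (σ : Par n → E → E) (y₀ : E) (δ : ℝ) (ρ : Par n → ℝ) (q : Par n → E → ℝ) :
    Prop where
  smooth_rho : ContDiff ℝ ∞ ρ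
  supp_rho : tsupport ρ ⊆ closedBall 0 1
  smooth_q : ContDiffOn ℝ ∞ (fun z : Par n × E => q z.1 z.2)
    (ball 0 (4 * δ) ×ˢ ball y₀ (4 * δ))

theorem rho_scaled_eq_zero {ρ : Par n → ℝ} (hρ : tsupport ρ ⊆ closedBall 0 1) {ε : ℝ} (hε : 0 < ε)
    {v : Par n} (hv : v ∉ closedBall (0 : Par n) ε) : ρ (ε⁻¹ • v) = 0 := by
  refine image_eq_zero_of_notMem_tsupport fun h => hv ?_
  have := hρ h
  rw [mem_closedBall_zero_iff, norm_smul, norm_inv, Real.norm_eq_abs, abs_of_pos hε,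
    inv_mul_le_iff₀ hε, mul_one] at this
  exact mem_closedBall_zero_iff.2 this

theorem mem_ker_ball {ε : ℝ} (hB : Box σ y₀ δ R₀) (hε : ε ≤ boxRad δ R₀) {v : Par n}
    (hv : v ∈ closedBall (0 : Par n) ε) : v ∈ closedBall (0 : Par n) (3 * δ) :=
  closedBall_subset_closedBall (by linarith [hB.boxRad_le, hB.pos]) hv

theorem volume_real_closedBall_par {ε : ℝ} (hε : 0 ≤ ε) :
    volume.real (closedBall (0 : Par n) ε) = ε ^ n * volume.real (closedBall (0 : Par n) 1) := by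
  rw [Measure.real, volume_closedBall_scale _ hε, ENNReal.toReal_mul, Fintype.card_fin,
    ENNReal.toReal_ofReal (pow_nonneg hε _), Measure.real]

/-- Cauchy–Schwarz on a set of finite measure. -/
theorem sq_setIntegral_abs_le {α : Type*} [MeasurableSpace α] {μ : Measure α} {s : Set α}
    (hs : μ s ≠ ⊤) {w : α → ℝ} (hw : MemLp w 2 (μ.restrict s)) :
    (∫ x in s, |w x| ∂μ) ^ 2 ≤ μ.real s * ∫ x in s, w x ^ 2 ∂μ := by
  have : IsFiniteMeasure (μ.restrict s) := ⟨by simpa using hs.lt_top⟩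
  have hi : Integrable (fun x => |w x|) (μ.restrict s) :=
    (hw.integrable (by norm_num)).abs
  have hi2 : Integrable (fun x => w x ^ 2) (μ.restrict s) := hw.integrable_sq
  rcases eq_or_ne (μ.real s) 0 with h0 | h0
  · have : μ.restrict s = 0 := by
      rw [Measure.restrict_eq_zero]
      exact (ENNReal.toReal_eq_zero_iff _).1 h0 |>.resolve_right hs
    simp [this, h0]
  · have hpos : 0 < μ.real s := lt_of_le_of_ne measureReal_nonneg (Ne.symm h0)
    set c := (∫ x in s, |w x| ∂μ) / μ.real s with hc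
    have h : 0 ≤ ∫ x in s, (|w x| - c) ^ 2 ∂μ := integral_nonneg fun x => sq_nonneg _
    have he : (fun x => (|w x| - c) ^ 2) = fun x => w x ^ 2 - 2 * c * |w x| + c ^ 2 := by
      funext x; rw [sub_sq, sq_abs]; ring
    have e1 : ∫ x in s, (w x ^ 2 - 2 * c * |w x| + c ^ 2) ∂μ =
        (∫ x in s, (w x ^ 2 - 2 * c * |w x|) ∂μ) + ∫ _x in s, c ^ 2 ∂μ :=
      integral_add (hi2.sub (hi.const_mul _)) (integrable_const _)
    have e2 : ∫ x in s, (w x ^ 2 - 2 * c * |w x|) ∂μ =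
        (∫ x in s, w x ^ 2 ∂μ) - ∫ x in s, 2 * c * |w x| ∂μ :=
      integral_sub hi2 (hi.const_mul _)
    rw [he, e1, e2, integral_const_mul, setIntegral_const, smul_eq_mul] at h
    rw [hc] at h
    field_simp at h
    nlinarith

theorem integral_sq_eq_lintegral {α : Type*} [MeasurableSpace α] {μ : Measure α} {f : α → ℝ}
    (hf : MemLp f 2 μ) : ENNReal.ofReal (∫ x, f x ^ 2 ∂μ) = ∫⁻ x, ENNReal.ofReal (f x ^ 2) ∂μ :=
  ofReal_integral_eq_lintegral_ofReal hf.integrable_sq (Eventually.of_forall fun _ => sq_nonneg _)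

/-- The composition is square integrable in the parameter. -/
theorem Box.memLp_comp (hB : Box σ y₀ δ R₀) : ∃ C : ℝ, 0 ≤ C ∧ ∀ ε ∈ Ioc (0 : ℝ) (boxRad δ R₀),
    ∀ y ∈ closedBall y₀ (2 * δ), ∀ u : E → ℝ, Measurable u → MemLp u 2 volume →
      MemLp (fun v => u (σ v y)) 2 (volume.restrict (closedBall 0 ε)) ∧
      ∫ v in closedBall (0 : Par n) ε, u (σ v y) ^ 2 ≤ C * ε ^ n * (ε ^ 4)⁻¹ * ∫ x, u x ^ 2 := by
  obtain ⟨C, hC, hfib⟩ := hB.fibre
  refine ⟨C, hC, fun ε hε y hy u hum hu => ?_⟩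
  have hy3 : y ∈ closedBall y₀ (3 * δ) :=
    closedBall_subset_closedBall (by linarith [hB.pos]) hy
  have hmeas : AEStronglyMeasurable (fun v => u (σ v y))
      (volume.restrict (closedBall (0 : Par n) ε)) := by
    refine ((hum.comp (hB.measurable_cutMap.comp (measurable_prodMk_right (y := y)))).aestronglyMeasurable).congr
      ?_
    filter_upwards [ae_restrict_mem measurableSet_closedBall] with v hv
    simp [cutMap_of_mem (mem_ker_ball hB hε.2 hv) hy3]
  have hb : ∫⁻ v in closedBall (0 : Par n) ε, ENNReal.ofReal (u (σ v y) ^ 2) ≤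
      ENNReal.ofReal (C * ε ^ n * (ε ^ 4)⁻¹ * ∫ x, u x ^ 2) := by
    refine (hfib ε hε y hy (fun x => ENNReal.ofReal (u x ^ 2))
      (hum.pow_const 2).ennreal_ofReal).trans ?_
    rw [ENNReal.ofReal_mul (p := C * ε ^ n * (ε ^ 4)⁻¹) (by have := hε.1; positivity),
      integral_sq_eq_lintegral hu]
    exact mul_le_mul' le_rfl (setLIntegral_le_lintegral _ _)
  have hmem : MemLp (fun v => u (σ v y)) 2 (volume.restrict (closedBall (0 : Par n) ε)) := by
    rw [memLp_two_iff_integrable_sq hmeas]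
    refine ⟨hmeas.pow 2, ?_⟩
    rw [hasFiniteIntegral_iff_ofReal (Eventually.of_forall fun _ => sq_nonneg _)]
    exact hb.trans_lt ENNReal.ofReal_lt_top
  refine ⟨hmem, ?_⟩
  rw [← integral_sq_eq_lintegral hmem] at hb
  exact (ENNReal.ofReal_le_ofReal_iff (by
    have hI : 0 ≤ ∫ x, u x ^ 2 := integral_nonneg fun x => sq_nonneg (u x)
    have := hε.1
    positivity)).1 hb

theorem exists_ker_bound (hB : Box σ y₀ δ R₀) {ρ : Par n → ℝ} {q : Par n → E → ℝ}
    (hk : BoxKer σ y₀ δ ρ q) : ∃ M : ℝ, 0 ≤ M ∧ ∀ ε ∈ Ioc (0 : ℝ) (boxRad δ R₀),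
      ∀ y ∈ closedBall y₀ (2 * δ), ∀ v ∈ closedBall (0 : Par n) ε,
        |ρ (ε⁻¹ • v) * q v y| ≤ M := by
  obtain ⟨A, hA⟩ := (HasCompactSupport.of_support_subset_isCompact
    (isCompact_closedBall (0 : Par n) 1) ((subset_tsupport ρ).trans hk.supp_rho)).exists_bound_of_continuous
      hk.smooth_rho.continuous
  obtain ⟨B, hBd⟩ := ((isCompact_closedBall (0 : Par n) (3 * δ)).prod
    (isCompact_closedBall y₀ (3 * δ))).exists_bound_of_continuousOn
    (hk.smooth_q.continuousOn.mono hB.closed_subset)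
  refine ⟨max A 0 * max B 0, by positivity, fun ε hε y hy v hv => ?_⟩
  rw [abs_mul]
  refine mul_le_mul ((hA _).trans (le_max_left _ _)) ?_ (abs_nonneg _) (le_max_right _ _)
  exact (hBd (v, y) (mk_mem_prod (mem_ker_ball hB hε.2 hv)
    (closedBall_subset_closedBall (by linarith [hB.pos]) hy))).trans (le_max_left _ _)

/-- The integrand is integrable and the operator is bounded by the fibre square integral. -/
theorem Box.kerOp_bound_of (hB : Box σ y₀ δ R₀) {ρ : Par n → ℝ} {q : Par n → E → ℝ}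
    (hk : BoxKer σ y₀ δ ρ q) {M ε : ℝ} (hε : ε ∈ Ioc (0 : ℝ) (boxRad δ R₀)) {y : E}
    (hy : y ∈ closedBall y₀ (2 * δ))
    (hM : ∀ v ∈ closedBall (0 : Par n) ε, |ρ (ε⁻¹ • v) * q v y| ≤ M) {u : E → ℝ}
    (hum : Measurable u) (hu : MemLp u 2 volume) :
      Integrable (fun v => ρ (ε⁻¹ • v) * q v y * u (σ v y)) ∧
      kerOp σ ρ q ε u y ^ 2 ≤ M ^ 2 * volume.real (closedBall (0 : Par n) 1) * (ε ^ n)⁻¹ *
        ∫ v in closedBall (0 : Par n) ε, u (σ v y) ^ 2 := by
  obtain ⟨C₁, -, hC₁⟩ := hB.memLp_comp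
  set B := closedBall (0 : Par n) ε
  have hmem := (hC₁ ε hε y hy u hum hu).1
  have hfin : volume B ≠ ⊤ := measure_closedBall_lt_top.ne
  have : IsFiniteMeasure (volume.restrict B) := ⟨by simpa using hfin.lt_top⟩
  have hqc : ContinuousOn (fun v => ρ (ε⁻¹ • v) * q v y) B := by
    refine ((hk.smooth_rho.continuous.comp (continuous_const_smul ε⁻¹)).continuousOn).mul ?_
    exact hk.smooth_q.continuousOn.comp (continuous_id.prodMk continuous_const).continuousOn
      fun v hv => hB.closed_subset (mk_mem_prod (mem_ker_ball hB hε.2 hv)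
        (closedBall_subset_closedBall (by linarith [hB.pos]) hy))
  have hiB : IntegrableOn (fun v => ρ (ε⁻¹ • v) * q v y * u (σ v y)) B :=
    (hmem.integrable (by norm_num)).bdd_mul
      (hqc.aestronglyMeasurable measurableSet_closedBall) (c := M)
      ((ae_restrict_mem measurableSet_closedBall).mono fun v hv => hM v hv)
  have hzero : ∀ v ∉ B, ρ (ε⁻¹ • v) * q v y * u (σ v y) = 0 := fun v hv => by
    rw [rho_scaled_eq_zero hk.supp_rho hε.1 hv, zero_mul, zero_mul]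
  refine ⟨hiB.integrable_of_forall_notMem_eq_zero hzero, ?_⟩
  rw [kerOp, ← setIntegral_eq_integral_of_forall_compl_eq_zero hzero, mul_pow]
  have h1 : |∫ v in B, ρ (ε⁻¹ • v) * q v y * u (σ v y)| ≤ M * ∫ v in B, |u (σ v y)| := by
    rw [← integral_const_mul]
    refine (abs_integral_le_integral_abs).trans (setIntegral_mono_on hiB.abs
      ((hmem.integrable (by norm_num)).abs.const_mul _) measurableSet_closedBall fun v hv => ?_)
    rw [abs_mul]
    exact mul_le_mul_of_nonneg_right (hM v hv) (abs_nonneg _)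
  have h2 := sq_setIntegral_abs_le hfin hmem
  have hp : 0 < ε ^ n := pow_pos hε.1 n
  calc ((ε ^ n)⁻¹) ^ 2 * (∫ v in B, ρ (ε⁻¹ • v) * q v y * u (σ v y)) ^ 2
      ≤ ((ε ^ n)⁻¹) ^ 2 * (M ^ 2 * (volume.real B * ∫ v in B, u (σ v y) ^ 2)) := by
        refine mul_le_mul_of_nonneg_left ?_ (sq_nonneg _)
        rw [← sq_abs]
        exact (pow_le_pow_left₀ (abs_nonneg _) h1 2).trans
          (by rw [mul_pow]; exact mul_le_mul_of_nonneg_left h2 (sq_nonneg _))
    _ = _ := by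
        rw [volume_real_closedBall_par hε.1.le]
        field_simp

/-- The bound by the fibre square integral, with a constant independent of the scale. -/
theorem Box.kerOp_bound (hB : Box σ y₀ δ R₀) {ρ : Par n → ℝ} {q : Par n → E → ℝ}
    (hk : BoxKer σ y₀ δ ρ q) : ∃ C : ℝ, 0 ≤ C ∧ ∀ ε ∈ Ioc (0 : ℝ) (boxRad δ R₀),
    ∀ y ∈ closedBall y₀ (2 * δ), ∀ u : E → ℝ, Measurable u → MemLp u 2 volume →
      Integrable (fun v => ρ (ε⁻¹ • v) * q v y * u (σ v y)) ∧
      kerOp σ ρ q ε u y ^ 2 ≤ C * (ε ^ n)⁻¹ * ∫ v in closedBall (0 : Par n) ε, u (σ v y) ^ 2 := by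
  obtain ⟨M, -, hM⟩ := exists_ker_bound hB hk
  exact ⟨M ^ 2 * volume.real (closedBall (0 : Par n) 1), by positivity,
    fun ε hε y hy u hum hu => hB.kerOp_bound_of hk hε hy (hM ε hε y hy) hum hu⟩

/-- The pointwise bound by the square integral. -/
theorem Box.kerOp_sup (hB : Box σ y₀ δ R₀) {ρ : Par n → ℝ} {q : Par n → E → ℝ}
    (hk : BoxKer σ y₀ δ ρ q) {ε : ℝ} (hε : ε ∈ Ioc (0 : ℝ) (boxRad δ R₀)) :
    ∃ C : ℝ, 0 ≤ C ∧ ∀ y ∈ closedBall y₀ (2 * δ), ∀ u : E → ℝ, Measurable u → MemLp u 2 volume →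
      |kerOp σ ρ q ε u y| ≤ C * Real.sqrt (∫ x, u x ^ 2) := by
  obtain ⟨C₁, hC₁0, hC₁⟩ := hB.kerOp_bound hk
  obtain ⟨C₂, hC₂0, hC₂⟩ := hB.memLp_comp
  have hD : 0 ≤ C₁ * (ε ^ n)⁻¹ * (C₂ * ε ^ n * (ε ^ 4)⁻¹) := by
    have := hε.1; positivity
  refine ⟨Real.sqrt (C₁ * (ε ^ n)⁻¹ * (C₂ * ε ^ n * (ε ^ 4)⁻¹)), Real.sqrt_nonneg _,
    fun y hy u hum hu => ?_⟩
  rw [← Real.sqrt_mul hD]
  refine Real.abs_le_sqrt ?_
  rw [mul_assoc (C₁ * (ε ^ n)⁻¹)]
  exact (hC₁ ε hε y hy u hum hu).2.trans (mul_le_mul_of_nonneg_left (hC₂ ε hε y hy u hum hu).2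
    (by have := hε.1; positivity))

/-- The square integral over the middle ball, for a given bound of the kernel. -/
theorem Box.kerOp_sq_of (hB : Box σ y₀ δ R₀) {ρ : Par n → ℝ} {q : Par n → E → ℝ}
    (hk : BoxKer σ y₀ δ ρ q) {M ε : ℝ} (hε : ε ∈ Ioc (0 : ℝ) (boxRad δ R₀))
    (hM : ∀ y ∈ closedBall y₀ (2 * δ), ∀ v ∈ closedBall (0 : Par n) ε,
      |ρ (ε⁻¹ • v) * q v y| ≤ M) {u : E → ℝ} (hum : Measurable u) (hu : MemLp u 2 volume) :
      ∫⁻ y in closedBall y₀ (2 * δ), ENNReal.ofReal (kerOp σ ρ q ε u y ^ 2) ≤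
        ENNReal.ofReal (2 * M ^ 2 * volume.real (closedBall (0 : Par n) 1) ^ 2 *
          ∫ x, u x ^ 2) := by
  obtain ⟨C₂, -, hC₂⟩ := hB.memLp_comp
  set B := closedBall (0 : Par n) ε
  set D := closedBall y₀ (2 * δ)
  have hp : 0 < ε ^ n := pow_pos hε.1 n
  have hD3 : ∀ y ∈ D, y ∈ closedBall y₀ (3 * δ) := fun y hy =>
    closedBall_subset_closedBall (by linarith [hB.pos]) hy
  have h1 : ∀ y ∈ D, ENNReal.ofReal (kerOp σ ρ q ε u y ^ 2) ≤
      ENNReal.ofReal (M ^ 2 * volume.real (closedBall (0 : Par n) 1) * (ε ^ n)⁻¹) *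
        ∫⁻ v in B, ENNReal.ofReal (u (cutMap σ y₀ δ (v, y)) ^ 2) := fun y hy => by
    rw [setLIntegral_congr_fun measurableSet_closedBall fun v hv => by
      rw [cutMap_of_mem (mem_ker_ball hB hε.2 hv) (hD3 y hy)],
      ← integral_sq_eq_lintegral (hC₂ ε hε y hy u hum hu).1, ← ENNReal.ofReal_mul (by positivity)]
    exact ENNReal.ofReal_le_ofReal (hB.kerOp_bound_of hk hε hy (hM y hy) hum hu).2
  refine (setLIntegral_mono' measurableSet_closedBall h1).trans ?_
  rw [lintegral_const_mul' _ _ ENNReal.ofReal_ne_top, lintegral_lintegral_swap]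
  · refine (mul_le_mul' le_rfl (setLIntegral_mono'
      (g := fun _ => 2 * ∫⁻ x, ENNReal.ofReal (u x ^ 2)) measurableSet_closedBall
        fun v hv => ?_)).trans ?_
    · rw [setLIntegral_congr_fun measurableSet_closedBall fun y hy => by
        rw [cutMap_of_mem (mem_ker_ball hB hε.2 hv) (hD3 y hy)]]
      exact hB.lintegral_comp_le (mem_ker_ball hB hε.2 hv) fun x => ENNReal.ofReal (u x ^ 2)
    · rw [setLIntegral_const, ← integral_sq_eq_lintegral hu,
        show (2 : ℝ≥0∞) = ENNReal.ofReal 2 by simp, ← ENNReal.ofReal_mul (by norm_num),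
        ← ENNReal.ofReal_toReal (measure_closedBall_lt_top (x := (0 : Par n)) (r := ε)).ne,
        ← ENNReal.ofReal_mul (mul_nonneg zero_le_two (integral_nonneg fun x => sq_nonneg (u x))),
        ← ENNReal.ofReal_mul (by positivity)]
      refine ENNReal.ofReal_le_ofReal (le_of_eq ?_)
      rw [← Measure.real, volume_real_closedBall_par hε.1.le]
      field_simp
  · exact ((hum.comp (hB.measurable_cutMap.comp
      (measurable_snd.prodMk measurable_fst))).pow_const 2).ennreal_ofReal.aemeasurable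

/-- The square integral over the middle ball. -/
theorem Box.kerOp_sq (hB : Box σ y₀ δ R₀) {ρ : Par n → ℝ} {q : Par n → E → ℝ}
    (hk : BoxKer σ y₀ δ ρ q) : ∃ C : ℝ, 0 ≤ C ∧ ∀ ε ∈ Ioc (0 : ℝ) (boxRad δ R₀),
    ∀ u : E → ℝ, Measurable u → MemLp u 2 volume →
      ∫⁻ y in closedBall y₀ (2 * δ), ENNReal.ofReal (kerOp σ ρ q ε u y ^ 2) ≤
        ENNReal.ofReal (C * ∫ x, u x ^ 2) := by
  obtain ⟨M, -, hM⟩ := exists_ker_bound hB hk
  exact ⟨2 * M ^ 2 * volume.real (closedBall (0 : Par n) 1) ^ 2, by positivity,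
    fun ε hε u hum hu => hB.kerOp_sq_of hk hε (hM ε hε) hum hu⟩

/-- A coefficient vanishing on the base bounds the kernel by the scale. -/
theorem exists_ker_gain (hB : Box σ y₀ δ R₀) {ρ : Par n → ℝ} {q : Par n → E → ℝ}
    (hk : BoxKer σ y₀ δ ρ q) (h0 : ∀ y ∈ ball y₀ (4 * δ), q 0 y = 0) :
    ∃ M : ℝ, 0 ≤ M ∧ ∀ ε ∈ Ioc (0 : ℝ) (boxRad δ R₀),
      ∀ y ∈ closedBall y₀ (2 * δ), ∀ v ∈ closedBall (0 : Par n) ε,
        |ρ (ε⁻¹ • v) * q v y| ≤ M * ε := by
  obtain ⟨A, hA⟩ := (HasCompactSupport.of_support_subset_isCompact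
    (isCompact_closedBall (0 : Par n) 1) ((subset_tsupport ρ).trans hk.supp_rho)).exists_bound_of_continuous
      hk.smooth_rho.continuous
  have hop : IsOpen (ball (0 : Par n) (4 * δ) ×ˢ ball y₀ (4 * δ)) := isOpen_ball.prod isOpen_ball
  obtain ⟨B, hBd⟩ := ((isCompact_closedBall (0 : Par n) (3 * δ)).prod
    (isCompact_closedBall y₀ (3 * δ))).exists_bound_of_continuousOn
    ((hk.smooth_q.continuousOn_fderiv_of_isOpen hop (by simp)).mono hB.closed_subset)
  refine ⟨max A 0 * max B 0, by positivity, fun ε hε y hy v hv => ?_⟩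
  have hy3 : y ∈ closedBall y₀ (3 * δ) :=
    closedBall_subset_closedBall (by linarith [hB.pos]) hy
  have h3 : (0 : Par n) ∈ closedBall (0 : Par n) (3 * δ) :=
    mem_closedBall_self (by linarith [hB.pos])
  have hd : ∀ w ∈ closedBall (0 : Par n) (3 * δ), HasFDerivWithinAt (fun w => q w y)
      ((fderiv ℝ (fun z : Par n × E => q z.1 z.2) (w, y)).comp
        (ContinuousLinearMap.inl ℝ (Par n) E)) (closedBall 0 (3 * δ)) w := fun w hw => by
    refine ((HasFDerivAt.comp (f := fun w : Par n => (w, y))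
      (g := fun z : Par n × E => q z.1 z.2) w
      (((hk.smooth_q.differentiableOn (by simp)).differentiableAt
        (hop.mem_nhds (hB.closed_subset (mk_mem_prod hw hy3)))).hasFDerivAt)
      ((hasFDerivAt_id w).prodMk (hasFDerivAt_const y w))).congr_fderiv
        (by ext1 a; simp)).hasFDerivWithinAt
  have hinl : ‖ContinuousLinearMap.inl ℝ (Par n) E‖ ≤ 1 :=
    ContinuousLinearMap.opNorm_le_bound _ zero_le_one fun a => by simp [Prod.norm_def]
  have hq : ‖q v y - q 0 y‖ ≤ max B 0 * ‖v - 0‖ :=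
    (convex_closedBall (0 : Par n) (3 * δ)).norm_image_sub_le_of_norm_hasFDerivWithin_le hd
      (fun w hw => ((ContinuousLinearMap.opNorm_comp_le _ _).trans (mul_le_mul
        ((hBd (w, y) (mk_mem_prod hw hy3)).trans (le_max_left _ _)) hinl
        (norm_nonneg _) (le_max_right _ _))).trans (le_of_eq (mul_one _)))
      h3 (mem_ker_ball hB hε.2 hv)
  rw [h0 y (closedBall_subset_ball (by linarith [hB.pos]) hy), sub_zero, sub_zero] at hq
  rw [abs_mul, mul_assoc]
  refine mul_le_mul ((hA _).trans (le_max_left _ _))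
    (hq.trans (mul_le_mul_of_nonneg_left (mem_closedBall_zero_iff.1 hv) (le_max_right _ _)))
    (abs_nonneg _) (le_max_right _ _)

/-- The operator only depends on the almost everywhere class. -/
theorem Box.kerOp_congr (hB : Box σ y₀ δ R₀) {ρ : Par n → ℝ} (hρ : tsupport ρ ⊆ closedBall 0 1)
    (q : Par n → E → ℝ) {ε : ℝ} (hε : ε ∈ Ioc (0 : ℝ) (boxRad δ R₀)) {y : E}
    (hy : y ∈ closedBall y₀ (2 * δ)) {u u' : E → ℝ} (h : u =ᵐ[volume] u') :
    kerOp σ ρ q ε u y = kerOp σ ρ q ε u' y := by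
  obtain ⟨C, -, hfib⟩ := hB.fibre
  obtain ⟨N, hsub, hNm, hN0⟩ := exists_measurable_superset_of_null (ae_iff.1 h)
  have hnull := hfib ε hε y hy (N.indicator 1) (Measurable.indicator measurable_const hNm)
  rw [setLIntegral_congr_fun measurableSet_closedBall (f := fun v => N.indicator 1 (σ v y))
      (g := fun v => N.indicator 1 (cutMap σ y₀ δ (v, y)))
      fun v hv => by simp only; rw [← cutMap_of_mem (σ := σ) (mem_ker_ball hB hε.2 hv)
        (closedBall_subset_closedBall (by linarith [hB.pos]) hy)]] at hnull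
  have h0 : ∫⁻ x in closedBall y (C * ε), N.indicator 1 x = 0 :=
    le_antisymm ((setLIntegral_le_lintegral _ _).trans
      (by rw [lintegral_indicator_one hNm, hN0])) bot_le
  have hm : Measurable fun v : Par n => N.indicator (1 : E → ℝ≥0∞) (cutMap σ y₀ δ (v, y)) :=
    (Measurable.indicator (f := (1 : E → ℝ≥0∞)) measurable_const hNm).comp
      (hB.measurable_cutMap.comp (measurable_prodMk_right (y := y)))
  rw [h0, mul_zero, nonpos_iff_eq_zero, lintegral_eq_zero_iff hm] at hnull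
  unfold kerOp
  congr 1
  refine integral_congr_ae ?_
  filter_upwards [(ae_restrict_iff' measurableSet_closedBall).1 hnull] with v hv
  by_cases hvB : v ∈ closedBall (0 : Par n) ε
  · have h1 := hv hvB
    simp only [Pi.zero_apply] at h1
    rw [indicator_apply_eq_zero] at h1
    rw [cutMap_of_mem (mem_ker_ball hB hε.2 hvB)
      (closedBall_subset_closedBall (by linarith [hB.pos]) hy)] at h1
    have h2 : σ v y ∉ N := fun h => one_ne_zero (h1 h)
    have h3 : u (σ v y) = u' (σ v y) := by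
      by_contra h4
      exact h2 (hsub h4)
    rw [h3]
  · rw [rho_scaled_eq_zero hρ hε.1 hvB, zero_mul, zero_mul, zero_mul]

theorem Box.kerOp_sub (hB : Box σ y₀ δ R₀) {ρ : Par n → ℝ} {q : Par n → E → ℝ}
    (hk : BoxKer σ y₀ δ ρ q) {ε : ℝ} (hε : ε ∈ Ioc (0 : ℝ) (boxRad δ R₀)) {y : E}
    (hy : y ∈ closedBall y₀ (2 * δ)) {u g : E → ℝ} (hum : Measurable u) (hu : MemLp u 2 volume)
    (hgm : Measurable g) (hg : MemLp g 2 volume) :
    kerOp σ ρ q ε (fun x => u x - g x) y = kerOp σ ρ q ε u y - kerOp σ ρ q ε g y := by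
  obtain ⟨C, -, hC⟩ := hB.kerOp_bound hk
  unfold kerOp
  rw [← mul_sub, ← integral_sub (hC ε hε y hy u hum hu).1 (hC ε hε y hy g hgm hg).1]
  congr 2
  funext v
  ring

end Vale.Agent.P204.Tame
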