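import Vale.Agent.P204.Tame.SmootherLimit

/-!
All derivatives of averaged pullbacks in a box.
-/

namespace Vale.Agent.P204.Tame

open scoped ContDiff ENNReal Topology
open MeasureTheory Metric Set Filter

variable {n : ℕ} {σ : Par n → E → E} {y₀ : E} {δ : ℝ} {R₀ : E →L[ℝ] Par n}

/-- A linear functional as a map on scalars. -/
noncomputable def coordMap (b : Fin 4) : ℝ →L[ℝ] (E →L[ℝ] ℝ) :=
  ContinuousLinearMap.toSpanSingleton ℝ
    (ContinuousLinearMap.proj (R := ℝ) (φ := fun _ : Fin 4 => ℝ) b)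

theorem norm_coordMap_le (b : Fin 4) : ‖coordMap b‖ ≤ 1 := by
  rw [coordMap, ContinuousLinearMap.norm_toSpanSingleton]
  refine ContinuousLinearMap.opNorm_le_bound _ zero_le_one fun x => ?_
  rw [one_mul]
  exact norm_le_pi_norm (x : Fin 4 → ℝ) b

/-- The operators composing the differential. -/
noncomputable def derTerm (σ : Par n → E → E) (R₀ : E →L[ℝ] Par n) (ρ : Par n → ℝ)
    (q : Par n → E → ℝ) (ε : ℝ) (u : E → ℝ) : Fin 4 × Option (Fin n) → E → ℝ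
  | (b, none) => kerOp σ ρ (qPoint σ R₀ q b) ε u
  | (b, some a) => kerOp σ (dRho a ρ) (qSide σ R₀ q a b) ε u

/-- The linear maps composing the differential. -/
noncomputable def derMap (n : ℕ) (ε : ℝ) : Fin 4 × Option (Fin n) → (ℝ →L[ℝ] (E →L[ℝ] ℝ))
  | (b, none) => coordMap b
  | (b, some _) => (-ε⁻¹) • coordMap b

theorem kerDiff_eq_sum {ρ : Par n → ℝ} {q : Par n → E → ℝ} {ε : ℝ} {u : E → ℝ} :
    kerDiff σ R₀ ρ q ε u = fun y => ∑ i, derMap n ε i (derTerm σ R₀ ρ q ε u i y) := by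
  funext y
  refine ContinuousLinearMap.ext fun w => ?_
  simp only [kerDiff, kerDer, Fintype.sum_prod_type, Fintype.sum_option, derMap, derTerm, coordMap,
    sum_apply, smul_apply, add_apply, ContinuousLinearMap.toSpanSingleton_apply, smul_eq_mul,
    ContinuousLinearMap.proj_apply]
  refine Finset.sum_congr rfl fun b _ => ?_
  rw [sub_mul, Finset.mul_sum, Finset.sum_mul, sub_eq_add_neg, ← Finset.sum_neg_distrib]
  congr 1
  exact Finset.sum_congr rfl fun a _ => by ring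

theorem Box.derTerm_ker (hB : Box σ y₀ δ R₀) {ρ : Par n → ℝ} {q : Par n → E → ℝ}
    (hk : BoxKer σ y₀ δ ρ q) (i : Fin 4 × Option (Fin n)) :
    ∃ ρ' q', BoxKer σ y₀ δ ρ' q' ∧
      ∀ ε u, derTerm σ R₀ ρ q ε u i = kerOp σ ρ' q' ε u := by
  match i with
  | (b, none) => exact ⟨_, _, hk.point hB b, fun ε u => rfl⟩
  | (b, some a) => exact ⟨_, _, hk.side hB a b, fun ε u => rfl⟩

/-- Smoothness of the operator to every finite order. -/
theorem Box.contDiffOn_kerOp_nat (hB : Box σ y₀ δ R₀) (l : ℕ) :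
    ∀ (ρ : Par n → ℝ) (q : Par n → E → ℝ), BoxKer σ y₀ δ ρ q →
      ∀ ε ∈ Ioc (0 : ℝ) (boxRad δ R₀), ∀ u : E → ℝ, Measurable u → MemLp u 2 volume →
        ContDiffOn ℝ l (kerOp σ ρ q ε u) (ball y₀ (2 * δ)) := by
  induction l with
  | zero =>
    intro ρ q hk ε hε u hum hu
    rw [Nat.cast_zero, contDiffOn_zero]
    exact fun y hy => (hB.hasFDerivAt_kerOp hk hε hum hu hy).continuousAt.continuousWithinAt
  | succ l ih =>
    intro ρ q hk ε hε u hum hu
    rw [Nat.cast_add, Nat.cast_one, contDiffOn_succ_iff_fderiv_of_isOpen isOpen_ball]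
    refine ⟨fun y hy => (hB.hasFDerivAt_kerOp hk hε hum hu hy).differentiableAt.differentiableWithinAt,
      fun h => absurd h (by simp), ?_⟩
    refine ContDiffOn.congr ?_ fun y hy => (hB.hasFDerivAt_kerOp hk hε hum hu hy).fderiv
    rw [kerDiff_eq_sum]
    refine ContDiffOn.sum fun i _ => ?_
    obtain ⟨ρ', q', hk', he⟩ := hB.derTerm_ker hk i
    rw [he]
    exact (derMap n ε i).contDiff.comp_contDiffOn (ih ρ' q' hk' ε hε u hum hu)

/-- Smoothness of the operator. -/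
theorem Box.contDiffOn_kerOp (hB : Box σ y₀ δ R₀) {ρ : Par n → ℝ} {q : Par n → E → ℝ}
    (hk : BoxKer σ y₀ δ ρ q) {ε : ℝ} (hε : ε ∈ Ioc (0 : ℝ) (boxRad δ R₀)) {u : E → ℝ}
    (hum : Measurable u) (hu : MemLp u 2 volume) :
    ContDiffOn ℝ ∞ (kerOp σ ρ q ε u) (ball y₀ (2 * δ)) :=
  contDiffOn_infty.2 fun l => hB.contDiffOn_kerOp_nat l ρ q hk ε hε u hum hu

theorem Box.contDiffAt_kerOp (hB : Box σ y₀ δ R₀) {ρ : Par n → ℝ} {q : Par n → E → ℝ}
    (hk : BoxKer σ y₀ δ ρ q) {ε : ℝ} (hε : ε ∈ Ioc (0 : ℝ) (boxRad δ R₀)) {u : E → ℝ}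
    (hum : Measurable u) (hu : MemLp u 2 volume) {y : E} (hy : y ∈ closedBall y₀ δ) :
    ContDiffAt ℝ ∞ (kerOp σ ρ q ε u) y :=
  (hB.contDiffOn_kerOp hk hε hum hu).contDiffAt
    (isOpen_ball.mem_nhds (closedBall_subset_ball (by linarith [hB.pos]) hy))

/-- The square of a derivative is integrable on the inner ball. -/
theorem Box.integrableOn_deriv_sq (hB : Box σ y₀ δ R₀) {ρ : Par n → ℝ} {q : Par n → E → ℝ}
    (hk : BoxKer σ y₀ δ ρ q) {ε : ℝ} (hε : ε ∈ Ioc (0 : ℝ) (boxRad δ R₀)) {u : E → ℝ}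
    (hum : Measurable u) (hu : MemLp u 2 volume) (l : ℕ) :
    IntegrableOn (fun y => ‖iteratedFDeriv ℝ l (kerOp σ ρ q ε u) y‖ ^ 2) (closedBall y₀ δ) :=
  ContinuousOn.integrableOn_compact (isCompact_closedBall _ _) fun _ hy =>
    (((hB.contDiffAt_kerOp hk hε hum hu hy).continuousAt_iteratedFDeriv
      (WithTop.coe_le_coe.2 le_top)).norm.pow 2).continuousWithinAt

/-- From the bound on the middle ball to the square integral on the inner ball. -/
theorem Box.base_le (hB : Box σ y₀ δ R₀) {ρ : Par n → ℝ} {q : Par n → E → ℝ}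
    (hk : BoxKer σ y₀ δ ρ q) {ε : ℝ} (hε : ε ∈ Ioc (0 : ℝ) (boxRad δ R₀)) {u : E → ℝ}
    (hum : Measurable u) (hu : MemLp u 2 volume) {C : ℝ} (hC : 0 ≤ C)
    (h : ∫⁻ y in closedBall y₀ (2 * δ), ENNReal.ofReal (kerOp σ ρ q ε u y ^ 2) ≤
      ENNReal.ofReal (C * ∫ x, u x ^ 2)) :
    ε ^ (2 * 0) * ∫ y in closedBall y₀ δ, ‖iteratedFDeriv ℝ 0 (kerOp σ ρ q ε u) y‖ ^ 2 ≤
      C * ∫ x, u x ^ 2 := by
  have hi := hB.integrableOn_deriv_sq hk hε hum hu 0
  simp only [norm_iteratedFDeriv_zero, Real.norm_eq_abs, sq_abs, mul_zero, pow_zero,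
    one_mul] at hi ⊢
  rw [← ENNReal.ofReal_le_ofReal_iff (mul_nonneg hC (integral_nonneg fun x => sq_nonneg _)),
    ofReal_integral_eq_lintegral_ofReal hi (Eventually.of_forall fun _ => sq_nonneg _)]
  exact (lintegral_mono_set (closedBall_subset_closedBall (by linarith [hB.pos]))).trans h

/-- The square integral of a derivative of order `l + 1` in terms of order `l`. -/
theorem Box.deriv_step (hB : Box σ y₀ δ R₀) {ρ : Par n → ℝ} {q : Par n → E → ℝ}
    (hk : BoxKer σ y₀ δ ρ q) {ε : ℝ} (hε : ε ∈ Ioc (0 : ℝ) (boxRad δ R₀)) {u : E → ℝ}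
    (hum : Measurable u) (hu : MemLp u 2 volume) (l : ℕ) {DP : Fin 4 → ℝ}
    {DS : Fin 4 → Fin n → ℝ}
    (hP : ∀ b, ε ^ (2 * l) * ∫ y in closedBall y₀ δ,
      ‖iteratedFDeriv ℝ l (kerOp σ ρ (qPoint σ R₀ q b) ε u) y‖ ^ 2 ≤ DP b)
    (hS : ∀ b a, ε ^ (2 * l) * ∫ y in closedBall y₀ δ,
      ‖iteratedFDeriv ℝ l (kerOp σ (dRho a ρ) (qSide σ R₀ q a b) ε u) y‖ ^ 2 ≤ DS b a) :
    ε ^ (2 * (l + 1)) * ∫ y in closedBall y₀ δ,
      ‖iteratedFDeriv ℝ (l + 1) (kerOp σ ρ q ε u) y‖ ^ 2 ≤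
      (4 * (n + 1) : ℝ) * ∑ b, (ε ^ 2 * DP b + ∑ a, DS b a) := by
  set N : ℝ := (4 * (n + 1) : ℝ) with hN
  set T := derTerm σ R₀ ρ q ε u with hT
  set L := derMap n ε with hL
  have hTint : ∀ i, IntegrableOn (fun y => ‖iteratedFDeriv ℝ l (T i) y‖ ^ 2)
      (closedBall y₀ δ) := fun i => by
    obtain ⟨ρ', q', hk', he⟩ := hB.derTerm_ker hk i
    rw [hT, he]
    exact hB.integrableOn_deriv_sq hk' hε hum hu l
  have hpt : ∀ y ∈ closedBall y₀ δ, ‖iteratedFDeriv ℝ (l + 1) (kerOp σ ρ q ε u) y‖ ^ 2 ≤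
      N * ∑ i, ‖L i‖ ^ 2 * ‖iteratedFDeriv ℝ l (T i) y‖ ^ 2 := fun y hy => by
    have hy2 : y ∈ ball y₀ (2 * δ) := closedBall_subset_ball (by linarith [hB.pos]) hy
    have heq : fderiv ℝ (kerOp σ ρ q ε u) =ᶠ[𝓝 y] fun x => ∑ i, L i (T i x) := by
      filter_upwards [isOpen_ball.mem_nhds hy2] with x hx
      rw [(hB.hasFDerivAt_kerOp hk hε hum hu hx).fderiv, kerDiff_eq_sum]
    have hTc : ∀ i, ContDiffAt ℝ l (T i) y := fun i => by
      obtain ⟨ρ', q', hk', he⟩ := hB.derTerm_ker hk i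
      rw [hT, he]
      exact (hB.contDiffAt_kerOp hk' hε hum hu hy).of_le (WithTop.coe_le_coe.2 le_top)
    have hle : ‖iteratedFDeriv ℝ (l + 1) (kerOp σ ρ q ε u) y‖ ≤
        ∑ i, ‖L i‖ * ‖iteratedFDeriv ℝ l (T i) y‖ := by
      rw [← norm_iteratedFDeriv_fderiv, (heq.iteratedFDeriv ℝ l).eq_of_nhds,
        iteratedFDeriv_fun_sum_apply (f := fun i x => L i (T i x))
          fun i _ => (L i).contDiff.contDiffAt.comp y (hTc i)]
      exact (norm_sum_le _ _).trans (Finset.sum_le_sum fun i _ =>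
        (L i).norm_iteratedFDeriv_comp_left (hTc i) le_rfl)
    refine (pow_le_pow_left₀ (norm_nonneg _) hle 2).trans
      (sq_sum_le_card_mul_sum_sq.trans (le_of_eq ?_))
    simp [hN, mul_pow]
  have hint : ∫ y in closedBall y₀ δ, ‖iteratedFDeriv ℝ (l + 1) (kerOp σ ρ q ε u) y‖ ^ 2 ≤
      N * ∑ i, ‖L i‖ ^ 2 * ∫ y in closedBall y₀ δ, ‖iteratedFDeriv ℝ l (T i) y‖ ^ 2 := by
    simp_rw [← integral_const_mul, ← integral_finsetSum _ fun i _ => (hTint i).const_mul _,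
      ← integral_const_mul]
    exact setIntegral_mono_on (hB.integrableOn_deriv_sq hk hε hum hu (l + 1))
      ((integrable_finsetSum _ fun i _ => (hTint i).const_mul _).const_mul _)
      measurableSet_closedBall hpt
  have hN0 : 0 ≤ N := by positivity
  have he2 : ε ^ (2 * (l + 1)) = ε ^ 2 * ε ^ (2 * l) := by rw [← pow_add]; ring_nf
  refine (mul_le_mul_of_nonneg_left hint (pow_nonneg hε.1.le _)).trans ?_
  rw [mul_left_comm, Finset.mul_sum, Fintype.sum_prod_type]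
  refine mul_le_mul_of_nonneg_left (Finset.sum_le_sum fun b _ => ?_) hN0
  rw [Fintype.sum_option, he2]
  have hI : ∀ i, 0 ≤ ε ^ (2 * l) * ∫ y in closedBall y₀ δ, ‖iteratedFDeriv ℝ l (T i) y‖ ^ 2 :=
    fun i => mul_nonneg (pow_nonneg hε.1.le _) (integral_nonneg fun y => sq_nonneg _)
  have hb1 : ‖coordMap b‖ ^ 2 ≤ 1 := pow_le_one₀ (ContinuousLinearMap.opNorm_nonneg _) (norm_coordMap_le b)
  refine add_le_add ?_ (Finset.sum_le_sum fun a _ => ?_)
  · rw [mul_assoc, mul_left_comm (ε ^ (2 * l))]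
    refine mul_le_mul_of_nonneg_left ((mul_le_mul_of_nonneg_right hb1 (hI (b, none))).trans ?_)
      (sq_nonneg ε)
    rw [one_mul]
    exact hP b
  · rw [mul_assoc, mul_left_comm (ε ^ (2 * l)), ← mul_assoc]
    refine ((mul_le_mul_of_nonneg_right ?_ (hI (b, some a))).trans (le_of_eq (one_mul _))).trans
      (hS b a)
    have hb : ‖L (b, some a)‖ ≤ ε⁻¹ := by
      refine (ContinuousLinearMap.opNorm_smul_le (-ε⁻¹) (coordMap b)).trans ?_
      rw [norm_neg, norm_inv, Real.norm_eq_abs, abs_of_pos hε.1]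
      exact mul_le_of_le_one_right (inv_nonneg.2 hε.1.le) (norm_coordMap_le b)
    refine (mul_le_mul_of_nonneg_left (pow_le_pow_left₀
      (ContinuousLinearMap.opNorm_nonneg _) hb 2) (sq_nonneg ε)).trans (le_of_eq ?_)
    rw [← mul_pow, mul_inv_cancel₀ hε.1.ne', one_pow]

/-- The estimates in a box. -/
theorem Box.sobolev (hB : Box σ y₀ δ R₀) (l : ℕ) :
    ∀ (ρ : Par n → ℝ) (q : Par n → E → ℝ), BoxKer σ y₀ δ ρ q →
      ∃ C : ℝ, 0 ≤ C ∧ ∀ ε ∈ Ioc (0 : ℝ) (boxRad δ R₀), ε ≤ 1 →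
        ∀ u : E → ℝ, Measurable u → MemLp u 2 volume →
          ε ^ (2 * l) * ∫ y in closedBall y₀ δ, ‖iteratedFDeriv ℝ l (kerOp σ ρ q ε u) y‖ ^ 2 ≤
            C * ∫ x, u x ^ 2 := by
  induction l with
  | zero =>
    intro ρ q hk
    obtain ⟨C, hC0, hC⟩ := hB.kerOp_sq hk
    refine ⟨C, hC0, fun ε hε _ u hum hu => ?_⟩
    exact hB.base_le hk hε hum hu hC0 (hC ε hε u hum hu)
  | succ l ih =>
    intro ρ q hk
    choose CP hP0 hP using fun b => ih _ _ (hk.point hB b)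
    choose CS hS0 hS using fun b a => ih _ _ (hk.side hB a b)
    refine ⟨(4 * (n + 1) : ℝ) * ∑ b, (CP b + ∑ a, CS b a), ?_, fun ε hε hε1 u hum hu => ?_⟩
    · exact mul_nonneg (by positivity) (Finset.sum_nonneg fun b _ =>
        add_nonneg (hP0 b) (Finset.sum_nonneg fun a _ => hS0 b a))
    refine (hB.deriv_step hk hε hum hu l (fun b => hP b ε hε hε1 u hum hu)
      (fun b a => hS b a ε hε hε1 u hum hu)).trans ?_
    rw [mul_assoc (4 * ((n : ℝ) + 1)) (∑ b, _), Finset.sum_mul]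
    refine mul_le_mul_of_nonneg_left (Finset.sum_le_sum fun b _ => ?_) (by positivity)
    rw [add_mul, Finset.sum_mul]
    refine add_le_add ?_ le_rfl
    exact mul_le_of_le_one_left (mul_nonneg (hP0 b) (integral_nonneg fun x => sq_nonneg _))
      (pow_le_one₀ hε.1.le hε1)

/-- The estimates in a box for a coefficient vanishing on the base. -/
theorem Box.sobolev_gain (hB : Box σ y₀ δ R₀) (l : ℕ) :
    ∀ (ρ : Par n → ℝ) (q : Par n → E → ℝ), BoxKer σ y₀ δ ρ q →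
      (∀ y ∈ ball y₀ (4 * δ), q 0 y = 0) →
      ∃ C : ℝ, 0 ≤ C ∧ ∀ ε ∈ Ioc (0 : ℝ) (boxRad δ R₀), ε ≤ 1 →
        ∀ u : E → ℝ, Measurable u → MemLp u 2 volume →
          ε ^ (2 * l) * ∫ y in closedBall y₀ δ, ‖iteratedFDeriv ℝ l (kerOp σ ρ q ε u) y‖ ^ 2 ≤
            C * ε ^ 2 * ∫ x, u x ^ 2 := by
  induction l with
  | zero =>
    intro ρ q hk h0
    obtain ⟨M, -, hM⟩ := exists_ker_gain hB hk h0
    refine ⟨2 * M ^ 2 * volume.real (closedBall (0 : Par n) 1) ^ 2, by positivity,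
      fun ε hε _ u hum hu => ?_⟩
    refine hB.base_le hk hε hum hu (by positivity) ((hB.kerOp_sq_of hk hε (hM ε hε) hum hu).trans
      (le_of_eq (congrArg ENNReal.ofReal ?_)))
    ring
  | succ l ih =>
    intro ρ q hk h0
    choose CP hP0 hP using fun b => hB.sobolev l _ _ (hk.point hB b)
    choose CS hS0 hS using fun b a => ih _ _ (hk.side hB a b) fun y hy => by
      simp [qSide, h0 y hy]
    refine ⟨(4 * (n + 1) : ℝ) * ∑ b, (CP b + ∑ a, CS b a), ?_, fun ε hε hε1 u hum hu => ?_⟩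
    · exact mul_nonneg (by positivity) (Finset.sum_nonneg fun b _ =>
        add_nonneg (hP0 b) (Finset.sum_nonneg fun a _ => hS0 b a))
    refine (hB.deriv_step hk hε hum hu l (fun b => hP b ε hε hε1 u hum hu)
      (fun b a => hS b a ε hε hε1 u hum hu)).trans (le_of_eq ?_)
    rw [mul_assoc _ (ε ^ 2), mul_assoc (4 * ((n : ℝ) + 1)) (∑ b, _), Finset.sum_mul]
    congr 1
    refine Finset.sum_congr rfl fun b _ => ?_
    rw [add_mul, Finset.sum_mul]
    congr 1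
    · ring
    · exact Finset.sum_congr rfl fun a _ => by ring

end Vale.Agent.P204.Tame
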