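import Vale.Agent.P204.Tame.SmootherStep

/-!
Differentiation of averaged pullbacks of square integrable functions.
-/

namespace Vale.Agent.P204.Tame

open scoped ContDiff ENNReal Topology
open MeasureTheory Metric Set Filter

variable {n : ℕ} {σ : Par n → E → E} {y₀ : E} {δ : ℝ} {R₀ : E →L[ℝ] Par n}

/-- Smooth functions are dense among square integrable functions. -/
theorem exists_smooth_seq {u : E → ℝ} (hu : MemLp u 2 volume) :
    ∃ g : ℕ → E → ℝ, (∀ m, ContDiff ℝ ∞ (g m) ∧ MemLp (g m) 2 volume) ∧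
      Tendsto (fun m => Real.sqrt (∫ x, (g m x - u x) ^ 2)) atTop (𝓝 0) := by
  have h : ∀ m : ℕ, ∃ g : E → ℝ, ContDiff ℝ ∞ g ∧ MemLp g 2 volume ∧
      Real.sqrt (∫ x, (g x - u x) ^ 2) ≤ 1 / (m + 1) := fun m => by
    have hη : (0 : ℝ) < 1 / (m + 1) := by positivity
    obtain ⟨g, hgc, hgs, hgn⟩ := hu.exist_eLpNorm_sub_le (by simp) (by norm_num) hη
    have hg : MemLp g 2 volume := hgs.continuous.memLp_of_hasCompactSupport hgc
    refine ⟨g, hgs, hg, ?_⟩
    rw [eLpNorm_sub_comm, (hg.sub hu).eLpNorm_eq_integral_rpow_norm two_ne_zero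
      ENNReal.ofNat_ne_top, ENNReal.ofReal_le_ofReal_iff hη.le] at hgn
    rw [Real.sqrt_eq_rpow]
    convert hgn using 2
    · congr 1; funext x; simp
    · norm_num
  choose g h1 h2 h3 using h
  exact ⟨g, fun m => ⟨h1 m, h2 m⟩, squeeze_zero (fun _ => Real.sqrt_nonneg _) h3
    tendsto_one_div_add_atTop_nhds_zero_nat⟩

/-- The difference of the differentials is controlled by the square integral. -/
theorem Box.kerDiff_sub_le (hB : Box σ y₀ δ R₀) {ρ : Par n → ℝ} {q : Par n → E → ℝ}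
    (hk : BoxKer σ y₀ δ ρ q) {ε : ℝ} (hε : ε ∈ Ioc (0 : ℝ) (boxRad δ R₀)) :
    ∃ C : ℝ, ∀ y ∈ closedBall y₀ (2 * δ), ∀ u g : E → ℝ, Measurable u → MemLp u 2 volume →
      Measurable g → MemLp g 2 volume →
      ‖kerDiff σ R₀ ρ q ε u y - kerDiff σ R₀ ρ q ε g y‖ ≤
        C * Real.sqrt (∫ x, (u x - g x) ^ 2) := by
  choose CP hCP0 hCP using fun b => hB.kerOp_sup (hk.point hB b) hε
  choose CS hCS0 hCS using fun b a => hB.kerOp_sup (hk.side hB a b) hε
  refine ⟨∑ b, (CP b + |ε⁻¹| * ∑ a, CS b a) * ‖ContinuousLinearMap.proj (R := ℝ)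
    (φ := fun _ : Fin 4 => ℝ) b‖, fun y hy u g hum hu hgm hg => ?_⟩
  rw [kerDiff, kerDiff, ← Finset.sum_sub_distrib, Finset.sum_mul]
  refine (norm_sum_le _ _).trans (Finset.sum_le_sum fun b _ => ?_)
  refine le_of_eq_of_le (congrArg norm (sub_smul _ _ _).symm) ?_
  refine le_of_eq_of_le (norm_smul _ _) ?_
  rw [Real.norm_eq_abs, mul_right_comm]
  refine mul_le_mul_of_nonneg_right ?_ (norm_nonneg _)
  have hp := hCP b y hy _ (hum.sub hgm) (hu.sub hg)
  have hs := fun a => hCS b a y hy _ (hum.sub hgm) (hu.sub hg)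
  simp only [Pi.sub_def] at hp hs
  rw [hB.kerOp_sub (hk.point hB b) hε hy hum hu hgm hg] at hp
  simp only [hB.kerOp_sub (hk.side hB _ b) hε hy hum hu hgm hg] at hs
  rw [kerDer, kerDer, sub_sub_sub_comm, ← mul_sub, ← Finset.sum_sub_distrib, add_mul,
    mul_assoc, Finset.sum_mul]
  refine (abs_sub _ _).trans (add_le_add hp ?_)
  rw [abs_mul]
  exact mul_le_mul_of_nonneg_left
    ((Finset.abs_sum_le_sum_abs _ _).trans (Finset.sum_le_sum fun a _ => hs a)) (abs_nonneg _)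

/-- Differentiation of the operator applied to a square integrable function. -/
theorem Box.hasFDerivAt_kerOp (hB : Box σ y₀ δ R₀) {ρ : Par n → ℝ} {q : Par n → E → ℝ}
    (hk : BoxKer σ y₀ δ ρ q) {ε : ℝ} (hε : ε ∈ Ioc (0 : ℝ) (boxRad δ R₀)) {u : E → ℝ}
    (hum : Measurable u) (hu : MemLp u 2 volume) {y : E} (hy : y ∈ ball y₀ (2 * δ)) :
    HasFDerivAt (kerOp σ ρ q ε u) (kerDiff σ R₀ ρ q ε u y) y := by
  obtain ⟨g, hg, hlim⟩ := exists_smooth_seq hu
  have hgm : ∀ m, Measurable (g m) := fun m => (hg m).1.continuous.measurable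
  obtain ⟨C, hC⟩ := hB.kerDiff_sub_le hk hε
  obtain ⟨C', -, hC'⟩ := hB.kerOp_sup hk hε
  refine hasFDerivAt_of_tendstoUniformlyOn (l := atTop)
    (f := fun m => kerOp σ ρ q ε (g m)) (f' := fun m => kerDiff σ R₀ ρ q ε (g m))
    isOpen_ball ?_ (fun m x hx => hB.hasFDerivAt_kerOp_smooth hk hε (hg m).1 hx) (fun x hx => ?_) hy
  · rw [Metric.tendstoUniformlyOn_iff]
    intro η hη
    have hl : Tendsto (fun m => C * Real.sqrt (∫ x, (g m x - u x) ^ 2)) atTop (𝓝 0) := by
      simpa using hlim.const_mul C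
    filter_upwards [hl.eventually_lt_const hη] with m hm x hx
    rw [dist_comm, dist_eq_norm]
    exact (hC x (ball_subset_closedBall hx) (g m) u (hgm m) (hg m).2 hum hu).trans_lt hm
  · have hl : Tendsto (fun m => C' * Real.sqrt (∫ x, (g m x - u x) ^ 2)) atTop (𝓝 0) := by
      simpa using hlim.const_mul C'
    rw [tendsto_iff_norm_sub_tendsto_zero]
    refine squeeze_zero (fun _ => norm_nonneg _) (fun m => ?_) hl
    have hxc := ball_subset_closedBall hx
    have h := hC' x hxc _ ((hgm m).sub hum) ((hg m).2.sub hu)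
    simp only [Pi.sub_def] at h
    rw [hB.kerOp_sub hk hε hxc (hgm m) (hg m).2 hum hu] at h
    rwa [Real.norm_eq_abs]

end Vale.Agent.P204.Tame
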