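import Vale.Agent.P204.Tame.SmootherBound

/-!
The derivative of an averaged pullback of a differentiable function, moved onto the kernel.
-/

namespace Vale.Agent.P204.Tame

open scoped ContDiff ENNReal Topology
open MeasureTheory Metric Set Filter

variable {n : ℕ} {σ : Par n → E → E} {y₀ : E} {δ : ℝ} {R₀ : E →L[ℝ] Par n}

/-- The open box. -/
def openBox (n : ℕ) (y₀ : E) (δ : ℝ) : Set (Par n × E) :=
  ball (0 : Par n) (4 * δ) ×ˢ ball y₀ (4 * δ)

theorem isOpen_openBox : IsOpen (openBox n y₀ δ) := isOpen_ball.prod isOpen_ball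

/-- The parameter velocity compensating a motion of the point. -/
noncomputable def boxSol (σ : Par n → E → E) (R₀ : E →L[ℝ] Par n) (z : Par n × E) :
    E →L[ℝ] Par n :=
  R₀.comp ((Ring.inverse ((dV σ z).comp R₀)).comp (dY σ z))

theorem Box.dV_boxSol (hB : Box σ y₀ δ R₀) {z : Par n × E} (hz : z ∈ openBox n y₀ δ) :
    (dV σ z).comp (boxSol σ R₀ z) = dY σ z := by
  have h := Ring.mul_inverse_cancel _ (isUnit_of_near (hB.near_v z hz))
  rw [ContinuousLinearMap.mul_def] at h
  rw [boxSol, ← ContinuousLinearMap.comp_assoc, ← ContinuousLinearMap.comp_assoc, h,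
    ContinuousLinearMap.one_def, ContinuousLinearMap.id_comp]

theorem Box.contDiffOn_boxSol (hB : Box σ y₀ δ R₀) :
    ContDiffOn ℝ ∞ (boxSol σ R₀) (openBox n y₀ δ) := by
  have hF : ContDiffOn ℝ ∞ (fderiv ℝ fun w : Par n × E => σ w.1 w.2) (openBox n y₀ δ) :=
    hB.smooth.fderiv_of_isOpen isOpen_openBox (by simp)
  have hA : ContDiffOn ℝ ∞ (fun z => (dV σ z).comp R₀) (openBox n y₀ δ) :=
    (hF.clm_comp contDiffOn_const).clm_comp contDiffOn_const
  have hI : ContDiffOn ℝ ∞ (fun z => Ring.inverse ((dV σ z).comp R₀)) (openBox n y₀ δ) :=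
    fun z hz => by
      obtain ⟨u, hu⟩ := isUnit_of_near (hB.near_v z hz)
      have h : ContDiffAt ℝ ∞ Ring.inverse ((dV σ z).comp R₀) :=
        hu ▸ contDiffAt_ringInverse ℝ u
      exact h.comp_contDiffWithinAt z (hA z hz)
  exact contDiffOn_const.clm_comp (hI.clm_comp (hF.clm_comp contDiffOn_const))

/-- The matrix of the compensating velocity. -/
noncomputable def solC (σ : Par n → E → E) (R₀ : E →L[ℝ] Par n) (a : Fin n) (b : Fin 4)
    (z : Par n × E) : ℝ := boxSol σ R₀ z (e b) a

theorem Box.contDiffOn_solC (hB : Box σ y₀ δ R₀) (a : Fin n) (b : Fin 4) :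
    ContDiffOn ℝ ∞ (solC σ R₀ a b) (openBox n y₀ δ) :=
  (contDiff_apply ℝ ℝ a).comp_contDiffOn (hB.contDiffOn_boxSol.clm_apply contDiffOn_const)

/-- The kernel for the derivative in the direction `e b`, without a parameter derivative. -/
noncomputable def qPoint (σ : Par n → E → E) (R₀ : E →L[ℝ] Par n) (q : Par n → E → ℝ) (b : Fin 4)
    (v : Par n) (y : E) : ℝ :=
  fderiv ℝ (fun z : Par n × E => q z.1 z.2) (v, y) (0, e b) -
    ∑ a, fderiv ℝ (fun z : Par n × E => q z.1 z.2 * solC σ R₀ a b z) (v, y) (Pi.single a 1, 0)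

/-- The kernel against a derivative of the profile. -/
noncomputable def qSide (σ : Par n → E → E) (R₀ : E →L[ℝ] Par n) (q : Par n → E → ℝ) (a : Fin n)
    (b : Fin 4) (v : Par n) (y : E) : ℝ := q v y * solC σ R₀ a b (v, y)

/-- A derivative of the profile. -/
noncomputable def dRho (a : Fin n) (ρ : Par n → ℝ) (v : Par n) : ℝ :=
  fderiv ℝ ρ v (Pi.single a 1)

/-- The derivative of the operator in the direction `e b`. -/
noncomputable def kerDer (σ : Par n → E → E) (R₀ : E →L[ℝ] Par n) (ρ : Par n → ℝ)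
    (q : Par n → E → ℝ) (ε : ℝ) (u : E → ℝ) (b : Fin 4) (y : E) : ℝ :=
  kerOp σ ρ (qPoint σ R₀ q b) ε u y -
    ε⁻¹ * ∑ a, kerOp σ (dRho a ρ) (qSide σ R₀ q a b) ε u y

/-- The differential assembled from the directional derivatives. -/
noncomputable def kerDiff (σ : Par n → E → E) (R₀ : E →L[ℝ] Par n) (ρ : Par n → ℝ)
    (q : Par n → E → ℝ) (ε : ℝ) (u : E → ℝ) (y : E) : E →L[ℝ] ℝ :=
  ∑ b, kerDer σ R₀ ρ q ε u b y • ContinuousLinearMap.proj (R := ℝ) b

theorem BoxKer.point (hB : Box σ y₀ δ R₀) {ρ : Par n → ℝ} {q : Par n → E → ℝ}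
    (hk : BoxKer σ y₀ δ ρ q) (b : Fin 4) : BoxKer σ y₀ δ ρ (qPoint σ R₀ q b) := by
  refine ⟨hk.smooth_rho, hk.supp_rho, ?_⟩
  have h1 : ContDiffOn ℝ ∞ (fun z => fderiv ℝ (fun z : Par n × E => q z.1 z.2) z (0, e b))
      (openBox n y₀ δ) :=
    (hk.smooth_q.fderiv_of_isOpen isOpen_openBox (by simp)).clm_apply contDiffOn_const
  have h2 : ∀ a, ContDiffOn ℝ ∞ (fun z => fderiv ℝ
      (fun z : Par n × E => q z.1 z.2 * solC σ R₀ a b z) z (Pi.single a 1, 0)) (openBox n y₀ δ) :=
    fun a => ((hk.smooth_q.mul (hB.contDiffOn_solC a b)).fderiv_of_isOpen isOpen_openBox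
      (by simp)).clm_apply contDiffOn_const
  exact h1.sub (ContDiffOn.sum fun a _ => h2 a)

theorem BoxKer.side (hB : Box σ y₀ δ R₀) {ρ : Par n → ℝ} {q : Par n → E → ℝ}
    (hk : BoxKer σ y₀ δ ρ q) (a : Fin n) (b : Fin 4) :
    BoxKer σ y₀ δ (dRho a ρ) (qSide σ R₀ q a b) := by
  refine ⟨(hk.smooth_rho.fderiv_right (by simp)).clm_apply contDiff_const, ?_, ?_⟩
  · exact (tsupport_fderiv_apply_subset ℝ _).trans hk.supp_rho
  · exact hk.smooth_q.mul (hB.contDiffOn_solC a b)

theorem slice_mem {y : E} (hy : y ∈ closedBall y₀ (2 * δ)) (hδ : 0 < δ) {v : Par n}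
    (hv : v ∈ ball (0 : Par n) (4 * δ)) : ((v, y) : Par n × E) ∈ openBox n y₀ δ :=
  mk_mem_prod hv (closedBall_subset_ball (by linarith) hy)

theorem scaled_ker_eventually_zero {ρ : Par n → ℝ} (hρ : tsupport ρ ⊆ closedBall 0 1) {ε : ℝ}
    (hε : 0 < ε) {v : Par n} (hv : v ∉ closedBall (0 : Par n) ε) (f : Par n → ℝ) :
    (fun w => ρ (ε⁻¹ • w) * f w) =ᶠ[𝓝 v] fun _ => 0 := by
  filter_upwards [isClosed_closedBall.isOpen_compl.mem_nhds hv] with w hw
  rw [rho_scaled_eq_zero hρ hε hw, zero_mul]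

/-- A scaled profile times a function on the ball is a compactly supported global function. -/
theorem glue_contDiff {N : WithTop ℕ∞} {ρ : Par n → ℝ} (hρ : ContDiff ℝ N ρ)
    (hs : tsupport ρ ⊆ closedBall 0 1) {ε r : ℝ} (hε : 0 < ε) (hr : ε < r) {f : Par n → ℝ}
    (hf : ContDiffOn ℝ N f (ball 0 r)) :
    ContDiff ℝ N (fun v => ρ (ε⁻¹ • v) * f v) ∧
      HasCompactSupport (fun v => ρ (ε⁻¹ • v) * f v) := by
  refine ⟨contDiff_iff_contDiffAt.2 fun v => ?_, ?_⟩
  · by_cases hv : v ∈ closedBall (0 : Par n) ε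
    · exact (hρ.comp (contDiff_id.const_smul ε⁻¹)).contDiffAt.mul
        (hf.contDiffAt (isOpen_ball.mem_nhds (closedBall_subset_ball hr hv)))
    · exact contDiffAt_const.congr_of_eventuallyEq (scaled_ker_eventually_zero hs hε hv f)
  · refine HasCompactSupport.intro (isCompact_closedBall (0 : Par n) ε) fun v hv => ?_
    rw [rho_scaled_eq_zero hs hε hv, zero_mul]

/-- The integral of a derivative of a compactly supported function vanishes. -/
theorem integral_fderiv_apply_eq_zero {f : Par n → ℝ} (hf : ContDiff ℝ 1 f)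
    (hs : HasCompactSupport f) (a : Par n) : ∫ v, fderiv ℝ f v a = 0 := by
  have h := integral_mul_fderiv_eq_neg_fderiv_mul_of_integrable (μ := volume) (f := f)
    (g := fun _ => (1 : ℝ)) (v := a)
    (by simpa using ((hf.continuous_fderiv (by simp)).clm_apply
      continuous_const).integrable_of_hasCompactSupport (hs.fderiv_apply ℝ a))
    (by simp) (by simpa using hf.continuous.integrable_of_hasCompactSupport hs)
    (fun x _ => hf.differentiable (by simp) x) (fun x _ => differentiableAt_const _)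
  simpa using h.symm

/-- Differentiation of the operator applied to a smooth function. -/
theorem Box.hasFDerivAt_kerOp_smooth (hB : Box σ y₀ δ R₀) {ρ : Par n → ℝ}
    {q : Par n → E → ℝ} (hk : BoxKer σ y₀ δ ρ q) {ε : ℝ} (hε : ε ∈ Ioc (0 : ℝ) (boxRad δ R₀))
    {g : E → ℝ} (hg : ContDiff ℝ ∞ g) {y : E} (hy : y ∈ ball y₀ (2 * δ)) :
    HasFDerivAt (kerOp σ ρ q ε g) (kerDiff σ R₀ ρ q ε g y) y := by
  have hδ := hB.pos
  have hεδ : ε < 4 * δ := by linarith [hε.2, hB.boxRad_le]
  set Q := fun z : Par n × E => q z.1 z.2 with hQ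
  set H := fun z : Par n × E => q z.1 z.2 * g (σ z.1 z.2) with hH
  have hQs : ContDiffOn ℝ ∞ Q (openBox n y₀ δ) := hk.smooth_q
  have hgS : ContDiffOn ℝ ∞ (fun z : Par n × E => g (σ z.1 z.2)) (openBox n y₀ δ) :=
    hg.comp_contDiffOn hB.smooth
  have hHs : ContDiffOn ℝ ∞ H (openBox n y₀ δ) := hQs.mul hgS
  have hslice : ∀ (f : Par n × E → ℝ), ContDiffOn ℝ ∞ f (openBox n y₀ δ) → ∀ x ∈ closedBall y₀ (2 * δ),
      ContDiffOn ℝ ∞ (fun v => f (v, x)) (ball 0 (4 * δ)) := fun f hf x hx =>
    hf.comp (contDiff_id.prodMk contDiff_const).contDiffOn fun v hv => slice_mem hx hδ hv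
  -- differentiation under the integral sign
  set F := fun (x : E) (v : Par n) => ρ (ε⁻¹ • v) * q v x * g (σ v x) with hF
  set F' := fun (x : E) (v : Par n) =>
    ρ (ε⁻¹ • v) • (fderiv ℝ H (v, x)).comp (ContinuousLinearMap.inr ℝ (Par n) E) with hF'
  have hFeq : ∀ x, F x = fun v => ρ (ε⁻¹ • v) * H (v, x) := fun x => by
    funext v; simp [hF, hH, mul_assoc]
  have hFc : ∀ x ∈ closedBall y₀ (2 * δ), Continuous (F x) ∧ HasCompactSupport (F x) := fun x hx => by
    rw [hFeq x]
    have h := glue_contDiff hk.smooth_rho hk.supp_rho hε.1 hεδ (hslice H hHs x hx)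
    exact ⟨h.1.continuous, h.2⟩
  obtain ⟨A, hA⟩ := (HasCompactSupport.of_support_subset_isCompact
    (isCompact_closedBall (0 : Par n) 1) ((subset_tsupport ρ).trans hk.supp_rho)).exists_bound_of_continuous
      hk.smooth_rho.continuous
  obtain ⟨B, hBd⟩ := ((isCompact_closedBall (0 : Par n) (3 * δ)).prod
    (isCompact_closedBall y₀ (3 * δ))).exists_bound_of_continuousOn
    ((hHs.continuousOn_fderiv_of_isOpen isOpen_openBox (by simp)).mono hB.closed_subset)
  have hyc : y ∈ closedBall y₀ (2 * δ) := ball_subset_closedBall hy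
  have hF'b : ∀ x ∈ ball y₀ (2 * δ), ∀ v, ‖F' x v‖ ≤
      (closedBall (0 : Par n) ε).indicator
        (fun _ => max A 0 * (max B 0 * ‖ContinuousLinearMap.inr ℝ (Par n) E‖)) v := fun x hx v => by
    by_cases hv : v ∈ closedBall (0 : Par n) ε
    · rw [indicator_of_mem hv, hF', norm_smul]
      refine mul_le_mul ((hA _).trans (le_max_left _ _))
        ((ContinuousLinearMap.opNorm_comp_le _ _).trans (mul_le_mul_of_nonneg_right
          ((hBd (v, x) (mk_mem_prod (mem_ker_ball hB hε.2 hv)
            (closedBall_subset_closedBall (by linarith) (ball_subset_closedBall hx)))).trans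
            (le_max_left _ _)) (norm_nonneg _))) (norm_nonneg _) (le_max_right _ _)
    · rw [indicator_of_notMem hv, hF']
      simp [rho_scaled_eq_zero hk.supp_rho hε.1 hv]
  have hF'c : ∀ x ∈ closedBall y₀ (2 * δ), Continuous (F' x) := fun x hx => by
    refine continuous_iff_continuousAt.2 fun v => ?_
    by_cases hv : v ∈ closedBall (0 : Par n) ε
    · refine ((hk.smooth_rho.continuous.comp (continuous_const_smul ε⁻¹)).continuousAt).smul ?_
      refine ContinuousAt.clm_comp ?_ continuousAt_const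
      exact ContinuousAt.comp (f := fun w : Par n => (w, x))
        ((hHs.continuousOn_fderiv_of_isOpen isOpen_openBox (by simp)).continuousAt
          (isOpen_openBox.mem_nhds (slice_mem hx hδ (closedBall_subset_ball hεδ hv))))
        (continuous_id.prodMk continuous_const).continuousAt
    · refine continuousAt_const.congr (f := fun _ => (0 : E →L[ℝ] ℝ)) ?_
      filter_upwards [isClosed_closedBall.isOpen_compl.mem_nhds hv] with w hw
      simp [hF', rho_scaled_eq_zero hk.supp_rho hε.1 hw]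
  have hd : HasFDerivAt (fun x => ∫ v, F x v) (∫ v, F' y v) y := by
    refine hasFDerivAt_integral_of_dominated_of_fderiv_le (isOpen_ball.mem_nhds hy) ?_ ?_ ?_
      (Eventually.of_forall fun v x hx => hF'b x hx v) ?_
      (Eventually.of_forall fun v x hx => ?_)
    · filter_upwards [isOpen_ball.mem_nhds hy] with x hx using
        (hFc x (ball_subset_closedBall hx)).1.aestronglyMeasurable
    · exact (hFc y hyc).1.integrable_of_hasCompactSupport (hFc y hyc).2
    · exact (hF'c y hyc).aestronglyMeasurable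
    · exact (integrable_indicator_iff measurableSet_closedBall).2
        (integrableOn_const measure_closedBall_lt_top.ne)
    · by_cases hv : v ∈ closedBall (0 : Par n) ε
      · have hz := slice_mem (ball_subset_closedBall hx) hδ (closedBall_subset_ball hεδ hv)
        have h1 : HasFDerivAt (fun x : E => H (v, x))
            ((fderiv ℝ H (v, x)).comp (ContinuousLinearMap.inr ℝ (Par n) E)) x :=
          (HasFDerivAt.comp (f := fun x : E => (v, x)) (g := H) x
            ((hHs.differentiableOn (by simp)).differentiableAt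
              (isOpen_openBox.mem_nhds hz)).hasFDerivAt
            ((hasFDerivAt_const v x).prodMk (hasFDerivAt_id x))).congr_fderiv
            (by ext1 w; simp)
        exact (h1.const_mul (ρ (ε⁻¹ • v))).congr_of_eventuallyEq
          (Eventually.of_forall fun x => by simp [hF, hH, mul_assoc])
      · have h0 : ρ (ε⁻¹ • v) = 0 := rho_scaled_eq_zero hk.supp_rho hε.1 hv
        simp only [hF', h0, zero_smul, hF, zero_mul]
        exact hasFDerivAt_const 0 x
  -- the directional components
  have hF'i : Integrable (F' y) := by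
    refine (hF'c y hyc).integrable_of_hasCompactSupport
      (HasCompactSupport.intro (isCompact_closedBall (0 : Par n) ε) fun v hv => ?_)
    simp [hF', rho_scaled_eq_zero hk.supp_rho hε.1 hv]
  have hcomp : ∀ b, (ε ^ n)⁻¹ * (∫ v, F' y v) (e b) = kerDer σ R₀ ρ q ε g b y := fun b => by
    set Φ := fun (a : Fin n) (v : Par n) =>
      ρ (ε⁻¹ • v) * (qSide σ R₀ q a b v y * g (σ v y)) with hΦ
    have hside : ∀ a, ContDiffOn ℝ ∞ (fun z : Par n × E => qSide σ R₀ q a b z.1 z.2)
        (openBox n y₀ δ) := fun a => (hk.side hB a b).smooth_q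
    have hΦs : ∀ a, ContDiff ℝ ∞ (Φ a) ∧ HasCompactSupport (Φ a) := fun a =>
      glue_contDiff hk.smooth_rho hk.supp_rho hε.1 hεδ (hslice _ ((hside a).mul hgS) y hyc)
    have hG1 := glue_contDiff hk.smooth_rho hk.supp_rho hε.1 hεδ
      (hslice _ ((hk.point hB b).smooth_q.mul hgS) y hyc)
    have hG2 : ∀ a, ContDiff ℝ ∞ (fun v => dRho a ρ (ε⁻¹ • v) * (qSide σ R₀ q a b v y * g (σ v y)))
        ∧ HasCompactSupport
          (fun v => dRho a ρ (ε⁻¹ • v) * (qSide σ R₀ q a b v y * g (σ v y))) := fun a =>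
      glue_contDiff (hk.side hB a b).smooth_rho (hk.side hB a b).supp_rho hε.1 hεδ
        (hslice _ ((hside a).mul hgS) y hyc)
    have hpt : ∀ v, F' y v (e b) =
        ρ (ε⁻¹ • v) * (qPoint σ R₀ q b v y * g (σ v y)) -
          ε⁻¹ * ∑ a, dRho a ρ (ε⁻¹ • v) * (qSide σ R₀ q a b v y * g (σ v y)) +
          ∑ a, fderiv ℝ (Φ a) v (Pi.single a 1) := fun v => by
      by_cases hv : v ∈ closedBall (0 : Par n) ε
      · have hz := slice_mem hyc hδ (closedBall_subset_ball hεδ hv)
        have hSd := hB.differentiableAt hz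
        have hgd : HasFDerivAt (fun z : Par n × E => g (σ z.1 z.2))
            ((fderiv ℝ g (σ v y)).comp (fderiv ℝ (fun w : Par n × E => σ w.1 w.2) (v, y))) (v, y) :=
          HasFDerivAt.comp (f := fun w : Par n × E => σ w.1 w.2) (g := g) (v, y)
            (hg.differentiable (by simp) _).hasFDerivAt hSd.hasFDerivAt
        have hQd : HasFDerivAt Q (fderiv ℝ Q (v, y)) (v, y) :=
          ((hQs.differentiableOn (by simp)).differentiableAt
            (isOpen_openBox.mem_nhds hz)).hasFDerivAt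
        have hHd : fderiv ℝ H (v, y) = q v y • (fderiv ℝ g (σ v y)).comp
            (fderiv ℝ (fun w : Par n × E => σ w.1 w.2) (v, y)) + g (σ v y) • fderiv ℝ Q (v, y) :=
          (hQd.fun_mul hgd).fderiv
        have hΦd : ∀ a, fderiv ℝ (Φ a) v (Pi.single a 1) =
            ε⁻¹ * dRho a ρ (ε⁻¹ • v) * (qSide σ R₀ q a b v y * g (σ v y)) +
            ρ (ε⁻¹ • v) * (fderiv ℝ (fun z : Par n × E => q z.1 z.2 * solC σ R₀ a b z) (v, y)
              (Pi.single a 1, 0) * g (σ v y) +
              qSide σ R₀ q a b v y * fderiv ℝ g (σ v y) (dV σ (v, y) (Pi.single a 1))) := fun a => by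
          have hsd : HasFDerivAt (fun w : Par n => qSide σ R₀ q a b w y)
              ((fderiv ℝ (fun z : Par n × E => q z.1 z.2 * solC σ R₀ a b z) (v, y)).comp
                (ContinuousLinearMap.inl ℝ (Par n) E)) v :=
            (HasFDerivAt.comp (f := fun w : Par n => (w, y))
              (g := fun z : Par n × E => q z.1 z.2 * solC σ R₀ a b z) v
              (((hside a).differentiableOn (by simp)).differentiableAt
                (isOpen_openBox.mem_nhds hz)).hasFDerivAt
              ((hasFDerivAt_id v).prodMk (hasFDerivAt_const y v))).congr_fderiv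
              (by ext1 w; simp [qSide])
          have hgv : HasFDerivAt (fun w : Par n => g (σ w y))
              ((fderiv ℝ g (σ v y)).comp (dV σ (v, y))) v :=
            HasFDerivAt.comp (f := fun w : Par n => σ w y) (g := g) v
              (hg.differentiable (by simp) _).hasFDerivAt (hB.hasFDerivAt_v hz)
          have hρd : HasFDerivAt (fun w : Par n => ρ (ε⁻¹ • w))
              ((fderiv ℝ ρ (ε⁻¹ • v)).comp (ε⁻¹ • ContinuousLinearMap.id ℝ (Par n))) v :=
            HasFDerivAt.comp (f := fun w : Par n => ε⁻¹ • w) (g := ρ) v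
              (hk.smooth_rho.differentiable (by simp) _).hasFDerivAt
              ((hasFDerivAt_id v).const_smul ε⁻¹)
          rw [hΦ, (hρd.fun_mul (hsd.fun_mul hgv)).fderiv]
          simp [dRho]
          ring
        have hsol : dY σ (v, y) (e b) = ∑ a, solC σ R₀ a b (v, y) • dV σ (v, y) (Pi.single a 1) := by
          rw [← hB.dV_boxSol hz, ContinuousLinearMap.comp_apply]
          conv_lhs => rw [pi_eq_sum_univ' (boxSol σ R₀ (v, y) (e b))]
          simp [solC]
        have hgsol : fderiv ℝ g (σ v y) (dY σ (v, y) (e b)) =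
            ∑ a, solC σ R₀ a b (v, y) * fderiv ℝ g (σ v y) (dV σ (v, y) (Pi.single a 1)) := by
          rw [hsol]; simp
        have hyb : fderiv ℝ g (σ v y) (fderiv ℝ (fun w : Par n × E => σ w.1 w.2) (v, y) (0, e b)) =
            fderiv ℝ g (σ v y) (dY σ (v, y) (e b)) := by simp [dY]
        simp only [hF', hHd, smul_apply, ContinuousLinearMap.comp_apply,
          ContinuousLinearMap.inr_apply, add_apply, smul_eq_mul, hΦd, hyb, hgsol]
        simp only [qPoint, hQ, qSide, Finset.sum_add_distrib, Finset.mul_sum, Finset.sum_mul,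
          sub_mul, mul_sub, mul_add]
        have hre : ∀ a, ρ (ε⁻¹ • v) * (q v y * (solC σ R₀ a b (v, y) *
            fderiv ℝ g (σ v y) (dV σ (v, y) (Pi.single a 1)))) =
            ρ (ε⁻¹ • v) * (q v y * solC σ R₀ a b (v, y) *
              fderiv ℝ g (σ v y) (dV σ (v, y) (Pi.single a 1))) := fun a => by ring
        simp only [hre]
        ring_nf
      · have hz : ∀ a, fderiv ℝ (Φ a) v = 0 := fun a => by
          rw [hΦ, (scaled_ker_eventually_zero hk.supp_rho hε.1 hv _).fderiv_eq]
          exact fderiv_const_apply _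
        simp [hF', hz, rho_scaled_eq_zero hk.supp_rho hε.1 hv,
          rho_scaled_eq_zero (hk.side hB _ b).supp_rho hε.1 hv]
    have hi1 : Integrable fun v => ρ (ε⁻¹ • v) * (qPoint σ R₀ q b v y * g (σ v y)) :=
      hG1.1.continuous.integrable_of_hasCompactSupport hG1.2
    have hi2 : ∀ a, Integrable
        fun v => dRho a ρ (ε⁻¹ • v) * (qSide σ R₀ q a b v y * g (σ v y)) := fun a =>
      (hG2 a).1.continuous.integrable_of_hasCompactSupport (hG2 a).2
    have hi3 : ∀ a : Fin n, Integrable fun v => fderiv ℝ (Φ a) v (Pi.single a 1) := fun a =>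
      (((hΦs a).1.continuous_fderiv (by simp)).clm_apply
        continuous_const).integrable_of_hasCompactSupport ((hΦs a).2.fderiv_apply ℝ _)
    have hs2 : Integrable fun v => ∑ a, dRho a ρ (ε⁻¹ • v) * (qSide σ R₀ q a b v y * g (σ v y)) :=
      integrable_finsetSum _ fun a _ => hi2 a
    have hs3 : Integrable fun v => ∑ a, fderiv ℝ (Φ a) v (Pi.single a 1) :=
      integrable_finsetSum _ fun a _ => hi3 a
    rw [ContinuousLinearMap.integral_apply hF'i]
    simp only [hpt]
    have e1 : ∫ v, (ρ (ε⁻¹ • v) * (qPoint σ R₀ q b v y * g (σ v y)) -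
        ε⁻¹ * ∑ a, dRho a ρ (ε⁻¹ • v) * (qSide σ R₀ q a b v y * g (σ v y)) +
        ∑ a, fderiv ℝ (Φ a) v (Pi.single a 1)) =
        (∫ v, ρ (ε⁻¹ • v) * (qPoint σ R₀ q b v y * g (σ v y))) -
          ε⁻¹ * ∑ a, ∫ v, dRho a ρ (ε⁻¹ • v) * (qSide σ R₀ q a b v y * g (σ v y)) := by
      rw [integral_add (f := fun v => ρ (ε⁻¹ • v) * (qPoint σ R₀ q b v y * g (σ v y)) -
        ε⁻¹ * ∑ a, dRho a ρ (ε⁻¹ • v) * (qSide σ R₀ q a b v y * g (σ v y)))
        (hi1.sub (hs2.const_mul _)) hs3, integral_sub hi1 (hs2.const_mul _), integral_const_mul,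
        integral_finsetSum _ (fun a _ => hi2 a), integral_finsetSum _ (fun a _ => hi3 a),
        Finset.sum_eq_zero fun a _ => integral_fderiv_apply_eq_zero ((hΦs a).1.of_le (by simp))
          (hΦs a).2 _, add_zero]
    rw [e1, kerDer]
    simp only [kerOp, mul_sub, Finset.mul_sum, mul_assoc]
    congr 1
    exact Finset.sum_congr rfl fun a _ => by ring
  refine (hd.const_mul ((ε ^ n)⁻¹)).congr_fderiv (ContinuousLinearMap.ext fun w => ?_)
  conv_lhs => rw [pi_eq_sum_univ' w]
  simp only [map_sum, map_smul, smul_apply, smul_eq_mul, kerDiff, sum_apply,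
    ContinuousLinearMap.proj_apply]
  refine Finset.sum_congr rfl fun b _ => ?_
  rw [← hcomp b]
  simp only [e]
  ring

end Vale.Agent.P204.Tame
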